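import Mathlib
import Vale.Agent.P367.GT.Stein

set_option linter.all false

section

open MeasureTheory ProbabilityTheory Filter Topology
open scoped RealInnerProductSpace

namespace Vale.Agent.P157.Par

/-- A random Gibbs measure `w` on a finite configuration space `X` whose points carry unit feature
vectors `φ`. The disorder is `Ω`; the test functions may depend on the disorder only through the
map `π : Ω → T` (the rest of the disorder is the one of the perturbation). -/
structure Sys where
  Ω : Type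
  mΩ : MeasurableSpace Ω
  P : Measure Ω
  hP : IsProbabilityMeasure P
  T : Type
  mT : MeasurableSpace T
  π : Ω → T
  hπ : Measurable π
  X : Type
  fX : Fintype X
  w : Ω → X → ℝ
  hw : ∀ x, Measurable fun ω => w ω x
  w0 : ∀ ω x, 0 ≤ w ω x
  w1 : ∀ ω, ∑ x, w ω x = 1
  d : ℕ
  φ : X → EuclideanSpace ℝ (Fin d)
  hφ : ∀ x, ‖φ x‖ = 1

attribute [instance] Sys.mΩ Sys.hP Sys.mT Sys.fX

/-- The overlap. -/
noncomputable def Sys.R (S : Sys) (x y : S.X) : ℝ := ⟪S.φ x, S.φ y⟫

/-- Average over the disorder of the average over `n` replicas. -/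
noncomputable def Sys.av (S : Sys) {n : ℕ} (F : S.Ω → (Fin n → S.X) → ℝ) : ℝ :=
  ∫ ω, ∑ x : Fin n → S.X, (∏ i, S.w ω (x i)) * F ω x ∂S.P

/-- The average of a test function, which depends on the disorder only through `π`. -/
noncomputable def Sys.tav (S : Sys) {n : ℕ} (F : S.T → (Fin n → S.X) → ℝ) : ℝ :=
  S.av fun ω => F (S.π ω)

/-- Test functions of `n` replicas, bounded by one. -/
structure Sys.Test (S : Sys) {n : ℕ} (F : S.T → (Fin n → S.X) → ℝ) : Prop where
  meas : ∀ x, Measurable fun t => F t x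
  bdd : ∀ t x, |F t x| ≤ 1

/-- The defect in the Ghirlanda-Guerra identity for the function `ψ` of the overlap, the replica
`i` and the test function `F`. -/
noncomputable def Sys.ggDefect (S : Sys) (ψ : ℝ → ℝ) {n : ℕ} (i : Fin n)
    (F : S.T → (Fin n → S.X) → ℝ) : ℝ :=
  n * S.tav (fun t (x : Fin (n + 1) → S.X) =>
      F t (fun j => x j.castSucc) * ψ (S.R (x i.castSucc) (x (Fin.last n)))) -
    (S.tav F * S.tav (fun _ (x : Fin 2 → S.X) => ψ (S.R (x 0) (x 1))) +
      ∑ j ∈ Finset.univ.erase i, S.tav (fun t x => F t x * ψ (S.R (x i) (x j))))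

/-- The Ghirlanda-Guerra identities hold asymptotically for the function `ψ`, along the
ultrafilter `U`, uniformly over the test functions. -/
def AsympGG (U : Ultrafilter ℕ) (S : ℕ → Sys) (ψ : ℝ → ℝ) : Prop :=
  ∀ (n : ℕ) (i : Fin n), ∀ ε > 0, ∀ᶠ N in (U : Filter ℕ),
    ∀ F : (S N).T → (Fin n → (S N).X) → ℝ, (S N).Test F → |(S N).ggDefect ψ i F| ≤ ε

end Vale.Agent.P157.Par
end

section

/-! Gibbs weights on a finite set, replica sums, Gaussian integration by parts. -/

open MeasureTheory ProbabilityTheory Filter Topology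
open scoped RealInnerProductSpace

namespace Vale.Agent.P157.Par

section Gibbs

variable {X : Type*} [Fintype X]

/-- Gibbs weights with energy `E`. -/
noncomputable def gwt (E : X → ℝ) (x : X) : ℝ := Real.exp (E x) / ∑ y, Real.exp (E y)

set_option linter.unusedSectionVars false

/-- Gibbs average. -/
noncomputable def gmean (E ψ : X → ℝ) : ℝ := ∑ x, gwt E x * ψ x

lemma gpart_pos [Nonempty X] (E : X → ℝ) : 0 < ∑ y, Real.exp (E y) :=
  Finset.sum_pos (fun _ _ => Real.exp_pos _) Finset.univ_nonempty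

lemma gwt_nonneg (E : X → ℝ) (x : X) : 0 ≤ gwt E x :=
  div_nonneg (Real.exp_pos _).le (Finset.sum_nonneg fun _ _ => (Real.exp_pos _).le)

lemma sum_gwt [Nonempty X] (E : X → ℝ) : ∑ x, gwt E x = 1 := by
  unfold gwt
  rw [← Finset.sum_div, div_self (gpart_pos E).ne']

lemma gwt_le_one [Nonempty X] (E : X → ℝ) (x : X) : gwt E x ≤ 1 := by
  rw [← sum_gwt E]
  exact Finset.single_le_sum (fun y _ => gwt_nonneg E y) (Finset.mem_univ x)

lemma abs_gmean_le [Nonempty X] (E ψ : X → ℝ) {C : ℝ} (h : ∀ x, |ψ x| ≤ C) :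
    |gmean E ψ| ≤ C := by
  unfold gmean
  calc |∑ x, gwt E x * ψ x| ≤ ∑ x, |gwt E x * ψ x| := Finset.abs_sum_le_sum_abs _ _
    _ ≤ ∑ x, gwt E x * C := by
        refine Finset.sum_le_sum fun x _ => ?_
        rw [abs_mul, abs_of_nonneg (gwt_nonneg E x)]
        exact mul_le_mul_of_nonneg_left (h x) (gwt_nonneg E x)
    _ = C := by rw [← Finset.sum_mul, sum_gwt, one_mul]

lemma hasDerivAt_gexp (E a : X → ℝ) (t : ℝ) (x : X) :
    HasDerivAt (fun t => Real.exp (E x + t * a x)) (Real.exp (E x + t * a x) * a x) t := by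
  have h : HasDerivAt (fun t : ℝ => E x + t * a x) (a x) t := by
    simpa only [hasDerivAt_const_add_iff, id_eq, one_mul] using     ((hasDerivAt_id t).mul_const (a x)).const_add (E x)
  exact h.exp

lemma hasDerivAt_gpart (E a : X → ℝ) (t : ℝ) :
    HasDerivAt (fun t => ∑ y, Real.exp (E y + t * a y))
      (∑ y, Real.exp (E y + t * a y) * a y) t :=
  HasDerivAt.fun_sum fun y _ => hasDerivAt_gexp E a t y

lemma gmean_eq (E ψ : X → ℝ) :
    gmean E ψ = (∑ x, Real.exp (E x) * ψ x) / ∑ y, Real.exp (E y) := by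
  unfold gmean gwt
  rw [Finset.sum_div]
  exact Finset.sum_congr rfl fun x _ => by ring

lemma hasDerivAt_gwt [Nonempty X] (E a : X → ℝ) (t : ℝ) (x : X) :
    HasDerivAt (fun t => gwt (fun y => E y + t * a y) x)
      (gwt (fun y => E y + t * a y) x * (a x - gmean (fun y => E y + t * a y) a)) t := by
  have h := (hasDerivAt_gexp E a t x).div (hasDerivAt_gpart E a t)
    (gpart_pos (fun y => E y + t * a y)).ne'
  have hZ := (gpart_pos (fun y => E y + t * a y)).ne'
  refine (h.congr_deriv ?_)
  rw [gmean_eq]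
  unfold gwt
  field_simp

lemma hasDerivAt_glog [Nonempty X] (E a : X → ℝ) (t : ℝ) :
    HasDerivAt (fun t => Real.log (∑ y, Real.exp (E y + t * a y)))
      (gmean (fun y => E y + t * a y) a) t := by
  have h := (hasDerivAt_gpart E a t).log (gpart_pos (fun y => E y + t * a y)).ne'
  rw [gmean_eq]
  exact h

lemma hasDerivAt_gmean [Nonempty X] (E a ψ : X → ℝ) (t : ℝ) :
    HasDerivAt (fun t => gmean (fun y => E y + t * a y) ψ)
      (gmean (fun y => E y + t * a y) (fun y => ψ y * a y) -
        gmean (fun y => E y + t * a y) ψ * gmean (fun y => E y + t * a y) a) t := by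
  have h : HasDerivAt (fun t => gmean (fun y => E y + t * a y) ψ)
      (∑ x, gwt (fun y => E y + t * a y) x * (a x - gmean (fun y => E y + t * a y) a) * ψ x) t :=
    HasDerivAt.fun_sum fun x _ => (hasDerivAt_gwt E a t x).mul_const (ψ x)
  refine h.congr_deriv ?_
  have h2 : gmean (fun y => E y + t * a y) ψ * gmean (fun y => E y + t * a y) a =
      ∑ x, gwt (fun y => E y + t * a y) x * ψ x * gmean (fun y => E y + t * a y) a := by
    rw [← Finset.sum_mul]; rfl
  rw [h2]
  unfold gmean
  rw [← Finset.sum_sub_distrib]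
  exact Finset.sum_congr rfl fun x _ => by ring

lemma hasDerivAt_gprod [Nonempty X] (E a : X → ℝ) (t : ℝ) {n : ℕ} (x : Fin n → X) :
    HasDerivAt (fun t => ∏ i, gwt (fun y => E y + t * a y) (x i))
      ((∏ i, gwt (fun y => E y + t * a y) (x i)) *
        ∑ i, (a (x i) - gmean (fun y => E y + t * a y) a)) t := by
  have h := HasDerivAt.fun_finsetProd (u := Finset.univ)
    (f := fun i (t : ℝ) => gwt (fun y => E y + t * a y) (x i))
    (f' := fun i => gwt (fun y => E y + t * a y) (x i) *
      (a (x i) - gmean (fun y => E y + t * a y) a)) (x := t)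
    (fun i _ => hasDerivAt_gwt E a t (x i))
  refine h.congr_deriv ?_
  rw [Finset.mul_sum]
  refine Finset.sum_congr rfl fun i hi => ?_
  rw [← Finset.mul_prod_erase _ _ (Finset.mem_univ i)]
  simp only [smul_eq_mul]
  ring

end Gibbs

section Replica

variable {X : Type*} [Fintype X]

lemma rep_one {w : X → ℝ} (hw : ∑ x, w x = 1) (n : ℕ) :
    ∑ x : Fin n → X, ∏ j, w (x j) = 1 := by
  classical
  rw [← Fintype.piFinset_univ, ← Finset.prod_univ_sum]
  simp only [hw, Finset.prod_const_one]

lemma rep_marg {w : X → ℝ} (hw : ∑ x, w x = 1) {n : ℕ} (i : Fin n) (G : X → ℝ) :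
    ∑ x : Fin n → X, (∏ j, w (x j)) * G (x i) = ∑ y, w y * G y := by
  classical
  have h1 : ∀ x : Fin n → X, (∏ j, w (x j)) * G (x i) =
      ∏ j, (fun (j : Fin n) (y : X) => w y * (if j = i then G y else 1)) j (x j) := by
    intro x
    rw [Finset.prod_mul_distrib]
    congr 1
    rw [Finset.prod_ite_eq' Finset.univ i (fun j => G (x j))]
    simp only [Finset.mem_univ, ↓reduceIte]
  have h3 := Finset.prod_univ_sum (fun _ : Fin n => (Finset.univ : Finset X))
    (fun (j : Fin n) (y : X) => w y * (if j = i then G y else 1))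
  rw [Fintype.piFinset_univ] at h3
  rw [Finset.sum_congr rfl fun x _ => h1 x, ← h3,
    ← Finset.mul_prod_erase _ _ (Finset.mem_univ i)]
  have h2 : ∏ j ∈ Finset.univ.erase i, ∑ y, w y * (if j = i then G y else 1) = 1 := by
    refine Finset.prod_eq_one fun j hj => ?_
    simp only [Finset.ne_of_mem_erase hj, ↓reduceIte, mul_one, hw]
  rw [h2]
  simp only [↓reduceIte, mul_one]

lemma rep_snoc (w : X → ℝ) {n : ℕ} (F : (Fin (n + 1) → X) → ℝ) :
    ∑ x : Fin (n + 1) → X, (∏ j, w (x j)) * F x =
      ∑ x : Fin n → X, (∏ j, w (x j)) * ∑ y, w y * F (Fin.snoc x y) := by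
  rw [← (Fin.snocEquiv (fun _ : Fin (n + 1) => X)).sum_comp, Fintype.sum_prod_type,
    Finset.sum_comm]
  refine Finset.sum_congr rfl fun x _ => ?_
  rw [Finset.mul_sum]
  refine Finset.sum_congr rfl fun y _ => ?_
  rw [Fin.prod_univ_castSucc]
  simp only [Fin.snocEquiv, Equiv.coe_fn_mk, Fin.snoc_castSucc, Fin.snoc_last]
  ring

end Replica

end Vale.Agent.P157.Par
end

section

/-! The perturbed system and Gaussian integration by parts for it. -/

open MeasureTheory ProbabilityTheory Filter Topology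
open scoped RealInnerProductSpace

namespace Vale.Agent.P157.Par

set_option linter.unusedSectionVars false

section Gen

variable {X : Type*} [Fintype X] {ι : Type*} [Fintype ι]

/-- The energy with Gaussian perturbation with coefficients `a`. -/
noncomputable def gen (H : X → ℝ) (a : ι → X → ℝ) (g : ι → ℝ) (x : X) : ℝ :=
  H x + ∑ e, g e * a e x

lemma gen_update [DecidableEq ι] (H : X → ℝ) (a : ι → X → ℝ) (g : ι → ℝ) (e : ι) (y : ℝ) :
    gen H a (Function.update g e y) =
      fun z => gen H a (Function.update g e 0) z + y * a e z := by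
  funext z
  unfold gen
  rw [← Finset.add_sum_erase Finset.univ (fun i => Function.update g e y i * a i z)
      (Finset.mem_univ e),
    ← Finset.add_sum_erase Finset.univ (fun i => Function.update g e 0 i * a i z)
      (Finset.mem_univ e)]
  have h : ∀ t : ℝ, ∑ i ∈ Finset.univ.erase e, Function.update g e t i * a i z =
      ∑ i ∈ Finset.univ.erase e, g i * a i z := fun t =>
    Finset.sum_congr rfl fun i hi => by
      rw [Function.update_of_ne (Finset.ne_of_mem_erase hi)]
  rw [h, h]
  simp only [Function.update_self]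
  ring

variable {Ω : Type*} [MeasurableSpace Ω]

lemma measurable_gen {H : Ω → X → ℝ} (hH : ∀ x, Measurable fun ω => H ω x) (a : ι → X → ℝ)
    (x : X) : Measurable fun z : Ω × (ι → ℝ) => gen (H z.1) a z.2 x := by
  unfold gen
  refine ((hH x).comp measurable_fst).add ?_
  refine Finset.measurable_sum _ fun e _ => ?_
  exact ((measurable_pi_apply e).comp measurable_snd).mul_const _

lemma measurable_gwt_gen {H : Ω → X → ℝ} (hH : ∀ x, Measurable fun ω => H ω x) (a : ι → X → ℝ)
    (x : X) : Measurable fun z : Ω × (ι → ℝ) => gwt (gen (H z.1) a z.2) x := by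
  unfold gwt
  exact ((measurable_gen hH a x).exp).div
    (Finset.measurable_sum _ fun y _ => (measurable_gen hH a y).exp)

lemma measurable_gmean_gen {H : Ω → X → ℝ} (hH : ∀ x, Measurable fun ω => H ω x)
    (a : ι → X → ℝ) (ψ : X → ℝ) :
    Measurable fun z : Ω × (ι → ℝ) => gmean (gen (H z.1) a z.2) ψ := by
  unfold gmean
  exact Finset.measurable_sum _ fun y _ => (measurable_gwt_gen hH a y).mul_const _

lemma prod_gwt_le [Nonempty X] {n : ℕ} (E : X → ℝ) (x : Fin n → X) :
    |∏ i, gwt E (x i)| ≤ 1 := by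
  rw [abs_of_nonneg (Finset.prod_nonneg fun i _ => gwt_nonneg E _)]
  exact Finset.prod_le_one (fun i _ => gwt_nonneg E _) fun i _ => gwt_le_one E _

lemma abs_sum_sub_le [Nonempty X] {n : ℕ} (E : X → ℝ) (x : Fin n → X) (ψ : X → ℝ) :
    |∑ i, (ψ (x i) - gmean E ψ)| ≤ n * (2 * ∑ y, |ψ y|) := by
  have hb : ∀ y, |ψ y| ≤ ∑ y, |ψ y| := fun y =>
    Finset.single_le_sum (f := fun y => |ψ y|) (fun _ _ => abs_nonneg _) (Finset.mem_univ y)
  calc |∑ i, (ψ (x i) - gmean E ψ)| ≤ ∑ i, |ψ (x i) - gmean E ψ| :=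
        Finset.abs_sum_le_sum_abs _ _
    _ ≤ ∑ _i : Fin n, (2 * ∑ y, |ψ y|) := by
        refine Finset.sum_le_sum fun i _ => ?_
        have h1 := hb (x i)
        have h2 := abs_gmean_le E ψ hb
        have h3 := abs_sub (ψ (x i)) (gmean E ψ)
        linarith
    _ = n * (2 * ∑ y, |ψ y|) := by simp only [Finset.sum_const, Finset.card_univ, Fintype.card_fin, nsmul_eq_mul]

variable [Nonempty X] [DecidableEq ι]

/-- Gaussian integration by parts for fixed base disorder. -/
lemma gibp_fixed (H : X → ℝ) (a : ι → X → ℝ) (e : ι) {n : ℕ} (x : Fin n → X) :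
    ∫ g, g e * ∏ i, gwt (gen H a g) (x i) ∂(P367.GT.gM ι) =
      ∫ g, (∏ i, gwt (gen H a g) (x i)) * ∑ i, (a e (x i) - gmean (gen H a g) (a e))
        ∂(P367.GT.gM ι) := by
  have hg : ∀ y, Measurable fun g : ι → ℝ => gen H a g y := fun y => by
    unfold gen
    exact measurable_const.add
      (Finset.measurable_sum _ fun e _ => (measurable_pi_apply e).mul_const _)
  have hm : ∀ y, Measurable fun g : ι → ℝ => gwt (gen H a g) y := fun y => by
    unfold gwt
    exact ((hg y).exp).div (Finset.measurable_sum _ fun y _ => (hg y).exp)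
  have hmm : Measurable fun g : ι → ℝ => gmean (gen H a g) (a e) := by
    unfold gmean
    exact Finset.measurable_sum _ fun y _ => (hm y).mul_const _
  refine P367.GT.stein_pi e (fun g => ∏ i, gwt (gen H a g) (x i))
    (fun g => (∏ i, gwt (gen H a g) (x i)) * ∑ i, (a e (x i) - gmean (gen H a g) (a e)))
    (1 + n * (2 * ∑ y, |a e y|)) ?_ ?_ ?_ ?_ ?_
  · exact Finset.measurable_prod _ fun i _ => hm (x i)
  · exact (Finset.measurable_prod _ fun i _ => hm (x i)).mul
      (Finset.measurable_sum _ fun i _ => measurable_const.sub hmm)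
  · intro J t
    have h := hasDerivAt_gprod (gen H a (Function.update J e 0)) (a e) t x
    have h' : (fun y => ∏ i, gwt (gen H a (Function.update J e y)) (x i)) =
        fun y => ∏ i, gwt (fun z => gen H a (Function.update J e 0) z + y * a e z) (x i) := by
      funext y
      rw [gen_update H a J e y]
    rw [gen_update H a J e t, h']
    exact h
  · intro J
    have h1 := prod_gwt_le (gen H a J) x
    have h2 : 0 ≤ (n : ℝ) * (2 * ∑ y, |a e y|) := by (clear * -; positivity)
    linarith
  · intro J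
    rw [abs_mul]
    have h1 := prod_gwt_le (gen H a J) x
    have h2 := abs_sum_sub_le (gen H a J) x (a e)
    have h3 : 0 ≤ (n : ℝ) * (2 * ∑ y, |a e y|) := by (clear * -; positivity)
    calc |∏ i, gwt (gen H a J) (x i)| * |∑ i, (a e (x i) - gmean (gen H a J) (a e))|
        ≤ 1 * (n * (2 * ∑ y, |a e y|)) := mul_le_mul h1 h2 (abs_nonneg _) zero_le_one
      _ ≤ _ := by linarith

lemma integrable_coord (P : Measure Ω) [IsProbabilityMeasure P] (e : ι) :
    Integrable (fun z : Ω × (ι → ℝ) => z.2 e) (P.prod (P367.GT.gM ι)) := by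
  have hJi : Integrable (fun J : ι → ℝ => J e) (P367.GT.gM ι) :=
    integrable_comp_eval (μ := fun _ : ι => gaussianReal 0 1) (i := e) (f := fun x => x)
      ((memLp_id_gaussianReal 1).integrable le_rfl)
  exact hJi.comp_snd P

lemma integrable_bdd {α : Type*} [MeasurableSpace α] (μ : Measure α) [IsFiniteMeasure μ]
    {f : α → ℝ} (hf : Measurable f) (C : ℝ) (hC : ∀ z, |f z| ≤ C) : Integrable f μ :=
  Integrable.of_bound hf.aestronglyMeasurable C
    (Filter.Eventually.of_forall fun z => by rw [Real.norm_eq_abs]; exact hC z)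

lemma integrable_mul_bdd {α : Type*} [MeasurableSpace α] {μ : Measure α}
    {f g : α → ℝ} (hg : Integrable g μ) (hf : Measurable f) (C : ℝ) (hC : ∀ z, |f z| ≤ C) :
    Integrable (fun z => g z * f z) μ := by
  have := hg.bdd_mul (c := C) (f := f) hf.aestronglyMeasurable
    (Filter.Eventually.of_forall fun J => by rw [Real.norm_eq_abs]; exact hC J)
  refine this.congr (Filter.Eventually.of_forall fun J => ?_)
  simp only [mul_comm]

/-- Gaussian integration by parts. -/
lemma gibp_prod (P : Measure Ω) [IsProbabilityMeasure P] {H : Ω → X → ℝ}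
    (hH : ∀ x, Measurable fun ω => H ω x) (a : ι → X → ℝ) (e : ι) {n : ℕ} (x : Fin n → X)
    {f : Ω → ℝ} (hf : Measurable f) {C : ℝ} (hC : ∀ ω, |f ω| ≤ C) :
    ∫ z, z.2 e * ((∏ i, gwt (gen (H z.1) a z.2) (x i)) * f z.1) ∂(P.prod (P367.GT.gM ι)) =
      ∫ z, ((∏ i, gwt (gen (H z.1) a z.2) (x i)) * f z.1) *
        ∑ i, (a e (x i) - gmean (gen (H z.1) a z.2) (a e)) ∂(P.prod (P367.GT.gM ι)) := by
  have hC0 : 0 ≤ C ∨ IsEmpty Ω := by
    by_cases h : Nonempty Ω
    · obtain ⟨ω⟩ := h
      exact Or.inl ((abs_nonneg _).trans (hC ω))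
    · exact Or.inr (not_nonempty_iff.1 h)
  have hW : Measurable fun z : Ω × (ι → ℝ) =>
      (∏ i, gwt (gen (H z.1) a z.2) (x i)) * f z.1 :=
    (Finset.measurable_prod _ fun i _ => measurable_gwt_gen hH a (x i)).mul
      (hf.comp measurable_fst)
  have hWb : ∀ z : Ω × (ι → ℝ), |(∏ i, gwt (gen (H z.1) a z.2) (x i)) * f z.1| ≤ C := by
    intro z
    rw [abs_mul]
    calc _ ≤ 1 * C := mul_le_mul (prod_gwt_le _ _) (hC _) (abs_nonneg _) zero_le_one
      _ = C := one_mul C
  have hi1 : Integrable (fun z : Ω × (ι → ℝ) =>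
      z.2 e * ((∏ i, gwt (gen (H z.1) a z.2) (x i)) * f z.1)) (P.prod (P367.GT.gM ι)) :=
    integrable_mul_bdd (integrable_coord P e) hW C hWb
  have hi2 : Integrable (fun z : Ω × (ι → ℝ) =>
      ((∏ i, gwt (gen (H z.1) a z.2) (x i)) * f z.1) *
        ∑ i, (a e (x i) - gmean (gen (H z.1) a z.2) (a e))) (P.prod (P367.GT.gM ι)) := by
    refine integrable_mul_bdd (integrable_bdd _ hW C hWb) ?_ (n * (2 * ∑ y, |a e y|))
      fun z => abs_sum_sub_le _ x (a e)
    exact Finset.measurable_sum _ fun i _ => measurable_const.sub (measurable_gmean_gen hH a _)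
  rw [integral_prod _ hi1, integral_prod _ hi2]
  refine integral_congr_ae (Filter.Eventually.of_forall fun ω => ?_)
  have h := gibp_fixed (H ω) a e x
  calc ∫ y, y e * ((∏ i, gwt (gen (H ω) a y) (x i)) * f ω) ∂(P367.GT.gM ι)
      = (∫ y, y e * (∏ i, gwt (gen (H ω) a y) (x i)) ∂(P367.GT.gM ι)) * f ω := by
        rw [← integral_mul_const]
        refine integral_congr_ae (Filter.Eventually.of_forall fun y => ?_)
        simp only
        ring
    _ = _ := by
        rw [h, ← integral_mul_const]
        refine integral_congr_ae (Filter.Eventually.of_forall fun y => ?_)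
        simp only
        ring

end Gen

end Vale.Agent.P157.Par
end

section

/-! Calculus of replica averages; the perturbed systems; the Ghirlanda-Guerra identity from
Gaussian integration by parts. -/

open MeasureTheory ProbabilityTheory Filter Topology
open scoped RealInnerProductSpace

namespace Vale.Agent.P157.Par

set_option linter.unusedSectionVars false

section Calculus

variable {Ω X : Type*} [MeasurableSpace Ω] [Fintype X]

/-- Random probability weights. -/
structure IsWt (w : Ω → X → ℝ) : Prop where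
  meas : ∀ x, Measurable fun ω => w ω x
  nn : ∀ ω x, 0 ≤ w ω x
  one : ∀ ω, ∑ x, w ω x = 1

/-- The replica average. -/
noncomputable def rav (μ : Measure Ω) (w : Ω → X → ℝ) {n : ℕ} (F : Ω → (Fin n → X) → ℝ) : ℝ :=
  ∫ ω, ∑ x : Fin n → X, (∏ i, w ω (x i)) * F ω x ∂μ

variable {μ : Measure Ω} [IsProbabilityMeasure μ] {w : Ω → X → ℝ} (hw : IsWt w) {n : ℕ}

include hw

lemma IsWt.le_one (ω : Ω) (x : X) : w ω x ≤ 1 := by
  rw [← hw.one ω]
  exact Finset.single_le_sum (fun y _ => hw.nn ω y) (Finset.mem_univ x)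

lemma IsWt.prod_nonneg (ω : Ω) (x : Fin n → X) : 0 ≤ ∏ i, w ω (x i) :=
  Finset.prod_nonneg fun _ _ => hw.nn ω _

lemma IsWt.prod_le_one (ω : Ω) (x : Fin n → X) : |∏ i, w ω (x i)| ≤ 1 := by
  rw [abs_of_nonneg (hw.prod_nonneg ω x)]
  exact Finset.prod_le_one (fun _ _ => hw.nn ω _) fun _ _ => hw.le_one ω _

lemma IsWt.prod_meas (x : Fin n → X) : Measurable fun ω => ∏ i, w ω (x i) :=
  Finset.measurable_prod _ fun i _ => hw.meas (x i)

lemma IsWt.int {F : Ω → (Fin n → X) → ℝ} (hF : ∀ x, Integrable (fun ω => F ω x) μ)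
    (x : Fin n → X) : Integrable (fun ω => (∏ i, w ω (x i)) * F ω x) μ := by
  have h := integrable_mul_bdd (hF x) (hw.prod_meas x) 1 (fun ω => hw.prod_le_one ω x)
  exact h.congr (Filter.Eventually.of_forall fun ω => mul_comm _ _)

lemma IsWt.int_sum {F : Ω → (Fin n → X) → ℝ} (hF : ∀ x, Integrable (fun ω => F ω x) μ) :
    Integrable (fun ω => ∑ x : Fin n → X, (∏ i, w ω (x i)) * F ω x) μ :=
  integrable_finsetSum _ fun x _ => hw.int hF x

lemma IsWt.rav_eq {F : Ω → (Fin n → X) → ℝ} (hF : ∀ x, Integrable (fun ω => F ω x) μ) :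
    rav μ w F = ∑ x : Fin n → X, ∫ ω, (∏ i, w ω (x i)) * F ω x ∂μ := by
  unfold rav
  exact integral_finsetSum _ fun x _ => hw.int hF x

lemma IsWt.rav_sub {F G : Ω → (Fin n → X) → ℝ} (hF : ∀ x, Integrable (fun ω => F ω x) μ)
    (hG : ∀ x, Integrable (fun ω => G ω x) μ) :
    rav μ w (fun ω x => F ω x - G ω x) = rav μ w F - rav μ w G := by
  unfold rav
  rw [← integral_sub (hw.int_sum hF) (hw.int_sum hG)]
  congr 1
  funext ω
  rw [← Finset.sum_sub_distrib]
  exact Finset.sum_congr rfl fun x _ => by ring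

omit hw [IsProbabilityMeasure μ] in
lemma rav_const_mul (c : ℝ) (F : Ω → (Fin n → X) → ℝ) :
    rav μ w (fun ω x => c * F ω x) = c * rav μ w F := by
  unfold rav
  rw [← integral_const_mul]
  congr 1
  funext ω
  rw [Finset.mul_sum]
  exact Finset.sum_congr rfl fun x _ => by ring

lemma IsWt.rav_sum {κ : Type*} (s : Finset κ) {F : κ → Ω → (Fin n → X) → ℝ}
    (hF : ∀ k ∈ s, ∀ x, Integrable (fun ω => F k ω x) μ) :
    rav μ w (fun ω x => ∑ k ∈ s, F k ω x) = ∑ k ∈ s, rav μ w (F k) := by
  unfold rav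
  rw [← integral_finsetSum _ fun k hk => hw.int_sum (hF k hk)]
  congr 1
  funext ω
  rw [Finset.sum_comm]
  exact Finset.sum_congr rfl fun x _ => by rw [Finset.mul_sum]

lemma IsWt.rav_mono {F G : Ω → (Fin n → X) → ℝ} (hF : ∀ x, Integrable (fun ω => F ω x) μ)
    (hG : ∀ x, Integrable (fun ω => G ω x) μ) (h : ∀ ω x, F ω x ≤ G ω x) :
    rav μ w F ≤ rav μ w G := by
  unfold rav
  refine integral_mono (hw.int_sum hF) (hw.int_sum hG) fun ω => ?_
  exact Finset.sum_le_sum fun x _ => mul_le_mul_of_nonneg_left (h ω x) (hw.prod_nonneg ω x)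

lemma IsWt.rav_abs_le {F : Ω → (Fin n → X) → ℝ} (hF : ∀ x, Integrable (fun ω => F ω x) μ) :
    |rav μ w F| ≤ rav μ w (fun ω x => |F ω x|) := by
  rw [abs_le]
  constructor
  · have h := hw.rav_mono (μ := μ) (F := fun ω x => (-1) * |F ω x|) (G := F)
      (fun x => ((hF x).abs).const_mul _) hF (fun ω x => by
        have := neg_abs_le (F ω x); linarith only [this])
    rw [rav_const_mul] at h
    linarith only [h]
  · exact hw.rav_mono hF (fun x => (hF x).abs) fun ω x => le_abs_self _

lemma IsWt.rav_const (c : ℝ) : rav μ w (n := n) (fun _ _ => c) = c := by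
  unfold rav
  have h : ∀ ω, ∑ x : Fin n → X, (∏ i, w ω (x i)) * c = c := fun ω => by
    rw [← Finset.sum_mul, rep_one (hw.one ω), one_mul]
  simp only [h, integral_const, probReal_univ, smul_eq_mul, one_mul]

lemma IsWt.rav_marg (i : Fin n) (G : Ω → X → ℝ) :
    rav μ w (n := n) (fun ω x => G ω (x i)) = ∫ ω, ∑ y, w ω y * G ω y ∂μ := by
  unfold rav
  congr 1
  funext ω
  exact rep_marg (hw.one ω) i (G ω)

omit hw [IsProbabilityMeasure μ] in
lemma rav_snoc (F : Ω → (Fin (n + 1) → X) → ℝ) :
    rav μ w F = rav μ w (n := n) (fun ω x => ∑ y, w ω y * F ω (Fin.snoc x y)) := by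
  unfold rav
  congr 1
  funext ω
  exact rep_snoc (w ω) (F ω)

omit hw [IsProbabilityMeasure μ] in
lemma rav_congr {F G : Ω → (Fin n → X) → ℝ} (h : ∀ ω x, F ω x = G ω x) :
    rav μ w F = rav μ w G := by
  have : F = G := by funext ω x; exact h ω x
  rw [this]

end Calculus

/-- A random Hamiltonian `H` on a finite set whose points carry unit feature vectors. -/
structure Base where
  Ω : Type
  mΩ : MeasurableSpace Ω
  P : Measure Ω
  hP : IsProbabilityMeasure P
  X : Type
  fX : Fintype X
  nX : Nonempty X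
  H : Ω → X → ℝ
  hH : ∀ x, Measurable fun ω => H ω x
  K : ℝ
  hK : ∀ ω x, |H ω x| ≤ K
  d : ℕ
  φ : X → EuclideanSpace ℝ (Fin d)
  hφ : ∀ x, ‖φ x‖ = 1

attribute [instance] Base.mΩ Base.hP Base.fX Base.nX

/-- The system obtained by adding the Gaussian term with coefficients `a`. -/
noncomputable def Base.gsys (B : Base) {ι : Type} [Fintype ι] (a : ι → B.X → ℝ) : Sys where
  Ω := B.Ω × (ι → ℝ)
  mΩ := inferInstance
  P := B.P.prod (P367.GT.gM ι)
  hP := inferInstance
  T := B.Ω
  mT := B.mΩ
  π := Prod.fst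
  hπ := measurable_fst
  X := B.X
  fX := B.fX
  w := fun z x => gwt (gen (B.H z.1) a z.2) x
  hw := fun x => measurable_gwt_gen B.hH a x
  w0 := fun _ _ => gwt_nonneg _ _
  w1 := fun _ => sum_gwt _
  d := B.d
  φ := B.φ
  hφ := B.hφ

/-- The index set of the Gaussian coordinates of the perturbation. -/
abbrev GI (P d : ℕ) : Type := Σ p : Fin P, (Fin ((p : ℕ) + 1) → Fin d)

/-- The Gaussian process with covariance `R^(p+1)`. -/
noncomputable def Base.hh (B : Base) {P : ℕ} (p : Fin P) (g : GI P B.d → ℝ) (x : B.X) : ℝ :=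
  ∑ k : Fin ((p : ℕ) + 1) → Fin B.d, g ⟨p, k⟩ * ∏ r, B.φ x (k r)

/-- The coefficients of the perturbation. -/
noncomputable def Base.coef (B : Base) (P : ℕ) (s : ℝ) (u : Fin P → ℝ) (e : GI P B.d)
    (x : B.X) : ℝ :=
  s * u e.1 * (1 / 2) ^ ((e.1 : ℕ) + 1) * ∏ r, B.φ x (e.2 r)

/-- The perturbed system. -/
noncomputable def Base.sys (B : Base) (P : ℕ) (s : ℝ) (u : Fin P → ℝ) : Sys :=
  B.gsys (B.coef P s u)

/-- The energy of the perturbed system. -/
lemma Base.gen_eq (B : Base) (P : ℕ) (s : ℝ) (u : Fin P → ℝ) (ω : B.Ω) (g : GI P B.d → ℝ)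
    (x : B.X) : gen (B.H ω) (B.coef P s u) g x =
      B.H ω x + s * ∑ p : Fin P, u p * (1 / 2) ^ ((p : ℕ) + 1) * B.hh p g x := by
  unfold gen Base.coef Base.hh
  rw [Fintype.sum_sigma, Finset.mul_sum]
  congr 1
  refine Finset.sum_congr rfl fun p _ => ?_
  rw [Finset.mul_sum, Finset.mul_sum]
  exact Finset.sum_congr rfl fun k _ => by ring

/-- The weights of the perturbed system, as a function on the product. -/
noncomputable def Base.wt (B : Base) {ι : Type} [Fintype ι] (a : ι → B.X → ℝ)
    (z : B.Ω × (ι → ℝ)) (x : B.X) : ℝ :=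
  gwt (gen (B.H z.1) a z.2) x

lemma Base.isWt (B : Base) {ι : Type} [Fintype ι] (a : ι → B.X → ℝ) : IsWt (B.wt a) where
  meas := fun x => measurable_gwt_gen B.hH a x
  nn := fun _ _ => gwt_nonneg _ _
  one := fun _ => sum_gwt _

lemma Base.sys_av (B : Base) (P : ℕ) (s : ℝ) (u : Fin P → ℝ) {n : ℕ}
    (F : B.Ω × (GI P B.d → ℝ) → (Fin n → B.X) → ℝ) :
    (B.sys P s u).av F =
      rav (B.P.prod (P367.GT.gM (GI P B.d))) (B.wt (B.coef P s u)) F := rfl

lemma Base.inner_pow (B : Base) (p : ℕ) (x y : B.X) :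
    ∑ k : Fin (p + 1) → Fin B.d, (∏ r, B.φ x (k r)) * (∏ r, B.φ y (k r)) =
      ⟪B.φ x, B.φ y⟫ ^ (p + 1) := by
  have h : ⟪B.φ x, B.φ y⟫ = ∑ i, B.φ x i * B.φ y i := by
    rw [PiLp.inner_apply]
    exact Finset.sum_congr rfl fun i _ => by simp only [RCLike.inner_apply, Real.ringHom_apply, mul_comm]
  rw [h, Fintype.sum_pow]
  exact Finset.sum_congr rfl fun k _ => by rw [Finset.prod_mul_distrib]

end Vale.Agent.P157.Par
end

section

/-! The Ghirlanda-Guerra defect is at most the fluctuation of the perturbation. -/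

open MeasureTheory ProbabilityTheory Filter Topology
open scoped RealInnerProductSpace

namespace Vale.Agent.P157.Par

set_option linter.unusedSectionVars false

namespace Base

variable (B : Base)

/-- The joint law of the base disorder and of the Gaussian coordinates. -/
noncomputable abbrev jl (ι : Type) [Fintype ι] : Measure (B.Ω × (ι → ℝ)) :=
  B.P.prod (P367.GT.gM ι)

lemma gibp_av {ι : Type} [Fintype ι] [DecidableEq ι] (a : ι → B.X → ℝ) (e : ι) {n : ℕ}
    {f : B.Ω → (Fin n → B.X) → ℝ} (hf : ∀ x, Measurable fun ω => f ω x) {C : ℝ}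
    (hC : ∀ ω x, |f ω x| ≤ C) :
    rav (B.jl ι) (B.wt a) (n := n) (fun z x => z.2 e * f z.1 x) =
      rav (B.jl ι) (B.wt a) (n := n) (fun z x => f z.1 x *
        ∑ j, (a e (x j) - gmean (gen (B.H z.1) a z.2) (a e))) := by
  have hC0 : ∀ x : Fin n → B.X, ∀ ω, |f ω x| ≤ C := fun x ω => hC ω x
  have hf' : ∀ x : Fin n → B.X, Measurable fun z : B.Ω × (ι → ℝ) => f z.1 x := fun x =>
    (hf x).comp measurable_fst
  have h1 : ∀ x : Fin n → B.X, Integrable (fun z : B.Ω × (ι → ℝ) => z.2 e * f z.1 x)
      (B.jl ι) := fun x =>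
    integrable_mul_bdd (integrable_coord B.P e) (hf' x) C fun z => hC0 x _
  have h2 : ∀ x : Fin n → B.X, Integrable (fun z : B.Ω × (ι → ℝ) => f z.1 x *
      ∑ j, (a e (x j) - gmean (gen (B.H z.1) a z.2) (a e))) (B.jl ι) := by
    intro x
    refine integrable_mul_bdd (integrable_bdd _ (hf' x) C fun z => hC0 x _) ?_
      (n * (2 * ∑ y, |a e y|)) fun z => abs_sum_sub_le _ x (a e)
    exact Finset.measurable_sum _ fun i _ => measurable_const.sub (measurable_gmean_gen B.hH a _)
  rw [(B.isWt a).rav_eq h1, (B.isWt a).rav_eq h2]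
  refine Finset.sum_congr rfl fun x _ => ?_
  have h := gibp_prod B.P B.hH a e x (hf x) (hC0 x)
  calc _ = ∫ z, z.2 e * ((∏ i, gwt (gen (B.H z.1) a z.2) (x i)) * f z.1 x)
        ∂(B.jl ι) := by
        refine integral_congr_ae (Filter.Eventually.of_forall fun z => ?_)
        show (∏ i, gwt (gen (B.H z.1) a z.2) (x i)) * (z.2 e * f z.1 x) = _
        ring
    _ = _ := by
        rw [h]
        refine integral_congr_ae (Filter.Eventually.of_forall fun z => ?_)
        show _ = (∏ i, gwt (gen (B.H z.1) a z.2) (x i)) * (f z.1 x * _)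
        ring

/-- The monomials of the features. -/
noncomputable def mono (p : ℕ) (k : Fin (p + 1) → Fin B.d) (x : B.X) : ℝ :=
  ∏ r, B.φ x (k r)

lemma mono_inner (p : ℕ) (x y : B.X) :
    ∑ k : Fin (p + 1) → Fin B.d, B.mono p k x * B.mono p k y = ⟪B.φ x, B.φ y⟫ ^ (p + 1) :=
  B.inner_pow p x y

lemma abs_phi_le (x : B.X) (i : Fin B.d) : |B.φ x i| ≤ 1 := by
  have h := PiLp.norm_apply_le (B.φ x) i
  rwa [B.hφ, Real.norm_eq_abs] at h

lemma abs_mono_le (p : ℕ) (k : Fin (p + 1) → Fin B.d) (x : B.X) : |B.mono p k x| ≤ 1 := by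
  unfold mono
  rw [Finset.abs_prod]
  exact Finset.prod_le_one (fun _ _ => abs_nonneg _) fun _ _ => B.abs_phi_le _ _

lemma abs_inner_le (x y : B.X) : |⟪B.φ x, B.φ y⟫| ≤ 1 := by
  have h := abs_real_inner_le_norm (B.φ x) (B.φ y)
  rwa [B.hφ, B.hφ, one_mul] at h

lemma abs_inner_pow_le (x y : B.X) (p : ℕ) : |⟪B.φ x, B.φ y⟫ ^ p| ≤ 1 := by
  rw [abs_pow]
  exact pow_le_one₀ (abs_nonneg _) (B.abs_inner_le x y)

variable (P : ℕ) (s : ℝ) (u : Fin P → ℝ)

/-- The coefficient of the `p`-th process. -/
noncomputable def cc (_ : Base) {P : ℕ} (s : ℝ) (u : Fin P → ℝ) (p : Fin P) : ℝ :=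
  s * u p * (1 / 2) ^ ((p : ℕ) + 1)

lemma coef_apply (p : Fin P) (k : Fin ((p : ℕ) + 1) → Fin B.d) (x : B.X) :
    B.coef P s u ⟨p, k⟩ x = B.cc s u p * B.mono p k x := rfl

lemma gmean_coef (p : Fin P) (k : Fin ((p : ℕ) + 1) → Fin B.d) (E : B.X → ℝ) :
    gmean E (B.coef P s u ⟨p, k⟩) = B.cc s u p * gmean E (B.mono p k) := by
  unfold gmean
  rw [Finset.mul_sum]
  exact Finset.sum_congr rfl fun x _ => by rw [coef_apply]; ring

lemma gmean_mono_inner (p : ℕ) (E : B.X → ℝ) (x : B.X) :
    ∑ k : Fin (p + 1) → Fin B.d, B.mono p k x * gmean E (B.mono p k) =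
      gmean E (fun y => ⟪B.φ x, B.φ y⟫ ^ (p + 1)) := by
  unfold gmean
  simp only [← mono_inner, Finset.mul_sum]
  rw [Finset.sum_comm]
  refine Finset.sum_congr rfl fun y _ => Finset.sum_congr rfl fun k _ => by ring

/-- Integration by parts for the average of the perturbation against a test function. -/
lemma av_hh (p : Fin P) {n : ℕ} (i : Fin n) {F : B.Ω → (Fin n → B.X) → ℝ}
    (hF : ∀ x, Measurable fun ω => F ω x) {C : ℝ} (hC : ∀ ω x, |F ω x| ≤ C) :
    rav (B.jl (GI P B.d)) (B.wt (B.coef P s u)) (n := n)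
        (fun z x => F z.1 x * B.hh p z.2 (x i)) =
      B.cc s u p * (∑ j, rav (B.jl (GI P B.d)) (B.wt (B.coef P s u)) (n := n)
          (fun z x => F z.1 x * ⟪B.φ (x i), B.φ (x j)⟫ ^ ((p : ℕ) + 1)) -
        n * rav (B.jl (GI P B.d)) (B.wt (B.coef P s u)) (n := n + 1)
          (fun z x => F z.1 (fun j => x j.castSucc) *
          ⟪B.φ (x i.castSucc), B.φ (x (Fin.last n))⟫ ^ ((p : ℕ) + 1))) := by
  classical
  set μ := B.jl (GI P B.d) with hμ
  set w := B.wt (B.coef P s u) with hw
  have hW : IsWt w := B.isWt _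
  have hFm : ∀ x : Fin n → B.X, Measurable fun z : B.Ω × (GI P B.d → ℝ) => F z.1 x := fun x =>
    (hF x).comp measurable_fst
  have hbd : ∀ (k : Fin ((p : ℕ) + 1) → Fin B.d) (x : Fin n → B.X),
      ∀ ω, |F ω x * B.mono p k (x i)| ≤ C := by
    intro k x ω
    rw [abs_mul]
    have h1 := hC ω x
    have h2 := B.abs_mono_le p k (x i)
    have h3 := abs_nonneg (F ω x)
    have h4 := abs_nonneg (B.mono p k (x i))
    linarith only [mul_nonneg (sub_nonneg.2 h2) (sub_nonneg.2 h3), h1]
  -- step 1
  have e1 : rav μ w (n := n) (fun z x => F z.1 x * B.hh p z.2 (x i)) =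
      ∑ k : Fin ((p : ℕ) + 1) → Fin B.d,
        rav μ w (n := n) (fun z x => z.2 ⟨p, k⟩ * (F z.1 x * B.mono p k (x i))) := by
    rw [← hW.rav_sum]
    · refine rav_congr fun z x => ?_
      unfold Base.hh Base.mono
      rw [Finset.mul_sum]
      exact Finset.sum_congr rfl fun k _ => by ring
    · intro k _ x
      exact integrable_mul_bdd (integrable_coord B.P _) ((hFm x).mul_const _) C
        fun z => hbd k x z.1
  have e2 : ∀ k : Fin ((p : ℕ) + 1) → Fin B.d,
      rav μ w (n := n) (fun z x => z.2 ⟨p, k⟩ * (F z.1 x * B.mono p k (x i))) =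
      rav μ w (n := n) (fun z x => (F z.1 x * B.mono p k (x i)) *
        ∑ j, (B.coef P s u ⟨p, k⟩ (x j) -
          gmean (gen (B.H z.1) (B.coef P s u) z.2) (B.coef P s u ⟨p, k⟩))) := by
    intro k
    exact B.gibp_av (B.coef P s u) ⟨p, k⟩ (f := fun ω x => F ω x * B.mono p k (x i))
      (C := C) (fun x => (hF x).mul_const _) fun ω x => hbd k x ω
  have e3 : ∑ k : Fin ((p : ℕ) + 1) → Fin B.d,
      rav μ w (n := n) (fun z x => z.2 ⟨p, k⟩ * (F z.1 x * B.mono p k (x i))) =
      rav μ w (n := n) (fun z x => B.cc s u p * (∑ j, F z.1 x *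
          ⟪B.φ (x i), B.φ (x j)⟫ ^ ((p : ℕ) + 1) - n * (F z.1 x *
          gmean (gen (B.H z.1) (B.coef P s u) z.2)
            (fun y => ⟪B.φ (x i), B.φ y⟫ ^ ((p : ℕ) + 1))))) := by
    rw [Finset.sum_congr rfl fun k _ => e2 k, ← hW.rav_sum]
    · refine rav_congr fun z x => ?_
      simp only [B.coef_apply, B.gmean_coef]
      rw [← B.gmean_mono_inner]
      simp only [Finset.sum_sub_distrib, Finset.sum_const, Finset.card_univ, Fintype.card_fin, nsmul_eq_mul, mul_sub, Finset.mul_sum, ← B.mono_inner]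
      congr 1
      · rw [Finset.sum_comm]
        exact Finset.sum_congr rfl fun j _ => Finset.sum_congr rfl fun k _ => by ring
      · exact Finset.sum_congr rfl fun k _ => by ring
    · intro k _ x
      refine integrable_mul_bdd (integrable_bdd _ ((hFm x).mul_const _) C fun z => hbd k x z.1) ?_
        (n * (2 * ∑ y, |B.coef P s u ⟨p, k⟩ y|)) fun z => abs_sum_sub_le _ x _
      exact Finset.measurable_sum _ fun i _ =>
        measurable_const.sub (measurable_gmean_gen B.hH _ _)
  have hI : ∀ (j : Fin n) (x : Fin n → B.X), Integrable (fun z : B.Ω × (GI P B.d → ℝ) =>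
      F z.1 x * ⟪B.φ (x i), B.φ (x j)⟫ ^ ((p : ℕ) + 1)) μ := by
    intro j x
    refine (integrable_bdd _ (hFm x) C fun z => hC _ _).mul_const _
  have hJ : ∀ (x : Fin n → B.X), Integrable (fun z : B.Ω × (GI P B.d → ℝ) =>
      F z.1 x * gmean (gen (B.H z.1) (B.coef P s u) z.2)
        (fun y => ⟪B.φ (x i), B.φ y⟫ ^ ((p : ℕ) + 1))) μ := by
    intro x
    refine integrable_mul_bdd (integrable_bdd _ (hFm x) C fun z => hC _ _)
      (measurable_gmean_gen B.hH _ _) 1 fun z => abs_gmean_le _ _ fun y => B.abs_inner_pow_le _ _ _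
  rw [e1, e3, rav_const_mul, hW.rav_sub (fun x => integrable_finsetSum _ fun j _ => hI j x)
    (fun x => (hJ x).const_mul _), hW.rav_sum _ (fun j _ x => hI j x), rav_const_mul,
    rav_snoc (n := n)]
  congr 3
  refine rav_congr fun z x => ?_
  simp only [Fin.snoc_castSucc, Fin.snoc_last]
  unfold gmean
  rw [Finset.mul_sum]
  refine Finset.sum_congr rfl fun y _ => ?_
  show F z.1 x * (gwt (gen (B.H z.1) (B.coef P s u) z.2) y * _) =
    gwt (gen (B.H z.1) (B.coef P s u) z.2) y * _
  ring

end Base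

end Vale.Agent.P157.Par
end

section

/-! The Ghirlanda-Guerra defect is at most the fluctuation of the perturbation (2). -/

open MeasureTheory ProbabilityTheory Filter Topology
open scoped RealInnerProductSpace

namespace Vale.Agent.P157.Par

set_option linter.unusedSectionVars false

namespace Base

variable (B : Base) (P : ℕ) (s : ℝ) (u : Fin P → ℝ)

/-- The average deviation of the `p`-th process from the constant `c`. -/
noncomputable def dev (p : Fin P) (c : ℝ) : ℝ :=
  (B.sys P s u).av (n := 1)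
    (fun (z : B.Ω × (GI P B.d → ℝ)) (x : Fin 1 → B.X) => |B.hh p z.2 (x 0) - c|)

/-- The average of the `p`-th process. -/
noncomputable def mh (p : Fin P) : ℝ :=
  (B.sys P s u).av (n := 1)
    (fun (z : B.Ω × (GI P B.d → ℝ)) (x : Fin 1 → B.X) => B.hh p z.2 (x 0))

lemma int_hh (p : Fin P) (x : B.X) :
    Integrable (fun z : B.Ω × (GI P B.d → ℝ) => B.hh p z.2 x) (B.jl (GI P B.d)) := by
  unfold hh
  exact integrable_finsetSum _ fun k _ => (integrable_coord B.P _).mul_const _

lemma dev_eq (p : Fin P) (c : ℝ) {n : ℕ} (i : Fin n) :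
    rav (B.jl (GI P B.d)) (B.wt (B.coef P s u)) (n := n)
      (fun z x => |B.hh p z.2 (x i) - c|) = B.dev P s u p c := by
  rw [dev, sys_av]
  rw [(B.isWt _).rav_marg i (fun z x => |B.hh p z.2 x - c|),
    (B.isWt _).rav_marg (0 : Fin 1) (fun z x => |B.hh p z.2 x - c|)]

lemma mh_eq (p : Fin P) {n : ℕ} (i : Fin n) :
    rav (B.jl (GI P B.d)) (B.wt (B.coef P s u)) (n := n)
      (fun z x => B.hh p z.2 (x i)) = B.mh P s u p := by
  rw [mh, sys_av]
  rw [(B.isWt _).rav_marg i (fun z x => B.hh p z.2 x),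
    (B.isWt _).rav_marg (0 : Fin 1) (fun z x => B.hh p z.2 x)]

/-- The average of the `p`-th process. -/
lemma mh_formula (p : Fin P) : B.mh P s u p = B.cc s u p *
    (1 - rav (B.jl (GI P B.d)) (B.wt (B.coef P s u)) (n := 2)
      (fun _ x => ⟪B.φ (x 0), B.φ (x 1)⟫ ^ ((p : ℕ) + 1))) := by
  have h := B.av_hh P s u p (n := 1) 0 (F := fun _ _ => 1) (C := 1)
    (fun _ => measurable_const) (fun _ _ => by simp)
  simp only [one_mul] at h
  rw [B.mh_eq P s u p (0 : Fin 1)] at h
  rw [h]
  congr 1
  have h1 : rav (B.jl (GI P B.d)) (B.wt (B.coef P s u)) (n := 1)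
      (fun _ x => ⟪B.φ (x 0), B.φ (x 0)⟫ ^ ((p : ℕ) + 1)) = 1 := by
    have h2 := (B.isWt (B.coef P s u)).rav_const (μ := B.jl (GI P B.d)) (n := 1) 1
    rw [← h2]
    refine rav_congr fun z x => ?_
    rw [real_inner_self_eq_norm_sq, B.hφ]
    simp
  simp only [Finset.univ_unique, Fin.default_eq_zero, Finset.sum_singleton, h1, Nat.cast_one,
    one_mul]
  rfl

lemma mh_nonneg (hs : 0 ≤ s) (p : Fin P) (hu : 0 ≤ u p) : 0 ≤ B.mh P s u p := by
  rw [mh_formula]
  have h := (B.isWt (B.coef P s u)).rav_mono (μ := B.jl (GI P B.d)) (n := 2)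
    (F := fun _ x => ⟪B.φ (x 0), B.φ (x 1)⟫ ^ ((p : ℕ) + 1)) (G := fun _ _ => 1)
    (fun _ => integrable_const _) (fun _ => integrable_const _)
    (fun z x => (le_abs_self _).trans (B.abs_inner_pow_le _ _ _))
  rw [(B.isWt (B.coef P s u)).rav_const] at h
  refine mul_nonneg ?_ (by linarith only [h])
  unfold cc
  (clear * - hs hu; positivity)

lemma mh_le (hs : 0 ≤ s) (p : Fin P) (hu : 0 ≤ u p) :
    B.mh P s u p ≤ 2 * (s * u p * (1 / 2) ^ ((p : ℕ) + 1)) := by
  rw [mh_formula]
  have h := (B.isWt (B.coef P s u)).rav_mono (μ := B.jl (GI P B.d)) (n := 2)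
    (G := fun _ x => ⟪B.φ (x 0), B.φ (x 1)⟫ ^ ((p : ℕ) + 1)) (F := fun _ _ => -1)
    (fun _ => integrable_const _) (fun _ => integrable_const _)
    (fun z x => (abs_le.1 (B.abs_inner_pow_le _ _ _)).1)
  rw [(B.isWt (B.coef P s u)).rav_const] at h
  have h2 : 0 ≤ B.cc s u p := by unfold cc; positivity
  have h3 : B.cc s u p = s * u p * (1 / 2) ^ ((p : ℕ) + 1) := rfl
  rw [← h3]
  linarith only [mul_nonneg (sub_nonneg.2 h) (sub_nonneg.2 h2)]

/-- The defect as a covariance. -/
lemma defect_eq (p : Fin P) {n : ℕ} (i : Fin n) {F : B.Ω → (Fin n → B.X) → ℝ}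
    (hF : ∀ x, Measurable fun ω => F ω x) (hC : ∀ ω x, |F ω x| ≤ 1) :
    B.cc s u p * (B.sys P s u).ggDefect (fun x => x ^ ((p : ℕ) + 1)) i F =
      B.mh P s u p * rav (B.jl (GI P B.d)) (B.wt (B.coef P s u)) (n := n) (fun z x => F z.1 x) -
      rav (B.jl (GI P B.d)) (B.wt (B.coef P s u)) (n := n)
        (fun z x => F z.1 x * B.hh p z.2 (x i)) := by
  have h1 := B.av_hh P s u p i hF hC
  rw [h1, mh_formula]
  unfold Sys.ggDefect
  have e1 : (B.sys P s u).tav (n := n) F =
      rav (B.jl (GI P B.d)) (B.wt (B.coef P s u)) (n := n) (fun z x => F z.1 x) := rfl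
  have e2 : (B.sys P s u).tav (n := n + 1) (fun t (x : Fin (n + 1) → (B.sys P s u).X) =>
      F t (fun j => x j.castSucc) *
        (B.sys P s u).R (x i.castSucc) (x (Fin.last n)) ^ ((p : ℕ) + 1)) =
      rav (B.jl (GI P B.d)) (B.wt (B.coef P s u)) (n := n + 1)
        (fun z x => F z.1 (fun j => x j.castSucc) *
          ⟪B.φ (x i.castSucc), B.φ (x (Fin.last n))⟫ ^ ((p : ℕ) + 1)) := rfl
  have e3 : (B.sys P s u).tav (n := 2) (fun _ (x : Fin 2 → (B.sys P s u).X) =>
      (B.sys P s u).R (x 0) (x 1) ^ ((p : ℕ) + 1)) =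
      rav (B.jl (GI P B.d)) (B.wt (B.coef P s u)) (n := 2)
        (fun _ x => ⟪B.φ (x 0), B.φ (x 1)⟫ ^ ((p : ℕ) + 1)) := rfl
  have e4 : ∀ j : Fin n, (B.sys P s u).tav (n := n) (fun t (x : Fin n → (B.sys P s u).X) =>
      F t x * (B.sys P s u).R (x i) (x j) ^ ((p : ℕ) + 1)) =
      rav (B.jl (GI P B.d)) (B.wt (B.coef P s u)) (n := n)
        (fun z x => F z.1 x * ⟪B.φ (x i), B.φ (x j)⟫ ^ ((p : ℕ) + 1)) := fun j => rfl
  simp only [e1, e2, e3, e4]
  rw [← Finset.add_sum_erase Finset.univ (fun j => rav (B.jl (GI P B.d))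
    (B.wt (B.coef P s u)) (n := n)
    (fun z x => F z.1 x * ⟪B.φ (x i), B.φ (x j)⟫ ^ ((p : ℕ) + 1))) (Finset.mem_univ i)]
  have e5 : rav (B.jl (GI P B.d)) (B.wt (B.coef P s u)) (n := n)
      (fun z x => F z.1 x * ⟪B.φ (x i), B.φ (x i)⟫ ^ ((p : ℕ) + 1)) =
      rav (B.jl (GI P B.d)) (B.wt (B.coef P s u)) (n := n) (fun z x => F z.1 x) := by
    refine rav_congr fun z x => ?_
    rw [real_inner_self_eq_norm_sq, B.hφ]
    simp
  rw [e5]
  ring

lemma int_test {n : ℕ} {F : B.Ω → (Fin n → B.X) → ℝ}
    (hF : ∀ x, Measurable fun ω => F ω x) (hC : ∀ ω x, |F ω x| ≤ 1) (x : Fin n → B.X) :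
    Integrable (fun z : B.Ω × (GI P B.d → ℝ) => F z.1 x) (B.jl (GI P B.d)) :=
  integrable_bdd _ ((hF x).comp measurable_fst) 1 fun z => hC z.1 x

/-- The Ghirlanda-Guerra defect is bounded by the deviation of the perturbation from any
constant. -/
theorem ggDefect_le (hs : 0 < s) (p : Fin P) (hu : 0 < u p) (c : ℝ) {n : ℕ} (i : Fin n)
    (F : (B.sys P s u).T → (Fin n → (B.sys P s u).X) → ℝ) (hF : (B.sys P s u).Test F) :
    |(B.sys P s u).ggDefect (fun x => x ^ ((p : ℕ) + 1)) i F| ≤
      2 * B.dev P s u p c / (s * u p * (1 / 2) ^ ((p : ℕ) + 1)) := by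
  have hFm : ∀ x : Fin n → B.X, Measurable fun ω : B.Ω => F ω x := hF.meas
  have hFb : ∀ (ω : B.Ω) (x : Fin n → B.X), |F ω x| ≤ 1 := hF.bdd
  have h := B.defect_eq P s u p i hFm hFb
  have hc : 0 < B.cc s u p := by unfold cc; positivity
  have h3 : B.cc s u p = s * u p * (1 / 2) ^ ((p : ℕ) + 1) := rfl
  have hW := B.isWt (B.coef P s u)
  set μ := B.jl (GI P B.d) with hμ
  set w := B.wt (B.coef P s u) with hw
  rw [← h3, le_div_iff₀ hc, mul_comm, ← abs_of_pos hc, ← abs_mul, h]
  have hFi := B.int_test P hFm hFb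
  have hhi : ∀ x : Fin n → B.X, Integrable (fun z : B.Ω × (GI P B.d → ℝ) =>
      B.hh p z.2 (x i)) μ := fun x => B.int_hh P p (x i)
  have hFhi : ∀ x : Fin n → B.X, Integrable (fun z : B.Ω × (GI P B.d → ℝ) =>
      F z.1 x * B.hh p z.2 (x i)) μ := fun x => by
    refine (integrable_mul_bdd (hhi x) ((hFm x).comp measurable_fst) 1
      fun z => hFb z.1 x).congr (Filter.Eventually.of_forall fun z => ?_)
    exact mul_comm _ _
  have e1 : rav μ w (n := n) (fun z x => F z.1 x * (B.hh p z.2 (x i) - c)) =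
      rav μ w (n := n) (fun z x => F z.1 x * B.hh p z.2 (x i)) -
        c * rav μ w (n := n) (fun z x => F z.1 x) := by
    rw [← rav_const_mul, ← hW.rav_sub hFhi (fun x => (hFi x).const_mul c)]
    exact rav_congr fun z x => by ring
  have e2 : rav μ w (n := n) (fun z x => B.hh p z.2 (x i) - c) = B.mh P s u p - c := by
    rw [hW.rav_sub hhi (fun x => integrable_const _), hW.rav_const, B.mh_eq]
  have b1 : |rav μ w (n := n) (fun z x => F z.1 x * (B.hh p z.2 (x i) - c))| ≤
      B.dev P s u p c := by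
    rw [← B.dev_eq P s u p c i]
    refine (hW.rav_abs_le fun x => ?_).trans (hW.rav_mono (fun x => ?_) (fun x => ?_) ?_)
    · refine ((hFhi x).sub ((hFi x).mul_const c)).congr
        (Filter.Eventually.of_forall fun z => ?_)
      simp only [Pi.sub_apply]
      ring
    · refine (((hFhi x).sub ((hFi x).mul_const c)).congr
        (Filter.Eventually.of_forall fun z => ?_)).abs
      simp only [Pi.sub_apply]
      ring
    · exact ((hhi x).sub (integrable_const c)).abs
    · intro z x
      rw [abs_mul]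
      exact mul_le_of_le_one_left (abs_nonneg _) (hFb z.1 x)
  have b2 : |rav μ w (n := n) (fun z x => B.hh p z.2 (x i) - c)| ≤ B.dev P s u p c := by
    rw [← B.dev_eq P s u p c i]
    exact hW.rav_abs_le fun x => (hhi x).sub (integrable_const c)
  have b3 : |rav μ w (n := n) (fun z x => F z.1 x)| ≤ 1 := by
    refine (hW.rav_abs_le hFi).trans ?_
    refine (hW.rav_mono (fun x => (hFi x).abs) (fun x => integrable_const 1)
      fun z x => hFb z.1 x).trans ?_
    rw [hW.rav_const]
  have e3 : B.mh P s u p * rav μ w (n := n) (fun z x => F z.1 x) -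
      rav μ w (n := n) (fun z x => F z.1 x * B.hh p z.2 (x i)) =
      (rav μ w (n := n) (fun z x => B.hh p z.2 (x i) - c)) *
        rav μ w (n := n) (fun z x => F z.1 x) -
      rav μ w (n := n) (fun z x => F z.1 x * (B.hh p z.2 (x i) - c)) := by
    rw [e1, e2]; ring
  rw [e3]
  calc _ ≤ |(rav μ w (n := n) (fun z x => B.hh p z.2 (x i) - c)) *
        rav μ w (n := n) (fun z x => F z.1 x)| +
      |rav μ w (n := n) (fun z x => F z.1 x * (B.hh p z.2 (x i) - c))| := abs_sub _ _
    _ ≤ B.dev P s u p c * 1 + B.dev P s u p c := by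
        rw [abs_mul]
        refine add_le_add (mul_le_mul b2 b3 (abs_nonneg _) ?_) b1
        exact (abs_nonneg _).trans b2
    _ = 2 * B.dev P s u p c := by ring

end Base

/-- The Ghirlanda-Guerra defect for constants vanishes. -/
theorem Sys.ggDefect_zero (S : Sys) {n : ℕ} (i : Fin n) (F : S.T → (Fin n → S.X) → ℝ) :
    S.ggDefect (fun x => x ^ 0) i F = 0 := by
  have hw : IsWt S.w := ⟨S.hw, S.w0, S.w1⟩
  unfold Sys.ggDefect
  simp only [pow_zero, mul_one]
  have h1 : S.tav (fun t (x : Fin (n + 1) → S.X) => F t (fun j => x j.castSucc)) = S.tav F := by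
    have h := rav_snoc (μ := S.P) (w := S.w) (n := n)
      (fun ω x => F (S.π ω) (fun j => x j.castSucc))
    have h2 : rav S.P S.w (n := n) (fun ω x => ∑ y, S.w ω y *
        F (S.π ω) (fun j => (Fin.snoc x y : Fin (n + 1) → S.X) j.castSucc)) =
        rav S.P S.w (n := n) (fun ω x => F (S.π ω) x) := by
      refine rav_congr fun ω x => ?_
      simp only [Fin.snoc_castSucc]
      rw [← Finset.sum_mul, S.w1, one_mul]
    exact h.trans h2
  have h3 : S.tav (fun _ (x : Fin 2 → S.X) => (1 : ℝ)) = 1 := hw.rav_const (μ := S.P) (n := 2) 1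
  rw [h1, h3, Finset.sum_const, Finset.card_erase_of_mem (Finset.mem_univ i), Finset.card_univ,
    Fintype.card_fin, nsmul_eq_mul]
  have hn : 1 ≤ n := i.pos
  push_cast [Nat.cast_sub hn]
  ring

end Vale.Agent.P157.Par
end

section

/-! Log-partition function of the perturbed system as a function of the parameters. -/

open MeasureTheory ProbabilityTheory Filter Topology
open scoped RealInnerProductSpace

namespace Vale.Agent.P157.Par

set_option linter.unusedSectionVars false

section Gibbs2

variable {X : Type*} [Fintype X] [Nonempty X]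

lemma gmean_const_mul (E : X → ℝ) (c : ℝ) (ψ : X → ℝ) :
    gmean E (fun x => c * ψ x) = c * gmean E ψ := by
  unfold gmean
  rw [Finset.mul_sum]
  exact Finset.sum_congr rfl fun x _ => by ring

lemma gmean_var (E ψ : X → ℝ) :
    gmean E (fun x => (ψ x - gmean E ψ) ^ 2) =
      gmean E (fun x => ψ x * ψ x) - gmean E ψ * gmean E ψ := by
  set m := gmean E ψ with hm
  have h1 : gmean E (fun x => (ψ x - m) ^ 2) =
      gmean E (fun x => ψ x * ψ x) - 2 * m * gmean E ψ + m ^ 2 * ∑ x, gwt E x := by
    unfold gmean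
    rw [Finset.mul_sum, Finset.mul_sum, ← Finset.sum_sub_distrib, ← Finset.sum_add_distrib]
    exact Finset.sum_congr rfl fun x _ => by ring
  rw [h1, sum_gwt, ← hm]
  ring

lemma gmean_nonneg {E ψ : X → ℝ} (h : ∀ x, 0 ≤ ψ x) : 0 ≤ gmean E ψ :=
  Finset.sum_nonneg fun x _ => mul_nonneg (gwt_nonneg E x) (h x)

lemma glog_le {E E' : X → ℝ} {C : ℝ} (h : ∀ x, E x ≤ E' x + C) :
    Real.log (∑ y, Real.exp (E y)) ≤ Real.log (∑ y, Real.exp (E' y)) + C := by
  have h1 : ∑ y, Real.exp (E y) ≤ (∑ y, Real.exp (E' y)) * Real.exp C := by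
    rw [Finset.sum_mul]
    refine Finset.sum_le_sum fun y _ => ?_
    rw [← Real.exp_add]
    exact Real.exp_le_exp.2 (h y)
  have h2 := Real.log_le_log (gpart_pos E) h1
  rwa [Real.log_mul (gpart_pos E').ne' (Real.exp_pos _).ne', Real.log_exp] at h2

lemma abs_glog_sub_le {E E' : X → ℝ} {C : ℝ} (h : ∀ x, |E x - E' x| ≤ C) :
    |Real.log (∑ y, Real.exp (E y)) - Real.log (∑ y, Real.exp (E' y))| ≤ C := by
  rw [abs_le]
  constructor
  · have := glog_le (E := E') (E' := E) (C := C) fun x => by
      have := (abs_le.1 (h x)).1; linarith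
    linarith only [this]
  · have := glog_le (E := E) (E' := E') (C := C) fun x => by
      have := (abs_le.1 (h x)).2; linarith
    linarith

end Gibbs2

namespace Base

variable (B : Base) {P : ℕ} (s : ℝ) (u : Fin P → ℝ)

/-- The logarithm of the partition function. -/
noncomputable def lz (z : B.Ω × (GI P B.d → ℝ)) : ℝ :=
  Real.log (∑ y, Real.exp (gen (B.H z.1) (B.coef P s u) z.2 y))

/-- The Gibbs average of the `p`-th process. -/
noncomputable def hm (p : Fin P) (z : B.Ω × (GI P B.d → ℝ)) : ℝ :=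
  gmean (gen (B.H z.1) (B.coef P s u) z.2) (B.hh p z.2)

/-- The Gibbs variance of the `p`-th process. -/
noncomputable def hv (p : Fin P) (z : B.Ω × (GI P B.d → ℝ)) : ℝ :=
  gmean (gen (B.H z.1) (B.coef P s u) z.2) (fun x => B.hh p z.2 x * B.hh p z.2 x) -
    B.hm s u p z * B.hm s u p z

/-- The derivative of the energy in the `p`-th parameter is `kap p` times the process. -/
noncomputable def kap (_ : Base) {P : ℕ} (s : ℝ) (p : Fin P) : ℝ := s * (1 / 2) ^ ((p : ℕ) + 1)

lemma gen_upd (p : Fin P) (v : ℝ) (ω : B.Ω) (g : GI P B.d → ℝ) :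
    gen (B.H ω) (B.coef P s (Function.update u p v)) g =
      fun x => gen (B.H ω) (B.coef P s (Function.update u p 0)) g x +
        v * (B.kap s p * B.hh p g x) := by
  funext x
  rw [gen_eq, gen_eq]
  rw [← Finset.add_sum_erase Finset.univ (fun q : Fin P => Function.update u p v q *
      (1 / 2) ^ ((q : ℕ) + 1) * B.hh q g x) (Finset.mem_univ p),
    ← Finset.add_sum_erase Finset.univ (fun q : Fin P => Function.update u p 0 q *
      (1 / 2) ^ ((q : ℕ) + 1) * B.hh q g x) (Finset.mem_univ p)]
  have h : ∀ t : ℝ, ∑ q ∈ Finset.univ.erase p, Function.update u p t q *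
      (1 / 2) ^ ((q : ℕ) + 1) * B.hh q g x =
      ∑ q ∈ Finset.univ.erase p, u q * (1 / 2) ^ ((q : ℕ) + 1) * B.hh q g x := fun t =>
    Finset.sum_congr rfl fun i hi => by
      rw [Function.update_of_ne (Finset.ne_of_mem_erase hi)]
  rw [h, h]
  simp only [Function.update_self]
  unfold kap
  ring

lemma hasDerivAt_lz (p : Fin P) (z : B.Ω × (GI P B.d → ℝ)) (v : ℝ) :
    HasDerivAt (fun v => B.lz s (Function.update u p v) z)
      (B.kap s p * B.hm s (Function.update u p v) p z) v := by
  have h := hasDerivAt_glog (gen (B.H z.1) (B.coef P s (Function.update u p 0)) z.2)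
    (fun x => B.kap s p * B.hh p z.2 x) v
  rw [gmean_const_mul, ← B.gen_upd s u p v z.1 z.2] at h
  have h' : (fun v => B.lz s (Function.update u p v) z) =
      fun t => Real.log (∑ y, Real.exp (gen (B.H z.1) (B.coef P s (Function.update u p 0)) z.2 y +
        t * (B.kap s p * B.hh p z.2 y))) := by
    funext t
    unfold lz
    rw [B.gen_upd s u p t z.1 z.2]
  rw [h']
  exact h

lemma hasDerivAt_hm (p : Fin P) (z : B.Ω × (GI P B.d → ℝ)) (v : ℝ) :
    HasDerivAt (fun v => B.hm s (Function.update u p v) p z)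
      (B.kap s p * B.hv s (Function.update u p v) p z) v := by
  have h := hasDerivAt_gmean (gen (B.H z.1) (B.coef P s (Function.update u p 0)) z.2)
    (fun x => B.kap s p * B.hh p z.2 x) (B.hh p z.2) v
  rw [← B.gen_upd s u p v z.1 z.2] at h
  have h' : (fun v => B.hm s (Function.update u p v) p z) =
      fun t => gmean (fun y => gen (B.H z.1) (B.coef P s (Function.update u p 0)) z.2 y +
        t * (B.kap s p * B.hh p z.2 y)) (B.hh p z.2) := by
    funext t
    unfold hm
    rw [B.gen_upd s u p t z.1 z.2]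
  rw [h']
  refine h.congr_deriv ?_
  have h1 : (fun x => B.hh p z.2 x * (B.kap s p * B.hh p z.2 x)) =
      fun x => B.kap s p * (B.hh p z.2 x * B.hh p z.2 x) := by
    funext x; ring
  rw [h1, gmean_const_mul, gmean_const_mul]
  unfold hv hm
  ring

lemma hv_eq (p : Fin P) (z : B.Ω × (GI P B.d → ℝ)) :
    B.hv s u p z = gmean (gen (B.H z.1) (B.coef P s u) z.2)
      (fun x => (B.hh p z.2 x - B.hm s u p z) ^ 2) := by
  unfold hv hm
  rw [gmean_var]

lemma hv_nonneg (p : Fin P) (z : B.Ω × (GI P B.d → ℝ)) : 0 ≤ B.hv s u p z := by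
  rw [hv_eq]
  exact gmean_nonneg fun x => sq_nonneg _

/-- A bound for the `p`-th process. -/
noncomputable def hb (p : Fin P) (z : B.Ω × (GI P B.d → ℝ)) : ℝ :=
  ∑ k : Fin ((p : ℕ) + 1) → Fin B.d, |z.2 ⟨p, k⟩|

lemma hb_nonneg (p : Fin P) (z : B.Ω × (GI P B.d → ℝ)) : 0 ≤ B.hb p z :=
  Finset.sum_nonneg fun _ _ => abs_nonneg _

lemma abs_hh_le (p : Fin P) (z : B.Ω × (GI P B.d → ℝ)) (x : B.X) :
    |B.hh p z.2 x| ≤ B.hb p z := by
  unfold hh hb
  refine (Finset.abs_sum_le_sum_abs _ _).trans (Finset.sum_le_sum fun k _ => ?_)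
  rw [abs_mul]
  exact mul_le_of_le_one_right (abs_nonneg _) (B.abs_mono_le p k x)

lemma abs_hm_le (p : Fin P) (z : B.Ω × (GI P B.d → ℝ)) : |B.hm s u p z| ≤ B.hb p z :=
  abs_gmean_le _ _ fun x => B.abs_hh_le p z x

lemma hv_le (p : Fin P) (z : B.Ω × (GI P B.d → ℝ)) : B.hv s u p z ≤ B.hb p z ^ 2 := by
  have h1 : gmean (gen (B.H z.1) (B.coef P s u) z.2)
      (fun x => B.hh p z.2 x * B.hh p z.2 x) ≤ B.hb p z ^ 2 := by
    refine (le_abs_self _).trans (abs_gmean_le _ _ fun x => ?_)
    rw [abs_mul, sq]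
    exact mul_le_mul (B.abs_hh_le p z x) (B.abs_hh_le p z x) (abs_nonneg _) (B.hb_nonneg p z)
  unfold hv
  nlinarith only [h1]

lemma memLp_coord (e : GI P B.d) :
    MemLp (fun z : B.Ω × (GI P B.d → ℝ) => z.2 e) 2 (B.jl (GI P B.d)) := by
  have h1 : MemLp (fun J : GI P B.d → ℝ => J e) 2 (P367.GT.gM (GI P B.d)) :=
    (memLp_id_gaussianReal (μ := 0) (v := 1) 2).comp_measurePreserving
      (measurePreserving_eval (fun _ : GI P B.d => gaussianReal 0 1) e)
  exact h1.comp_snd B.P

lemma memLp_hb (p : Fin P) : MemLp (B.hb p) 2 (B.jl (GI P B.d)) := by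
  unfold hb
  exact memLp_finsetSum _ fun k _ => (B.memLp_coord ⟨p, k⟩).abs

lemma int_hb (p : Fin P) : Integrable (B.hb p) (B.jl (GI P B.d)) :=
  (B.memLp_hb p).integrable (by norm_num)

lemma int_hb_sq (p : Fin P) : Integrable (fun z => B.hb p z ^ 2) (B.jl (GI P B.d)) :=
  (B.memLp_hb p).integrable_sq

end Base

end Vale.Agent.P157.Par
end

section

/-! Measurability, continuity and integrability for the perturbed system. -/

open MeasureTheory ProbabilityTheory Filter Topology
open scoped RealInnerProductSpace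

namespace Vale.Agent.P157.Par

set_option linter.unusedSectionVars false

namespace Base

variable (B : Base) {P : ℕ} (s : ℝ) (u : Fin P → ℝ)

/-! Joint measurability. -/

lemma jmeas_gen (x : B.X) : Measurable fun q : (Fin P → ℝ) × (B.Ω × (GI P B.d → ℝ)) =>
    gen (B.H q.2.1) (B.coef P s q.1) q.2.2 x := by
  unfold gen coef
  refine ((B.hH x).comp (measurable_fst.comp measurable_snd)).add ?_
  refine Finset.measurable_sum _ fun e _ => ?_
  refine ((measurable_pi_apply e).comp (measurable_snd.comp measurable_snd)).mul ?_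
  refine Measurable.mul_const (Measurable.mul_const (Measurable.const_mul ?_ _) _) _
  exact (measurable_pi_apply e.1).comp measurable_fst

lemma jmeas_gwt (x : B.X) : Measurable fun q : (Fin P → ℝ) × (B.Ω × (GI P B.d → ℝ)) =>
    gwt (gen (B.H q.2.1) (B.coef P s q.1) q.2.2) x := by
  unfold gwt
  exact ((B.jmeas_gen s x).exp).div (Finset.measurable_sum _ fun y _ => (B.jmeas_gen s y).exp)

lemma jmeas_lz : Measurable fun q : (Fin P → ℝ) × (B.Ω × (GI P B.d → ℝ)) =>
    B.lz s q.1 q.2 := by
  unfold lz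
  exact (Finset.measurable_sum _ fun y _ => (B.jmeas_gen s y).exp).log

lemma meas_hh (p : Fin P) (x : B.X) :
    Measurable fun z : B.Ω × (GI P B.d → ℝ) => B.hh p z.2 x := by
  unfold hh
  exact Finset.measurable_sum _ fun k _ =>
    ((measurable_pi_apply _).comp measurable_snd).mul_const _

lemma jmeas_hm (p : Fin P) : Measurable fun q : (Fin P → ℝ) × (B.Ω × (GI P B.d → ℝ)) =>
    B.hm s q.1 p q.2 := by
  unfold hm gmean
  exact Finset.measurable_sum _ fun y _ =>
    (B.jmeas_gwt s y).mul ((B.meas_hh p y).comp measurable_snd)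

lemma jmeas_hv (p : Fin P) : Measurable fun q : (Fin P → ℝ) × (B.Ω × (GI P B.d → ℝ)) =>
    B.hv s q.1 p q.2 := by
  unfold hv
  refine Measurable.sub ?_ ((B.jmeas_hm s p).mul (B.jmeas_hm s p))
  unfold gmean
  exact Finset.measurable_sum _ fun y _ => (B.jmeas_gwt s y).mul
    (((B.meas_hh p y).comp measurable_snd).mul ((B.meas_hh p y).comp measurable_snd))

lemma meas_lz : Measurable (B.lz s u) := by
  have h : Measurable fun z : B.Ω × (GI P B.d → ℝ) => (u, z) := measurable_prodMk_left
  have h2 := (B.jmeas_lz s).comp h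
  simp only [Function.comp_def] at h2
  exact h2

lemma meas_hm (p : Fin P) : Measurable (B.hm s u p) := by
  have h : Measurable fun z : B.Ω × (GI P B.d → ℝ) => (u, z) := measurable_prodMk_left
  have h2 := (B.jmeas_hm s p).comp h
  simp only [Function.comp_def] at h2
  exact h2

lemma meas_hv (p : Fin P) : Measurable (B.hv s u p) := by
  have h : Measurable fun z : B.Ω × (GI P B.d → ℝ) => (u, z) := measurable_prodMk_left
  have h2 := (B.jmeas_hv s p).comp h
  simp only [Function.comp_def] at h2
  exact h2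

/-! Continuity in the parameters. -/

lemma cont_gen (z : B.Ω × (GI P B.d → ℝ)) (x : B.X) :
    Continuous fun u : Fin P → ℝ => gen (B.H z.1) (B.coef P s u) z.2 x := by
  unfold gen coef
  refine continuous_const.add (continuous_finsetSum _ fun e _ => ?_)
  exact continuous_const.mul (((continuous_const.mul (continuous_apply e.1)).mul
    continuous_const).mul continuous_const)

lemma cont_gwt (z : B.Ω × (GI P B.d → ℝ)) (x : B.X) :
    Continuous fun u : Fin P → ℝ => gwt (gen (B.H z.1) (B.coef P s u) z.2) x := by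
  unfold gwt
  exact ((B.cont_gen s z x).rexp).div (continuous_finsetSum _ fun y _ => (B.cont_gen s z y).rexp)
    fun u => (gpart_pos _).ne'

lemma cont_hm (p : Fin P) (z : B.Ω × (GI P B.d → ℝ)) :
    Continuous fun u : Fin P → ℝ => B.hm s u p z := by
  unfold hm gmean
  exact continuous_finsetSum _ fun y _ => (B.cont_gwt s z y).mul continuous_const

lemma cont_hv (p : Fin P) (z : B.Ω × (GI P B.d → ℝ)) :
    Continuous fun u : Fin P → ℝ => B.hv s u p z := by
  unfold hv
  refine Continuous.sub ?_ ((B.cont_hm s p z).mul (B.cont_hm s p z))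
  unfold gmean
  exact continuous_finsetSum _ fun y _ => (B.cont_gwt s z y).mul continuous_const

lemma cont_upd (p : Fin P) : Continuous fun v : ℝ => Function.update u p v :=
  continuous_const.update p continuous_id

/-! Integrability. -/

lemma abs_lz_le (z : B.Ω × (GI P B.d → ℝ)) : |B.lz s u z| ≤
    |Real.log (Fintype.card B.X)| + (B.K + |s| * ∑ p, |u p| * B.hb p z) := by
  have h : ∀ x, |gen (B.H z.1) (B.coef P s u) z.2 x - (fun _ => (0 : ℝ)) x| ≤
      B.K + |s| * ∑ p, |u p| * B.hb p z := by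
    intro x
    rw [sub_zero, gen_eq]
    refine (abs_add_le _ _).trans (add_le_add (B.hK _ _) ?_)
    rw [abs_mul]
    refine mul_le_mul_of_nonneg_left ?_ (abs_nonneg _)
    refine (Finset.abs_sum_le_sum_abs _ _).trans (Finset.sum_le_sum fun p _ => ?_)
    rw [abs_mul, abs_mul]
    refine mul_le_mul ?_ (B.abs_hh_le p z x) (abs_nonneg _) (abs_nonneg _)
    refine mul_le_of_le_one_right (abs_nonneg _) ?_
    rw [abs_of_pos (by positivity)]
    exact pow_le_one₀ (by (clear * -; norm_num)) (by norm_num)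
  have h2 : Real.log (∑ _y : B.X, Real.exp 0) = Real.log (Fintype.card B.X) := by simp only [Real.exp_zero, Finset.sum_const, Finset.card_univ, nsmul_eq_mul, mul_one]
  have h1 : |B.lz s u z - Real.log (∑ _y : B.X, Real.exp 0)| ≤
      B.K + |s| * ∑ p, |u p| * B.hb p z := abs_glog_sub_le h
  rw [h2] at h1
  have h3 := abs_sub_abs_le_abs_sub (B.lz s u z) (Real.log (Fintype.card B.X))
  linarith

lemma memLp_bound : MemLp (fun z : B.Ω × (GI P B.d → ℝ) =>
    |Real.log (Fintype.card B.X)| + (B.K + |s| * ∑ p, |u p| * B.hb p z)) 2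
    (B.jl (GI P B.d)) := by
  have h1 : MemLp (fun z : B.Ω × (GI P B.d → ℝ) => ∑ p, |u p| * B.hb p z) 2
      (B.jl (GI P B.d)) := memLp_finsetSum _ fun p _ => (B.memLp_hb p).const_mul _
  have h2 : MemLp (fun z : B.Ω × (GI P B.d → ℝ) => |s| * ∑ p, |u p| * B.hb p z) 2
      (B.jl (GI P B.d)) := h1.const_mul _
  have h3 : MemLp (fun z : B.Ω × (GI P B.d → ℝ) => B.K + |s| * ∑ p, |u p| * B.hb p z) 2
      (B.jl (GI P B.d)) := (memLp_const B.K).add h2
  exact (memLp_const |Real.log (Fintype.card B.X)|).add h3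

lemma memLp_lz : MemLp (B.lz s u) 2 (B.jl (GI P B.d)) := by
  refine (B.memLp_bound s u).mono (B.meas_lz s u).aestronglyMeasurable
    (Filter.Eventually.of_forall fun z => ?_)
  rw [Real.norm_eq_abs, Real.norm_eq_abs]
  exact (B.abs_lz_le s u z).trans (le_abs_self _)

lemma int_lz : Integrable (B.lz s u) (B.jl (GI P B.d)) :=
  (B.memLp_lz s u).integrable (by norm_num)

lemma int_hm (p : Fin P) : Integrable (B.hm s u p) (B.jl (GI P B.d)) := by
  refine (B.int_hb p).mono' (B.meas_hm s u p).aestronglyMeasurable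
    (Filter.Eventually.of_forall fun z => ?_)
  rw [Real.norm_eq_abs]
  exact B.abs_hm_le s u p z

lemma int_hv (p : Fin P) : Integrable (B.hv s u p) (B.jl (GI P B.d)) := by
  refine (B.int_hb_sq p).mono' (B.meas_hv s u p).aestronglyMeasurable
    (Filter.Eventually.of_forall fun z => ?_)
  rw [Real.norm_eq_abs, abs_of_nonneg (B.hv_nonneg s u p z)]
  exact B.hv_le s u p z

lemma mh_eq_int (p : Fin P) : B.mh P s u p = ∫ z, B.hm s u p z ∂(B.jl (GI P B.d)) := by
  rw [mh, sys_av, (B.isWt _).rav_marg (0 : Fin 1) (fun z x => B.hh p z.2 x)]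
  rfl

/-- The expected free energy of the perturbed system. -/
noncomputable def elz : ℝ := ∫ z, B.lz s u z ∂(B.jl (GI P B.d))

/-- The process at a random point of the Gibbs measure deviates from a constant by at most the
thermal variance and the deviation of its Gibbs average. -/
lemma dev_le (p : Fin P) (c : ℝ) : B.dev P s u p c ≤
    1 / 2 + (∫ z, B.hv s u p z ∂(B.jl (GI P B.d))) / 2 +
      ∫ z, |B.hm s u p z - c| ∂(B.jl (GI P B.d)) := by
  rw [dev, sys_av, (B.isWt _).rav_marg (0 : Fin 1) (fun z x => |B.hh p z.2 x - c|)]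
  have h1 : Integrable (fun z : B.Ω × (GI P B.d → ℝ) =>
      ∑ y, B.wt (B.coef P s u) z y * |B.hh p z.2 y - c|) (B.jl (GI P B.d)) := by
    refine integrable_finsetSum _ fun y _ => ?_
    refine (integrable_mul_bdd ((B.int_hh P p y).sub (integrable_const c)).abs
      ((B.isWt (B.coef P s u)).meas y) 1 fun z => ?_).congr
      (Filter.Eventually.of_forall fun z => mul_comm _ _)
    rw [abs_of_nonneg ((B.isWt _).nn z y)]
    exact (B.isWt _).le_one z y
  have h2 : Integrable (fun z : B.Ω × (GI P B.d → ℝ) => |B.hm s u p z - c|)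
      (B.jl (GI P B.d)) := ((B.int_hm s u p).sub (integrable_const c)).abs
  have h3 : Integrable (fun z : B.Ω × (GI P B.d → ℝ) => 1 / 2 + B.hv s u p z / 2)
      (B.jl (GI P B.d)) := (integrable_const _).add ((B.int_hv s u p).div_const 2)
  have h4 := integral_mono h1 (h3.add h2) (fun z => ?_)
  · refine h4.trans (le_of_eq ?_)
    simp only [Pi.add_apply]
    rw [integral_add h3 h2, integral_add (integrable_const _) ((B.int_hv s u p).div_const 2),
      integral_const, integral_div]
    simp
  · simp only [Pi.add_apply]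
    have e1 : ∀ y, |B.hh p z.2 y - c| ≤ 1 / 2 + (B.hh p z.2 y - B.hm s u p z) ^ 2 / 2 +
        |B.hm s u p z - c| := by
      intro y
      have t1 : |B.hh p z.2 y - c| ≤ |B.hh p z.2 y - B.hm s u p z| + |B.hm s u p z - c| :=
        abs_sub_le _ _ _
      have t2 : |B.hh p z.2 y - B.hm s u p z| ≤
          1 / 2 + (B.hh p z.2 y - B.hm s u p z) ^ 2 / 2 := by
        rw [← sq_abs]
        linarith only [sq_nonneg (|B.hh p z.2 y - B.hm s u p z| - 1)]
      linarith
    have e2 : ∑ y, B.wt (B.coef P s u) z y * |B.hh p z.2 y - c| ≤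
        ∑ y, B.wt (B.coef P s u) z y * (1 / 2 + (B.hh p z.2 y - B.hm s u p z) ^ 2 / 2 +
        |B.hm s u p z - c|) :=
      Finset.sum_le_sum fun y _ => mul_le_mul_of_nonneg_left (e1 y) ((B.isWt _).nn z y)
    refine e2.trans (le_of_eq ?_)
    have e3 : B.hv s u p z = ∑ y, B.wt (B.coef P s u) z y *
        (B.hh p z.2 y - B.hm s u p z) ^ 2 := B.hv_eq s u p z
    have e4 : ∑ y, B.wt (B.coef P s u) z y = 1 := (B.isWt _).one z
    rw [e3]
    calc _ = (∑ y, B.wt (B.coef P s u) z y) * (1 / 2) +
          (∑ y, B.wt (B.coef P s u) z y * (B.hh p z.2 y - B.hm s u p z) ^ 2) / 2 +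
          (∑ y, B.wt (B.coef P s u) z y) * |B.hm s u p z - c| := by
          rw [Finset.sum_mul, Finset.sum_mul, Finset.sum_div, ← Finset.sum_add_distrib,
            ← Finset.sum_add_distrib]
          exact Finset.sum_congr rfl fun y _ => by ring
      _ = _ := by rw [e4]; ring

end Base

end Vale.Agent.P157.Par
end

section

/-! The average over one parameter of the fluctuation of the perturbation. -/

open MeasureTheory ProbabilityTheory Filter Topology
open scoped RealInnerProductSpace

namespace Vale.Agent.P157.Par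

set_option linter.unusedSectionVars false

/-- Uniform measure on `[1,2]`. -/
noncomputable abbrev nu12 : Measure ℝ := volume.restrict (Set.Icc 1 2)

instance : IsProbabilityMeasure nu12 := ⟨by
  rw [Measure.restrict_apply_univ, Real.volume_Icc]
  norm_num⟩

lemma integral_nu12 (f : ℝ → ℝ) : ∫ v, f v ∂nu12 = ∫ v in (1 : ℝ)..2, f v := by
  rw [intervalIntegral.integral_of_le (by norm_num), integral_Icc_eq_integral_Ioc]

/-- The average increment of a monotone function. -/
lemma mono_increment {M : ℝ → ℝ} (hM : Monotone M) {η L : ℝ} (h0 : 0 < η) (h1 : η ≤ 1)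
    (hn : ∀ v, 0 ≤ v → 0 ≤ M v) (hL : M 3 ≤ L) :
    ∫ v, (M (v + η) - M (v - η)) ∂nu12 ≤ 2 * η * L := by
  have hI : ∀ a b : ℝ, IntervalIntegrable M volume a b := fun a b => hM.intervalIntegrable
  have hI1 : IntervalIntegrable (fun v => M (v + η)) volume 1 2 :=
    (show Monotone fun v => M (v + η) from fun a b h => hM (by linarith only [h])).intervalIntegrable
  have hI2 : IntervalIntegrable (fun v => M (v - η)) volume 1 2 :=
    (show Monotone fun v => M (v - η) from fun a b h => hM (by linarith only [h])).intervalIntegrable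
  rw [integral_nu12, intervalIntegral.integral_sub hI1 hI2,
    intervalIntegral.integral_comp_add_right, intervalIntegral.integral_comp_sub_right]
  have e1 : ∫ v in (1 + η)..(2 + η), M v =
      (∫ v in (1 + η)..(2 - η), M v) + ∫ v in (2 - η)..(2 + η), M v :=
    (intervalIntegral.integral_add_adjacent_intervals (hI _ _) (hI _ _)).symm
  have e2 : ∫ v in (1 - η)..(2 - η), M v =
      (∫ v in (1 - η)..(1 + η), M v) + ∫ v in (1 + η)..(2 - η), M v :=
    (intervalIntegral.integral_add_adjacent_intervals (hI _ _) (hI _ _)).symm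
  have b1 : ∫ v in (2 - η)..(2 + η), M v ≤ ∫ _v in (2 - η)..(2 + η), L := by
    refine intervalIntegral.integral_mono_on (by linarith only [h0]) (hI _ _)
      intervalIntegrable_const fun v hv => ?_
    exact (hM (show v ≤ 3 by linarith only [h1, hv.2])).trans hL
  have b2 : 0 ≤ ∫ v in (1 - η)..(1 + η), M v := by
    refine intervalIntegral.integral_nonneg (by linarith only [h0]) fun v hv => hn v (by linarith only [h1, hv.1])
  rw [intervalIntegral.integral_const] at b1
  simp only [smul_eq_mul] at b1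
  rw [e1, e2]
  linarith only [b1, b2]

namespace Base

variable (B : Base) {P : ℕ} (s : ℝ) (u : Fin P → ℝ)

lemma kap_nonneg (hs : 0 ≤ s) (p : Fin P) : 0 ≤ B.kap s p := by unfold kap; positivity

lemma kap_pos (hs : 0 < s) (p : Fin P) : 0 < B.kap s p := by unfold kap; positivity

lemma hm_mono (hs : 0 ≤ s) (p : Fin P) (z : B.Ω × (GI P B.d → ℝ)) :
    Monotone fun v => B.hm s (Function.update u p v) p z := by
  refine monotone_of_deriv_nonneg (fun v => (B.hasDerivAt_hm s u p z v).differentiableAt)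
    fun v => ?_
  rw [(B.hasDerivAt_hm s u p z v).deriv]
  exact mul_nonneg (B.kap_nonneg s hs p) (B.hv_nonneg s _ p z)

lemma lz_slope (hs : 0 ≤ s) (p : Fin P) (z : B.Ω × (GI P B.d → ℝ)) {a b : ℝ} (hab : a < b) :
    (b - a) * (B.kap s p * B.hm s (Function.update u p a) p z) ≤
      B.lz s (Function.update u p b) z - B.lz s (Function.update u p a) z ∧
    B.lz s (Function.update u p b) z - B.lz s (Function.update u p a) z ≤
      (b - a) * (B.kap s p * B.hm s (Function.update u p b) p z) := by
  obtain ⟨c, hc, h⟩ := exists_hasDerivAt_eq_slope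
    (fun v => B.lz s (Function.update u p v) z)
    (fun v => B.kap s p * B.hm s (Function.update u p v) p z) hab
    (fun v _ => (B.hasDerivAt_lz s u p z v).continuousAt.continuousWithinAt)
    (fun v _ => B.hasDerivAt_lz s u p z v)
  have hba : 0 < b - a := by linarith only [hab]
  rw [eq_div_iff hba.ne'] at h
  have hk := B.kap_nonneg s hs p
  have h1 := B.hm_mono s u hs p z (show a ≤ c from hc.1.le)
  have h2 := B.hm_mono s u hs p z (show c ≤ b from hc.2.le)
  simp only at h1 h2 h
  rw [← h]
  constructor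
  · rw [mul_comm]
    exact mul_le_mul_of_nonneg_right (mul_le_mul_of_nonneg_left h1 hk) hba.le
  · rw [mul_comm]
    exact mul_le_mul_of_nonneg_left (mul_le_mul_of_nonneg_left h2 hk) hba.le

lemma mh_mono (hs : 0 ≤ s) (p : Fin P) :
    Monotone fun v => B.mh P s (Function.update u p v) p := by
  intro a b hab
  simp only [mh_eq_int]
  exact integral_mono (B.int_hm s _ p) (B.int_hm s _ p) fun z => B.hm_mono s u hs p z hab

lemma elz_slope (hs : 0 ≤ s) (p : Fin P) {a b : ℝ} (hab : a < b) :
    (b - a) * (B.kap s p * B.mh P s (Function.update u p a) p) ≤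
      B.elz s (Function.update u p b) - B.elz s (Function.update u p a) ∧
    B.elz s (Function.update u p b) - B.elz s (Function.update u p a) ≤
      (b - a) * (B.kap s p * B.mh P s (Function.update u p b) p) := by
  unfold elz
  rw [← integral_sub (B.int_lz s _) (B.int_lz s _), mh_eq_int, mh_eq_int,
    ← integral_const_mul, ← integral_const_mul, ← integral_const_mul, ← integral_const_mul]
  constructor
  · exact integral_mono (((B.int_hm s _ p).const_mul _).const_mul _)
      ((B.int_lz s _).sub (B.int_lz s _)) fun z => (B.lz_slope s u hs p z hab).1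
  · exact integral_mono ((B.int_lz s _).sub (B.int_lz s _))
      (((B.int_hm s _ p).const_mul _).const_mul _) fun z => (B.lz_slope s u hs p z hab).2

/-- The expected deviation of the free energy. -/
noncomputable def dlz : ℝ := ∫ z, |B.lz s u z - B.elz s u| ∂(B.jl (GI P B.d))

/-- Disorder part, for fixed parameters. -/
lemma disorder_le (hs : 0 ≤ s) (p : Fin P) {v η V : ℝ} (hη : 0 < η)
    (h1 : B.dlz s (Function.update u p v) ≤ V) (h2 : B.dlz s (Function.update u p (v + η)) ≤ V)
    (h3 : B.dlz s (Function.update u p (v - η)) ≤ V) :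
    B.kap s p * ∫ z, |B.hm s (Function.update u p v) p z - B.mh P s (Function.update u p v) p|
      ∂(B.jl (GI P B.d)) ≤ 3 * V / η +
      B.kap s p * (B.mh P s (Function.update u p (v + η)) p -
        B.mh P s (Function.update u p (v - η)) p) := by
  set κ := B.kap s p with hκ
  have hκ0 : 0 ≤ κ := B.kap_nonneg s hs p
  set μ := B.jl (GI P B.d) with hμ
  have pt : ∀ z, η * (κ * |B.hm s (Function.update u p v) p z -
      B.mh P s (Function.update u p v) p|) ≤
      |B.lz s (Function.update u p v) z - B.elz s (Function.update u p v)| +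
      |B.lz s (Function.update u p (v + η)) z - B.elz s (Function.update u p (v + η))| +
      |B.lz s (Function.update u p (v - η)) z - B.elz s (Function.update u p (v - η))| +
      η * (κ * (B.mh P s (Function.update u p (v + η)) p -
        B.mh P s (Function.update u p (v - η)) p)) := by
    intro z
    have a1 := (B.lz_slope s u hs p z (show v < v + η by linarith only [hη])).1
    have a2 := (B.lz_slope s u hs p z (show v - η < v by linarith)).2
    have a3 := (B.elz_slope s u hs p (show v < v + η by linarith)).2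
    have a4 := (B.elz_slope s u hs p (show v - η < v by linarith only [hη])).1
    have a5 := B.mh_mono s u hs p (show v ≤ v + η by linarith only [hη])
    have a6 := B.mh_mono s u hs p (show v - η ≤ v by linarith only [hη])
    simp only at a5 a6
    have a7 := mul_le_mul_of_nonneg_left (mul_le_mul_of_nonneg_left a5 hκ0) hη.le
    have a8 := mul_le_mul_of_nonneg_left (mul_le_mul_of_nonneg_left a6 hκ0) hη.le
    have c1 : v + η - v = η := by ring
    have c2 : v - (v - η) = η := by ring
    rw [c1] at a1 a3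
    rw [c2] at a2 a4
    rw [← abs_of_nonneg hκ0, ← abs_mul, ← abs_of_pos hη, ← abs_mul, abs_of_nonneg hκ0,
      abs_of_pos hη, abs_le]
    have d1 := abs_le.1 (le_refl |B.lz s (Function.update u p v) z -
      B.elz s (Function.update u p v)|)
    have d2 := abs_le.1 (le_refl |B.lz s (Function.update u p (v + η)) z -
      B.elz s (Function.update u p (v + η))|)
    have d3 := abs_le.1 (le_refl |B.lz s (Function.update u p (v - η)) z -
      B.elz s (Function.update u p (v - η))|)
    have n1 := abs_nonneg (B.lz s (Function.update u p (v + η)) z -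
      B.elz s (Function.update u p (v + η)))
    have n2 := abs_nonneg (B.lz s (Function.update u p (v - η)) z -
      B.elz s (Function.update u p (v - η)))
    constructor
    · linarith only [a2, a4, a7, d1, d2, d3]
    · linarith only [a1, a3, a8, d1, d2, d3]
  have hi : ∀ t, Integrable (fun z => |B.lz s (Function.update u p t) z -
      B.elz s (Function.update u p t)|) μ := fun t =>
    ((B.int_lz s _).sub (integrable_const _)).abs
  have hj : Integrable (fun z => |B.hm s (Function.update u p v) p z -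
      B.mh P s (Function.update u p v) p|) μ := ((B.int_hm s _ p).sub (integrable_const _)).abs
  have hint := integral_mono ((hj.const_mul κ).const_mul η)
    ((((hi v).add (hi (v + η))).add (hi (v - η))).add (integrable_const
      (η * (κ * (B.mh P s (Function.update u p (v + η)) p -
        B.mh P s (Function.update u p (v - η)) p))))) pt
  rw [integral_add' (((hi v).add (hi (v + η))).add (hi (v - η))) (integrable_const _),
    integral_add' ((hi v).add (hi (v + η))) (hi (v - η)), integral_add' (hi v) (hi (v + η)),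
    integral_const_mul, integral_const_mul, integral_const] at hint
  simp only [probReal_univ, smul_eq_mul, one_mul] at hint
  have hV : η * (κ * ∫ z, |B.hm s (Function.update u p v) p z -
      B.mh P s (Function.update u p v) p| ∂μ) ≤ 3 * V +
      η * (κ * (B.mh P s (Function.update u p (v + η)) p -
        B.mh P s (Function.update u p (v - η)) p)) := by
    unfold dlz at h1 h2 h3
    linarith only [h1, h2, h3, hint]
  rw [div_add' _ _ _ hη.ne', le_div_iff₀ hη]
  linarith only [hV]

/-- Thermal part. -/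
lemma thermal_le (hs : 0 < s) (p : Fin P) :
    ∫ v, ∫ z, B.hv s (Function.update u p v) p z ∂(B.jl (GI P B.d)) ∂nu12 ≤ 4 := by
  have hκ := B.kap_pos s hs p
  have hmeas : Measurable fun q : ℝ × (B.Ω × (GI P B.d → ℝ)) =>
      B.hv s (Function.update u p q.1) p q.2 := by
    have h : Measurable fun q : ℝ × (B.Ω × (GI P B.d → ℝ)) =>
        (Function.update u p q.1, q.2) :=
      ((cont_upd u p).measurable.comp measurable_fst).prodMk measurable_snd
    have h2 := (B.jmeas_hv s p).comp h
    simp only [Function.comp_def] at h2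
    exact h2
  have hint : Integrable (fun q : ℝ × (B.Ω × (GI P B.d → ℝ)) =>
      B.hv s (Function.update u p q.1) p q.2) (nu12.prod (B.jl (GI P B.d))) := by
    refine ((B.int_hb_sq p).comp_snd nu12).mono' hmeas.aestronglyMeasurable
      (Filter.Eventually.of_forall fun q => ?_)
    rw [Real.norm_eq_abs, abs_of_nonneg (B.hv_nonneg s _ p q.2)]
    exact B.hv_le s _ p q.2
  rw [integral_integral_swap (f := fun v z => B.hv s (Function.update u p v) p z) hint]
  have e1 : ∀ z, ∫ v, B.hv s (Function.update u p v) p z ∂nu12 =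
      (B.kap s p)⁻¹ * (B.hm s (Function.update u p 2) p z - B.hm s (Function.update u p 1) p z) := by
    intro z
    rw [integral_nu12]
    have h := intervalIntegral.integral_eq_sub_of_hasDerivAt (a := 1) (b := 2)
      (f := fun v => B.hm s (Function.update u p v) p z)
      (f' := fun v => B.kap s p * B.hv s (Function.update u p v) p z)
      (fun v _ => B.hasDerivAt_hm s u p z v)
      ((continuous_const.mul ((B.cont_hv s p z).comp (cont_upd u p))).intervalIntegrable _ _)
    rw [intervalIntegral.integral_const_mul] at h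
    rw [← h, ← mul_assoc, inv_mul_cancel₀ hκ.ne', one_mul]
  simp only [e1]
  rw [integral_const_mul, integral_sub (B.int_hm s _ p) (B.int_hm s _ p), ← mh_eq_int,
    ← mh_eq_int]
  have h1 := B.mh_nonneg P s (Function.update u p 1) hs.le p (by simp only [Function.update_self, zero_le_one])
  have h2 := B.mh_le P s (Function.update u p 2) hs.le p (by simp only [Function.update_self, Nat.ofNat_nonneg])
  rw [Function.update_self] at h2
  have h3 : 2 * (s * 2 * (1 / 2) ^ ((p : ℕ) + 1)) = B.kap s p * 4 := by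
    unfold kap; ring
  rw [h3] at h2
  rw [inv_mul_le_iff₀ hκ]
  linarith only [h1, h2]

end Base

end Vale.Agent.P157.Par
end

section

/-! Continuity in the parameters, and the average over all parameters of the fluctuation. -/

open MeasureTheory ProbabilityTheory Filter Topology
open scoped RealInnerProductSpace

namespace Vale.Agent.P157.Par

set_option linter.unusedSectionVars false

namespace Base

variable (B : Base) {P : ℕ} (s : ℝ) (u : Fin P → ℝ)

lemma cont_mh (p : Fin P) : Continuous fun u : Fin P → ℝ => B.mh P s u p := by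
  simp only [mh_eq_int]
  refine continuous_of_dominated (bound := B.hb p)
    (fun u => (B.meas_hm s u p).aestronglyMeasurable)
    (fun u => Filter.Eventually.of_forall fun z => ?_) (B.int_hb p)
    (Filter.Eventually.of_forall fun z => B.cont_hm s p z)
  rw [Real.norm_eq_abs]
  exact B.abs_hm_le s u p z

/-- The deviation as an integral. -/
lemma dev_eq_int (p : Fin P) (c : ℝ) : B.dev P s u p c =
    ∫ z, ∑ y, B.wt (B.coef P s u) z y * |B.hh p z.2 y - c| ∂(B.jl (GI P B.d)) := by
  rw [dev, sys_av, (B.isWt _).rav_marg (0 : Fin 1) (fun z x => |B.hh p z.2 x - c|)]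

lemma int_devf (p : Fin P) (c : ℝ) : Integrable (fun z : B.Ω × (GI P B.d → ℝ) =>
    ∑ y, B.wt (B.coef P s u) z y * |B.hh p z.2 y - c|) (B.jl (GI P B.d)) := by
  refine integrable_finsetSum _ fun y _ => ?_
  refine (integrable_mul_bdd ((B.int_hh P p y).sub (integrable_const c)).abs
    ((B.isWt (B.coef P s u)).meas y) 1 fun z => ?_).congr
    (Filter.Eventually.of_forall fun z => mul_comm _ _)
  rw [abs_of_nonneg ((B.isWt _).nn z y)]
  exact (B.isWt _).le_one z y

lemma sum_wt_mul_le (z : B.Ω × (GI P B.d → ℝ)) {f : B.X → ℝ} {C : ℝ} (hf : ∀ y, f y ≤ C) :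
    ∑ y, B.wt (B.coef P s u) z y * f y ≤ C := by
  calc _ ≤ ∑ y, B.wt (B.coef P s u) z y * C :=
        Finset.sum_le_sum fun y _ => mul_le_mul_of_nonneg_left (hf y) ((B.isWt _).nn z y)
    _ = C := by rw [← Finset.sum_mul, (B.isWt _).one z, one_mul]

lemma dev_nonneg (p : Fin P) (c : ℝ) : 0 ≤ B.dev P s u p c := by
  rw [dev_eq_int]
  exact integral_nonneg fun z => Finset.sum_nonneg fun y _ =>
    mul_nonneg ((B.isWt _).nn z y) (abs_nonneg _)

lemma cont_dev_const (p : Fin P) (c : ℝ) : Continuous fun u : Fin P → ℝ => B.dev P s u p c := by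
  simp only [dev_eq_int]
  refine continuous_of_dominated (bound := fun z => B.hb p z + |c|)
    (fun u => (B.int_devf s u p c).aestronglyMeasurable)
    (fun u => Filter.Eventually.of_forall fun z => ?_) ((B.int_hb p).add (integrable_const _))
    (Filter.Eventually.of_forall fun z => ?_)
  · rw [Real.norm_eq_abs, abs_of_nonneg (Finset.sum_nonneg fun y _ =>
      mul_nonneg ((B.isWt _).nn z y) (abs_nonneg _))]
    refine B.sum_wt_mul_le s u z fun y => ?_
    exact (abs_sub _ _).trans (add_le_add (B.abs_hh_le p z y) le_rfl)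
  · exact continuous_finsetSum _ fun y _ => (B.cont_gwt s z y).mul continuous_const

lemma abs_dev_sub_le (p : Fin P) (c c' : ℝ) :
    |B.dev P s u p c - B.dev P s u p c'| ≤ |c - c'| := by
  have key : ∀ c c' : ℝ, B.dev P s u p c ≤ B.dev P s u p c' + |c - c'| := by
    intro c c'
    rw [dev_eq_int, dev_eq_int]
    have h : ∫ _z : B.Ω × (GI P B.d → ℝ), |c - c'| ∂(B.jl (GI P B.d)) = |c - c'| := by simp
    rw [← h, ← integral_add (B.int_devf s u p c') (integrable_const _)]
    refine integral_mono (B.int_devf s u p c) ((B.int_devf s u p c').add (integrable_const _))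
      fun z => ?_
    simp only
    have e : |c - c'| = ∑ y, B.wt (B.coef P s u) z y * |c - c'| := by
      rw [← Finset.sum_mul, (B.isWt _).one z, one_mul]
    rw [e, ← Finset.sum_add_distrib]
    refine Finset.sum_le_sum fun y _ => ?_
    rw [← mul_add]
    refine mul_le_mul_of_nonneg_left ?_ ((B.isWt _).nn z y)
    have h1 : B.hh p z.2 y - c = (B.hh p z.2 y - c') + (c' - c) := by ring
    rw [h1, abs_sub_comm c c']
    exact abs_add_le _ _
  rw [abs_le]
  constructor
  · have := key c' c
    rw [abs_sub_comm] at this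
    linarith only [this]
  · have := key c c'
    linarith

/-- The fluctuation is continuous in the parameters. -/
lemma cont_dev (p : Fin P) :
    Continuous fun u : Fin P → ℝ => B.dev P s u p (B.mh P s u p) := by
  rw [continuous_iff_continuousAt]
  intro u
  have h1 : Tendsto (fun u' : Fin P → ℝ => B.dev P s u' p (B.mh P s u p)) (𝓝 u)
      (𝓝 (B.dev P s u p (B.mh P s u p))) := (B.cont_dev_const s p _).continuousAt
  have h2 : Tendsto (fun u' : Fin P → ℝ => B.dev P s u' p (B.mh P s u' p) -
      B.dev P s u' p (B.mh P s u p)) (𝓝 u) (𝓝 0) := by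
    have h3 : Tendsto (fun u' : Fin P → ℝ => |B.mh P s u' p - B.mh P s u p|) (𝓝 u) (𝓝 0) := by
      have h4 : Tendsto (fun u' : Fin P → ℝ => B.mh P s u' p) (𝓝 u) (𝓝 (B.mh P s u p)) :=
        (B.cont_mh s p).continuousAt
      have h5 := (h4.sub_const (B.mh P s u p)).abs
      simpa only [sub_self, abs_zero] using h5
    refine squeeze_zero_norm (fun u' => ?_) h3
    rw [Real.norm_eq_abs]
    exact B.abs_dev_sub_le s u' p _ _
  have h6 := h2.add h1
  simp only [sub_add_cancel, zero_add] at h6
  exact h6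

lemma abs_lz_sub_le (u' : Fin P → ℝ) (z : B.Ω × (GI P B.d → ℝ)) :
    |B.lz s u z - B.lz s u' z| ≤ |s| * ∑ p, |u p - u' p| * B.hb p z := by
  unfold lz
  refine abs_glog_sub_le fun x => ?_
  rw [gen_eq, gen_eq]
  have h : B.H z.1 x + s * ∑ p : Fin P, u p * (1 / 2) ^ ((p : ℕ) + 1) * B.hh p z.2 x -
      (B.H z.1 x + s * ∑ p : Fin P, u' p * (1 / 2) ^ ((p : ℕ) + 1) * B.hh p z.2 x) =
      s * ∑ p : Fin P, (u p - u' p) * ((1 / 2) ^ ((p : ℕ) + 1) * B.hh p z.2 x) := by
    rw [add_sub_add_left_eq_sub, ← mul_sub, ← Finset.sum_sub_distrib]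
    congr 1
    exact Finset.sum_congr rfl fun p _ => by ring
  rw [h, abs_mul]
  refine mul_le_mul_of_nonneg_left ?_ (abs_nonneg _)
  refine (Finset.abs_sum_le_sum_abs _ _).trans (Finset.sum_le_sum fun p _ => ?_)
  rw [abs_mul, abs_mul]
  refine mul_le_mul_of_nonneg_left ?_ (abs_nonneg _)
  have h1 : |((1 : ℝ) / 2) ^ ((p : ℕ) + 1)| ≤ 1 := by
    rw [abs_of_pos (by positivity)]
    exact pow_le_one₀ (by norm_num) (by norm_num)
  exact (mul_le_of_le_one_left (abs_nonneg _) h1).trans (B.abs_hh_le p z x)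

/-- The expected free energy is continuous in the parameters. -/
lemma cont_elz : Continuous fun u : Fin P → ℝ => B.elz s u := by
  rw [continuous_iff_continuousAt]
  intro u
  have h0 : ∀ u' : Fin P → ℝ, |B.elz s u' - B.elz s u| ≤
      |s| * ∑ p, |u' p - u p| * ∫ z, B.hb p z ∂(B.jl (GI P B.d)) := by
    intro u'
    unfold elz
    rw [← integral_sub (B.int_lz s _) (B.int_lz s _)]
    refine (abs_integral_le_integral_abs).trans ?_
    have hi : Integrable (fun z : B.Ω × (GI P B.d → ℝ) =>
        |s| * ∑ p, |u' p - u p| * B.hb p z) (B.jl (GI P B.d)) :=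
      (integrable_finsetSum _ fun p _ => (B.int_hb p).const_mul _).const_mul _
    refine (integral_mono ((B.int_lz s _).sub (B.int_lz s _)).abs hi
      fun z => B.abs_lz_sub_le s u' u z).trans (le_of_eq ?_)
    rw [integral_const_mul, integral_finsetSum _ fun p _ => (B.int_hb p).const_mul _]
    congr 1
    exact Finset.sum_congr rfl fun p _ => integral_const_mul _ _
  have h1 : Tendsto (fun u' : Fin P → ℝ => |s| * ∑ p, |u' p - u p| *
      ∫ z, B.hb p z ∂(B.jl (GI P B.d))) (𝓝 u) (𝓝 0) := by
    have hc : Continuous fun u' : Fin P → ℝ => |s| * ∑ p, |u' p - u p| *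
        ∫ z, B.hb p z ∂(B.jl (GI P B.d)) :=
      continuous_const.mul (continuous_finsetSum _ fun p _ =>
        (((continuous_apply p).sub continuous_const).abs).mul continuous_const)
    have h2 := hc.tendsto u
    simpa only [sub_self, abs_zero, zero_mul, Finset.sum_const_zero, mul_zero] using h2
  have h2 : Tendsto (fun u' => B.elz s u' - B.elz s u) (𝓝 u) (𝓝 0) :=
    squeeze_zero_norm (fun u' => by rw [Real.norm_eq_abs]; exact h0 u') h1
  have h3 := h2.add_const (B.elz s u)
  simp only [sub_add_cancel, zero_add] at h3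
  exact h3

/-- Average over one parameter. -/
lemma integral_dev_one (hs : 0 < s) (p : Fin P) {η V : ℝ} (h0 : 0 < η) (h1 : η ≤ 1)
    (hu : ∀ q, 0 ≤ u q ∧ u q ≤ 3)
    (hV : ∀ u : Fin P → ℝ, (∀ q, 0 ≤ u q ∧ u q ≤ 3) → B.dlz s u ≤ V) :
    ∫ v, B.dev P s (Function.update u p v) p (B.mh P s (Function.update u p v) p) ∂nu12 ≤
      5 / 2 + 3 * V / (η * B.kap s p) + 12 * η * B.kap s p := by
  have hκ := B.kap_pos s hs p
  have hupd : ∀ v : ℝ, 0 ≤ v → v ≤ 3 → ∀ q, 0 ≤ Function.update u p v q ∧
      Function.update u p v q ≤ 3 := by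
    intro v hv0 hv3 q
    by_cases h : q = p
    · subst h
      simp only [Function.update_self, hv0, hv3, and_self]
    · rw [Function.update_of_ne h]
      exact hu q
  have hmeas : Measurable fun q : ℝ × (B.Ω × (GI P B.d → ℝ)) =>
      B.hv s (Function.update u p q.1) p q.2 := by
    have h : Measurable fun q : ℝ × (B.Ω × (GI P B.d → ℝ)) =>
        (Function.update u p q.1, q.2) :=
      ((cont_upd u p).measurable.comp measurable_fst).prodMk measurable_snd
    have h2 := (B.jmeas_hv s p).comp h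
    simp only [Function.comp_def] at h2
    exact h2
  have hint : Integrable (fun q : ℝ × (B.Ω × (GI P B.d → ℝ)) =>
      B.hv s (Function.update u p q.1) p q.2) (nu12.prod (B.jl (GI P B.d))) := by
    refine ((B.int_hb_sq p).comp_snd nu12).mono' hmeas.aestronglyMeasurable
      (Filter.Eventually.of_forall fun q => ?_)
    rw [Real.norm_eq_abs, abs_of_nonneg (B.hv_nonneg s _ p q.2)]
    exact B.hv_le s _ p q.2
  have hi1 : Integrable (fun v => ∫ z, B.hv s (Function.update u p v) p z
      ∂(B.jl (GI P B.d))) nu12 := hint.integral_prod_left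
  have hcont : Continuous fun v => B.mh P s (Function.update u p v) p :=
    (B.cont_mh s p).comp (cont_upd u p)
  have hi2 : Integrable (fun v => B.mh P s (Function.update u p (v + η)) p -
      B.mh P s (Function.update u p (v - η)) p) nu12 := by
    have hc : Continuous fun v => B.mh P s (Function.update u p (v + η)) p -
      B.mh P s (Function.update u p (v - η)) p :=
      (hcont.comp (continuous_id.add continuous_const)).sub
        (hcont.comp (continuous_id.sub continuous_const))
    exact hc.continuousOn.integrableOn_compact isCompact_Icc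
  have hb : ∀ᵐ v ∂nu12, B.dev P s (Function.update u p v) p
      (B.mh P s (Function.update u p v) p) ≤
      1 / 2 + (∫ z, B.hv s (Function.update u p v) p z ∂(B.jl (GI P B.d))) / 2 +
      (3 * V / (η * B.kap s p) + (B.mh P s (Function.update u p (v + η)) p -
      B.mh P s (Function.update u p (v - η)) p)) := by
    filter_upwards [ae_restrict_mem measurableSet_Icc] with v hv
    have t1 := B.dev_le s (Function.update u p v) p (B.mh P s (Function.update u p v) p)
    have t2 := B.disorder_le s u hs.le p h0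
      (hV _ (hupd v (by linarith only [hv.1]) (by linarith only [hv.2])))
      (hV _ (hupd (v + η) (by linarith only [h0, hv.1]) (by linarith only [h1, hv.2])))
      (hV _ (hupd (v - η) (by linarith only [h1, hv.1]) (by linarith only [h0, hv.2])))
    have t3 : ∫ z, |B.hm s (Function.update u p v) p z - B.mh P s (Function.update u p v) p|
        ∂(B.jl (GI P B.d)) ≤ 3 * V / (η * B.kap s p) +
        (B.mh P s (Function.update u p (v + η)) p -
          B.mh P s (Function.update u p (v - η)) p) := by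
      rw [← mul_le_mul_iff_of_pos_left hκ]
      refine t2.trans (le_of_eq ?_)
      (clear * - h0 hκ; field_simp)
    linarith only [t1, t3]
  have hj1 : Integrable (fun v => 1 / 2 + (∫ z, B.hv s (Function.update u p v) p z
      ∂(B.jl (GI P B.d))) / 2) nu12 := (integrable_const _).add (hi1.div_const 2)
  have hj2 : Integrable (fun v => 3 * V / (η * B.kap s p) +
      (B.mh P s (Function.update u p (v + η)) p -
      B.mh P s (Function.update u p (v - η)) p)) nu12 := (integrable_const _).add hi2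
  have hi3 : Integrable (fun v => 1 / 2 + (∫ z, B.hv s (Function.update u p v) p z
      ∂(B.jl (GI P B.d))) / 2 +
      (3 * V / (η * B.kap s p) + (B.mh P s (Function.update u p (v + η)) p -
      B.mh P s (Function.update u p (v - η)) p))) nu12 := hj1.add hj2
  refine (integral_mono_of_nonneg (Filter.Eventually.of_forall fun v => B.dev_nonneg s _ p _)
    hi3 hb).trans ?_
  rw [integral_add hj1 hj2, integral_add (integrable_const _) (hi1.div_const 2),
    integral_add (integrable_const _) hi2]
  simp only [integral_div, integral_const, probReal_univ, smul_eq_mul, one_mul]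
  have t4 := B.thermal_le s u hs p
  have t5 := mono_increment (B.mh_mono s u hs.le p) h0 h1 (L := 6 * B.kap s p)
    (fun v hv => B.mh_nonneg P s _ hs.le p (by rw [Function.update_self]; exact hv)) (by
      have h2 := B.mh_le P s (Function.update u p 3) hs.le p (by simp)
      rw [Function.update_self] at h2
      refine h2.trans (le_of_eq ?_)
      unfold kap; ring)
  linarith

end Base

section Resample

variable {E : Type*} [MeasurableSpace E] {ι : Type*} [Fintype ι] [DecidableEq ι]

lemma measurable_upd' (e : ι) :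
    Measurable (fun q : (ι → E) × E => Function.update q.1 e q.2) := by
  rw [measurable_pi_iff]
  intro i
  by_cases h : i = e
  · subst h
    simp only [Function.update_self]
    exact measurable_snd
  · simp only [Function.update_of_ne h]
    exact (measurable_pi_apply i).comp measurable_fst

/-- Resampling one coordinate. -/
lemma map_update' (μ : Measure E) [IsProbabilityMeasure μ] (e : ι) :
    ((Measure.pi fun _ : ι => μ).prod μ).map
      (fun q : (ι → E) × E => Function.update q.1 e q.2) = Measure.pi fun _ : ι => μ := by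
  symm
  apply Measure.pi_eq
  intro s hs
  rw [Measure.map_apply (measurable_upd' e) (MeasurableSet.univ_pi hs)]
  have h1 : (fun q : (ι → E) × E => Function.update q.1 e q.2) ⁻¹' (Set.univ.pi s)
      = (Set.univ.pi (Function.update s e Set.univ)) ×ˢ (s e) := by
    ext ⟨J, x⟩
    simp only [Set.mem_preimage, Set.mem_pi, Set.mem_univ, forall_true_left, Set.mem_prod]
    constructor
    · intro h
      refine ⟨fun i => ?_, ?_⟩
      · by_cases hi : i = e
        · subst hi; simp
        · have := h i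
          simpa [Function.update_of_ne hi] using this
      · simpa using h e
    · rintro ⟨h, h'⟩ i
      by_cases hi : i = e
      · subst hi; simpa using h'
      · have := h i
        simpa [Function.update_of_ne hi] using this
  rw [h1, Measure.prod_prod, Measure.pi_pi]
  rw [← Finset.prod_erase_mul _ _ (Finset.mem_univ e),
    ← Finset.prod_erase_mul (s := Finset.univ) (a := e) _ (Finset.mem_univ e)]
  simp only [Function.update_self, measure_univ, mul_one]
  congr 1
  apply Finset.prod_congr rfl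
  intro i hi
  rw [Function.update_of_ne (Finset.ne_of_mem_erase hi)]

lemma integral_resample (μ : Measure E) [IsProbabilityMeasure μ] (e : ι) {F : (ι → E) → ℝ}
    (hF : Integrable F (Measure.pi fun _ : ι => μ)) :
    ∫ J, F J ∂(Measure.pi fun _ : ι => μ) =
      ∫ J, ∫ x, F (Function.update J e x) ∂μ ∂(Measure.pi fun _ : ι => μ) := by
  have hF' : Integrable F (((Measure.pi fun _ : ι => μ).prod μ).map
      (fun q : (ι → E) × E => Function.update q.1 e q.2)) := by
    rw [map_update']; exact hF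
  conv_lhs => rw [← map_update' μ e]
  rw [integral_map (measurable_upd' e).aemeasurable hF'.aestronglyMeasurable]
  rw [integral_prod]
  exact (integrable_map_measure hF'.aestronglyMeasurable
    (measurable_upd' e).aemeasurable).mp hF'

end Resample

/-- The average over all parameters in `[1,2]`. -/
noncomputable abbrev nuP (P : ℕ) : Measure (Fin P → ℝ) := Measure.pi fun _ : Fin P => nu12

lemma nuP_eq (P : ℕ) : nuP P = volume.restrict (Set.univ.pi fun _ : Fin P => Set.Icc 1 2) := by
  rw [volume_pi, Measure.restrict_pi_pi]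

lemma ae_nuP (P : ℕ) : ∀ᵐ u ∂(nuP P), ∀ q, 1 ≤ u q ∧ u q ≤ 2 := by
  rw [nuP_eq]
  filter_upwards [ae_restrict_mem (MeasurableSet.univ_pi fun _ => measurableSet_Icc)] with u hu q
  exact hu q (Set.mem_univ q)

lemma int_nuP {P : ℕ} {f : (Fin P → ℝ) → ℝ} (hf : Continuous f) : Integrable f (nuP P) := by
  rw [nuP_eq]
  exact hf.continuousOn.integrableOn_compact (isCompact_univ_pi fun _ => isCompact_Icc)

/-- The average over all parameters of the fluctuation of the `p`-th process. -/
theorem Base.integral_dev_le (B : Base) {P : ℕ} (s : ℝ) (hs : 0 < s) (p : Fin P) {η V : ℝ}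
    (h0 : 0 < η) (h1 : η ≤ 1)
    (hV : ∀ u : Fin P → ℝ, (∀ q, 0 ≤ u q ∧ u q ≤ 3) → B.dlz s u ≤ V) :
    ∫ u, B.dev P s u p (B.mh P s u p) ∂(nuP P) ≤
      5 / 2 + 3 * V / (η * B.kap s p) + 12 * η * B.kap s p := by
  rw [integral_resample nu12 p (int_nuP (B.cont_dev s p))]
  have hb : ∀ᵐ u ∂(nuP P), ∫ v, B.dev P s (Function.update u p v) p
      (B.mh P s (Function.update u p v) p) ∂nu12 ≤
      5 / 2 + 3 * V / (η * B.kap s p) + 12 * η * B.kap s p := by
    filter_upwards [ae_nuP P] with u hu
    exact B.integral_dev_one s u hs p h0 h1 (fun q => ⟨by linarith only [(hu q).1],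
      by linarith only [(hu q).2]⟩) hV
  refine (integral_mono_of_nonneg (Filter.Eventually.of_forall fun u => ?_)
    (integrable_const _) hb).trans (by simp only [integral_const, probReal_univ, smul_eq_mul, one_mul, Std.le_refl])
  exact integral_nonneg fun v => B.dev_nonneg s _ p _

end Vale.Agent.P157.Par
end

section

open MeasureTheory ProbabilityTheory

namespace Vale.Agent.P157

end Vale.Agent.P157
end

section

open MeasureTheory ProbabilityTheory

namespace Vale.Agent.P157

section
variable {E : Type*} [MeasurableSpace E] (μ : Measure E) [IsProbabilityMeasure μ]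

end

end Vale.Agent.P157
end
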