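import Mathlib
import Vale.Agent.P367.GT.Stein
attribute [-instance] ProperSMul.toContinuousSMul IsTopologicalTorsor.toContinuousSMul IdemSemiring.toCanonicallyOrderedAdd IdemSemiring.toMulLeftMono IdemSemiring.toMulRightMono AddQuantale.instAddLeftMono AddQuantale.instAddRightMono Quantale.instMulLeftMono Quantale.instMulRightMono FiniteDimensional.rclike_to_real IsScalarTower.complexToReal FiniteDimensional.complexToReal

set_option linter.all false

section

open MeasureTheory ProbabilityTheory Filter Topology Finset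

namespace Vale.Agent.P157.Par

set_option linter.unusedSectionVars false

open Vale.Agent.P367.GT (gM stein_pi)

variable {J K : Type} [Fintype J] [DecidableEq J] [Fintype K] [DecidableEq K]

/-- The linear forms `Z_a(ξ) = ∑ U_{a c} ξ_c`. -/
def lin (U : J → K → ℝ) (ξ : K → ℝ) (a : J) : ℝ := ∑ c, U a c * ξ c

/-- `E ∏ f_a(Z_a)`. -/
noncomputable def gE (U : J → K → ℝ) (f : J → ℝ → ℝ) : ℝ :=
  ∫ ξ, ∏ a, f a (lin U ξ a) ∂(gM K)

/-- The Gram matrix. -/
def gram (U V : J → K → ℝ) (a b : J) : ℝ := ∑ c, U a c * V b c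

lemma measurable_lin (U : J → K → ℝ) (a : J) : Measurable fun ξ : K → ℝ => lin U ξ a := by
  unfold lin; fun_prop

lemma measurable_prod_lin {U : J → K → ℝ} {f : J → ℝ → ℝ} (hf : ∀ a, Measurable (f a))
    (s : Finset J) : Measurable fun ξ : K → ℝ => ∏ a ∈ s, f a (lin U ξ a) := by
  refine Finset.measurable_prod _ fun a _ => (hf a).comp (measurable_lin U a)

lemma abs_prod_le {s : Finset J} {f : J → ℝ} {C : ℝ} (hf : ∀ a ∈ s, |f a| ≤ C) :
    |∏ a ∈ s, f a| ≤ C ^ s.card := by
  rw [Finset.abs_prod, ← Finset.prod_const]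
  exact Finset.prod_le_prod (fun _ _ => abs_nonneg _) hf

lemma integrable_prod_lin {U : J → K → ℝ} {f : J → ℝ → ℝ} (hf : ∀ a, Measurable (f a))
    {C : ℝ} (hC : ∀ a x, |f a x| ≤ C) (s : Finset J) :
    Integrable (fun ξ : K → ℝ => ∏ a ∈ s, f a (lin U ξ a)) (gM K) := by
  refine Integrable.mono' (integrable_const (C ^ s.card))
    (measurable_prod_lin hf s).aestronglyMeasurable (Filter.Eventually.of_forall fun ξ => ?_)
  rw [Real.norm_eq_abs]
  exact abs_prod_le fun a _ => hC a _

lemma abs_gE_le {U : J → K → ℝ} {f : J → ℝ → ℝ} {C : J → ℝ}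
    (hC : ∀ a x, |f a x| ≤ C a) : |gE U f| ≤ ∏ a, C a := by
  unfold gE
  rw [← Real.norm_eq_abs]
  calc ‖∫ ξ, ∏ a, f a (lin U ξ a) ∂(gM K)‖ ≤ ∫ ξ, (∏ a, C a) ∂(gM K) := by
        refine norm_integral_le_of_norm_le (integrable_const _)
          (Filter.Eventually.of_forall fun ξ => ?_)
        rw [Real.norm_eq_abs, Finset.abs_prod]
        exact Finset.prod_le_prod (fun _ _ => abs_nonneg _) fun a _ => hC a _
    _ = ∏ a, C a := by simp only [integral_const, probReal_univ, smul_eq_mul, one_mul]

/-- A time dependent function with two space derivatives and one time derivative, all bounded. -/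
structure Nice (T : Set ℝ) (C : ℝ) (h ht hx hxx : ℝ → ℝ → ℝ) : Prop where
  m0 : ∀ t ∈ T, Measurable (h t)
  mt : ∀ t ∈ T, Measurable (ht t)
  m1 : ∀ t ∈ T, Measurable (hx t)
  m2 : ∀ t ∈ T, Measurable (hxx t)
  b0 : ∀ t ∈ T, ∀ x, |h t x| ≤ C
  bt : ∀ t ∈ T, ∀ x, |ht t x| ≤ C
  b1 : ∀ t ∈ T, ∀ x, |hx t x| ≤ C
  b2 : ∀ t ∈ T, ∀ x, |hxx t x| ≤ C
  path : ∀ t ∈ T, ∀ (x : ℝ → ℝ) (x' : ℝ), HasDerivAt x x' t →
    HasDerivAt (fun s => h s (x s)) (ht t (x t) + hx t (x t) * x') t
  d1 : ∀ t ∈ T, ∀ x, HasDerivAt (h t) (hx t x) x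
  d2 : ∀ t ∈ T, ∀ x, HasDerivAt (hx t) (hxx t x) x

/-- The functions in the second derivative of a product. -/
def D2 (h hx hxx : J → ℝ → ℝ) (a b : J) : J → ℝ → ℝ :=
  if a = b then Function.update h a (hxx a)
  else Function.update (Function.update h a (hx a)) b (hx b)

lemma prod_update (f : J → ℝ → ℝ) (a : J) (g : ℝ → ℝ) (z : J → ℝ) :
    ∏ b, Function.update f a g b (z b) = g (z a) * ∏ b ∈ univ.erase a, f b (z b) := by
  rw [← Finset.mul_prod_erase _ _ (Finset.mem_univ a)]
  congr 1
  · simp
  · apply Finset.prod_congr rfl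
    intro b hb
    rw [Function.update_of_ne (Finset.ne_of_mem_erase hb)]

lemma lin_update_hasDerivAt (U : J → K → ℝ) (ξ : K → ℝ) (c : K) (b : J) (x : ℝ) :
    HasDerivAt (fun y => lin U (Function.update ξ c y) b) (U b c) x := by
  have h1 : (fun y => lin U (Function.update ξ c y) b) =
      fun y => U b c * y + ∑ c' ∈ univ.erase c, U b c' * ξ c' := by
    funext y
    unfold lin
    rw [← Finset.add_sum_erase _ _ (Finset.mem_univ c)]
    congr 1
    · simp
    · apply Finset.sum_congr rfl
      intro c' hc'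
      rw [Function.update_of_ne (Finset.ne_of_mem_erase hc')]
  rw [h1]
  have h2 := ((hasDerivAt_id x).const_mul (U b c)).add_const
    (∑ c' ∈ univ.erase c, U b c' * ξ c')
  rwa [mul_one] at h2

/-- Integration by parts for a product. -/
lemma stein_prod (U : J → K → ℝ) {h hx hxx : J → ℝ → ℝ} {C : ℝ}
    (m0 : ∀ a, Measurable (h a)) (m1 : ∀ a, Measurable (hx a)) (m2 : ∀ a, Measurable (hxx a))
    (b0 : ∀ a x, |h a x| ≤ C) (b1 : ∀ a x, |hx a x| ≤ C) (b2 : ∀ a x, |hxx a x| ≤ C)
    (d1 : ∀ a x, HasDerivAt (h a) (hx a x) x) (d2 : ∀ a x, HasDerivAt (hx a) (hxx a x) x)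
    (a : J) (c : K) :
    ∫ ξ, ξ c * ∏ b, Function.update h a (hx a) b (lin U ξ b) ∂(gM K) =
      ∑ b, U b c * gE U (D2 h hx hxx a b) := by
  classical
  have hC : 0 ≤ C := (abs_nonneg _).trans (b0 a 0)
  set f : J → ℝ → ℝ := Function.update h a (hx a) with hf
  set f' : J → ℝ → ℝ := Function.update hx a (hxx a) with hf'
  have mf : ∀ b, Measurable (f b) := by
    intro b
    by_cases hb : b = a
    · subst hb; simpa [hf] using m1 b
    · simpa [hf, Function.update_of_ne hb] using m0 b
  have mf' : ∀ b, Measurable (f' b) := by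
    intro b
    by_cases hb : b = a
    · subst hb; simpa [hf'] using m2 b
    · simpa [hf', Function.update_of_ne hb] using m1 b
  have bf : ∀ b x, |f b x| ≤ C := by
    intro b x
    by_cases hb : b = a
    · subst hb; simpa only [hf, Function.update_self] using b1 b x
    · simpa [hf, Function.update_of_ne hb] using b0 b x
  have bf' : ∀ b x, |f' b x| ≤ C := by
    intro b x
    by_cases hb : b = a
    · subst hb; simpa only [hf', Function.update_self] using b2 b x
    · simpa only [hf', Function.update_of_ne hb] using b1 b x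
  have df : ∀ b x, HasDerivAt (f b) (f' b x) x := by
    intro b x
    by_cases hb : b = a
    · subst hb; simpa [hf, hf'] using d2 b x
    · simpa [hf, hf', Function.update_of_ne hb] using d1 b x
  have hD : ∀ b, D2 h hx hxx a b = Function.update f b (f' b) := by
    intro b
    unfold D2
    split_ifs with hab
    · subst hab
      simp [hf, hf']
    · have hba : b ≠ a := fun h => hab h.symm
      simp [hf, hf', Function.update_of_ne hba]
  have hG' : ∀ ξ : K → ℝ, ∑ b, U b c * ∏ b', Function.update f b (f' b) b' (lin U ξ b') =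
      ∑ b, (∏ b' ∈ univ.erase b, f b' (lin U ξ b')) • (f' b (lin U ξ b) * U b c) := by
    intro ξ
    apply Finset.sum_congr rfl
    intro b _
    rw [prod_update, smul_eq_mul]
    ring
  have mU : ∀ b, Measurable fun ξ : K → ℝ => ∏ b', Function.update f b (f' b) b' (lin U ξ b') := by
    intro b
    apply measurable_prod_lin
    intro b'
    by_cases hb : b' = b
    · subst hb; simpa using mf' b'
    · simpa [Function.update_of_ne hb] using mf b'
  have bU : ∀ b b' x, |Function.update f b (f' b) b' x| ≤ C := by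
    intro b b' x
    by_cases hb : b' = b
    · subst hb; simpa only [Function.update_self] using bf' b' x
    · simpa only [Function.update_of_ne hb] using bf b' x
  have key := stein_pi (ι := K) c (fun ξ => ∏ b, f b (lin U ξ b))
    (fun ξ => ∑ b, U b c * ∏ b', Function.update f b (f' b) b' (lin U ξ b'))
    (max (C ^ (univ : Finset J).card) (∑ b, |U b c| * C ^ (univ : Finset J).card))
    (measurable_prod_lin mf _)
    (Finset.measurable_sum _ fun b _ => (mU b).const_mul _) ?_ ?_ ?_
  · rw [key, integral_finsetSum _ fun b _ => ?_]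
    · apply Finset.sum_congr rfl
      intro b _
      rw [integral_const_mul, hD b]
      rfl
    · apply Integrable.const_mul
      apply integrable_prod_lin (C := C)
      · intro b'
        by_cases hb : b' = b
        · subst hb; simpa using mf' b'
        · simpa [Function.update_of_ne hb] using mf b'
      · exact bU b
  · intro ξ x
    rw [hG']
    have h2 : ∀ b ∈ (univ : Finset J), HasDerivAt
        (fun y => f b (lin U (Function.update ξ c y) b))
        (f' b (lin U (Function.update ξ c x) b) * U b c) x := by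
      intro b _
      exact (df b _).comp x (lin_update_hasDerivAt U ξ c b x)
    exact HasDerivAt.fun_finsetProd h2
  · intro ξ
    exact (abs_prod_le fun b _ => bf b _).trans (le_max_left _ _)
  · intro ξ
    refine le_trans (Finset.abs_sum_le_sum_abs _ _) (le_trans ?_ (le_max_right _ _))
    apply Finset.sum_le_sum
    intro b _
    rw [abs_mul]
    exact mul_le_mul_of_nonneg_left (abs_prod_le fun b' _ => bU b b' _) (abs_nonneg _)

lemma integrable_coord_gM (c : K) : Integrable (fun ξ : K → ℝ => ξ c) (gM K) :=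
  integrable_comp_eval (μ := fun _ : K => gaussianReal 0 1) (i := c) (f := fun x => x)
    ((memLp_id_gaussianReal 1).integrable le_rfl)

lemma lin_hasDerivAt {U : ℝ → J → K → ℝ} {U' : J → K → ℝ} {t : ℝ} {a : J}
    (hU : ∀ c, HasDerivAt (fun s => U s a c) (U' a c) t) (ξ : K → ℝ) :
    HasDerivAt (fun s => lin (U s) ξ a) (lin U' ξ a) t := by
  unfold lin
  exact HasDerivAt.fun_sum fun c _ => (hU c).mul_const _

lemma abs_lin_le {U : J → K → ℝ} {B : ℝ} {a : J} (hB : ∀ c, |U a c| ≤ B) (ξ : K → ℝ) :
    |lin U ξ a| ≤ B * ∑ c, |ξ c| := by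
  unfold lin
  calc |∑ c, U a c * ξ c| ≤ ∑ c, |U a c * ξ c| := Finset.abs_sum_le_sum_abs _ _
    _ ≤ ∑ c, B * |ξ c| := by
        apply Finset.sum_le_sum
        intro c _
        rw [abs_mul]
        exact mul_le_mul_of_nonneg_right (hB c) (abs_nonneg _)
    _ = B * ∑ c, |ξ c| := by rw [Finset.mul_sum]

/-- Differentiation of `E ∏ h_a(t, Z_a(t))`. -/
theorem hasDerivAt_gE {T : Set ℝ} (hT : IsOpen T) {C : ℝ} {h ht hx hxx : J → ℝ → ℝ → ℝ}
    (hn : ∀ a, Nice T C (h a) (ht a) (hx a) (hxx a)) {U U' : ℝ → J → K → ℝ}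
    (hU : ∀ t ∈ T, ∀ a c, HasDerivAt (fun s => U s a c) (U' t a c) t) {t : ℝ} (htT : t ∈ T)
    {B : ℝ} (hB : ∀ᶠ s in 𝓝 t, ∀ a c, |U' s a c| ≤ B) :
    HasDerivAt (fun s => gE (U s) (fun a => h a s))
      (∑ a, gE (U t) (Function.update (fun a => h a t) a (ht a t)) +
        ∑ a, ∑ b, gram (U' t) (U t) a b *
          gE (U t) (D2 (fun a => h a t) (fun a => hx a t) (fun a => hxx a t) a b)) t := by
  classical
  rcases isEmpty_or_nonempty J with hJ | hJ
  · simp only [gE, univ_eq_empty, prod_empty, sum_empty, add_zero]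
    exact hasDerivAt_const _ _
  have hC : 0 ≤ C := (abs_nonneg _).trans ((hn hJ.some).b0 t htT 0)
  obtain ⟨V, hVT, hVopen, hVt⟩ : ∃ V : Set ℝ, (∀ s ∈ V, s ∈ T ∧ ∀ a c, |U' s a c| ≤ B) ∧
      IsOpen V ∧ t ∈ V := by
    have h0 : ∀ᶠ s in 𝓝 t, s ∈ T := hT.mem_nhds htT
    obtain ⟨V, h1, h2, h3⟩ := eventually_nhds_iff.1 (h0.and hB)
    exact ⟨V, fun s hs => h1 s hs, h2, h3⟩
  set F : ℝ → (K → ℝ) → ℝ := fun s ξ => ∏ a, h a s (lin (U s) ξ a) with hF
  set F' : ℝ → (K → ℝ) → ℝ := fun s ξ => ∑ a, (∏ b ∈ univ.erase a, h b s (lin (U s) ξ b)) •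
    (ht a s (lin (U s) ξ a) + hx a s (lin (U s) ξ a) * lin (U' s) ξ a) with hF'
  have hd : ∀ s ∈ V, ∀ ξ, HasDerivAt (fun s => F s ξ) (F' s ξ) s := by
    intro s hs ξ
    apply HasDerivAt.fun_finsetProd
    intro a _
    exact (hn a).path s (hVT s hs).1 _ _ (lin_hasDerivAt (hU s (hVT s hs).1 a) ξ)
  set q := (univ : Finset J).card with hq
  have hbound : ∀ s ∈ V, ∀ ξ, ‖F' s ξ‖ ≤ ∑ _a : J, ((1 + C) ^ q * ((1 + C) * (1 + |B| * ∑ c, |ξ c|))) := by
    intro s hs ξ
    rw [hF', Real.norm_eq_abs]
    refine (Finset.abs_sum_le_sum_abs _ _).trans (Finset.sum_le_sum fun a _ => ?_)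
    rw [smul_eq_mul, abs_mul]
    have h1 : |∏ b ∈ univ.erase a, h b s (lin (U s) ξ b)| ≤ (1 + C) ^ q := by
      have h2 := abs_prod_le (s := univ.erase a) (f := fun b => h b s (lin (U s) ξ b)) (C := 1 + C)
        (fun b _ => ((hn b).b0 s (hVT s hs).1 _).trans (by linarith only []))
      refine h2.trans (pow_le_pow_right₀ (by linarith only [hC]) ?_)
      exact Finset.card_le_card (Finset.erase_subset _ _)
    have h3 : |ht a s (lin (U s) ξ a) + hx a s (lin (U s) ξ a) * lin (U' s) ξ a| ≤
        (1 + C) * (1 + |B| * ∑ c, |ξ c|) := by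
      have h4 := (hn a).bt s (hVT s hs).1 (lin (U s) ξ a)
      have h5 := (hn a).b1 s (hVT s hs).1 (lin (U s) ξ a)
      have h6 : |lin (U' s) ξ a| ≤ |B| * ∑ c, |ξ c| :=
        abs_lin_le (fun c => ((hVT s hs).2 a c).trans (le_abs_self B)) ξ
      have h7 : 0 ≤ ∑ c, |ξ c| := Finset.sum_nonneg fun _ _ => abs_nonneg _
      have h8 : 0 ≤ |B| * ∑ c, |ξ c| := mul_nonneg (abs_nonneg _) h7
      calc _ ≤ |ht a s (lin (U s) ξ a)| + |hx a s (lin (U s) ξ a)| * |lin (U' s) ξ a| := by
            rw [← abs_mul]; exact abs_add_le _ _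
        _ ≤ C + C * (|B| * ∑ c, |ξ c|) :=
            add_le_add h4 (mul_le_mul h5 h6 (abs_nonneg _) hC)
        _ ≤ _ := by linarith only [h8]
    exact mul_le_mul h1 h3 (abs_nonneg _) (by (clear * - hC; positivity))
  have hint : Integrable (fun ξ : K → ℝ =>
      ∑ _a : J, ((1 + C) ^ q * ((1 + C) * (1 + |B| * ∑ c, |ξ c|)))) (gM K) := by
    apply integrable_finsetSum
    intro a _
    apply Integrable.const_mul
    apply Integrable.const_mul
    apply (integrable_const _).add
    apply Integrable.const_mul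
    exact integrable_finsetSum _ fun c _ => (integrable_coord_gM c).abs
  have hFm : ∀ s ∈ V, Measurable (F s) := fun s hs =>
    measurable_prod_lin (f := fun a => h a s) (fun a => (hn a).m0 s (hVT s hs).1) _
  have hF'm : Measurable (F' t) := by
    apply Finset.measurable_sum
    intro a _
    apply Measurable.mul
    · exact measurable_prod_lin (f := fun a => h a t) (fun a => (hn a).m0 t htT) _
    · exact (((hn a).mt t htT).comp (measurable_lin _ _)).add
        ((((hn a).m1 t htT).comp (measurable_lin _ _)).mul (measurable_lin _ _))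
  have key := hasDerivAt_integral_of_dominated_loc_of_deriv_le (μ := gM K) (F := F) (F' := F')
    (x₀ := t) (hVopen.mem_nhds hVt)
    (by filter_upwards [hVopen.mem_nhds hVt] with s hs using (hFm s hs).aestronglyMeasurable)
    (integrable_prod_lin (f := fun a => h a t) (C := C) (fun a => (hn a).m0 t htT)
      (fun a x => (hn a).b0 t htT x) _)
    hF'm.aestronglyMeasurable
    (Filter.Eventually.of_forall fun ξ s hs => hbound s hs ξ) hint
    (Filter.Eventually.of_forall fun ξ s hs => hd s hs ξ)
  have h1 := key.2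
  have h2 : ∫ ξ, F' t ξ ∂(gM K) =
      ∑ a, gE (U t) (Function.update (fun a => h a t) a (ht a t)) +
        ∑ a, ∑ b, gram (U' t) (U t) a b *
          gE (U t) (D2 (fun a => h a t) (fun a => hx a t) (fun a => hxx a t) a b) := by
    have e1 : ∀ ξ, F' t ξ =
        ∑ a, ∏ b, Function.update (fun a => h a t) a (ht a t) b (lin (U t) ξ b) +
        ∑ a, ∑ c, U' t a c *
          (ξ c * ∏ b, Function.update (fun a => h a t) a (hx a t) b (lin (U t) ξ b)) := by
      intro ξ
      rw [hF', ← Finset.sum_add_distrib]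
      apply Finset.sum_congr rfl
      intro a _
      rw [prod_update, smul_eq_mul]
      simp_rw [prod_update]
      rw [show lin (U' t) ξ a = ∑ c, U' t a c * ξ c from rfl]
      have : ∑ c, U' t a c * (ξ c * (hx a t (lin (U t) ξ a) *
          ∏ b ∈ univ.erase a, h b t (lin (U t) ξ b))) =
          (∑ c, U' t a c * ξ c) * (hx a t (lin (U t) ξ a) *
          ∏ b ∈ univ.erase a, h b t (lin (U t) ξ b)) := by
        rw [Finset.sum_mul]
        apply Finset.sum_congr rfl
        intro c _
        ring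
      rw [this]
      ring
    have mu : ∀ (a : J) (g : ℝ → ℝ), Measurable g → ∀ b, Measurable
        (Function.update (fun a => h a t) a g b) := by
      intro a g hg b
      by_cases hb : b = a
      · subst hb; simpa using hg
      · simpa [Function.update_of_ne hb] using (hn b).m0 t htT
    have bu : ∀ (a : J) (g : ℝ → ℝ), (∀ x, |g x| ≤ C) → ∀ b x,
        |Function.update (fun a => h a t) a g b x| ≤ C := by
      intro a g hg b x
      by_cases hb : b = a
      · subst hb; simpa only [Function.update_self] using hg x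
      · simpa only [Function.update_of_ne hb] using (hn b).b0 t htT x
    have i1 : ∀ a, Integrable (fun ξ : K → ℝ =>
        ∏ b, Function.update (fun a => h a t) a (ht a t) b (lin (U t) ξ b)) (gM K) := fun a =>
      integrable_prod_lin (C := C) (mu a _ ((hn a).mt t htT)) (bu a _ ((hn a).bt t htT)) _
    have i2 : ∀ a c, Integrable (fun ξ : K → ℝ => U' t a c * (ξ c *
        ∏ b, Function.update (fun a => h a t) a (hx a t) b (lin (U t) ξ b))) (gM K) := by
      intro a c
      apply Integrable.const_mul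
      have := (integrable_coord_gM c).bdd_mul (c := C ^ (univ : Finset J).card)
        (f := fun ξ : K → ℝ => ∏ b, Function.update (fun a => h a t) a (hx a t) b (lin (U t) ξ b))
        (measurable_prod_lin (mu a _ ((hn a).m1 t htT)) _).aestronglyMeasurable
        (Filter.Eventually.of_forall fun ξ => by
          rw [Real.norm_eq_abs]
          exact abs_prod_le fun b _ => bu a _ ((hn a).b1 t htT) b _)
      refine this.congr (Filter.Eventually.of_forall fun ξ => ?_)
      simp only [mul_comm]
    simp_rw [e1]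
    rw [integral_add (integrable_finsetSum _ fun a _ => i1 a)
      (integrable_finsetSum _ fun a _ => integrable_finsetSum _ fun c _ => i2 a c),
      integral_finsetSum _ fun a _ => i1 a]
    congr 1
    rw [integral_finsetSum _ fun a _ => integrable_finsetSum _ fun c _ => i2 a c]
    apply Finset.sum_congr rfl
    intro a _
    rw [integral_finsetSum _ fun c _ => i2 a c]
    have e2 : ∀ c, ∫ ξ, U' t a c * (ξ c *
        ∏ b, Function.update (fun a => h a t) a (hx a t) b (lin (U t) ξ b)) ∂(gM K) =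
        U' t a c * ∑ b, U t b c *
          gE (U t) (D2 (fun a => h a t) (fun a => hx a t) (fun a => hxx a t) a b) := by
      intro c
      rw [integral_const_mul]
      congr 1
      exact stein_prod (U t) (fun a => (hn a).m0 t htT) (fun a => (hn a).m1 t htT)
        (fun a => (hn a).m2 t htT) (fun a => (hn a).b0 t htT) (fun a => (hn a).b1 t htT)
        (fun a => (hn a).b2 t htT) (fun a => (hn a).d1 t htT) (fun a => (hn a).d2 t htT) a c
    simp_rw [e2, Finset.mul_sum]
    rw [Finset.sum_comm]
    apply Finset.sum_congr rfl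
    intro b _
    rw [gram, Finset.sum_mul]
    apply Finset.sum_congr rfl
    intro c _
    ring
  rw [h2] at h1
  exact h1

end Vale.Agent.P157.Par
end

section

open MeasureTheory ProbabilityTheory Filter Topology Finset

namespace Vale.Agent.P157.Par

set_option linter.unusedSectionVars false

open Vale.Agent.P367.GT (gM stein_pi)

variable {J K K' : Type} [Fintype J] [DecidableEq J] [Fintype K] [DecidableEq K] [Fintype K']
  [DecidableEq K']

/-- Extra coordinates on the right can be dropped. -/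
lemma gE_inl (U : J → K → ℝ) (f : J → ℝ → ℝ) :
    gE (K := K ⊕ K') (fun a => Sum.elim (U a) (fun _ => 0)) f = gE U f := by
  have mp := measurePreserving_sumPiEquivProdPi (X := fun _ : K ⊕ K' => ℝ)
    (fun _ : K ⊕ K' => gaussianReal 0 1)
  have e1 : ∀ ξ : K ⊕ K' → ℝ, ∏ a, f a (lin (fun a => Sum.elim (U a) (fun _ => 0)) ξ a) =
      (fun p : (K → ℝ) × (K' → ℝ) => ∏ a, f a (lin U p.1 a))
        (MeasurableEquiv.sumPiEquivProdPi (fun _ : K ⊕ K' => ℝ) ξ) := by
    intro ξ
    simp only [lin, Fintype.sum_sum_type, Sum.elim_inl, Sum.elim_inr, zero_mul,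
      Finset.sum_const_zero, add_zero]
    rfl
  unfold gE
  simp_rw [e1]
  rw [mp.integral_comp' (g := fun p : (K → ℝ) × (K' → ℝ) => ∏ a, f a (lin U p.1 a))]
  rw [integral_fun_fst (μ := gM K) (ν := gM K') (fun ξ => ∏ a, f a (lin U ξ a))]
  simp only [probReal_univ, smul_eq_mul, one_mul]

/-- Extra coordinates on the left can be dropped. -/
lemma gE_inr (V : J → K' → ℝ) (f : J → ℝ → ℝ) :
    gE (K := K ⊕ K') (fun a => Sum.elim (fun _ => 0) (V a)) f = gE V f := by
  have mp := measurePreserving_sumPiEquivProdPi (X := fun _ : K ⊕ K' => ℝ)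
    (fun _ : K ⊕ K' => gaussianReal 0 1)
  have e1 : ∀ ξ : K ⊕ K' → ℝ, ∏ a, f a (lin (fun a => Sum.elim (fun _ => 0) (V a)) ξ a) =
      (fun p : (K → ℝ) × (K' → ℝ) => ∏ a, f a (lin V p.2 a))
        (MeasurableEquiv.sumPiEquivProdPi (fun _ : K ⊕ K' => ℝ) ξ) := by
    intro ξ
    simp only [lin, Fintype.sum_sum_type, Sum.elim_inl, Sum.elim_inr, zero_mul,
      Finset.sum_const_zero, zero_add]
    rfl
  unfold gE
  simp_rw [e1]
  rw [mp.integral_comp' (g := fun p : (K → ℝ) × (K' → ℝ) => ∏ a, f a (lin V p.2 a))]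
  rw [integral_fun_snd (μ := gM K) (ν := gM K') (fun ξ => ∏ a, f a (lin V ξ a))]
  simp only [probReal_univ, smul_eq_mul, one_mul]

/-- Reindexing of the Gaussian coordinates. -/
lemma gE_reindex_right (U : J → K → ℝ) (e : K' ≃ K) (f : J → ℝ → ℝ) :
    gE (fun a c => U a (e c)) f = gE U f := by
  have mp := measurePreserving_piCongrLeft (α := fun _ : K => ℝ)
    (fun _ : K => gaussianReal 0 1) e
  unfold gE
  rw [← mp.integral_comp' (g := fun ξ : K → ℝ => ∏ a, f a (lin U ξ a))]
  apply integral_congr_ae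
  filter_upwards with ξ
  apply Finset.prod_congr rfl
  intro a _
  congr 1
  unfold lin
  rw [← e.sum_comp]
  apply Finset.sum_congr rfl
  intro c _
  congr 1
  rw [MeasurableEquiv.coe_piCongrLeft]
  exact (Equiv.piCongrLeft_apply_apply (fun _ : K => ℝ) e ξ c).symm

/-- Reindexing of the factors. -/
lemma gE_reindex_left {J' : Type} [Fintype J'] [DecidableEq J'] (U : J → K → ℝ) (e : J' ≃ J)
    (f : J → ℝ → ℝ) : gE (fun a => U (e a)) (fun a => f (e a)) = gE U f := by
  unfold gE
  congr 1
  funext ξ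
  rw [← e.prod_comp]
  rfl

lemma gE_continuousOn {S : Set ℝ} {U : ℝ → J → K → ℝ}
    (hU : ∀ a c, ContinuousOn (fun t => U t a c) S) {h : J → ℝ → ℝ → ℝ} {C : ℝ}
    (hc : ∀ a, ContinuousOn (fun p : ℝ × ℝ => h a p.1 p.2) (S ×ˢ Set.univ))
    (hm : ∀ a, ∀ t ∈ S, Measurable (h a t)) (hb : ∀ a, ∀ t ∈ S, ∀ x, |h a t x| ≤ C) :
    ContinuousOn (fun t => gE (U t) (fun a => h a t)) S := by
  unfold gE
  apply continuousOn_of_dominated (bound := fun _ => C ^ (univ : Finset J).card)
  · intro t ht
    exact (measurable_prod_lin (f := fun a => h a t) (fun a => hm a t ht) _).aestronglyMeasurable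
  · intro t ht
    filter_upwards with ξ
    rw [Real.norm_eq_abs]
    exact abs_prod_le fun a _ => hb a t ht _
  · exact integrable_const _
  · filter_upwards with ξ
    apply continuousOn_finsetProd
    intro a _
    have h1 : ContinuousOn (fun t => (t, lin (U t) ξ a)) S := by
      apply continuousOn_id.prodMk
      unfold lin
      exact continuousOn_finsetSum _ fun c _ => (hU a c).mul continuousOn_const
    exact (hc a).comp h1 fun t ht => ⟨ht, Set.mem_univ _⟩

/-- Comparison of two Gaussian families through their Gram matrices. -/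
theorem gE_compare (U : J → K → ℝ) (V : J → K' → ℝ) {f f' f'' : J → ℝ → ℝ} {C : ℝ}
    (b0 : ∀ a x, |f a x| ≤ C) (b1 : ∀ a x, |f' a x| ≤ C) (b2 : ∀ a x, |f'' a x| ≤ C)
    (d1 : ∀ a x, HasDerivAt (f a) (f' a x) x) (d2 : ∀ a x, HasDerivAt (f' a) (f'' a x) x)
    (m2 : ∀ a, Measurable (f'' a)) {M : J → J → ℝ}
    (hM : ∀ a b, ∀ W : J → K ⊕ K' → ℝ, |gE W (D2 f f' f'' a b)| ≤ M a b) :
    |gE V f - gE U f| ≤ 1 / 2 * ∑ a, ∑ b, |gram V V a b - gram U U a b| * M a b := by
  classical
  have c0 : ∀ a, Continuous (f a) := fun a =>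
    continuous_iff_continuousAt.2 fun x => (d1 a x).continuousAt
  have c1 : ∀ a, Continuous (f' a) := fun a =>
    continuous_iff_continuousAt.2 fun x => (d2 a x).continuousAt
  set W : ℝ → J → K ⊕ K' → ℝ := fun t a =>
    Sum.elim (fun c => √(1 - t) * U a c) (fun c => √t * V a c) with hW
  set W' : ℝ → J → K ⊕ K' → ℝ := fun t a =>
    Sum.elim (fun c => -(1 / (2 * √(1 - t))) * U a c) (fun c => 1 / (2 * √t) * V a c) with hW'
  have hW0 : W 0 = fun a => Sum.elim (U a) (fun _ => 0) := by
    funext a c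
    cases c <;> simp [hW]
  have hW1 : W 1 = fun a => Sum.elim (fun _ => 0) (V a) := by
    funext a c
    cases c <;> simp [hW]
  have hcont : ContinuousOn (fun t => gE (W t) f) (Set.Icc 0 1) := by
    apply gE_continuousOn (h := fun a _ => f a) (C := C)
    · intro a c
      cases c
      · simp only [hW, Sum.elim_inl]
        exact ((Real.continuous_sqrt.comp (continuous_const.sub continuous_id)).mul
          continuous_const).continuousOn
      · simp only [hW, Sum.elim_inr]
        exact (Real.continuous_sqrt.mul continuous_const).continuousOn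
    · intro a
      exact ((c0 a).comp continuous_snd).continuousOn
    · intro a t _
      exact (c0 a).measurable
    · intro a t _ x
      exact b0 a x
  have hderiv : ∀ t ∈ Set.Ioo (0 : ℝ) 1, HasDerivAt (fun t => gE (W t) f)
      (∑ a, ∑ b, (1 / 2 * (gram V V a b - gram U U a b)) * gE (W t) (D2 f f' f'' a b)) t := by
    intro t ht
    have hnice : ∀ a, Nice (Set.Ioo (0 : ℝ) 1) C (fun _ => f a) (fun _ _ => 0) (fun _ => f' a)
        (fun _ => f'' a) := by
      intro a
      refine ⟨fun _ _ => (c0 a).measurable, fun _ _ => measurable_const,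
        fun _ _ => (c1 a).measurable, fun _ _ => m2 a, fun _ _ => b0 a, fun _ _ _ => ?_,
        fun _ _ => b1 a, fun _ _ => b2 a, fun s _ x x' hx => ?_, fun _ _ => d1 a,
        fun _ _ => d2 a⟩
      · simpa only [abs_zero] using (abs_nonneg _).trans (b0 a 0)
      · have := (d1 a (x s)).comp s hx
        rw [zero_add]
        exact this
    have hUd : ∀ t ∈ Set.Ioo (0 : ℝ) 1, ∀ a c, HasDerivAt (fun s => W s a c) (W' t a c) t := by
      intro t ht a c
      cases c with
      | inl c =>
        simp only [hW, hW', Sum.elim_inl]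
        have h1 : HasDerivAt (fun s : ℝ => √(1 - s)) (-(1 / (2 * √(1 - t)))) t := by
          have h2 : HasDerivAt (fun s : ℝ => 1 - s) (-1) t := by
            simpa only [id_eq] using (hasDerivAt_id t).const_sub 1
          have h3 := h2.sqrt (by linarith only [ht.2] : (1 - t) ≠ 0)
          convert h3 using 1
          ring
        exact h1.mul_const _
      | inr c =>
        simp only [hW, hW', Sum.elim_inr]
        exact (Real.hasDerivAt_sqrt ht.1.ne').mul_const _
    have hB : ∃ B : ℝ, ∀ᶠ s in 𝓝 t, ∀ a c, |W' s a c| ≤ B := by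
      have h1 : ∀ a c, ∃ B : ℝ, ∀ᶠ s in 𝓝 t, |W' s a c| ≤ B := by
        intro a c
        have hc : ContinuousAt (fun s => W' s a c) t := by
          cases c with
          | inl c =>
            simp only [hW', Sum.elim_inl]
            apply ContinuousAt.mul _ continuousAt_const
            apply ContinuousAt.neg
            apply ContinuousAt.div continuousAt_const
            · exact (continuousAt_const.mul
                (Real.continuous_sqrt.comp (continuous_const.sub continuous_id)).continuousAt)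
            · have := Real.sqrt_pos.2 (by linarith only [ht.2] : (0:ℝ) < 1 - t)
              (clear * - this; positivity)
          | inr c =>
            simp only [hW', Sum.elim_inr]
            apply ContinuousAt.mul _ continuousAt_const
            apply ContinuousAt.div continuousAt_const
            · exact (continuousAt_const.mul Real.continuous_sqrt.continuousAt)
            · have := Real.sqrt_pos.2 ht.1
              (clear * - this; positivity)
        refine ⟨|W' t a c| + 1, ?_⟩
        have := hc.abs.eventually (gt_mem_nhds (lt_add_one |W' t a c|))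
        filter_upwards [this] with s hs using hs.le
      choose B hB using h1
      refine ⟨∑ a, ∑ c, |B a c|, ?_⟩
      have h2 : ∀ᶠ s in 𝓝 t, ∀ a, ∀ c, |W' s a c| ≤ B a c :=
        Filter.eventually_all.2 fun a => Filter.eventually_all.2 fun c => hB a c
      filter_upwards [h2] with s hs a c
      calc |W' s a c| ≤ B a c := hs a c
        _ ≤ |B a c| := le_abs_self _
        _ ≤ ∑ c, |B a c| := Finset.single_le_sum (f := fun c => |B a c|)
            (fun _ _ => abs_nonneg _) (Finset.mem_univ c)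
        _ ≤ _ := Finset.single_le_sum (f := fun a => ∑ c, |B a c|)
            (fun _ _ => Finset.sum_nonneg fun _ _ => abs_nonneg _) (Finset.mem_univ a)
    obtain ⟨B, hB⟩ := hB
    have key := hasDerivAt_gE isOpen_Ioo hnice hUd ht hB
    have hz : ∀ a, gE (W t) (Function.update f a (fun _ => 0)) = 0 := by
      intro a
      unfold gE
      have : ∀ ξ : K ⊕ K' → ℝ, ∏ b, Function.update f a (fun _ => 0) b (lin (W t) ξ b) = 0 := by
        intro ξ
        apply Finset.prod_eq_zero (Finset.mem_univ a)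
        simp
      simp only [this, integral_zero]
    have hg : ∀ a b, gram (W' t) (W t) a b = 1 / 2 * (gram V V a b - gram U U a b) := by
      intro a b
      unfold gram
      rw [Fintype.sum_sum_type]
      simp only [hW, hW', Sum.elim_inl, Sum.elim_inr]
      have h1 : √(1 - t) ≠ 0 := (Real.sqrt_pos.2 (by linarith only [ht.2])).ne'
      have h2 : √t ≠ 0 := (Real.sqrt_pos.2 ht.1).ne'
      have e1 : ∑ c, -(1 / (2 * √(1 - t))) * U a c * (√(1 - t) * U b c) =
          -(1 / 2 * ∑ c, U a c * U b c) := by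
        rw [Finset.mul_sum, ← Finset.sum_neg_distrib]
        apply Finset.sum_congr rfl
        intro c _
        (clear * - h1; field_simp)
      have e2 : ∑ c, 1 / (2 * √t) * V a c * (√t * V b c) = 1 / 2 * ∑ c, V a c * V b c := by
        rw [Finset.mul_sum]
        apply Finset.sum_congr rfl
        intro c _
        (clear * - h2; field_simp)
      rw [e1, e2]
      ring
    have hz' : ∑ a, gE (W t) (Function.update (fun a => (fun _ => f a : ℝ → ℝ → ℝ) t) a
        ((fun _ _ => 0 : ℝ → ℝ → ℝ) t)) = 0 := Finset.sum_eq_zero fun a _ => hz a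
    rw [hz', zero_add] at key
    simp only [hg] at key
    exact key
  obtain ⟨t, ht, hslope⟩ := exists_hasDerivAt_eq_slope (fun t => gE (W t) f) _
    (zero_lt_one' ℝ) hcont hderiv
  have hend : gE V f - gE U f = ∑ a, ∑ b, (1 / 2 * (gram V V a b - gram U U a b)) *
      gE (W t) (D2 f f' f'' a b) := by
    rw [hslope, hW1, hW0, gE_inl U f,
      gE_inr V f]
    simp
  rw [hend]
  refine (Finset.abs_sum_le_sum_abs _ _).trans ?_
  rw [Finset.mul_sum]
  refine Finset.sum_le_sum fun a _ => (Finset.abs_sum_le_sum_abs _ _).trans ?_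
  rw [Finset.mul_sum]
  refine Finset.sum_le_sum fun b _ => ?_
  rw [abs_mul, abs_mul, abs_of_pos (by norm_num : (0:ℝ) < 1 / 2), mul_assoc]
  refine mul_le_mul_of_nonneg_left ?_ (by norm_num)
  exact mul_le_mul_of_nonneg_left (hM a b _) (abs_nonneg _)

end Vale.Agent.P157.Par
end

section

open MeasureTheory ProbabilityTheory Filter Topology Finset

namespace Vale.Agent.P157.Par

set_option linter.unusedSectionVars false

open Vale.Agent.P367.GT (gM stein_pi)

variable {J K K' : Type} [Fintype J] [DecidableEq J] [Fintype K] [DecidableEq K] [Fintype K']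
  [DecidableEq K']

lemma char_lin (U : J → K → ℝ) (t : J → ℝ) :
    ∫ ξ, Complex.exp ((∑ a, lin U ξ a * t a : ℝ) * Complex.I) ∂(gM K) =
      Complex.exp (-(∑ a, ∑ b, t a * t b * gram U U a b : ℝ) / 2) := by
  have e1 : ∀ ξ : K → ℝ, Complex.exp ((∑ a, lin U ξ a * t a : ℝ) * Complex.I) =
      ∏ c, Complex.exp ((∑ a, t a * U a c : ℝ) * (ξ c : ℂ) * Complex.I) := by
    intro ξ
    rw [← Complex.exp_sum]
    congr 1
    rw [← Finset.sum_mul]
    congr 1
    have : (∑ a, lin U ξ a * t a : ℝ) = ∑ c, (∑ a, t a * U a c) * ξ c := by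
      unfold lin
      simp_rw [Finset.sum_mul]
      rw [Finset.sum_comm]
      apply Finset.sum_congr rfl
      intro c _
      apply Finset.sum_congr rfl
      intro a _
      ring
    rw [this]
    push_cast
    rfl
  simp_rw [e1]
  rw [integral_fintype_prod_eq_prod (μ := fun _ : K => gaussianReal 0 1)
    (f := fun c (x : ℝ) => Complex.exp ((∑ a, t a * U a c : ℝ) * (x : ℂ) * Complex.I))]
  have e2 : ∀ s : ℝ, ∫ x : ℝ, Complex.exp ((s : ℂ) * (x : ℂ) * Complex.I) ∂(gaussianReal 0 1) =
      Complex.exp (-(s ^ 2 : ℝ) / 2) := by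
    intro s
    have h := charFun_gaussianReal (μ := 0) (v := 1) s
    rw [charFun_apply] at h
    have h2 : ∀ x : ℝ, Complex.exp ((s : ℂ) * (x : ℂ) * Complex.I) =
        Complex.exp ((inner ℝ x s : ℝ) * Complex.I) := by
      intro x
      congr 2
      simp
    simp_rw [h2]
    rw [h]
    congr 1
    push_cast
    ring
  simp_rw [e2]
  rw [← Complex.exp_sum]
  congr 1
  rw [← Finset.sum_div, Finset.sum_neg_distrib]
  congr 2
  rw [← Complex.ofReal_sum]
  congr 1
  unfold gram
  simp_rw [Finset.mul_sum, sq, Finset.sum_mul_sum]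
  rw [Finset.sum_comm]
  apply Finset.sum_congr rfl
  intro a _
  rw [Finset.sum_comm]
  apply Finset.sum_congr rfl
  intro b _
  apply Finset.sum_congr rfl
  intro c _
  ring

lemma map_lin_congr {U : J → K → ℝ} {V : J → K' → ℝ}
    (hG : ∀ a b, gram U U a b = gram V V a b) :
    (gM K).map (fun ξ => WithLp.toLp 2 (lin U ξ)) =
      (gM K').map (fun ξ => (WithLp.toLp 2 (lin V ξ) : EuclideanSpace ℝ J)) := by
  have mU : Measurable fun ξ : K → ℝ => (WithLp.toLp 2 (lin U ξ) : EuclideanSpace ℝ J) := by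
    unfold lin; fun_prop
  have mV : Measurable fun ξ : K' → ℝ => (WithLp.toLp 2 (lin V ξ) : EuclideanSpace ℝ J) := by
    unfold lin; (clear * -; fun_prop)
  have : IsProbabilityMeasure ((gM K).map
      fun ξ => (WithLp.toLp 2 (lin U ξ) : EuclideanSpace ℝ J)) :=
    Measure.isProbabilityMeasure_map mU.aemeasurable
  have : IsProbabilityMeasure ((gM K').map
      fun ξ => (WithLp.toLp 2 (lin V ξ) : EuclideanSpace ℝ J)) :=
    Measure.isProbabilityMeasure_map mV.aemeasurable
  apply Measure.ext_of_charFun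
  ext t
  rw [charFun_apply, charFun_apply, integral_map mU.aemeasurable
    (Measurable.aestronglyMeasurable (by fun_prop)), integral_map mV.aemeasurable
    (Measurable.aestronglyMeasurable (by fun_prop))]
  have e1 : ∀ z : J → ℝ, (inner ℝ (WithLp.toLp 2 z : EuclideanSpace ℝ J) t : ℝ) =
      ∑ a, z a * t a := by
    intro z
    simp only [PiLp.inner_apply, RCLike.inner_apply, Real.ringHom_apply, mul_comm]
  simp_rw [e1]
  rw [char_lin U, char_lin V]
  simp_rw [hG]

/-- The law of the family `Z` depends on the Gram matrix only. -/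
theorem integral_lin_congr {U : J → K → ℝ} {V : J → K' → ℝ}
    (hG : ∀ a b, gram U U a b = gram V V a b) {F : (J → ℝ) → ℝ} (hF : Measurable F) :
    ∫ ξ, F (lin U ξ) ∂(gM K) = ∫ ξ, F (lin V ξ) ∂(gM K') := by
  have mU : Measurable fun ξ : K → ℝ => (WithLp.toLp 2 (lin U ξ) : EuclideanSpace ℝ J) := by
    unfold lin; fun_prop
  have mV : Measurable fun ξ : K' → ℝ => (WithLp.toLp 2 (lin V ξ) : EuclideanSpace ℝ J) := by
    unfold lin; fun_prop
  have mF : Measurable fun z : EuclideanSpace ℝ J => F (WithLp.ofLp z) :=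
    hF.comp (WithLp.measurable_ofLp 2 _)
  have h1 := integral_map (μ := gM K) mU.aemeasurable (f := fun z => F (WithLp.ofLp z))
    mF.aestronglyMeasurable
  have h2 := integral_map (μ := gM K') mV.aemeasurable (f := fun z => F (WithLp.ofLp z))
    mF.aestronglyMeasurable
  simp only at h1 h2
  rw [← h1, ← h2, map_lin_congr hG]

theorem gE_congr_gram {U : J → K → ℝ} {V : J → K' → ℝ}
    (hG : ∀ a b, gram U U a b = gram V V a b) {f : J → ℝ → ℝ} (hf : ∀ a, Measurable (f a)) :
    gE U f = gE V f := by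
  unfold gE
  exact integral_lin_congr hG (F := fun z => ∏ a, f a (z a))
    (Finset.measurable_prod _ fun a _ => (hf a).comp (measurable_pi_apply a))

end Vale.Agent.P157.Par
end

section

open MeasureTheory ProbabilityTheory Filter Topology Finset

namespace Vale.Agent.P157.Par

set_option linter.unusedSectionVars false

open Vale.Agent.P367.GT (gM stein_pi)

/-- Matrices of levels. -/
abbrev LM (k : ℕ) (J : Type) := J → J → Fin (k + 1)

/-- Ultrametric matrices of levels. -/
structure Ultra {k : ℕ} {J : Type} (L : LM k J) : Prop where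
  symm : ∀ a b, L a b = L b a
  diag : ∀ a, L a a = Fin.last k
  tri : ∀ a b c, min (L a b) (L b c) ≤ L a c

lemma Ultra.comp {k : ℕ} {J J' : Type} {L : LM k J} (hL : Ultra L) (e : J' → J) :
    Ultra fun a b => L (e a) (e b) :=
  ⟨fun _ _ => hL.symm _ _, fun _ => hL.diag _, fun _ _ _ => hL.tri _ _ _⟩

section Clusters

variable {k : ℕ} {J : Type}

/-- The cluster of `a` at the level `l`. -/
def cl (L : LM k J) (l : Fin (k + 1)) (a : J) : J → Bool := fun b => decide (l ≤ L a b)

lemma cl_eq_iff {L : LM k J} (hL : Ultra L) (l : Fin (k + 1)) (a b : J) :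
    cl L l a = cl L l b ↔ l ≤ L a b := by
  constructor
  · intro h
    have h1 := congrFun h b
    simp only [cl, decide_eq_decide] at h1
    exact h1.2 (by rw [hL.diag]; exact Fin.le_last _)
  · intro h
    funext x
    simp only [cl, decide_eq_decide]
    constructor
    · intro h1
      exact (le_min (by rw [hL.symm]; exact h) h1).trans (hL.tri b a x)
    · intro h1
      exact (le_min h h1).trans (hL.tri a b x)

variable [Fintype J] [DecidableEq J]

/-- Coefficients of the tree-indexed Gaussian family with increments of variance `c l`. -/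
noncomputable def UL (c : Fin (k + 1) → ℝ) (L : LM k J) : J → Fin (k + 1) × (J → Bool) → ℝ :=
  fun a p => if p.2 = cl L p.1 a then √(c p.1) else 0

lemma gram_UL {c : Fin (k + 1) → ℝ} (hc : ∀ l, 0 ≤ c l) {L : LM k J} (hL : Ultra L) (a b : J) :
    gram (UL c L) (UL c L) a b = ∑ l, if l ≤ L a b then c l else 0 := by
  unfold gram
  rw [Fintype.sum_prod_type]
  apply Finset.sum_congr rfl
  intro l _
  have h1 : ∀ s : J → Bool, UL c L a (l, s) * UL c L b (l, s) =
      if s = cl L l a then (if cl L l a = cl L l b then c l else 0) else 0 := by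
    intro s
    simp only [UL]
    by_cases h : s = cl L l a
    · subst h
      by_cases h' : cl L l a = cl L l b
      · simp [h', Real.mul_self_sqrt (hc l)]
      · simp [h']
    · simp [h]
  simp_rw [h1]
  rw [Finset.sum_ite_eq' Finset.univ (cl L l a)]
  simp only [Finset.mem_univ, if_true]
  simp only [cl_eq_iff hL]

end Clusters

/-- A (signed) functional on level matrices indexed by `δ ⊕ ι`, exchangeable in the index `ι`,
carried by the ultrametric matrices and satisfying the Ghirlanda-Guerra identities with the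
weights `w`. -/
structure Arr (k : ℕ) (w : Fin (k + 1) → ℝ) (δ : Type) [Fintype δ] where
  E : (ι : Type) → [Fintype ι] → (LM k (δ ⊕ ι) → ℝ) →ₗ[ℝ] ℝ
  C : ℝ
  bound : ∀ (ι : Type) [Fintype ι] (A : LM k (δ ⊕ ι) → ℝ) (a : ℝ), (∀ L, |A L| ≤ a) →
    |E ι A| ≤ C * a
  supp : ∀ (ι : Type) [Fintype ι] (A : LM k (δ ⊕ ι) → ℝ), (∀ L, Ultra L → A L = 0) → E ι A = 0
  reindex : ∀ (ι ι' : Type) [Fintype ι] [Fintype ι'] (e : ι ≃ ι') (A : LM k (δ ⊕ ι') → ℝ),
    E ι (fun L => A fun a b => L (Sum.map id e.symm a) (Sum.map id e.symm b)) = E ι' A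
  gg : ∀ (ι : Type) [Fintype ι] (A : LM k (δ ⊕ ι) → ℝ) (i : δ ⊕ ι) (l : Fin (k + 1)),
    ((Fintype.card δ : ℝ) + Fintype.card ι) * E (Option ι) (fun L =>
      A (fun a b => L (Sum.map id some a) (Sum.map id some b)) *
        if L (Sum.map id some i) (Sum.inr none) = l then 1 else 0) =
      w l * E ι A + (∑ j, E ι (fun L => A L * if L i j = l then 1 else 0) -
        E ι (fun L => A L * if L i i = l then 1 else 0))

namespace Arr

variable {k : ℕ} {w : Fin (k + 1) → ℝ} {δ : Type} [Fintype δ]

lemma congr_ultra (𝓐 : Arr k w δ) {ι : Type} [Fintype ι] {A B : LM k (δ ⊕ ι) → ℝ}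
    (h : ∀ L, Ultra L → A L = B L) : 𝓐.E ι A = 𝓐.E ι B := by
  have h1 := 𝓐.supp ι (A - B) fun L hL => by simp [h L hL]
  rw [map_sub] at h1
  linarith only [h1]

/-- The weight of the levels at least `l`. -/
noncomputable def up (w : Fin (k + 1) → ℝ) (l : Fin (k + 1)) : ℝ := ∑ l', if l ≤ l' then w l' else 0

lemma indicator_sum (l : Fin (k + 1)) (x : Fin (k + 1)) :
    (if l ≤ x then (1 : ℝ) else 0) = ∑ l', if l ≤ l' then (if x = l' then 1 else 0) else 0 := by
  have h1 : ∀ l', (if l ≤ l' then (if x = l' then (1 : ℝ) else 0) else 0) =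
      if x = l' then (if l ≤ x then 1 else 0) else 0 := by
    intro l'
    by_cases h : x = l'
    · subst h; simp
    · simp [h]
  simp_rw [h1]
  rw [Finset.sum_ite_eq Finset.univ x]
  simp

/-- The Ghirlanda-Guerra identity for the event of being linked at the level `l`. -/
lemma gg_link (𝓐 : Arr k w δ) (ι : Type) [Fintype ι] (A : LM k (δ ⊕ ι) → ℝ) (i : δ ⊕ ι)
    (l : Fin (k + 1)) :
    ((Fintype.card δ : ℝ) + Fintype.card ι) * 𝓐.E (Option ι) (fun L =>
      A (fun a b => L (Sum.map id some a) (Sum.map id some b)) *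
        if l ≤ L (Sum.map id some i) (Sum.inr none) then 1 else 0) =
      up w l * 𝓐.E ι A +
        (∑ j, 𝓐.E ι (fun L => A L * if l ≤ L i j then 1 else 0) - 𝓐.E ι A) := by
  have e1 : ∀ (ι' : Type) [Fintype ι'] (B : LM k (δ ⊕ ι') → ℝ) (a b : δ ⊕ ι'),
      𝓐.E ι' (fun L => B L * if l ≤ L a b then 1 else 0) =
      ∑ l', if l ≤ l' then 𝓐.E ι' (fun L => B L * if L a b = l' then 1 else 0) else 0 := by
    intro ι' _ B a b
    have h1 : (fun L : LM k (δ ⊕ ι') => B L * if l ≤ L a b then (1 : ℝ) else 0) =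
        ∑ l', if l ≤ l' then (fun L => B L * if L a b = l' then (1 : ℝ) else 0) else 0 := by
      funext L
      rw [indicator_sum, Finset.mul_sum, Finset.sum_apply]
      apply Finset.sum_congr rfl
      intro l' _
      by_cases h : l ≤ l' <;> simp [h]
    rw [h1, map_sum]
    apply Finset.sum_congr rfl
    intro l' _
    by_cases h : l ≤ l' <;> simp [h]
  have e2 : 𝓐.E ι A = 𝓐.E ι (fun L => A L * if l ≤ L i i then 1 else 0) :=
    𝓐.congr_ultra fun L hL => by rw [hL.diag, if_pos (Fin.le_last _), mul_one]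
  rw [e1 (Option ι) (fun L => A fun a b => L (Sum.map id some a) (Sum.map id some b)),
    Finset.mul_sum]
  have e3 : ∀ l', ((Fintype.card δ : ℝ) + Fintype.card ι) *
      (if l ≤ l' then 𝓐.E (Option ι) (fun L =>
        A (fun a b => L (Sum.map id some a) (Sum.map id some b)) *
        if L (Sum.map id some i) (Sum.inr none) = l' then 1 else 0) else 0) =
      (if l ≤ l' then w l' else 0) * 𝓐.E ι A +
        (∑ j, (if l ≤ l' then 𝓐.E ι (fun L => A L * if L i j = l' then 1 else 0) else 0) -
        (if l ≤ l' then 𝓐.E ι (fun L => A L * if L i i = l' then 1 else 0) else 0)) := by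
    intro l'
    split_ifs with h
    · exact 𝓐.gg ι A i l'
    · simp only [mul_zero, zero_mul, sum_const_zero, sub_self, add_zero]
  simp_rw [e3]
  rw [Finset.sum_add_distrib, ← Finset.sum_mul, Finset.sum_sub_distrib, Finset.sum_comm]
  congr 1
  congr 1
  · apply Finset.sum_congr rfl
    intro j _
    rw [e1]
  · rw [e2, e1]

/-- One of the exchangeable indices becomes special. -/
def tr {δ ι : Type} : Option δ ⊕ ι → δ ⊕ Option ι
  | Sum.inl none => Sum.inr none
  | Sum.inl (some i) => Sum.inl i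
  | Sum.inr j => Sum.inr (some j)

/-- The inverse of `tr`. -/
def tr' {δ ι : Type} : δ ⊕ Option ι → Option δ ⊕ ι
  | Sum.inr none => Sum.inl none
  | Sum.inl i => Sum.inl (some i)
  | Sum.inr (some j) => Sum.inr j

/-- `tr` as an equivalence. -/
def trE {δ ι : Type} : Option δ ⊕ ι ≃ δ ⊕ Option ι where
  toFun := tr
  invFun := tr'
  left_inv := by rintro ((_ | i) | j) <;> rfl
  right_inv := by rintro (i | (_ | j)) <;> rfl

/-- Exchange of the two added points. -/
def swapOO {ι : Type} : Option (Option ι) ≃ Option (Option ι) where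
  toFun := fun x => match x with
    | none => some none
    | some none => none
    | some (some j) => some (some j)
  invFun := fun x => match x with
    | none => some none
    | some none => none
    | some (some j) => some (some j)
  left_inv := by rintro (_ | _ | j) <;> rfl
  right_inv := by rintro (_ | _ | j) <;> rfl

lemma funLeft_eq {m n : Type} (f : n → m) (g : m → ℝ) :
    LinearMap.funLeft ℝ ℝ f g = fun i => g (f i) := rfl

/-- The functional with one more special index. -/
noncomputable def mark (𝓐 : Arr k w δ) : Arr k w (Option δ) where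
  E := fun ι _ => (𝓐.E (Option ι)).comp
    (LinearMap.funLeft ℝ ℝ fun (L : LM k (δ ⊕ Option ι)) a b => L (tr a) (tr b))
  C := 𝓐.C
  bound := by
    intro ι _ A a h
    exact 𝓐.bound (Option ι) _ a fun L => h _
  supp := by
    intro ι _ A h
    exact 𝓐.supp (Option ι) _ fun L hL => h _ (hL.comp _)
  reindex := by
    intro ι ι' _ _ e A
    simp only [LinearMap.comp_apply]
    have h := 𝓐.reindex (Option ι) (Option ι') (Equiv.optionCongr e)
      (fun L => A fun a b => L (tr a) (tr b))
    rw [funLeft_eq, funLeft_eq]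
    rw [← h]
    congr 1
    funext L
    congr 1
    funext a b
    rcases a with (_ | a) | a <;> rcases b with (_ | b) | b <;> rfl
  gg := by
    intro ι _ A i l
    simp only [LinearMap.comp_apply, funLeft_eq]
    have h := 𝓐.gg (Option ι) (fun L => A fun a b => L (tr a) (tr b)) (tr i) l
    have hre := 𝓐.reindex (Option (Option ι)) (Option (Option ι)) swapOO
      (fun L => (A fun a b => L (Sum.map id some (tr a)) (Sum.map id some (tr b))) *
        if L (Sum.map id some (tr i)) (Sum.inr none) = l then 1 else 0)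
    rw [← hre] at h
    have h1 : ((Fintype.card (Option δ) : ℝ) + Fintype.card ι) =
        (Fintype.card δ : ℝ) + Fintype.card (Option ι) := by
      rw [Fintype.card_option, Fintype.card_option]
      push_cast
      ring
    rw [h1]
    have h2 : ∀ B : δ ⊕ Option ι → ℝ, ∑ j, B j = ∑ j : Option δ ⊕ ι, B (tr j) := fun B =>
      ((trE (δ := δ) (ι := ι)).sum_comp B).symm
    rw [h2] at h
    have h3 : ∀ x : Option δ ⊕ ι, (Sum.map id swapOO.symm (Sum.map id some (tr x)) :
        δ ⊕ Option (Option ι)) = tr (Sum.map id some x) := by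
      rintro ((_ | x) | x) <;> rfl
    have h4 : (Sum.map id swapOO.symm (Sum.inr none) : δ ⊕ Option (Option ι)) =
        tr (Sum.inr none) := rfl
    simp only [h3, h4] at h
    exact h

end Arr

end Vale.Agent.P157.Par
end

section

open MeasureTheory ProbabilityTheory Filter Topology Finset

namespace Vale.Agent.P157.Par

set_option linter.unusedSectionVars false

open Vale.Agent.P367.GT (gM stein_pi)

section

variable {k : ℕ} {J J' : Type} [Fintype J] [DecidableEq J] [Fintype J'] [DecidableEq J']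

lemma gE_UL_comp {c : Fin (k + 1) → ℝ} (hc : ∀ l, 0 ≤ c l) {L : LM k J} (hL : Ultra L)
    (e : J' → J) {f : J' → ℝ → ℝ} (hf : ∀ a, Measurable (f a)) :
    gE (UL c fun a b => L (e a) (e b)) f = gE (fun a => UL c L (e a)) f := by
  apply gE_congr_gram _ hf
  intro a b
  rw [gram_UL hc (hL.comp e)]
  exact (gram_UL hc hL (e a) (e b)).symm

lemma gE_UL_equiv {c : Fin (k + 1) → ℝ} (hc : ∀ l, 0 ≤ c l) {L : LM k J} (hL : Ultra L)
    (e : J' ≃ J) {f : J → ℝ → ℝ} (hf : ∀ a, Measurable (f a)) :
    gE (UL c fun a b => L (e a) (e b)) (fun a => f (e a)) = gE (UL c L) f := by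
  rw [gE_UL_comp hc hL e fun a => hf (e a), gE_reindex_left (UL c L) e f]

end

/-- The functions of the special indices and of the other indices. -/
def fam {δ ι : Type} (A : δ → ℝ → ℝ) (v : ℝ → ℝ) : δ ⊕ ι → ℝ → ℝ := Sum.elim A fun _ => v

/-- The functions of the special indices and of the new special index. -/
def ext {δ : Type} (g : ℝ → ℝ) (A : δ → ℝ → ℝ) : Option δ → ℝ → ℝ := fun o => o.elim g A

namespace Arr

variable {k : ℕ} {w : Fin (k + 1) → ℝ} {δ : Type} [Fintype δ] [DecidableEq δ]

/-- Restriction to the special indices. -/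
def res {ι : Type} (L : LM k (δ ⊕ ι)) : LM k δ := fun i j => L (Sum.inl i) (Sum.inl j)

/-- The functional applied to a product of Gaussian functions. -/
noncomputable def T (𝓐 : Arr k w δ) (c : Fin (k + 1) → ℝ) (χ : LM k δ → ℝ) (A : δ → ℝ → ℝ)
    (v : ℝ → ℝ) (ι : Type) [Fintype ι] [DecidableEq ι] : ℝ :=
  𝓐.E ι fun L => χ (res L) * gE (UL c L) (fam A v)

lemma measurable_fam {ι : Type} {A : δ → ℝ → ℝ} {v : ℝ → ℝ} (hA : ∀ i, Measurable (A i))
    (hv : Measurable v) : ∀ a : δ ⊕ ι, Measurable (fam A v a) := by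
  rintro (i | j)
  · exact hA i
  · exact hv

lemma T_bound (𝓐 : Arr k w δ) {c : Fin (k + 1) → ℝ} {χ : LM k δ → ℝ} {X : ℝ}
    (hχ : ∀ L, |χ L| ≤ X) {A : δ → ℝ → ℝ} {v : ℝ → ℝ} {B : δ → ℝ} (hA : ∀ i x, |A i x| ≤ B i)
    {a : ℝ} (hv : ∀ x, |v x| ≤ a) (ι : Type) [Fintype ι] [DecidableEq ι] :
    |𝓐.T c χ A v ι| ≤ 𝓐.C * (X * ((∏ i, B i) * a ^ Fintype.card ι)) := by
  unfold T
  apply 𝓐.bound
  intro L
  rw [abs_mul]
  have h1 : |gE (UL c L) (fam A v)| ≤ (∏ i, B i) * a ^ Fintype.card ι := by
    have h2 := abs_gE_le (U := UL c L) (f := fam A v) (C := Sum.elim B fun _ : ι => a) (by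
      rintro (i | j) x
      · exact hA i x
      · exact hv x)
    rw [Fintype.prod_sum_type] at h2
    simpa only [ge_iff_le, Sum.elim_inl, Sum.elim_inr, prod_const, card_univ] using h2
  exact mul_le_mul (hχ _) h1 (abs_nonneg _) ((abs_nonneg _).trans (hχ fun _ _ => 0))

/-- The functional with a marked index in terms of the original one. -/
lemma T_mark (𝓐 : Arr k w δ) {c : Fin (k + 1) → ℝ} (hc : ∀ l, 0 ≤ c l)
    (χ : LM k (Option δ) → ℝ) {A : Option δ → ℝ → ℝ} {v : ℝ → ℝ}
    (hA : ∀ i, Measurable (A i)) (hv : Measurable v)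
    (ι : Type) [Fintype ι] [DecidableEq ι] :
    𝓐.mark.T c χ A v ι = 𝓐.E (Option ι) fun L =>
      χ (fun i j => L (tr (Sum.inl i)) (tr (Sum.inl j))) *
        gE (UL c L) (fun x => fam A v (tr' x)) := by
  unfold T mark
  simp only [LinearMap.comp_apply, funLeft_eq]
  apply 𝓐.congr_ultra
  intro L hL
  congr 1
  have h := gE_UL_equiv hc hL (trE (δ := δ) (ι := ι))
    (f := fun x => fam A v (tr' x)) (fun x => measurable_fam hA hv _)
  rw [← h]
  congr 1
  funext x
  rcases x with (_ | x) | x <;> rfl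

lemma gE_one_new {c : Fin (k + 1) → ℝ} (hc : ∀ l, 0 ≤ c l) {ι : Type} [Fintype ι]
    [DecidableEq ι] {L : LM k (δ ⊕ Option ι)} (hL : Ultra L) {A : δ → ℝ → ℝ} {v : ℝ → ℝ}
    (hA : ∀ i, Measurable (A i)) (hv : Measurable v) :
    gE (UL c L) (fun x => fam (ext (fun _ => 1) A) v (tr' x)) =
      gE (UL c fun a b => L (Sum.map id some a) (Sum.map id some b)) (fam A v) := by
  rw [gE_UL_comp hc hL (Sum.map id some) (measurable_fam hA hv)]
  unfold gE
  congr 1
  funext ξ
  rw [Fintype.prod_sum_type, Fintype.prod_sum_type, Fintype.prod_option]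
  simp only [fam, tr', Sum.elim_inl, ext, Option.elim, Sum.elim_inr, one_mul]
  rfl

/-- On the event that two indices are linked at a level above which the increments vanish, the
two Gaussian variables are equal. -/
lemma UL_eq_of_link {J : Type} [Fintype J] [DecidableEq J] {c : Fin (k + 1) → ℝ}
    {l : Fin (k + 1)} (hcl : ∀ l', l < l' → c l' = 0) {L : LM k J} (hL : Ultra L) {a b : J}
    (hab : l ≤ L a b) : UL c L a = UL c L b := by
  funext p
  unfold UL
  rcases lt_or_ge l p.1 with h | h
  · simp [hcl p.1 h]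
  · rw [(cl_eq_iff hL p.1 a b).2 (h.trans hab)]

lemma gE_move {J : Type} [Fintype J] [DecidableEq J] {K : Type} [Fintype K] [DecidableEq K]
    {U : J → K → ℝ} {a b : J} (hab : a ≠ b)
    (hU : U a = U b) (f : J → ℝ → ℝ) (g : ℝ → ℝ) :
    gE U (Function.update f b g) =
      gE U (Function.update (Function.update f a fun x => f a x * g x) b fun _ => 1) := by
  unfold gE
  congr 1
  funext ξ
  have h1 : lin U ξ a = lin U ξ b := by unfold lin; rw [hU]
  rw [prod_update, prod_update, ← Finset.mul_prod_erase (univ.erase b) _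
    (Finset.mem_erase.2 ⟨hab, Finset.mem_univ a⟩), ← Finset.mul_prod_erase (univ.erase b)
    (fun x => Function.update f a (fun x => f a x * g x) x (lin U ξ x))
    (Finset.mem_erase.2 ⟨hab, Finset.mem_univ a⟩)]
  rw [Function.update_self, h1]
  have h2 : ∏ x ∈ (univ.erase b).erase a, Function.update f a (fun x => f a x * g x) x
      (lin U ξ x) = ∏ x ∈ (univ.erase b).erase a, f x (lin U ξ x) := by
    apply Finset.prod_congr rfl
    intro x hx
    rw [Function.update_of_ne (Finset.ne_of_mem_erase hx)]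
  rw [h2]
  ring

/-- A function of the special indices, seen as a function of one more special index. -/
def lift (χ : LM k δ → ℝ) : LM k (Option δ) → ℝ := fun L => χ fun i j => L (some i) (some j)

/-- The indicator of the event that `i` and `j` are linked at the level `l`. -/
noncomputable def lk (l : Fin (k + 1)) (i j : δ) : LM k δ → ℝ := fun L => if l ≤ L i j then 1 else 0

lemma T_gg (𝓐 : Arr k w δ) {c : Fin (k + 1) → ℝ} (hc : ∀ l, 0 ≤ c l) (χ : LM k δ → ℝ)
    {A : δ → ℝ → ℝ} {v : ℝ → ℝ} (hA : ∀ i, Measurable (A i)) (hv : Measurable v)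
    (l : Fin (k + 1)) (i : δ) (ι : Type) [Fintype ι] [DecidableEq ι] :
    ((Fintype.card δ : ℝ) + Fintype.card ι) *
      𝓐.mark.T c (fun L => lift χ L * lk l (some i) none L) (ext (fun _ => 1) A) v ι =
      up w l * 𝓐.T c χ A v ι + ((∑ j, 𝓐.T c (fun L => χ L * lk l i j L) A v ι +
        ∑ j : ι, 𝓐.E ι (fun L => χ (res L) * gE (UL c L) (fam A v) *
          if l ≤ L (Sum.inl i) (Sum.inr j) then 1 else 0)) - 𝓐.T c χ A v ι) := by
  have h := 𝓐.gg_link ι (fun L => χ (res L) * gE (UL c L) (fam A v)) (Sum.inl i) l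
  rw [Fintype.sum_sum_type] at h
  have e1 : 𝓐.mark.T c (fun L => lift χ L * lk l (some i) none L) (ext (fun _ => 1) A) v ι =
      𝓐.E (Option ι) (fun L =>
        (fun L : LM k (δ ⊕ ι) => χ (res L) * gE (UL c L) (fam A v))
          (fun a b => L (Sum.map id some a) (Sum.map id some b)) *
        if l ≤ L (Sum.map id some (Sum.inl i)) (Sum.inr none) then 1 else 0) := by
    rw [T_mark 𝓐 hc _ (by
      rintro (_ | i)
      · exact measurable_const
      · exact hA i) hv]
    apply 𝓐.congr_ultra
    intro L hL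
    rw [gE_one_new hc hL hA hv]
    simp only [lift, lk, tr, Sum.map_inl, id_eq]
    rw [mul_right_comm]
    rfl
  rw [e1, h]
  congr 2
  congr 1
  apply Finset.sum_congr rfl
  intro j _
  unfold T
  congr 1
  funext L
  rw [mul_right_comm]
  rfl

/-- Marking one of the other indices. -/
lemma E_mark (𝓐 : Arr k w δ) {c : Fin (k + 1) → ℝ} (hc : ∀ l, 0 ≤ c l)
    (χ : LM k (Option δ) → ℝ) {A : δ → ℝ → ℝ} {g v : ℝ → ℝ} (hA : ∀ i, Measurable (A i))
    (hg : Measurable g) (hv : Measurable v) (n : ℕ) (j : Fin (n + 1)) :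
    𝓐.E (Fin (n + 1)) (fun L =>
      χ (fun a b => L (a.elim (Sum.inr j) Sum.inl) (b.elim (Sum.inr j) Sum.inl)) *
        gE (UL c L) (Function.update (fam A v) (Sum.inr j) g)) =
      𝓐.mark.T c χ (ext g A) v (Fin n) := by
  rw [T_mark 𝓐 hc _ (by
      rintro (_ | i)
      · exact hg
      · exact hA i) hv]
  rw [← 𝓐.reindex (Fin (n + 1)) (Option (Fin n)) (finSuccEquiv' j)]
  apply 𝓐.congr_ultra
  intro L hL
  have hF : ∀ x : δ ⊕ Option (Fin n), Measurable (fam (ext g A) v (tr' x)) := by
    rintro (i | (_ | j))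
    · exact hA i
    · exact hg
    · exact hv
  have h := gE_UL_equiv hc hL (Equiv.sumCongr (Equiv.refl δ) (finSuccEquiv' j).symm)
    (f := fun y => fam (ext g A) v
      (tr' ((Equiv.sumCongr (Equiv.refl δ) (finSuccEquiv' j)) y))) (fun y => hF _)
  have h1 : ∀ x : δ ⊕ Option (Fin n), (Equiv.sumCongr (Equiv.refl δ) (finSuccEquiv' j).symm) x =
      Sum.map id (finSuccEquiv' j).symm x := by
    rintro (i | j) <;> rfl
  congr 1
  · congr 1
    funext a b
    have h2 : ∀ a : Option δ, (a.elim (Sum.inr j) Sum.inl : δ ⊕ Fin (n + 1)) =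
        Sum.map id (finSuccEquiv' j).symm (tr (Sum.inl a)) := by
      rintro (_ | a)
      · simp [tr]
      · simp [tr]
    rw [h2 a, h2 b]
  · have h3 : (Function.update (fam A v) (Sum.inr j) g : δ ⊕ Fin (n + 1) → ℝ → ℝ) =
        fun y => fam (ext g A) v
          (tr' ((Equiv.sumCongr (Equiv.refl δ) (finSuccEquiv' j)) y)) := by
      funext y
      rcases y with i | j'
      · rw [Function.update_of_ne (by simp)]
        rfl
      · by_cases hj : j' = j
        · subst hj
          rw [Function.update_self]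
          simp only [fam, tr', Equiv.sumCongr_apply, Equiv.coe_refl, Sum.map_inr, finSuccEquiv'_at, Sum.elim_inl, ext, Option.elim_none]
        · rw [Function.update_of_ne (by simpa using hj)]
          obtain ⟨m, rfl⟩ := Fin.exists_succAbove_eq hj
          simp [tr', fam]
    rw [h3, ← h]
    simp only [h1]
    congr 1
    funext x
    rw [← h1]
    simp

end Arr

end Vale.Agent.P157.Par
end

section

/-! An Efron-Stein type bound for the variance of functions on product spaces. -/

open MeasureTheory ProbabilityTheory Filter Topology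

namespace Vale.Agent.P157.Par

section Var

variable {α β : Type*} [MeasurableSpace α] [MeasurableSpace β]

/-- The variance. -/
noncomputable def VV (μ : Measure α) (f : α → ℝ) : ℝ :=
  ∫ x, f x ^ 2 ∂μ - (∫ x, f x ∂μ) ^ 2

lemma VV_eq (μ : Measure α) [IsProbabilityMeasure μ] {f : α → ℝ} (hf : MemLp f 2 μ) :
    VV μ f = ∫ x, (f x - ∫ y, f y ∂μ) ^ 2 ∂μ := by
  have h1 : Integrable f μ := hf.integrable (by norm_num)
  have h2 : Integrable (fun x => f x ^ 2) μ := hf.integrable_sq
  set m := ∫ y, f y ∂μ with hm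
  have e : ∀ x, (f x - m) ^ 2 = f x ^ 2 - 2 * m * f x + m ^ 2 := fun x => by ring
  have h3 : Integrable (fun x => 2 * m * f x) μ := h1.const_mul _
  have h4 : Integrable (fun x => f x ^ 2 - 2 * m * f x) μ := h2.sub h3
  simp only [e]
  rw [integral_add h4 (integrable_const _),
    integral_sub h2 h3, integral_const_mul, ← hm, integral_const]
  unfold VV
  rw [← hm]
  simp only [probReal_univ, smul_eq_mul, one_mul]
  ring

lemma VV_nonneg (μ : Measure α) [IsProbabilityMeasure μ] {f : α → ℝ} (hf : MemLp f 2 μ) :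
    0 ≤ VV μ f := by
  rw [VV_eq μ hf]
  exact integral_nonneg fun x => sq_nonneg _

lemma sq_integral_le_VV (μ : Measure α) [IsProbabilityMeasure μ] {f : α → ℝ} (hf : MemLp f 2 μ) :
    (∫ x, f x ∂μ) ^ 2 ≤ ∫ x, f x ^ 2 ∂μ := by
  have := VV_nonneg μ hf
  unfold VV at this
  linarith

lemma l1_le_sqrt_VV (μ : Measure α) [IsProbabilityMeasure μ] {f : α → ℝ} (hf : MemLp f 2 μ) :
    ∫ x, |f x - ∫ y, f y ∂μ| ∂μ ≤ Real.sqrt (VV μ f) := by
  have h1 : MemLp (fun x => |f x - ∫ y, f y ∂μ|) 2 μ := (hf.sub (memLp_const _)).abs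
  have h2 := sq_integral_le_VV μ h1
  simp only [sq_abs] at h2
  rw [← VV_eq μ hf] at h2
  exact Real.le_sqrt_of_sq_le h2

lemma VV_pair (μ : Measure α) [IsProbabilityMeasure μ] {g : α → ℝ} (hg : MemLp g 2 μ) :
    ∫ z : α × α, (g z.1 - g z.2) ^ 2 ∂(μ.prod μ) = 2 * VV μ g := by
  have h1 : MemLp (fun z : α × α => g z.1) 2 (μ.prod μ) := hg.comp_fst μ
  have h2 : MemLp (fun z : α × α => g z.2) 2 (μ.prod μ) := hg.comp_snd μ
  have h3 : Integrable (fun z : α × α => g z.1 * g z.2) (μ.prod μ) := h1.integrable_mul h2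
  have e : ∀ z : α × α, (g z.1 - g z.2) ^ 2 = g z.1 ^ 2 - 2 * (g z.1 * g z.2) + g z.2 ^ 2 :=
    fun z => by ring
  have h4 : Integrable (fun z : α × α => 2 * (g z.1 * g z.2)) (μ.prod μ) := h3.const_mul _
  have h5 : Integrable (fun z : α × α => g z.1 ^ 2 - 2 * (g z.1 * g z.2)) (μ.prod μ) :=
    h1.integrable_sq.sub h4
  simp only [e]
  rw [integral_add h5 h2.integrable_sq,
    integral_sub h1.integrable_sq h4, integral_const_mul, integral_prod_mul g g]
  have e1 : ∫ z : α × α, g z.1 ^ 2 ∂(μ.prod μ) = ∫ x, g x ^ 2 ∂μ := by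
    rw [integral_fun_fst (fun x => g x ^ 2)]; simp
  have e2 : ∫ z : α × α, g z.2 ^ 2 ∂(μ.prod μ) = ∫ x, g x ^ 2 ∂μ := by
    rw [integral_fun_snd (fun x => g x ^ 2)]; simp
  rw [e1, e2]
  unfold VV
  ring

lemma VV_le_of_diff (μ : Measure α) [IsProbabilityMeasure μ] {g : α → ℝ} (hg : MemLp g 2 μ)
    {c : α × α → ℝ} (hc : Integrable (fun z => c z ^ 2) (μ.prod μ)) {C : ℝ}
    (hC : ∫ z, c z ^ 2 ∂(μ.prod μ) ≤ 2 * C)
    (h : ∀ᵐ z ∂(μ.prod μ), |g z.1 - g z.2| ≤ c z) : VV μ g ≤ C := by
  have h1 : ∫ z : α × α, (g z.1 - g z.2) ^ 2 ∂(μ.prod μ) ≤ ∫ z, c z ^ 2 ∂(μ.prod μ) := by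
    refine integral_mono_of_nonneg (Filter.Eventually.of_forall fun z => sq_nonneg _) hc ?_
    filter_upwards [h] with z hz
    rw [← sq_abs]
    exact pow_le_pow_left₀ (abs_nonneg _) hz 2
  rw [VV_pair μ hg] at h1
  linarith only [hC, h1]

/-- Total variance. -/
lemma VV_prod_le (μ : Measure α) [IsProbabilityMeasure μ] (π : Measure β)
    [IsProbabilityMeasure π] {f : α × β → ℝ} (hf : MemLp f 2 (μ.prod π))
    {A C : ℝ} (hA : ∀ x, MemLp (fun y => f (x, y)) 2 π → VV π (fun y => f (x, y)) ≤ A)
    (hC : MemLp (fun x => ∫ y, f (x, y) ∂π) 2 μ → VV μ (fun x => ∫ y, f (x, y) ∂π) ≤ C) :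
    VV (μ.prod π) f ≤ A + C := by
  have h1 : Integrable f (μ.prod π) := hf.integrable (by norm_num)
  have h2 : Integrable (fun z => f z ^ 2) (μ.prod π) := hf.integrable_sq
  have hs : ∀ᵐ x ∂μ, MemLp (fun y => f (x, y)) 2 π := by
    have hm := hf.1
    filter_upwards [h2.prod_right_ae, hm.prodMk_left] with x hx hmx
    exact (memLp_two_iff_integrable_sq hmx).2 hx
  set g : α → ℝ := fun x => ∫ y, f (x, y) ∂π with hg
  set q : α → ℝ := fun x => ∫ y, f (x, y) ^ 2 ∂π with hq
  have hqi : Integrable q μ := h2.integral_prod_left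
  have hgi : Integrable g μ := h1.integral_prod_left
  have hgq : ∀ᵐ x ∂μ, g x ^ 2 ≤ q x := by
    filter_upwards [hs] with x hx
    exact sq_integral_le_VV π hx
  have hg2 : MemLp g 2 μ := by
    refine (memLp_two_iff_integrable_sq hgi.aestronglyMeasurable).2 ?_
    refine hqi.mono' (hgi.aestronglyMeasurable.pow 2) ?_
    filter_upwards [hgq] with x hx
    rw [Real.norm_eq_abs, abs_of_nonneg (sq_nonneg _)]
    exact hx
  have hb : ∫ x, (q x - g x ^ 2) ∂μ ≤ A := by
    have h3 : ∫ x, (q x - g x ^ 2) ∂μ ≤ ∫ _x, A ∂μ := by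
      refine integral_mono_ae (hqi.sub hg2.integrable_sq) (integrable_const _) ?_
      filter_upwards [hs] with x hx
      exact hA x hx
    simpa only [ge_iff_le, integral_const, probReal_univ, smul_eq_mul, one_mul] using h3
  rw [integral_sub hqi hg2.integrable_sq] at hb
  have hc := hC hg2
  unfold VV at hc ⊢
  rw [integral_prod _ h1, integral_prod _ h2]
  linarith only [hb, hc]

lemma VV_comp {μ : Measure α} {ν : Measure β} {T : α → β} (hT : MeasurePreserving T μ ν)
    {f : β → ℝ} (hf : MemLp f 2 ν) : VV μ (fun x => f (T x)) = VV ν f := by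
  have hm := hf.1
  rw [← hT.map_eq] at hm
  unfold VV
  congr 1
  · rw [← hT.map_eq]
    exact (integral_map (f := fun x => f x ^ 2) hT.measurable.aemeasurable (hm.pow 2)).symm
  · rw [← hT.map_eq, integral_map hT.measurable.aemeasurable hm]

end Var

section ES

variable {E : Type*} [MeasurableSpace E] (μ : Measure E) [IsProbabilityMeasure μ]

lemma mp_cons (n : ℕ) : MeasurePreserving
    (fun z : E × (Fin n → E) => (Fin.cons z.1 z.2 : Fin (n + 1) → E))
    (μ.prod (Measure.pi fun _ : Fin n => μ)) (Measure.pi fun _ : Fin (n + 1) => μ) := by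
  have h := (measurePreserving_piFinSuccAbove (fun _ : Fin (n + 1) => μ) 0).symm
  have e : (fun z : E × (Fin n → E) => (Fin.cons z.1 z.2 : Fin (n + 1) → E)) =
      ((MeasurableEquiv.piFinSuccAbove (fun _ : Fin (n + 1) => E) 0).symm :
        E × (Fin n → E) → (Fin (n + 1) → E)) := by
    funext z
    simp only [MeasurableEquiv.piFinSuccAbove_symm_apply, Fin.insertNthEquiv]
    simp only [Fin.insertNth_zero', Fin.removeNth_zero, Equiv.coe_fn_mk]
  rw [e]
  exact h

/-- Efron-Stein for `Fin n`. -/
theorem ES_fin {ρ : E × E → ℝ} (hρ : Integrable (fun z => ρ z ^ 2) (μ.prod μ))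
    (hρ2 : ∫ z, ρ z ^ 2 ∂(μ.prod μ) ≤ 2) (n : ℕ) {f : (Fin n → E) → ℝ}
    (hf : MemLp f 2 (Measure.pi fun _ : Fin n => μ)) (a : Fin n → ℝ)
    (hd : ∀ x i y, |f x - f (Function.update x i y)| ≤ a i * ρ (x i, y)) :
    VV (Measure.pi fun _ : Fin n => μ) f ≤ ∑ i, a i ^ 2 := by
  induction n with
  | zero =>
    have h : ∀ x : Fin 0 → E, f x = f (fun i => i.elim0) := fun x => by
      congr 1; exact Subsingleton.elim _ _
    unfold VV
    simp only [h]
    simp
  | succ n ih =>
    have hT := mp_cons μ n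
    rw [← VV_comp hT hf]
    have hf' : MemLp (fun z : E × (Fin n → E) => f (Fin.cons z.1 z.2)) 2
        (μ.prod (Measure.pi fun _ : Fin n => μ)) := hf.comp_measurePreserving hT
    rw [Fin.sum_univ_succ]
    refine (VV_prod_le μ (Measure.pi fun _ : Fin n => μ) hf' (A := ∑ i : Fin n, a i.succ ^ 2)
      (C := a 0 ^ 2) ?_ ?_).trans (le_of_eq (add_comm _ _))
    · intro x hx
      refine ih hx (fun i => a i.succ) fun y i e => ?_
      have h := hd (Fin.cons x y) i.succ e
      rw [← Fin.cons_update, Fin.cons_succ] at h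
      exact h
    · intro hg
      refine VV_le_of_diff μ hg (c := fun z => a 0 * ρ z) ?_ ?_ ?_
      · have h1 := hρ.const_mul (a 0 ^ 2)
        refine h1.congr (Filter.Eventually.of_forall fun z => ?_)
        simp only
        ring
      · have h1 : ∀ z : E × E, (a 0 * ρ z) ^ 2 = a 0 ^ 2 * ρ z ^ 2 := fun z => by ring
        simp only [h1]
        rw [integral_const_mul]
        linarith only [mul_nonneg (sq_nonneg (a 0 : ℝ)) (sub_nonneg.2 hρ2)]
      · have hi : ∀ᵐ x ∂μ, Integrable (fun y => f (Fin.cons x y))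
            (Measure.pi fun _ : Fin n => μ) :=
          (hf'.integrable (by norm_num)).prod_right_ae
        have h1 : ∀ᵐ z : E × E ∂(μ.prod μ), Integrable (fun y => f (Fin.cons z.1 y))
            (Measure.pi fun _ : Fin n => μ) := Measure.quasiMeasurePreserving_fst.ae hi
        have h2 : ∀ᵐ z : E × E ∂(μ.prod μ), Integrable (fun y => f (Fin.cons z.2 y))
            (Measure.pi fun _ : Fin n => μ) := Measure.quasiMeasurePreserving_snd.ae hi
        filter_upwards [h1, h2] with z hz1 hz2
        rw [← integral_sub hz1 hz2]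
        have h3 : ∀ y, |f (Fin.cons z.1 y) - f (Fin.cons z.2 y)| ≤ a 0 * ρ z := by
          intro y
          have h := hd (Fin.cons z.1 y) 0 z.2
          rw [Fin.update_cons_zero, Fin.cons_zero] at h
          exact h
        refine (abs_integral_le_integral_abs).trans ?_
        have h4 := integral_mono (hz1.sub hz2).abs
          (integrable_const (μ := Measure.pi fun _ : Fin n => μ) (a 0 * ρ z)) h3
        simpa only [ge_iff_le, Pi.sub_apply, integral_const, probReal_univ, smul_eq_mul, one_mul] using h4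

/-- Efron-Stein for a finite index set. -/
theorem ES_pi {ι : Type*} [Fintype ι] [DecidableEq ι] {ρ : E × E → ℝ}
    (hρ : Integrable (fun z => ρ z ^ 2) (μ.prod μ))
    (hρ2 : ∫ z, ρ z ^ 2 ∂(μ.prod μ) ≤ 2) {f : (ι → E) → ℝ}
    (hf : MemLp f 2 (Measure.pi fun _ : ι => μ)) (a : ι → ℝ)
    (hd : ∀ x i y, |f x - f (Function.update x i y)| ≤ a i * ρ (x i, y)) :
    VV (Measure.pi fun _ : ι => μ) f ≤ ∑ i, a i ^ 2 := by
  set e : Fin (Fintype.card ι) ≃ ι := (Fintype.equivFin ι).symm with he
  have hT := measurePreserving_piCongrLeft (fun _ : ι => μ) e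
  have hTa : ∀ (x : Fin (Fintype.card ι) → E) (i : ι),
      (MeasurableEquiv.piCongrLeft (fun _ : ι => E) e) x i = x (e.symm i) := by
    intro x i
    rw [MeasurableEquiv.coe_piCongrLeft]
    have h := Equiv.piCongrLeft_apply_apply (P := fun _ : ι => E) e x (e.symm i)
    simpa using h
  rw [← VV_comp hT hf]
  have hf' := hf.comp_measurePreserving hT
  have h := ES_fin μ hρ hρ2 (Fintype.card ι) hf' (fun j => a (e j)) (fun x j y => ?_)
  · refine h.trans (le_of_eq ?_)
    exact e.sum_comp (fun i => a i ^ 2)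
  · have h1 : (MeasurableEquiv.piCongrLeft (fun _ : ι => E) e) (Function.update x j y) =
        Function.update ((MeasurableEquiv.piCongrLeft (fun _ : ι => E) e) x) (e j) y := by
      funext i
      rw [hTa]
      by_cases hi : i = e j
      · subst hi
        simp
      · rw [Function.update_of_ne hi, hTa, Function.update_of_ne]
        intro h
        exact hi (by rw [← h]; simp)
    have h2 := hd ((MeasurableEquiv.piCongrLeft (fun _ : ι => E) e) x) (e j) y
    rw [← h1, hTa] at h2
    simpa only [Function.comp_apply, ge_iff_le, Equiv.symm_apply_apply] using h2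

end ES

end Vale.Agent.P157.Par
end
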