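import Mathlib
import Vale.Agent.P157.Bdl.B1
import Vale.Agent.P157.Bdl.B2
attribute [-instance] ProperSMul.toContinuousSMul IsTopologicalTorsor.toContinuousSMul IdemSemiring.toCanonicallyOrderedAdd IdemSemiring.toMulLeftMono IdemSemiring.toMulRightMono AddQuantale.instAddLeftMono AddQuantale.instAddRightMono Quantale.instMulLeftMono Quantale.instMulRightMono FiniteDimensional.rclike_to_real IsScalarTower.complexToReal FiniteDimensional.complexToReal

set_option linter.all false

section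

open MeasureTheory ProbabilityTheory Filter Topology
open scoped RealInnerProductSpace

namespace Vale.Agent.P157.Par

/-! ### indicators of propositions -/

open Classical in
/-- The real indicator of a proposition. -/
noncomputable def ind (p : Prop) : ℝ := if p then 1 else 0

theorem ind_eq (p : Prop) [Decidable p] : ind p = if p then 1 else 0 := by
  unfold ind
  by_cases h : p
  · rw [if_pos h, if_pos h]
  · rw [if_neg h, if_neg h]

theorem ind_of {p : Prop} (h : p) : ind p = 1 := by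
  classical
  rw [ind_eq, if_pos h]

theorem ind_of_not {p : Prop} (h : ¬ p) : ind p = 0 := by
  classical
  rw [ind_eq, if_neg h]

theorem ind_nonneg (p : Prop) : 0 ≤ ind p := by
  by_cases h : p
  · rw [ind_of h]; norm_num
  · rw [ind_of_not h]

theorem ind_le_one (p : Prop) : ind p ≤ 1 := by
  by_cases h : p
  · rw [ind_of h]
  · rw [ind_of_not h]; norm_num

theorem abs_ind_le_one (p : Prop) : |ind p| ≤ 1 := by
  rw [abs_of_nonneg (ind_nonneg p)]
  exact ind_le_one p

theorem ind_mono {p q : Prop} (h : p → q) : ind p ≤ ind q := by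
  by_cases hp : p
  · rw [ind_of hp, ind_of (h hp)]
  · rw [ind_of_not hp]
    exact ind_nonneg q

/-! ### the inner average -/

namespace Sys

variable (S : Sys)

/-- average over the replicas at fixed disorder -/
noncomputable def inn {n : ℕ} (ω : S.Ω) (F : (Fin n → S.X) → ℝ) : ℝ :=
  ∑ x : Fin n → S.X, (∏ i, S.w ω (x i)) * F x

variable {S}

theorem prod_w_nonneg {n : ℕ} (ω : S.Ω) (x : Fin n → S.X) : 0 ≤ ∏ i, S.w ω (x i) :=
  Finset.prod_nonneg fun i _ => S.w0 ω (x i)

theorem w_le_one (ω : S.Ω) (x : S.X) : S.w ω x ≤ 1 := by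
  rw [← S.w1 ω]
  exact Finset.single_le_sum (fun y _ => S.w0 ω y) (Finset.mem_univ x)

theorem inn_const {n : ℕ} (ω : S.Ω) (c : ℝ) : S.inn (n := n) ω (fun _ => c) = c := by
  classical
  unfold inn
  rw [← Finset.sum_mul, ← Fintype.prod_sum (fun (_ : Fin n) (y : S.X) => S.w ω y)]
  simp only [S.w1 ω, Finset.prod_const_one, one_mul]

theorem inn_mono {n : ℕ} (ω : S.Ω) {F G : (Fin n → S.X) → ℝ} (h : ∀ x, F x ≤ G x) :
    S.inn ω F ≤ S.inn ω G :=
  Finset.sum_le_sum fun x _ => mul_le_mul_of_nonneg_left (h x) (prod_w_nonneg ω x)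

theorem inn_nonneg {n : ℕ} (ω : S.Ω) {F : (Fin n → S.X) → ℝ} (h : ∀ x, 0 ≤ F x) :
    0 ≤ S.inn ω F :=
  Finset.sum_nonneg fun x _ => mul_nonneg (prod_w_nonneg ω x) (h x)

theorem inn_add {n : ℕ} (ω : S.Ω) (F G : (Fin n → S.X) → ℝ) :
    S.inn ω (fun x => F x + G x) = S.inn ω F + S.inn ω G := by
  unfold inn
  rw [← Finset.sum_add_distrib]
  exact Finset.sum_congr rfl fun x _ => mul_add _ _ _

theorem inn_sub {n : ℕ} (ω : S.Ω) (F G : (Fin n → S.X) → ℝ) :
    S.inn ω (fun x => F x - G x) = S.inn ω F - S.inn ω G := by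
  unfold inn
  rw [← Finset.sum_sub_distrib]
  exact Finset.sum_congr rfl fun x _ => mul_sub _ _ _

theorem inn_smul {n : ℕ} (ω : S.Ω) (c : ℝ) (F : (Fin n → S.X) → ℝ) :
    S.inn ω (fun x => c * F x) = c * S.inn ω F := by
  unfold inn
  rw [Finset.mul_sum]
  exact Finset.sum_congr rfl fun x _ => by ring

theorem inn_abs_le {n : ℕ} (ω : S.Ω) {F : (Fin n → S.X) → ℝ} {C : ℝ} (h : ∀ x, |F x| ≤ C) :
    |S.inn ω F| ≤ C := by
  rw [abs_le]
  constructor
  · rw [← inn_const (n := n) ω (-C)]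
    exact inn_mono ω fun x => (abs_le.mp (h x)).1
  · calc S.inn ω F ≤ S.inn (n := n) ω (fun _ => C) := inn_mono ω fun x => (abs_le.mp (h x)).2
      _ = C := inn_const ω C

theorem inn_measurable {n : ℕ} {F : S.Ω → (Fin n → S.X) → ℝ} (h : ∀ x, Measurable fun ω => F ω x) :
    Measurable fun ω => S.inn ω (F ω) := by
  unfold inn
  exact Finset.measurable_sum _ fun x _ =>
    (Finset.measurable_prod _ fun i _ => S.hw (x i)).mul (h x)

theorem inn_integrable {n : ℕ} {F : S.Ω → (Fin n → S.X) → ℝ} {C : ℝ}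
    (h : ∀ x, Measurable fun ω => F ω x) (hC : ∀ ω x, |F ω x| ≤ C) :
    Integrable (fun ω => S.inn ω (F ω)) S.P := by
  refine Integrable.of_bound (inn_measurable h).aestronglyMeasurable C
    (Eventually.of_forall fun ω => ?_)
  rw [Real.norm_eq_abs]
  exact inn_abs_le ω (hC ω)

/-- splitting off the last `j` replicas -/
theorem inn_append {n j : ℕ} (ω : S.Ω) (F : (Fin (n + j) → S.X) → ℝ) :
    S.inn ω F = S.inn (n := n) ω (fun u => S.inn (n := j) ω (fun v => F (Fin.append u v))) := by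
  unfold inn
  rw [← Equiv.sum_comp (Fin.appendEquiv n j), Fintype.sum_prod_type]
  refine Finset.sum_congr rfl fun u _ => ?_
  rw [Finset.mul_sum]
  refine Finset.sum_congr rfl fun v _ => ?_
  have h : Fin.appendEquiv n j (u, v) = Fin.append u v := rfl
  rw [h, Fin.prod_univ_add]
  simp only [Fin.append_left, Fin.append_right]
  ring

/-- marginals of the replicas -/
theorem inn_comp {m n : ℕ} (ω : S.Ω) (e : Fin m → Fin n) (he : Function.Injective e)
    (g : (Fin m → S.X) → ℝ) :
    S.inn (n := n) ω (fun x => g (fun k => x (e k))) = S.inn ω g := by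
  classical
  unfold inn
  have h1 : ∀ x : Fin n → S.X, (∏ i, S.w ω (x i)) * g (fun k => x (e k)) =
      ∑ y : Fin m → S.X, g y * ((∏ a, S.w ω (x a)) * ind (∀ k, x (e k) = y k)) := by
    intro x
    rw [Finset.sum_eq_single (fun k => x (e k))]
    · rw [ind_of (fun _ => rfl)]
      ring
    · intro y _ hy
      rw [ind_of_not]
      · ring
      · intro h
        exact hy (funext fun k => (h k).symm)
    · intro h
      exact absurd (Finset.mem_univ _) h
  simp_rw [h1]
  rw [Finset.sum_comm]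
  refine Finset.sum_congr rfl fun y _ => ?_
  rw [← Finset.mul_sum, mul_comm]
  congr 1
  have h2 : ∀ x : Fin n → S.X, (∏ a, S.w ω (x a)) * ind (∀ k, x (e k) = y k) =
      ∏ a, (S.w ω (x a) * ind (∀ k, e k = a → x a = y k)) := by
    intro x
    rw [Finset.prod_mul_distrib]
    congr 1
    by_cases h : ∀ k, x (e k) = y k
    · rw [ind_of h]
      symm
      refine Finset.prod_eq_one fun a _ => ind_of ?_
      rintro k rfl
      exact h k
    · rw [ind_of_not h]
      push Not at h
      obtain ⟨k, hk⟩ := h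
      symm
      refine Finset.prod_eq_zero (Finset.mem_univ (e k)) (ind_of_not ?_)
      intro h3
      exact hk (h3 k rfl)
  simp_rw [h2]
  rw [← Fintype.prod_sum (fun (a : Fin n) (v : S.X) =>
    S.w ω v * ind (∀ k, e k = a → v = y k))]
  symm
  refine Fintype.prod_of_injective e he _ _ ?_ ?_
  · intro a ha
    have h3 : ∀ v : S.X, S.w ω v * ind (∀ k, e k = a → v = y k) = S.w ω v := by
      intro v
      rw [ind_of, mul_one]
      intro k hk
      exact absurd ⟨k, hk⟩ ha
    simp_rw [h3]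
    exact S.w1 ω
  · intro k
    rw [Finset.sum_eq_single (y k)]
    · rw [ind_of, mul_one]
      intro k' hk'
      rw [he hk']
    · intro v _ hv
      rw [ind_of_not, mul_zero]
      intro h
      exact hv (h k rfl)
    · intro h
      exact absurd (Finset.mem_univ _) h

theorem inn_one (ω : S.Ω) (F : (Fin 1 → S.X) → ℝ) :
    S.inn ω F = ∑ y, S.w ω y * F (fun _ => y) := by
  unfold inn
  rw [← Equiv.sum_comp (Equiv.funUnique (Fin 1) S.X).symm]
  refine Finset.sum_congr rfl fun y _ => ?_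
  have h : (Equiv.funUnique (Fin 1) S.X).symm y = fun _ => y := by
    funext i
    rw [Subsingleton.elim i default]
    rfl
  rw [h]
  simp

/-- splitting off the last replica -/
theorem inn_snoc {n : ℕ} (ω : S.Ω) (F : (Fin (n + 1) → S.X) → ℝ) :
    S.inn ω F = S.inn (n := n) ω (fun u => ∑ y, S.w ω y * F (Fin.snoc u y)) := by
  rw [inn_append (n := n) (j := 1)]
  congr 1
  funext u
  rw [inn_one]
  refine Finset.sum_congr rfl fun y _ => ?_
  congr 2
  exact Fin.append_right_eq_snoc u (fun _ => y)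

/-- product structure in the last replicas -/
theorem inn_prod {j : ℕ} (ω : S.Ω) (h : S.X → ℝ) :
    S.inn (n := j) ω (fun v => ∏ k, h (v k)) = (∑ y, S.w ω y * h y) ^ j := by
  classical
  unfold inn
  have h1 : ∀ v : Fin j → S.X, (∏ i, S.w ω (v i)) * ∏ k, h (v k) =
      ∏ k, (S.w ω (v k) * h (v k)) := fun v => by rw [Finset.prod_mul_distrib]
  simp_rw [h1]
  rw [← Fintype.prod_sum (fun (_ : Fin j) (v : S.X) => S.w ω v * h v)]
  simp only [Finset.prod_const, Finset.card_univ, Fintype.card_fin]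

theorem inn_mono' {n : ℕ} (ω : S.Ω) {F G : (Fin n → S.X) → ℝ}
    (h : ∀ x, (∀ i, 0 < S.w ω (x i)) → F x ≤ G x) : S.inn ω F ≤ S.inn ω G := by
  refine Finset.sum_le_sum fun x _ => ?_
  by_cases hx : ∀ i, 0 < S.w ω (x i)
  · exact mul_le_mul_of_nonneg_left (h x hx) (prod_w_nonneg ω x)
  · push Not at hx
    obtain ⟨i, hi⟩ := hx
    have h0 : S.w ω (x i) = 0 := le_antisymm hi (S.w0 ω (x i))
    rw [Finset.prod_eq_zero (Finset.mem_univ i) h0, zero_mul, zero_mul]

/-- resampling one replica -/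
theorem inn_update {n : ℕ} (ω : S.Ω) (i : Fin n) (F : (Fin n → S.X) → ℝ) :
    S.inn ω F = S.inn ω (fun x => ∑ y, S.w ω y * F (Function.update x i y)) := by
  classical
  unfold inn
  have h1 : ∀ x : Fin n → S.X, (∏ a, S.w ω (x a)) * F x =
      ∑ y, ((∏ a, S.w ω (x a)) * S.w ω y) * F x := by
    intro x
    rw [← Finset.sum_mul, ← Finset.mul_sum, S.w1 ω, mul_one]
  have h2 : ∀ x : Fin n → S.X, (∏ a, S.w ω (x a)) *
      ∑ y, S.w ω y * F (Function.update x i y) =
      ∑ y, ((∏ a, S.w ω (x a)) * S.w ω y) * F (Function.update x i y) := by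
    intro x
    rw [Finset.mul_sum]
    exact Finset.sum_congr rfl fun y _ => by ring
  simp_rw [h1, h2]
  rw [← Fintype.sum_prod_type' (fun (x : Fin n → S.X) (y : S.X) =>
      ((∏ a, S.w ω (x a)) * S.w ω y) * F x),
    ← Fintype.sum_prod_type' (fun (x : Fin n → S.X) (y : S.X) =>
      ((∏ a, S.w ω (x a)) * S.w ω y) * F (Function.update x i y))]
  let e : ((Fin n → S.X) × S.X) → ((Fin n → S.X) × S.X) :=
    fun p => (Function.update p.1 i p.2, p.1 i)
  have he : Function.Involutive e := by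
    rintro ⟨x, y⟩
    simp [e]
  rw [← Equiv.sum_comp (Function.Involutive.toPerm e he)]
  refine Finset.sum_congr rfl fun p _ => ?_
  obtain ⟨x, y⟩ := p
  have h3 : Function.Involutive.toPerm e he (x, y) = (Function.update x i y, x i) := rfl
  rw [h3]
  have h4 : (∏ a, S.w ω (Function.update x i y a)) * S.w ω (x i) =
      (∏ a, S.w ω (x a)) * S.w ω y := by
    rw [← Finset.mul_prod_erase Finset.univ _ (Finset.mem_univ i),
      ← Finset.mul_prod_erase Finset.univ (fun a => S.w ω (x a)) (Finset.mem_univ i)]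
    have h5 : ∏ a ∈ Finset.univ.erase i, S.w ω (Function.update x i y a) =
        ∏ a ∈ Finset.univ.erase i, S.w ω (x a) := by
      refine Finset.prod_congr rfl fun a ha => ?_
      rw [Function.update_of_ne (Finset.ne_of_mem_erase ha)]
    rw [h5, Function.update_self]
    ring
  simp only
  rw [h4]

/-! ### averages over the disorder -/

/-- bounded measurable functions of the replicas -/
structure Bdd (S : Sys) {n : ℕ} (F : S.T → (Fin n → S.X) → ℝ) (C : ℝ) : Prop where
  meas : ∀ x, Measurable fun t => F t x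
  bdd : ∀ t x, |F t x| ≤ C

theorem tav_def {n : ℕ} (F : S.T → (Fin n → S.X) → ℝ) :
    S.tav F = ∫ ω, S.inn ω (F (S.π ω)) ∂S.P := rfl

theorem Bdd.integrable {n : ℕ} {F : S.T → (Fin n → S.X) → ℝ} {C : ℝ} (h : Bdd S F C) :
    Integrable (fun ω => S.inn ω (F (S.π ω))) S.P :=
  inn_integrable (C := C) (fun x => (h.meas x).comp S.hπ) (fun _ x => h.bdd _ x)

/-- functions of the replicas alone -/
theorem exists_bdd {n : ℕ} (f : (Fin n → S.X) → ℝ) : ∃ C, Bdd S (fun _ => f) C := by
  classical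
  refine ⟨∑ x, |f x|, fun _ => measurable_const, fun t x => ?_⟩
  exact Finset.single_le_sum (f := fun x => |f x|) (fun _ _ => abs_nonneg _) (Finset.mem_univ x)

theorem Bdd.mul {n : ℕ} {F G : S.T → (Fin n → S.X) → ℝ} {C D : ℝ} (hF : Bdd S F C)
    (hG : Bdd S G D) : Bdd S (fun t x => F t x * G t x) (C * D) where
  meas x := (hF.meas x).mul (hG.meas x)
  bdd t x := by
    rw [abs_mul]
    exact mul_le_mul (hF.bdd t x) (hG.bdd t x) (abs_nonneg _) ((abs_nonneg _).trans (hF.bdd t x))

theorem Bdd.comp {m n : ℕ} {F : S.T → (Fin m → S.X) → ℝ} {C : ℝ} (hF : Bdd S F C)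
    (e : Fin m → Fin n) : Bdd S (fun t (x : Fin n → S.X) => F t (fun k => x (e k))) C where
  meas x := hF.meas _
  bdd t x := hF.bdd t _

theorem tav_add {n : ℕ} {F G : S.T → (Fin n → S.X) → ℝ} {C D : ℝ} (hF : Bdd S F C)
    (hG : Bdd S G D) : S.tav (fun t x => F t x + G t x) = S.tav F + S.tav G := by
  rw [tav_def, tav_def, tav_def, ← integral_add hF.integrable hG.integrable]
  exact integral_congr_ae (Eventually.of_forall fun ω => inn_add ω _ _)

theorem tav_sub {n : ℕ} {F G : S.T → (Fin n → S.X) → ℝ} {C D : ℝ} (hF : Bdd S F C)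
    (hG : Bdd S G D) : S.tav (fun t x => F t x - G t x) = S.tav F - S.tav G := by
  rw [tav_def, tav_def, tav_def, ← integral_sub hF.integrable hG.integrable]
  exact integral_congr_ae (Eventually.of_forall fun ω => inn_sub ω _ _)

theorem tav_smul {n : ℕ} (c : ℝ) (F : S.T → (Fin n → S.X) → ℝ) :
    S.tav (fun t x => c * F t x) = c * S.tav F := by
  rw [tav_def, tav_def, ← integral_const_mul]
  exact integral_congr_ae (Eventually.of_forall fun ω => inn_smul ω _ _)

theorem tav_mono {n : ℕ} {F G : S.T → (Fin n → S.X) → ℝ} {C D : ℝ} (hF : Bdd S F C)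
    (hG : Bdd S G D) (h : ∀ t x, F t x ≤ G t x) : S.tav F ≤ S.tav G :=
  integral_mono hF.integrable hG.integrable fun ω => inn_mono ω (h _)

theorem tav_nonneg {n : ℕ} {F : S.T → (Fin n → S.X) → ℝ} (h : ∀ t x, 0 ≤ F t x) : 0 ≤ S.tav F :=
  integral_nonneg fun ω => inn_nonneg ω (h _)

theorem tav_const {n : ℕ} (c : ℝ) : S.tav (n := n) (fun _ _ => c) = c := by
  rw [tav_def]
  simp_rw [inn_const]
  simp only [integral_const, probReal_univ, smul_eq_mul, one_mul]

theorem tav_congr {n : ℕ} {F G : S.T → (Fin n → S.X) → ℝ} (h : ∀ t x, F t x = G t x) :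
    S.tav F = S.tav G := by
  have : F = G := by
    funext t x
    exact h t x
  rw [this]

theorem tav_abs_le {n : ℕ} {F G : S.T → (Fin n → S.X) → ℝ} {C D : ℝ} (hF : Bdd S F C)
    (hG : Bdd S G D) (h : ∀ t x, |F t x| ≤ G t x) : |S.tav F| ≤ S.tav G := by
  rw [abs_le]
  constructor
  · have h1 : S.tav (fun t x => (-1) * G t x) = (-1) * S.tav G := tav_smul _ _
    have h2 : Bdd S (fun t x => (-1) * G t x) D :=
      ⟨fun x => (hG.meas x).const_mul _, fun t x => by
        rw [abs_mul, abs_neg, abs_one, one_mul]; exact hG.bdd t x⟩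
    have h3 := tav_mono h2 hF (fun t x => by
      have := (abs_le.mp (h t x)).1
      linarith only [this])
    linarith only [h1, h3]
  · exact tav_mono hF hG fun t x => (abs_le.mp (h t x)).2

theorem tav_comp {m n : ℕ} (e : Fin m → Fin n) (he : Function.Injective e)
    (F : S.T → (Fin m → S.X) → ℝ) :
    S.tav (fun t (x : Fin n → S.X) => F t (fun k => x (e k))) = S.tav F := by
  rw [tav_def, tav_def]
  exact integral_congr_ae (Eventually.of_forall fun ω => inn_comp ω e he _)

theorem tav_pair {n : ℕ} {a b : Fin n} (hab : a ≠ b) (f : S.X → S.X → ℝ) :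
    S.tav (fun _ (x : Fin n → S.X) => f (x a) (x b)) =
      S.tav (n := 2) (fun _ x => f (x 0) (x 1)) := by
  have h := tav_comp (S := S) (![a, b] : Fin 2 → Fin n) (by
    intro k l hkl
    fin_cases k <;> fin_cases l <;> simp_all) (fun _ x => f (x 0) (x 1))
  exact h

end Sys

end Vale.Agent.P157.Par
end

section

open MeasureTheory ProbabilityTheory Filter Topology
open scoped RealInnerProductSpace

namespace Vale.Agent.P157.Par

/-! ### the defect as a function of `ψ` -/

namespace Sys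

variable {S : Sys}

theorem Test.toBdd {n : ℕ} {F : S.T → (Fin n → S.X) → ℝ} (h : S.Test F) : Bdd S F 1 :=
  ⟨h.meas, h.bdd⟩

theorem abs_R_le (x y : S.X) : |S.R x y| ≤ 1 := by
  unfold Sys.R
  refine (abs_real_inner_le_norm _ _).trans ?_
  rw [S.hφ, S.hφ, one_mul]

theorem R_symm (x y : S.X) : S.R x y = S.R y x := real_inner_comm _ _

theorem R_mem (x y : S.X) : S.R x y ∈ Set.Icc (-1 : ℝ) 1 := abs_le.mp (abs_R_le x y)

theorem ggDefect_sub {n : ℕ} (i : Fin n) {F : S.T → (Fin n → S.X) → ℝ} (hF : S.Test F)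
    (ψ ψ' : ℝ → ℝ) : S.ggDefect (fun r => ψ r - ψ' r) i F =
      S.ggDefect ψ i F - S.ggDefect ψ' i F := by
  have hF1 := hF.toBdd
  have key : ∀ (m : ℕ) (G : S.T → (Fin m → S.X) → ℝ) (C : ℝ) (_ : Bdd S G C)
      (f f' : (Fin m → S.X) → ℝ), S.tav (fun t x => G t x * (f x - f' x)) =
        S.tav (fun t x => G t x * f x) - S.tav (fun t x => G t x * f' x) := by
    intro m G C hG f f'
    obtain ⟨D, hD⟩ := exists_bdd (S := S) f
    obtain ⟨D', hD'⟩ := exists_bdd (S := S) f'
    rw [← tav_sub (hG.mul hD) (hG.mul hD')]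
    exact tav_congr fun t x => by ring
  have key2 : ∀ (f f' : (Fin 2 → S.X) → ℝ), S.tav (fun _ x => f x - f' x) =
        S.tav (fun _ x => f x) - S.tav (fun _ x => f' x) := by
    intro f f'
    obtain ⟨D, hD⟩ := exists_bdd (S := S) f
    obtain ⟨D', hD'⟩ := exists_bdd (S := S) f'
    rw [← tav_sub hD hD']
  unfold Sys.ggDefect
  rw [key (n + 1) (fun t x => F t (fun j => x j.castSucc)) 1 (hF1.comp _)
    (fun x => ψ (S.R (x i.castSucc) (x (Fin.last n))))
    (fun x => ψ' (S.R (x i.castSucc) (x (Fin.last n)))),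
    key2 (fun x => ψ (S.R (x 0) (x 1))) (fun x => ψ' (S.R (x 0) (x 1)))]
  have h3 : ∀ j ∈ Finset.univ.erase i,
      S.tav (fun t x => F t x * (ψ (S.R (x i) (x j)) - ψ' (S.R (x i) (x j)))) =
      S.tav (fun t x => F t x * ψ (S.R (x i) (x j))) -
        S.tav (fun t x => F t x * ψ' (S.R (x i) (x j))) := fun j _ =>
    key n F 1 hF1 (fun x => ψ (S.R (x i) (x j))) (fun x => ψ' (S.R (x i) (x j)))
  rw [Finset.sum_congr rfl h3, Finset.sum_sub_distrib]
  ring

theorem ggDefect_smul {n : ℕ} (i : Fin n) (F : S.T → (Fin n → S.X) → ℝ)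
    (c : ℝ) (ψ : ℝ → ℝ) : S.ggDefect (fun r => c * ψ r) i F = c * S.ggDefect ψ i F := by
  have key : ∀ (m : ℕ) (G : S.T → (Fin m → S.X) → ℝ) (f : (Fin m → S.X) → ℝ),
      S.tav (fun t x => G t x * (c * f x)) = c * S.tav (fun t x => G t x * f x) := by
    intro m G f
    rw [← tav_smul]
    exact tav_congr fun t x => by ring
  unfold Sys.ggDefect
  rw [key (n + 1) (fun t x => F t (fun j => x j.castSucc))
    (fun x => ψ (S.R (x i.castSucc) (x (Fin.last n)))),
    tav_smul c (fun _ (x : Fin 2 → S.X) => ψ (S.R (x 0) (x 1)))]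
  have h3 : ∀ j ∈ Finset.univ.erase i,
      S.tav (fun t x => F t x * (c * ψ (S.R (x i) (x j)))) =
      c * S.tav (fun t x => F t x * ψ (S.R (x i) (x j))) := fun j _ =>
    key n F (fun x => ψ (S.R (x i) (x j)))
  rw [Finset.sum_congr rfl h3, ← Finset.mul_sum]
  ring

theorem abs_ggDefect_le {n : ℕ} (i : Fin n) {F : S.T → (Fin n → S.X) → ℝ} (hF : S.Test F)
    (ψ : ℝ → ℝ) : |S.ggDefect ψ i F| ≤
      2 * n * S.tav (n := 2) (fun _ x => |ψ (S.R (x 0) (x 1))|) := by
  have hF1 := hF.toBdd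
  set Q := S.tav (n := 2) (fun _ x => |ψ (S.R (x 0) (x 1))|) with hQ
  have key : ∀ (m : ℕ) (G : S.T → (Fin m → S.X) → ℝ) (_ : Bdd S G 1) (a b : Fin m) (_ : a ≠ b),
      |S.tav (fun t x => G t x * ψ (S.R (x a) (x b)))| ≤ Q := by
    intro m G hG a b hab
    obtain ⟨D, hD⟩ := exists_bdd (S := S) (fun x : Fin m → S.X => ψ (S.R (x a) (x b)))
    obtain ⟨D', hD'⟩ := exists_bdd (S := S) (fun x : Fin m → S.X => |ψ (S.R (x a) (x b))|)
    have h1 := tav_abs_le (hG.mul hD) hD' (fun t x => by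
      rw [abs_mul]
      exact mul_le_of_le_one_left (abs_nonneg _) (hG.bdd t x))
    rw [hQ, ← tav_pair hab (fun y z => |ψ (S.R y z)|)]
    exact h1
  have h1 : |S.tav (fun t (x : Fin (n + 1) → S.X) =>
      F t (fun j => x j.castSucc) * ψ (S.R (x i.castSucc) (x (Fin.last n))))| ≤ Q :=
    key (n + 1) (fun t x => F t (fun j => x j.castSucc)) (hF1.comp _) _ _ (Fin.castSucc_lt_last i).ne
  have h2 : |S.tav F * S.tav (fun _ (x : Fin 2 → S.X) => ψ (S.R (x 0) (x 1)))| ≤ Q := by
    have h3 : |S.tav F| ≤ 1 := by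
      have h4 := tav_abs_le (G := fun _ _ => (1 : ℝ)) (D := 1) hF1
        ⟨fun _ => measurable_const, fun _ _ => by norm_num⟩ (fun t x => hF.bdd t x)
      rwa [tav_const] at h4
    have h5 : |S.tav (fun _ (x : Fin 2 → S.X) => ψ (S.R (x 0) (x 1)))| ≤ Q := by
      have h6 := key 2 (fun _ _ => 1) ⟨fun _ => measurable_const, fun _ _ => by norm_num⟩ 0 1
        (by decide)
      simpa only [Fin.isValue, ge_iff_le, one_mul] using h6
    rw [abs_mul]
    exact (mul_le_of_le_one_left (abs_nonneg _) h3).trans h5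
  have h4 : |∑ j ∈ Finset.univ.erase i, S.tav (fun t x => F t x * ψ (S.R (x i) (x j)))| ≤
      (n - 1) * Q := by
    refine (Finset.abs_sum_le_sum_abs _ _).trans ?_
    refine (Finset.sum_le_card_nsmul _ _ Q fun j hj =>
      key n F hF1 i j (Finset.ne_of_mem_erase hj).symm).trans ?_
    rw [Finset.card_erase_of_mem (Finset.mem_univ i), Finset.card_univ, Fintype.card_fin,
      nsmul_eq_mul]
    have : 1 ≤ n := by have := i.2; omega
    rw [Nat.cast_sub this]
    simp only [Nat.cast_one, Std.le_refl]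
  unfold Sys.ggDefect
  have hn : (0 : ℝ) ≤ n := Nat.cast_nonneg n
  rw [abs_le] at h1 h2 h4 ⊢
  constructor
  · nlinarith only [h2, h4, h1]
  · nlinarith only [h2, h4, h1]

end Sys

variable {U : Ultrafilter ℕ} {S : ℕ → Sys}

theorem AsympGG.of_approx {ψ : ℝ → ℝ}
    (h : ∀ ε > 0, ∃ ψ' : ℝ → ℝ, AsympGG U S ψ' ∧ ∀ᶠ N in (U : Filter ℕ),
      (S N).tav (n := 2) (fun _ x => |ψ ((S N).R (x 0) (x 1)) - ψ' ((S N).R (x 0) (x 1))|) ≤ ε) :
    AsympGG U S ψ := by
  intro n i ε hε
  have hn : (0 : ℝ) < 2 * n + 1 := by (clear * -; positivity)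
  obtain ⟨ψ', h1, h2⟩ := h (ε / 2 / (2 * n + 1)) (by (clear * - hε; positivity))
  filter_upwards [h1 n i (ε / 2) (by linarith), h2] with N hN1 hN2 F hF
  have h3 := Sys.abs_ggDefect_le i hF (fun r => ψ r - ψ' r)
  rw [Sys.ggDefect_sub i hF] at h3
  have h4 := hN1 F hF
  have h5 : 2 * (n : ℝ) * (S N).tav (n := 2)
      (fun _ x => |ψ ((S N).R (x 0) (x 1)) - ψ' ((S N).R (x 0) (x 1))|) ≤ ε / 2 := by
    have h6 : 2 * (n : ℝ) * (S N).tav (n := 2)
      (fun _ x => |ψ ((S N).R (x 0) (x 1)) - ψ' ((S N).R (x 0) (x 1))|) ≤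
        2 * (n : ℝ) * (ε / 2 / (2 * n + 1)) :=
      mul_le_mul_of_nonneg_left hN2 (by (clear * -; positivity))
    have h7 : 2 * (n : ℝ) * (ε / 2 / (2 * n + 1)) ≤ ε / 2 := by
      rw [mul_div_assoc', div_le_iff₀ hn]
      linarith only [hε]
    linarith only [h6, h7]
  rw [abs_le] at h3 h4 ⊢
  constructor <;> linarith only [h3, h4, h5]

theorem AsympGG.sub {ψ ψ' : ℝ → ℝ} (h : AsympGG U S ψ) (h' : AsympGG U S ψ') :
    AsympGG U S (fun r => ψ r - ψ' r) := by
  intro n i ε hε
  filter_upwards [h n i (ε / 2) (by linarith only [hε]), h' n i (ε / 2) (by linarith only [hε])] with N h1 h2 F hF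
  rw [Sys.ggDefect_sub i hF]
  have h3 := h1 F hF
  have h4 := h2 F hF
  rw [abs_le] at h3 h4 ⊢
  constructor <;> linarith only [h3, h4]

theorem AsympGG.smul {ψ : ℝ → ℝ} (h : AsympGG U S ψ) (c : ℝ) :
    AsympGG U S (fun r => c * ψ r) := by
  intro n i ε hε
  have hc : 0 < |c| + 1 := by positivity
  filter_upwards [h n i (ε / (|c| + 1)) (by (clear * - hε; positivity))] with N h1 F hF
  rw [Sys.ggDefect_smul, abs_mul]
  have h3 := h1 F hF
  have h4 : |c| * |(S N).ggDefect ψ i F| ≤ |c| * (ε / (|c| + 1)) :=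
    mul_le_mul_of_nonneg_left h3 (abs_nonneg _)
  have h5 : |c| * (ε / (|c| + 1)) ≤ ε := by
    rw [mul_div_assoc', div_le_iff₀ hc]
    nlinarith only [hε]
  (clear * - h4 h5; linarith only [h5, h4])

theorem AsympGG.add {ψ ψ' : ℝ → ℝ} (h : AsympGG U S ψ) (h' : AsympGG U S ψ') :
    AsympGG U S (fun r => ψ r + ψ' r) := by
  have h1 := h.sub (h'.smul (-1))
  have h2 : (fun r => ψ r - (-1) * ψ' r) = fun r => ψ r + ψ' r := by
    funext r
    ring
  rwa [h2] at h1

theorem AsympGG.polynomial (hGG : ∀ p : ℕ, AsympGG U S (fun x => x ^ p)) (q : Polynomial ℝ) :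
    AsympGG U S (fun x => q.eval x) := by
  induction q using Polynomial.induction_on' with
  | add p q hp hq =>
    have h := hp.add hq
    have h2 : (fun r => Polynomial.eval r p + Polynomial.eval r q) =
      fun r => Polynomial.eval r (p + q) := by
      funext r
      rw [Polynomial.eval_add]
    rwa [h2] at h
  | monomial n a =>
    have h := (hGG n).smul a
    have h2 : (fun r : ℝ => a * r ^ n) = fun r => Polynomial.eval r (Polynomial.monomial n a) := by
      funext r
      rw [Polynomial.eval_monomial]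
    rwa [h2] at h

theorem AsympGG.continuous (hGG : ∀ p : ℕ, AsympGG U S (fun x => x ^ p)) {f : ℝ → ℝ}
    (hf : Continuous f) : AsympGG U S f := by
  refine AsympGG.of_approx fun ε hε => ?_
  obtain ⟨q, hq⟩ := exists_polynomial_near_of_continuousOn (-1) 1 f hf.continuousOn ε hε
  refine ⟨fun x => q.eval x, AsympGG.polynomial hGG q, Eventually.of_forall fun N => ?_⟩
  obtain ⟨D, hD⟩ := Sys.exists_bdd (S := S N) (fun x : Fin 2 → (S N).X =>
    |f ((S N).R (x 0) (x 1)) - q.eval ((S N).R (x 0) (x 1))|)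
  have h1 := Sys.tav_mono (G := fun _ _ => ε) (D := |ε|) hD
    ⟨fun _ => measurable_const, fun _ _ => le_rfl⟩ (fun t x => by
      rw [abs_sub_comm]
      exact (hq _ (Sys.R_mem _ _)).le)
  rwa [Sys.tav_const] at h1

/-- `c` is not an atom of the limiting law of the overlap. -/
def NonAtom (U : Ultrafilter ℕ) (S : ℕ → Sys) (c : ℝ) : Prop :=
  ∀ δ > 0, ∃ η > 0, ∀ᶠ N in (U : Filter ℕ),
    (S N).tav (n := 2) (fun _ x => if |(S N).R (x 0) (x 1) - c| ≤ η then 1 else 0) ≤ δ

theorem AsympGG.indicator (hGG : ∀ p : ℕ, AsympGG U S (fun x => x ^ p)) {c : ℝ}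
    (hc : NonAtom U S c) : AsympGG U S ((Set.Ici c).indicator 1) := by
  refine AsympGG.of_approx fun ε hε => ?_
  obtain ⟨η, hη, h⟩ := hc ε hε
  refine ⟨fun x => max 0 (min 1 ((x - c) / η + 1)), AsympGG.continuous hGG ?_, ?_⟩
  · fun_prop
  · filter_upwards [h] with N hN
    refine le_trans ?_ hN
    obtain ⟨D, hD⟩ := Sys.exists_bdd (S := S N) (fun x : Fin 2 → (S N).X =>
      |(Set.Ici c).indicator (1 : ℝ → ℝ) ((S N).R (x 0) (x 1)) -
        max 0 (min 1 (((S N).R (x 0) (x 1) - c) / η + 1))|)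
    obtain ⟨D', hD'⟩ := Sys.exists_bdd (S := S N) (fun x : Fin 2 → (S N).X =>
      if |(S N).R (x 0) (x 1) - c| ≤ η then (1 : ℝ) else 0)
    refine Sys.tav_mono hD hD' fun t x => ?_
    generalize (S N).R (x 0) (x 1) = r
    by_cases h1 : c ≤ r
    · rw [Set.indicator_of_mem (Set.mem_Ici.mpr h1)]
      have h2 : 1 ≤ (r - c) / η + 1 := by
        have : 0 ≤ (r - c) / η := div_nonneg (by linarith only [h1]) hη.le
        linarith only [this]
      rw [min_eq_left h2, max_eq_right zero_le_one]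
      simp only [Pi.one_apply, sub_self, abs_zero]
      split_ifs <;> norm_num
    · rw [Set.indicator_of_notMem (by simpa only [Set.mem_Ici, not_le] using h1)]
      push Not at h1
      by_cases h2 : r ≤ c - η
      · have h3 : (r - c) / η + 1 ≤ 0 := by
          have : (r - c) / η ≤ -1 := by
            rw [div_le_iff₀ hη]
            linarith only [h2]
          linarith only [this]
        rw [max_eq_left ((min_le_right _ _).trans h3)]
        simp only [sub_self, abs_zero]
        split_ifs <;> norm_num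
      · push Not at h2
        rw [if_pos (by rw [abs_le]; constructor <;> linarith only [h1, h2])]
        rw [zero_sub, abs_neg, abs_of_nonneg (le_max_left _ _)]
        exact max_le zero_le_one (min_le_left _ _)

theorem exists_gap (s : Finset ℝ) : ∃ η > 0, ∀ a ∈ s, ∀ b ∈ s, a ≠ b → 2 * η < |a - b| := by
  classical
  induction s using Finset.induction_on with
  | empty => exact ⟨1, one_pos, by simp only [Finset.notMem_empty, ne_eq, mul_one, IsEmpty.forall_iff, implies_true]⟩
  | insert c s hc ih =>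
    obtain ⟨η, hη, h⟩ := ih
    have h1 : ∃ η' > 0, ∀ a ∈ s, 2 * η' < |a - c| := by
      clear h
      induction s using Finset.induction_on with
      | empty => exact ⟨1, one_pos, by simp⟩
      | insert d s hd ih2 =>
        obtain ⟨η', hη', h'⟩ := ih2 (fun h => hc (Finset.mem_insert_of_mem h))
        have hdc : d ≠ c := fun h => hc (by rw [h]; exact Finset.mem_insert_self _ _)
        have hpos : 0 < |d - c| := abs_pos.mpr (sub_ne_zero.mpr hdc)
        refine ⟨min η' (|d - c| / 4), lt_min hη' (by linarith), ?_⟩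
        intro a ha
        rw [Finset.mem_insert] at ha
        rcases ha with rfl | ha
        · have := min_le_right η' (|a - c| / 4)
          linarith
        · have := min_le_left η' (|d - c| / 4)
          have := h' a ha
          linarith
    obtain ⟨η', hη', h'⟩ := h1
    refine ⟨min η η', lt_min hη hη', ?_⟩
    have m1 := min_le_left η η'
    have m2 := min_le_right η η'
    intro a ha b hb hab
    rw [Finset.mem_insert] at ha hb
    rcases ha with rfl | ha
    · rcases hb with rfl | hb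
      · exact absurd rfl hab
      · have := h' b hb
        rw [abs_sub_comm]
        linarith only [m2, this]
    · rcases hb with rfl | hb
      · have := h' a ha
        linarith
      · have := h a ha b hb hab
        linarith only [m1, this]

theorem atoms_countable (U : Ultrafilter ℕ) (S : ℕ → Sys) : {c | ¬ NonAtom U S c}.Countable := by
  classical
  let A : ℕ → Set ℝ := fun m => {c | ∀ η > 0, ∀ᶠ N in (U : Filter ℕ),
    1 / ((m : ℝ) + 1) < (S N).tav (n := 2)
      (fun _ x => if |(S N).R (x 0) (x 1) - c| ≤ η then 1 else 0)}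
  have hsub : {c | ¬ NonAtom U S c} ⊆ ⋃ m, A m := by
    intro c hc
    have hc' : ¬ NonAtom U S c := hc
    unfold NonAtom at hc'
    push Not at hc'
    obtain ⟨δ, hδ, h⟩ := hc'
    obtain ⟨m, hm⟩ := exists_nat_one_div_lt hδ
    rw [Set.mem_iUnion]
    refine ⟨m, fun η hη => ?_⟩
    have h1 := h η hη
    filter_upwards [h1] with N hN
    exact lt_trans hm hN
  refine Set.Countable.mono hsub (Set.countable_iUnion fun m => Set.Finite.countable ?_)
  by_contra hinf
  have hinf' : (A m).Infinite := hinf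
  obtain ⟨s, hs, hcard⟩ := hinf'.exists_subset_card_eq (m + 1)
  obtain ⟨η, hη, hgap⟩ := exists_gap s
  have hev : ∀ᶠ N in (U : Filter ℕ), ∀ c ∈ s, 1 / ((m : ℝ) + 1) < (S N).tav (n := 2)
      (fun _ x => if |(S N).R (x 0) (x 1) - c| ≤ η then 1 else 0) := by
    rw [Filter.eventually_all_finset]
    exact fun c hc => hs hc η hη
  obtain ⟨N, hN⟩ := hev.exists
  have h1 : ∑ c ∈ s, 1 / ((m : ℝ) + 1) < ∑ c ∈ s, (S N).tav (n := 2)
      (fun _ x => if |(S N).R (x 0) (x 1) - c| ≤ η then 1 else 0) := by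
    refine Finset.sum_lt_sum_of_nonempty ?_ hN
    rw [← Finset.card_pos, hcard]
    omega
  rw [Finset.sum_const, hcard, nsmul_eq_mul] at h1
  have h2 : (((m + 1 : ℕ) : ℝ)) * (1 / ((m : ℝ) + 1)) = 1 := by
    push_cast
    (clear * -; field_simp)
  rw [h2] at h1
  have h3 : ∀ t : Finset ℝ, t ⊆ s → ∑ c ∈ t, (S N).tav (n := 2)
      (fun _ x => if |(S N).R (x 0) (x 1) - c| ≤ η then 1 else 0) =
      (S N).tav (n := 2) (fun _ x => ∑ c ∈ t,
        if |(S N).R (x 0) (x 1) - c| ≤ η then (1 : ℝ) else 0) := by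
    intro t
    induction t using Finset.induction_on with
    | empty =>
      intro _
      simp only [Finset.sum_empty]
      exact (Sys.tav_const 0).symm
    | insert c t hct ih =>
      intro hts
      rw [Finset.sum_insert hct, ih (fun x hx => hts (Finset.mem_insert_of_mem hx))]
      obtain ⟨D, hD⟩ := Sys.exists_bdd (S := S N) (fun x : Fin 2 → (S N).X =>
        if |(S N).R (x 0) (x 1) - c| ≤ η then (1 : ℝ) else 0)
      obtain ⟨D', hD'⟩ := Sys.exists_bdd (S := S N) (fun x : Fin 2 → (S N).X => ∑ c ∈ t,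
        if |(S N).R (x 0) (x 1) - c| ≤ η then (1 : ℝ) else 0)
      rw [← Sys.tav_add hD hD']
      refine Sys.tav_congr fun _ x => ?_
      rw [Finset.sum_insert hct]
  rw [h3 s (Finset.Subset.refl s)] at h1
  obtain ⟨D', hD'⟩ := Sys.exists_bdd (S := S N) (fun x : Fin 2 → (S N).X => ∑ c ∈ s,
        if |(S N).R (x 0) (x 1) - c| ≤ η then (1 : ℝ) else 0)
  have h4 := Sys.tav_mono (G := fun _ _ => (1 : ℝ)) (D := 1) hD'
    ⟨fun _ => measurable_const, fun _ _ => by norm_num⟩ (fun t x => by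
      by_cases hex : ∃ c ∈ s, |(S N).R (x 0) (x 1) - c| ≤ η
      · obtain ⟨c, hc, hcη⟩ := hex
        rw [Finset.sum_eq_single_of_mem c hc]
        · rw [if_pos hcη]
        · intro b hb hbc
          rw [if_neg]
          intro hbη
          have h5 := hgap b hb c hc hbc
          rw [abs_le] at hbη hcη
          have h6 : |b - c| ≤ 2 * η := by
            rw [abs_le]
            constructor <;> linarith only [hcη, hbη]
          linarith only [h5, h6]
      · push Not at hex
        rw [Finset.sum_eq_zero]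
        · norm_num
        · intro c hc
          rw [if_neg (not_le.mpr (hex c hc))])
  rw [Sys.tav_const] at h4
  linarith only [h1, h4]

/-- non-atomic thresholds are dense -/
theorem exists_nonAtom (U : Ultrafilter ℕ) (S : ℕ → Sys) {a b : ℝ} (hab : a < b) :
    ∃ c, a < c ∧ c < b ∧ NonAtom U S c := by
  have h := (atoms_countable U S).dense_compl ℝ
  obtain ⟨c, hc1, hc2⟩ := h.exists_between hab
  refine ⟨c, hc2.1, hc2.2, ?_⟩
  by_contra hcon
  exact hc1 hcon

end Vale.Agent.P157.Par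
end

section

open MeasureTheory ProbabilityTheory Filter Topology
open scoped RealInnerProductSpace

namespace Vale.Agent.P157.Par

namespace Sys

variable {S : Sys}

/-- conditional probability of the complement of the event `R ≥ c` -/
noncomputable def vv (S : Sys) (c : ℝ) (ω : S.Ω) (z : S.X) : ℝ :=
  ∑ y, S.w ω y * ind (S.R z y < c)

theorem vv_nonneg (c : ℝ) (ω : S.Ω) (z : S.X) : 0 ≤ S.vv c ω z :=
  Finset.sum_nonneg fun y _ => mul_nonneg (S.w0 ω y) (ind_nonneg _)

theorem vv_le_one (c : ℝ) (ω : S.Ω) (z : S.X) : S.vv c ω z ≤ 1 := by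
  rw [← S.w1 ω]
  exact Finset.sum_le_sum fun y _ => mul_le_of_le_one_right (S.w0 ω y) (ind_le_one _)

/-- the test functions used in the iteration -/
noncomputable def ff (S : Sys) {n : ℕ} (A : (Fin n → S.X) → ℝ) (i : Fin n) (c : ℝ) (j : ℕ)
    (x : Fin (n + j) → S.X) : ℝ :=
  A (fun a => x (Fin.castAdd j a)) *
    ∏ k : Fin j, ind (S.R (x (Fin.castAdd j i)) (x (Fin.natAdd n k)) < c)

theorem inn_ff {n : ℕ} (ω : S.Ω) (A : (Fin n → S.X) → ℝ) (i : Fin n) (c : ℝ) (j : ℕ)
    (H : S.X → ℝ) :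
    S.inn ω (fun x => S.ff A i c j x * H (x (Fin.castAdd j i))) =
      S.inn ω (fun u => A u * S.vv c ω (u i) ^ j * H (u i)) := by
  rw [inn_append]
  congr 1
  funext u
  have h1 : ∀ v : Fin j → S.X, S.ff A i c j (Fin.append u v) *
      H (Fin.append u v (Fin.castAdd j i)) =
      (A u * H (u i)) * ∏ k, ind (S.R (u i) (v k) < c) := by
    intro v
    unfold ff
    simp only [Fin.append_left, Fin.append_right]
    ring
  simp_rw [h1]
  rw [inn_smul, inn_prod ω (fun y => ind (S.R (u i) y < c))]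
  unfold vv
  ring

theorem inn_ff_last {n : ℕ} (ω : S.Ω) (A : (Fin n → S.X) → ℝ) (i : Fin n) (c : ℝ) (j : ℕ) :
    S.inn (n := n + j + 1) ω (fun x => S.ff A i c j (fun k => x k.castSucc) *
      (Set.Ici c).indicator 1 (S.R (x (Fin.castAdd j i).castSucc) (x (Fin.last (n + j))))) =
      S.inn ω (fun u => A u * S.vv c ω (u i) ^ j * (1 - S.vv c ω (u i))) := by
  rw [inn_snoc, ← inn_ff ω A i c j (fun z => 1 - S.vv c ω z)]
  congr 1
  funext u
  have h1 : ∀ y : S.X, (Set.Ici c).indicator (1 : ℝ → ℝ) (S.R (u (Fin.castAdd j i)) y) =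
      1 - ind (S.R (u (Fin.castAdd j i)) y < c) := by
    intro y
    by_cases h : S.R (u (Fin.castAdd j i)) y < c
    · rw [ind_of h, Set.indicator_of_notMem (by simpa only [Set.mem_Ici, not_le] using h)]
      ring
    · rw [ind_of_not h, Set.indicator_of_mem (by simpa only [Set.mem_Ici, not_lt] using h)]
      simp
  have h2 : ∀ y : S.X, (fun k : Fin (n + j) =>
      (Fin.snoc (α := fun _ => S.X) u y : Fin (n + j + 1) → S.X) k.castSucc) = u := by
    intro y
    funext k
    exact Fin.snoc_castSucc _ _ _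
  have h3 : ∀ y : S.X, (Fin.snoc (α := fun _ => S.X) u y : Fin (n + j + 1) → S.X)
      (Fin.castAdd j i).castSucc = u (Fin.castAdd j i) := fun y => Fin.snoc_castSucc _ _ _
  have h4 : ∀ y : S.X, (Fin.snoc (α := fun _ => S.X) u y : Fin (n + j + 1) → S.X)
      (Fin.last (n + j)) = y := fun y => Fin.snoc_last _ _
  simp only [h2, h3, h4, h1]
  have h5 : ∀ y : S.X, S.w ω y * (S.ff A i c j u * (1 - ind (S.R (u (Fin.castAdd j i)) y < c))) =
      S.ff A i c j u * (S.w ω y - S.w ω y * ind (S.R (u (Fin.castAdd j i)) y < c)) := by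
    intro y
    ring
  simp_rw [h5]
  rw [← Finset.mul_sum, Finset.sum_sub_distrib, S.w1 ω]
  rfl

/-- the numbers `a_j` -/
noncomputable def aa (S : Sys) {n : ℕ} (A : (Fin n → S.X) → ℝ) (i : Fin n) (c : ℝ) (j : ℕ) : ℝ :=
  ∫ ω, S.inn ω (fun u => A u * S.vv c ω (u i) ^ j) ∂S.P

theorem aa_integrable {n : ℕ} (A : (Fin n → S.X) → ℝ) (i : Fin n) (c : ℝ) (j : ℕ) :
    Integrable (fun ω => S.inn ω (fun u => A u * S.vv c ω (u i) ^ j)) S.P := by
  obtain ⟨C, hC⟩ := exists_bdd (S := S) A
  refine inn_integrable (C := C) (fun x => ?_) (fun ω x => ?_)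
  · refine Measurable.const_mul ?_ _
    refine Measurable.pow_const ?_ j
    unfold vv
    exact Finset.measurable_sum _ fun y _ => (S.hw y).mul_const _
  · rw [abs_mul]
    have h1 : |S.vv c ω (x i) ^ j| ≤ 1 := by
      rw [abs_of_nonneg (pow_nonneg (vv_nonneg c ω _) j)]
      exact pow_le_one₀ (vv_nonneg c ω _) (vv_le_one c ω _)
    by_cases hT : Nonempty S.T
    · obtain ⟨t⟩ := hT
      calc |A x| * |S.vv c ω (x i) ^ j| ≤ |A x| * 1 :=
            mul_le_mul_of_nonneg_left h1 (abs_nonneg _)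
        _ ≤ C := by rw [mul_one]; exact hC.bdd t x
    · exact absurd ⟨S.π ω⟩ hT

theorem tav_ff {n : ℕ} (A : (Fin n → S.X) → ℝ) (i : Fin n) (c : ℝ) (j : ℕ) :
    S.tav (fun _ x => S.ff A i c j x) = S.aa A i c j := by
  rw [tav_def]
  unfold aa
  refine integral_congr_ae (Eventually.of_forall fun ω => ?_)
  have h := inn_ff ω A i c j (fun _ => 1)
  simpa only [mul_one] using h

theorem tav_ff_last {n : ℕ} (A : (Fin n → S.X) → ℝ) (i : Fin n) (c : ℝ) (j : ℕ) :
    S.tav (n := n + j + 1) (fun _ x => S.ff A i c j (fun k => x k.castSucc) *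
      (Set.Ici c).indicator 1 (S.R (x (Fin.castAdd j i).castSucc) (x (Fin.last (n + j))))) =
      S.aa A i c j - S.aa A i c (j + 1) := by
  rw [tav_def]
  unfold aa
  rw [← integral_sub (aa_integrable A i c j) (aa_integrable A i c (j + 1))]
  refine integral_congr_ae (Eventually.of_forall fun ω => ?_)
  simp only
  rw [inn_ff_last, ← inn_sub]
  congr 1
  funext u
  ring

theorem ff_mul_eq_zero {n : ℕ} (E : (Fin n → S.X) → Prop) (i : Fin n) (c : ℝ) (j : ℕ)
    (hE : ∀ x, E x → ∀ a, a ≠ i → S.R (x i) (x a) < c) (l : Fin (n + j))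
    (hl : l ≠ Fin.castAdd j i) (x : Fin (n + j) → S.X) :
    S.ff (fun x => ind (E x)) i c j x *
      (Set.Ici c).indicator (1 : ℝ → ℝ) (S.R (x (Fin.castAdd j i)) (x l)) = 0 := by
  unfold ff
  by_cases hEx : E (fun a => x (Fin.castAdd j a))
  · by_cases hlt : S.R (x (Fin.castAdd j i)) (x l) < c
    · rw [Set.indicator_of_notMem (by simpa only [Set.mem_Ici, not_le] using hlt), mul_zero]
    · induction l using Fin.addCases with
      | left a =>
        exfalso
        apply hlt
        refine hE _ hEx a ?_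
        rintro rfl
        exact hl rfl
      | right k =>
        rw [Finset.prod_eq_zero (Finset.mem_univ k) (ind_of_not hlt), mul_zero, zero_mul]
  · simp only
    rw [ind_of_not hEx, zero_mul, zero_mul]

theorem defect_ff {n : ℕ} (E : (Fin n → S.X) → Prop) (i : Fin n) (c : ℝ) (j : ℕ)
    (hE : ∀ x, E x → ∀ a, a ≠ i → S.R (x i) (x a) < c) :
    S.ggDefect ((Set.Ici c).indicator 1) (Fin.castAdd j i)
      (fun _ x => S.ff (fun x => ind (E x)) i c j x) =
    ((n + j : ℕ) : ℝ) * (S.aa (fun x => ind (E x)) i c j - S.aa (fun x => ind (E x)) i c (j + 1))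
      - S.aa (fun x => ind (E x)) i c j *
        S.tav (fun _ (x : Fin 2 → S.X) => (Set.Ici c).indicator 1 (S.R (x 0) (x 1))) := by
  unfold Sys.ggDefect
  rw [tav_ff_last, tav_ff]
  have h0 : ∑ l ∈ Finset.univ.erase (Fin.castAdd j i), S.tav (fun _ x =>
      S.ff (fun x => ind (E x)) i c j x *
        (Set.Ici c).indicator (1 : ℝ → ℝ) (S.R (x (Fin.castAdd j i)) (x l))) = 0 := by
    refine Finset.sum_eq_zero fun l hl => ?_
    have h1 : S.tav (n := n + j) (fun _ x =>
      S.ff (fun x => ind (E x)) i c j x *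
        (Set.Ici c).indicator (1 : ℝ → ℝ) (S.R (x (Fin.castAdd j i)) (x l))) =
        S.tav (n := n + j) (fun _ _ => 0) :=
      tav_congr fun _ x => ff_mul_eq_zero E i c j hE l (Finset.ne_of_mem_erase hl) x
    rw [h1, tav_const]
  rw [h0, add_zero]

theorem ff_test {n : ℕ} (E : (Fin n → S.X) → Prop) (i : Fin n) (c : ℝ) (j : ℕ) :
    S.Test (fun _ x => S.ff (fun x => ind (E x)) i c j x) where
  meas _ := measurable_const
  bdd _ x := by
    unfold ff
    rw [abs_mul, Finset.abs_prod]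
    have h1 : ∏ k : Fin j, |ind (S.R (x (Fin.castAdd j i)) (x (Fin.natAdd n k)) < c)| ≤ 1 :=
      Finset.prod_le_one (fun _ _ => abs_nonneg _) fun _ _ => abs_ind_le_one _
    calc _ ≤ 1 * 1 := mul_le_mul (abs_ind_le_one _) h1
          (Finset.prod_nonneg fun _ _ => abs_nonneg _) zero_le_one
      _ = 1 := one_mul 1

/-- upper bound: pointwise inequality -/
theorem geom_bound {V W1 W2 η : ℝ} (hV0 : 0 ≤ V) (hV1 : V ≤ 1) (hW1 : 0 < W1) (hW2 : 0 ≤ W2)
    (h : W1 ≤ (1 - V) + W2) (hη : 0 < η) (J : ℕ) :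
    ∑ j ∈ Finset.range J, V ^ j ≤ (2 + 2 * η * J) / W1 + J / η * W2 := by
  have hJ : (0 : ℝ) ≤ J := Nat.cast_nonneg J
  have h1 : ∑ j ∈ Finset.range J, V ^ j ≤ J := by
    calc ∑ j ∈ Finset.range J, V ^ j ≤ ∑ j ∈ Finset.range J, (1 : ℝ) :=
          Finset.sum_le_sum fun j _ => pow_le_one₀ hV0 hV1
      _ = J := by simp only [Finset.sum_const, Finset.card_range, nsmul_eq_mul, mul_one]
  have t1 : 0 ≤ 2 / W1 := by positivity
  have t2 : 0 ≤ 2 * η * J / W1 := by (clear * - hη hW1; positivity)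
  have t3 : 0 ≤ J / η * W2 := by (clear * - hη hW2; positivity)
  rw [add_div]
  by_cases hc : W2 ≤ W1 / 2
  · have hW : W1 / 2 ≤ 1 - V := by linarith only [hc, h]
    have h2 : (∑ j ∈ Finset.range J, V ^ j) * (1 - V) ≤ 1 := by
      rw [geom_sum_mul_neg]
      have := pow_nonneg hV0 J
      linarith only [this]
    have h3 : ∑ j ∈ Finset.range J, V ^ j ≤ 2 / W1 := by
      rw [le_div_iff₀ hW1]
      have h4 : 0 ≤ ∑ j ∈ Finset.range J, V ^ j := Finset.sum_nonneg fun j _ => pow_nonneg hV0 j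
      nlinarith only [h2, h, h4, hc]
    linarith only [t2, t3, h3]
  · push Not at hc
    by_cases hd : W1 ≤ 2 * η
    · have h3 : (J : ℝ) ≤ 2 * η * J / W1 := by
        rw [le_div_iff₀ hW1]
        nlinarith only [hd]
      linarith only [h1, t1, t3, h3]
    · push Not at hd
      have h3 : (J : ℝ) ≤ J / η * W2 := by
        rw [div_mul_eq_mul_div, le_div_iff₀ hη]
        have : η < W2 := by linarith only [hc, hd]
        nlinarith only [hc, hd]
      linarith only [h1, t1, t2, h3]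

/-- upper bound: for fixed disorder -/
theorem inn_upper {n : ℕ} (ω : S.Ω) (E : (Fin n → S.X) → Prop) (i : Fin n) (c : ℝ)
    (T : (Fin n → S.X) → S.X → Prop) (hT : ∀ x y z, T (Function.update x i y) z ↔ T x z)
    (hET : ∀ x, E x → T x (x i)) {η : ℝ} (hη : 0 < η) (J : ℕ) :
    ∑ j ∈ Finset.range J, S.inn ω (fun u => ind (E u) * S.vv c ω (u i) ^ j) ≤
      2 + 2 * η * J + J / η * S.inn ω (fun u => ind (E u) *
        ∑ y, S.w ω y * ind (T u y ∧ S.R (u i) y < c)) := by
  classical
  set W1 : (Fin n → S.X) → ℝ := fun u => ∑ y, S.w ω y * ind (T u y) with hW1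
  set W2 : (Fin n → S.X) → ℝ := fun u => ∑ y, S.w ω y * ind (T u y ∧ S.R (u i) y < c) with hW2
  have h1 : ∑ j ∈ Finset.range J, S.inn ω (fun u => ind (E u) * S.vv c ω (u i) ^ j) =
      S.inn ω (fun u => ind (E u) * ∑ j ∈ Finset.range J, S.vv c ω (u i) ^ j) := by
    unfold inn
    rw [Finset.sum_comm]
    refine Finset.sum_congr rfl fun x _ => ?_
    simp only [Finset.mul_sum]
  rw [h1]
  have h2 : S.inn ω (fun u => ind (E u) * ∑ j ∈ Finset.range J, S.vv c ω (u i) ^ j) ≤
      S.inn ω (fun u => (2 + 2 * η * J) * (ind (E u) / W1 u) + J / η * (ind (E u) * W2 u)) := by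
    refine inn_mono' ω fun x hx => ?_
    by_cases hE : E x
    · rw [ind_of hE, one_mul, one_mul]
      have hpos : 0 < W1 x := by
        have h3 : S.w ω (x i) ≤ W1 x := by
          have h4 : S.w ω (x i) * ind (T x (x i)) ≤ W1 x :=
            Finset.single_le_sum (f := fun y => S.w ω y * ind (T x y))
              (fun y _ => mul_nonneg (S.w0 ω y) (ind_nonneg _)) (Finset.mem_univ (x i))
          rwa [ind_of (hET x hE), mul_one] at h4
        exact lt_of_lt_of_le (hx i) h3
      have hW20 : 0 ≤ W2 x := Finset.sum_nonneg fun y _ => mul_nonneg (S.w0 ω y) (ind_nonneg _)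
      have hle : W1 x ≤ (1 - S.vv c ω (x i)) + W2 x := by
        rw [← S.w1 ω]
        simp only [hW1, hW2]
        unfold vv
        rw [← Finset.sum_sub_distrib, ← Finset.sum_add_distrib]
        refine Finset.sum_le_sum fun y _ => ?_
        have hw := S.w0 ω y
        by_cases ht : T x y
        · by_cases hr : S.R (x i) y < c
          · rw [ind_of ht, ind_of hr, ind_of ⟨ht, hr⟩]
            linarith only []
          · rw [ind_of ht, ind_of_not hr,
              ind_of_not (p := T x y ∧ S.R (x i) y < c) (fun h => hr h.2)]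
            linarith only []
        · rw [ind_of_not ht, ind_of_not (p := T x y ∧ S.R (x i) y < c) (fun h => ht h.1)]
          have := ind_le_one (S.R (x i) y < c)
          nlinarith only [hw, this]
      have h5 := geom_bound (vv_nonneg c ω (x i)) (vv_le_one c ω (x i)) hpos hW20 hle hη J
      rw [mul_one_div]
      exact h5
    · rw [ind_of_not hE]
      simp only [zero_mul, zero_div, mul_zero, add_zero, Std.le_refl]
  refine h2.trans ?_
  rw [inn_add, inn_smul, inn_smul]
  have h3 : S.inn ω (fun u => ind (E u) / W1 u) ≤ 1 := by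
    rw [inn_update ω i]
    rw [← inn_const (S := S) (n := n) ω 1]
    refine inn_mono ω fun x => ?_
    have h4 : ∀ y, W1 (Function.update x i y) = W1 x := by
      intro y
      simp only [hW1]
      refine Finset.sum_congr rfl fun z _ => ?_
      rw [show (T (Function.update x i y) z) = T x z from propext (hT x y z)]
    have h5 : ∑ y, S.w ω y * (ind (E (Function.update x i y)) / W1 (Function.update x i y)) ≤
        (∑ y, S.w ω y * ind (T x y)) / W1 x := by
      rw [Finset.sum_div]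
      refine Finset.sum_le_sum fun y _ => ?_
      rw [h4 y, mul_div_assoc]
      have hW0 : 0 ≤ W1 x := Finset.sum_nonneg fun y _ => mul_nonneg (S.w0 ω y) (ind_nonneg _)
      have h6 : ind (E (Function.update x i y)) ≤ ind (T x y) := by
        refine ind_mono fun h => ?_
        have h7 := hET _ h
        rw [Function.update_self] at h7
        exact (hT x y y).mp h7
      exact mul_le_mul_of_nonneg_left (div_le_div_of_nonneg_right h6 hW0) (S.w0 ω y)
    refine h5.trans ?_
    exact div_self_le_one _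
  have h4 : 0 ≤ 2 + 2 * η * (J : ℝ) := by (clear * - hη; positivity)
  linarith only [mul_nonneg (sub_nonneg.2 h3) (sub_nonneg.2 h4)]

end Sys

/-- probability of an event of the replicas -/
noncomputable def Sys.pr (S : Sys) {n : ℕ} (E : (Fin n → S.X) → Prop) : ℝ :=
  S.tav fun _ x => ind (E x)

theorem Sys.bdd_ind {S : Sys} {n : ℕ} (E : (Fin n → S.X) → Prop) :
    Sys.Bdd S (fun _ x => ind (E x)) 1 :=
  ⟨fun _ => measurable_const, fun _ _ => abs_ind_le_one _⟩

theorem Sys.pr_nonneg (S : Sys) {n : ℕ} (E : (Fin n → S.X) → Prop) : 0 ≤ S.pr E :=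
  Sys.tav_nonneg fun _ _ => ind_nonneg _

theorem Sys.pr_mono (S : Sys) {n : ℕ} {E E' : (Fin n → S.X) → Prop} (h : ∀ x, E x → E' x) :
    S.pr E ≤ S.pr E' :=
  Sys.tav_mono (Sys.bdd_ind E) (Sys.bdd_ind E') fun _ x => ind_mono (h x)

/-- the event that all overlaps lie in prescribed sets -/
def Ev (S : Sys) {κ : Type*} (J : κ → κ → Set ℝ) {n : ℕ} (τ : Fin n → κ) (x : Fin n → S.X) : Prop :=
  ∀ a b, a ≠ b → S.R (x a) (x b) ∈ J (τ a) (τ b)

theorem rec_lower {n J : ℕ} {a : ℕ → ℝ} {γ ε : ℝ} (ha : ∀ j, 0 ≤ a j) (hγ1 : γ ≤ 1)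
    (h : ∀ j < J, |((n + j : ℕ) : ℝ) * (a j - a (j + 1)) - a j * γ| ≤ ε) (j : ℕ) (hj : j ≤ J) :
    ((n : ℝ) - 1) * a 0 - j * ε ≤ ((n : ℝ) + j - 1) * a j := by
  induction j with
  | zero => simp only [CharP.cast_eq_zero, zero_mul, sub_zero, add_zero, Std.le_refl]
  | succ j ih =>
    have h1 := ih (by omega)
    have h2 := (abs_le.mp (h j (by omega))).2
    have h3 := ha j
    push_cast at h2 ⊢
    linarith only [mul_nonneg (sub_nonneg.2 hγ1) (sub_nonneg.2 h3), h2, h1]

theorem sum_lower {n J : ℕ} (hn : 2 ≤ n) {a : ℕ → ℝ} {p ε : ℝ} (hε : 0 ≤ ε) (hp0 : 0 ≤ p)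
    (hp : p ≤ a 0)
    (h : ∀ j < J, ((n : ℝ) - 1) * a 0 - j * ε ≤ ((n : ℝ) + j - 1) * a j) :
    p * ((1 / (n : ℝ)) * ∑ j ∈ Finset.range J, 1 / ((j : ℝ) + 1)) - J * ε ≤
      ∑ j ∈ Finset.range J, a j := by
  have hn' : (2 : ℝ) ≤ n := by exact_mod_cast hn
  have h1 : ∀ j ∈ Finset.range J, p * ((1 / (n : ℝ)) * (1 / ((j : ℝ) + 1))) - ε ≤ a j := by
    intro j hj
    have h2 := h j (Finset.mem_range.mp hj)
    have hj0 : (0 : ℝ) ≤ j := Nat.cast_nonneg j
    have hD : (0 : ℝ) < (n : ℝ) + j - 1 := by linarith only [hn']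
    have h3 : (p - j * ε) / ((n : ℝ) + j - 1) ≤ a j := by
      rw [div_le_iff₀ hD]
      linarith [mul_nonneg (sub_nonneg.2 hp0) (sub_nonneg.2 hn'), mul_nonneg (sub_nonneg.2 hp) (sub_nonneg.2 hn'), h2]
    have h4 : p * ((1 / (n : ℝ)) * (1 / ((j : ℝ) + 1))) ≤ p / ((n : ℝ) + j - 1) := by
      rw [one_div_mul_one_div, mul_one_div]
      refine div_le_div_of_nonneg_left hp0 hD ?_
      nlinarith only [hn']
    have h5 : j * ε / ((n : ℝ) + j - 1) ≤ ε := by
      rw [div_le_iff₀ hD]
      nlinarith only [hε, hn']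
    rw [sub_div] at h3
    linarith only [h5, h4, h3]
  have h2 := Finset.sum_le_sum h1
  rw [Finset.sum_sub_distrib, Finset.sum_const, Finset.card_range, nsmul_eq_mul,
    ← Finset.mul_sum, ← Finset.mul_sum] at h2
  exact h2

variable {U : Ultrafilter ℕ} {S : ℕ → Sys}

theorem Sys.aa_nonneg {S : Sys} {n : ℕ} (E : (Fin n → S.X) → Prop) (i : Fin n) (c : ℝ) (j : ℕ) :
    0 ≤ S.aa (fun x => ind (E x)) i c j :=
  integral_nonneg fun ω => Sys.inn_nonneg ω fun _ =>
    mul_nonneg (ind_nonneg _) (pow_nonneg (Sys.vv_nonneg c ω _) j)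

theorem Sys.aa_zero {S : Sys} {n : ℕ} (E : (Fin n → S.X) → Prop) (i : Fin n) (c : ℝ) :
    S.aa (fun x => ind (E x)) i c 0 = S.pr E := by
  unfold Sys.aa Sys.pr
  rw [Sys.tav_def]
  simp

/-- averaged upper bound -/
theorem Sys.aa_upper {S : Sys} {κ : Type*} (J : κ → κ → Set ℝ) (hsymm : ∀ k l, J k l = J l k)
    {c : ℝ} {k0 : κ} (hJ0 : Set.Iio c ⊆ J k0 k0) {n : ℕ} (τ : Fin n → κ) (i : Fin n)
    (hi : τ i = k0) {η : ℝ} (hη : 0 < η) (M : ℕ) :
    ∑ j ∈ Finset.range M, S.aa (fun x => ind (Ev S J τ x)) i c j ≤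
      2 + 2 * η * M + M / η * S.pr (Ev S J (Fin.snoc (α := fun _ => κ) τ k0)) := by
  set T : (Fin n → S.X) → S.X → Prop := fun x z => ∀ a, a ≠ i → S.R z (x a) ∈ J k0 (τ a) with hTdef
  have hT : ∀ x y z, T (Function.update x i y) z ↔ T x z := by
    intro x y z
    refine forall_congr' fun a => forall_congr' fun ha => ?_
    rw [Function.update_of_ne ha]
  have hET : ∀ x, Ev S J τ x → T x (x i) := by
    intro x hx a ha
    have := hx i a ha.symm
    rwa [hi] at this
  have h1 : ∀ ω, ∑ j ∈ Finset.range M,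
      S.inn ω (fun u => ind (Ev S J τ u) * S.vv c ω (u i) ^ j) ≤
      2 + 2 * η * M + M / η * S.inn ω
        (fun x => ind (Ev S J (Fin.snoc (α := fun _ => κ) τ k0) x)) := by
    intro ω
    refine (Sys.inn_upper ω (Ev S J τ) i c T hT hET hη M).trans ?_
    have h2 : S.inn ω (fun u => ind (Ev S J τ u) *
        ∑ y, S.w ω y * ind (T u y ∧ S.R (u i) y < c)) ≤
        S.inn ω (fun x => ind (Ev S J (Fin.snoc (α := fun _ => κ) τ k0) x)) := by
      rw [Sys.inn_snoc]
      refine Sys.inn_mono ω fun u => ?_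
      rw [Finset.mul_sum]
      refine Finset.sum_le_sum fun y _ => ?_
      rw [mul_left_comm]
      refine mul_le_mul_of_nonneg_left ?_ (S.w0 ω y)
      by_cases hE : Ev S J τ u
      · by_cases hTy : T u y ∧ S.R (u i) y < c
        · rw [ind_of hE, ind_of hTy, ind_of, one_mul]
          intro a b hab
          have key : ∀ b : Fin n, S.R y (u b) ∈ J k0 (τ b) := by
            intro b
            by_cases hb : b = i
            · rw [hb, hi]
              apply hJ0
              rw [Sys.R_symm]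
              exact hTy.2
            · exact hTy.1 b hb
          induction a using Fin.lastCases with
          | last =>
            induction b using Fin.lastCases with
            | last => exact absurd rfl hab
            | cast b =>
              rw [Fin.snoc_last, Fin.snoc_last, Fin.snoc_castSucc, Fin.snoc_castSucc]
              exact key b
          | cast a =>
            induction b using Fin.lastCases with
            | last =>
              rw [Fin.snoc_last, Fin.snoc_last, Fin.snoc_castSucc, Fin.snoc_castSucc, hsymm,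
                Sys.R_symm]
              exact key a
            | cast b =>
              rw [Fin.snoc_castSucc, Fin.snoc_castSucc, Fin.snoc_castSucc, Fin.snoc_castSucc]
              refine hE a b ?_
              rintro rfl
              exact hab rfl
        · rw [ind_of_not hTy, mul_zero]
          exact ind_nonneg _
      · rw [ind_of_not hE, zero_mul]
        exact ind_nonneg _
    have h3 : 0 ≤ (M : ℝ) / η := by (clear * - hη; positivity)
    linarith only [mul_le_mul_of_nonneg_left h2 h3]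
  unfold Sys.aa Sys.pr
  rw [← integral_finsetSum _ (fun j _ => Sys.aa_integrable _ i c j), Sys.tav_def]
  have hint := (Sys.bdd_ind (S := S) (Ev S J (Fin.snoc (α := fun _ => κ) τ k0))).integrable
  rw [← integral_const_mul]
  have h4 : ∫ ω, (2 + 2 * η * (M : ℝ)) ∂S.P = 2 + 2 * η * M := by simp only [integral_const, probReal_univ, smul_eq_mul, one_mul]
  rw [← h4, ← integral_add (integrable_const _) (hint.const_mul _)]
  refine integral_mono (integrable_finsetSum _ fun j _ => Sys.aa_integrable _ i c j)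
    ((integrable_const _).add (hint.const_mul _)) fun ω => ?_
  exact h1 ω

/-- **Duplication lemma.** -/
theorem dup (hGG : ∀ p : ℕ, AsympGG U S (fun x => x ^ p)) {c : ℝ} (hc : NonAtom U S c)
    {κ : Type*} (J : κ → κ → Set ℝ) (hsymm : ∀ k l, J k l = J l k) (k0 : κ)
    (hJ : ∀ k, J k0 k ⊆ Set.Iio c) (hJ0 : Set.Iio c ⊆ J k0 k0) {n : ℕ} (hn : 2 ≤ n)
    (τ : Fin n → κ) (i : Fin n) (hi : τ i = k0) {p : ℝ} (hp : 0 < p)
    (hA : ∀ᶠ N in (U : Filter ℕ), p ≤ (S N).pr (Ev (S N) J τ)) :
    ∃ δ > 0, ∀ᶠ N in (U : Filter ℕ),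
      δ ≤ (S N).pr (Ev (S N) J (Fin.snoc (α := fun _ => κ) τ k0)) := by
  have hn0 : (0 : ℝ) < n := by
    have : 0 < n := by omega
    exact_mod_cast this
  obtain ⟨M, hM⟩ : ∃ M : ℕ, 5 * n / p ≤ ∑ j ∈ Finset.range M, 1 / ((j : ℝ) + 1) :=
    ((Filter.tendsto_atTop.mp Real.tendsto_sum_range_one_div_nat_succ_atTop) (5 * n / p)).exists
  have hM1 : (0 : ℝ) < (M : ℝ) + 1 := by (clear * -; positivity)
  set ε : ℝ := 1 / ((M : ℝ) + 1) with hε
  set η : ℝ := 1 / (2 * ((M : ℝ) + 1)) with hη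
  have hε0 : 0 < ε := by (clear * -; positivity)
  have hη0 : 0 < η := by (clear * -; positivity)
  refine ⟨η / ((M : ℝ) + 1), by (clear * -; positivity), ?_⟩
  have hind := AsympGG.indicator hGG hc
  have hev : ∀ᶠ N in (U : Filter ℕ), ∀ j ∈ Finset.range M,
      ∀ F : (S N).T → (Fin (n + j) → (S N).X) → ℝ, (S N).Test F →
        |(S N).ggDefect ((Set.Ici c).indicator 1) (Fin.castAdd j i) F| ≤ ε := by
    rw [Filter.eventually_all_finset]
    exact fun j _ => hind (n + j) (Fin.castAdd j i) ε hε0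
  filter_upwards [hev, hA] with N hN hpN
  have hE : ∀ x, Ev (S N) J τ x → ∀ a, a ≠ i → (S N).R (x i) (x a) < c := by
    intro x hx a ha
    have h1 := hx i a ha.symm
    rw [hi] at h1
    exact hJ _ h1
  set a : ℕ → ℝ := fun j => (S N).aa (fun x => ind (Ev (S N) J τ x)) i c j with ha
  set γ : ℝ := (S N).tav (fun _ (x : Fin 2 → (S N).X) =>
    (Set.Ici c).indicator 1 ((S N).R (x 0) (x 1))) with hγ
  have hγ1 : γ ≤ 1 := by
    obtain ⟨D, hD⟩ := Sys.exists_bdd (S := S N) (fun x : Fin 2 → (S N).X =>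
      (Set.Ici c).indicator (1 : ℝ → ℝ) ((S N).R (x 0) (x 1)))
    have h1 := Sys.tav_mono (G := fun _ _ => (1 : ℝ)) (D := 1) hD
      ⟨fun _ => measurable_const, fun _ _ => by norm_num⟩ (fun t x => by
        unfold Set.indicator
        split_ifs <;> norm_num)
    rwa [Sys.tav_const] at h1
  have hdef : ∀ j < M, |((n + j : ℕ) : ℝ) * (a j - a (j + 1)) - a j * γ| ≤ ε := by
    intro j hj
    have h1 := hN j (Finset.mem_range.mpr hj) _
      (Sys.ff_test (S := S N) (Ev (S N) J τ) i c j)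
    rwa [Sys.defect_ff (Ev (S N) J τ) i c j hE] at h1
  have hrec := rec_lower (n := n) (J := M) (a := a) (fun j => Sys.aa_nonneg _ i c j) hγ1 hdef
  have hp0 : p ≤ a 0 := by
    simp only [ha]
    rw [Sys.aa_zero]
    exact hpN
  have hlow := sum_lower hn hε0.le hp.le hp0 (fun j hj => hrec j hj.le)
  have hup := Sys.aa_upper (S := S N) J hsymm hJ0 τ i hi hη0 M
  have h1 : 5 ≤ p * ((1 / (n : ℝ)) * ∑ j ∈ Finset.range M, 1 / ((j : ℝ) + 1)) := by
    have h2 : p * ((1 / (n : ℝ)) * (5 * n / p)) ≤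
      p * ((1 / (n : ℝ)) * ∑ j ∈ Finset.range M, 1 / ((j : ℝ) + 1)) :=
      mul_le_mul_of_nonneg_left (mul_le_mul_of_nonneg_left hM (by positivity)) hp.le
    have h3 : p * ((1 / (n : ℝ)) * (5 * n / p)) = 5 := by
      (clear * - hp hn; field_simp)
    linarith only [h2, h3]
  have h2 : (M : ℝ) * ε ≤ 1 := by
    rw [hε, mul_one_div, div_le_one hM1]
    linarith only []
  have h3 : 2 * η * (M : ℝ) ≤ 1 := by
    rw [hη, mul_one_div, div_mul_eq_mul_div, div_le_one (by (clear * -; positivity))]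
    linarith only []
  set P := (S N).pr (Ev (S N) J (Fin.snoc (α := fun _ => κ) τ k0)) with hP
  have hP0 : 0 ≤ P := Sys.pr_nonneg _ _
  have h4 : 1 ≤ (M : ℝ) / η * P := by (clear * - hlow h1 h2 h3 hup; linarith)
  have h5 : (M : ℝ) / η * P ≤ ((M : ℝ) + 1) / η * P :=
    mul_le_mul_of_nonneg_right (div_le_div_of_nonneg_right (by linarith only []) hη0.le) hP0
  rw [div_le_iff₀ hM1]
  have h6 : 1 ≤ ((M : ℝ) + 1) / η * P := h4.trans h5
  rw [div_mul_eq_mul_div, le_div_iff₀ hη0] at h6
  linarith only [h6]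

end Vale.Agent.P157.Par
end

section

/-!
Ghirlanda-Guerra identities imply nonnegativity of the overlaps and ultrametricity
(Panchenko's theorem), for finite random Gibbs systems along an ultrafilter.
-/

open MeasureTheory ProbabilityTheory Filter Topology
open scoped RealInnerProductSpace

namespace Vale.Agent.P157.Par

variable {U : Ultrafilter ℕ} {S : ℕ → Sys}

theorem tendsto_zero_of_not_ge (f : ℕ → ℝ) (h0 : ∀ N, 0 ≤ f N)
    (h : ∀ p > 0, ¬ ∀ᶠ N in (U : Filter ℕ), p ≤ f N) : Tendsto f U (𝓝 0) := by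
  rw [tendsto_order]
  refine ⟨fun a ha => Eventually.of_forall fun N => lt_of_lt_of_le ha (h0 N), fun a ha => ?_⟩
  have h1 := h a ha
  rw [← Ultrafilter.eventually_not] at h1
  filter_upwards [h1] with N hN
  exact not_le.mp hN

/-- iterated duplication -/
theorem dup_iter (hGG : ∀ p : ℕ, AsympGG U S (fun x => x ^ p)) {c : ℝ} (hc : NonAtom U S c)
    {κ : Type*} (J : κ → κ → Set ℝ) (hsymm : ∀ k l, J k l = J l k) (k0 : κ)
    (hJ : ∀ k, J k0 k ⊆ Set.Iio c) (hJ0 : Set.Iio c ⊆ J k0 k0) {n : ℕ} (hn : 2 ≤ n)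
    (τ : Fin n → κ) (i : Fin n) (hi : τ i = k0) {p : ℝ} (hp : 0 < p)
    (hA : ∀ᶠ N in (U : Filter ℕ), p ≤ (S N).pr (Ev (S N) J τ)) (m : ℕ) :
    ∃ δ > 0, ∀ᶠ N in (U : Filter ℕ),
      δ ≤ (S N).pr (Ev (S N) J (Fin.append τ (fun _ : Fin m => k0))) := by
  induction m with
  | zero =>
    refine ⟨p, hp, ?_⟩
    filter_upwards [hA] with N hN
    refine hN.trans ?_
    refine Sys.pr_mono (S N) fun x hx => ?_
    have h1 : Fin.append τ (fun _ : Fin 0 => k0) = τ := by
      funext a
      have := Fin.append_left τ (fun _ : Fin 0 => k0) a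
      exact this
    rw [h1]
    exact hx
  | succ m ih =>
    obtain ⟨δ, hδ, h⟩ := ih
    have h1 := dup hGG hc J hsymm k0 hJ hJ0 (n := n + m) (by omega)
      (Fin.append τ (fun _ : Fin m => k0)) (Fin.castAdd m i) (by rw [Fin.append_left, hi]) hδ h
    obtain ⟨δ', hδ', h'⟩ := h1
    refine ⟨δ', hδ', ?_⟩
    filter_upwards [h'] with N hN
    have h2 : (Fin.append τ (fun _ : Fin (m + 1) => k0) : Fin (n + (m + 1)) → κ) =
        Fin.snoc (α := fun _ => κ) (Fin.append τ (fun _ : Fin m => k0)) k0 := by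
      funext a
      induction a using Fin.lastCases with
      | last =>
        exact (Fin.append_right τ (fun _ : Fin (m + 1) => k0) (Fin.last m)).trans
          (Fin.snoc_last (α := fun _ : Fin (n + m + 1) => κ) k0
            (Fin.append τ (fun _ : Fin m => k0))).symm
      | cast a =>
        refine Eq.trans ?_ (Fin.snoc_castSucc (α := fun _ : Fin (n + m + 1) => κ) k0
            (Fin.append τ (fun _ : Fin m => k0)) a).symm
        induction a using Fin.addCases with
        | left b =>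
          rw [Fin.append_left]
          exact Fin.append_left τ (fun _ : Fin (m + 1) => k0) b
        | right b =>
          rw [Fin.append_right]
          exact Fin.append_right τ (fun _ : Fin (m + 1) => k0) b.castSucc
    rw [h2]
    exact hN

theorem Sys.exists_of_pr_pos {S : Sys} {n : ℕ} {E : (Fin n → S.X) → Prop} (h : 0 < S.pr E) :
    ∃ x, E x := by
  by_contra hcon
  push Not at hcon
  have h1 : S.pr E = 0 := by
    unfold Sys.pr
    have h2 : S.tav (n := n) (fun _ x => ind (E x)) = S.tav (n := n) (fun _ _ => 0) :=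
      Sys.tav_congr fun _ x => ind_of_not (hcon x)
    rw [h2, Sys.tav_const]
  linarith

theorem norm_sum_sq_le {V : Type*} [NormedAddCommGroup V] [InnerProductSpace ℝ V] {m : ℕ}
    (v : Fin m → V) (h1 : ∀ a, ‖v a‖ = 1) {c : ℝ} (h : ∀ a b, a ≠ b → ⟪v a, v b⟫ ≤ c) :
    ‖∑ a, v a‖ ^ 2 ≤ m + m * (m - 1) * c := by
  rw [← real_inner_self_eq_norm_sq, sum_inner]
  have h2 : ∀ a, ⟪v a, ∑ b, v b⟫ ≤ 1 + (m - 1) * c := by
    intro a
    rw [inner_sum, ← Finset.add_sum_erase _ _ (Finset.mem_univ a), real_inner_self_eq_norm_sq,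
      h1 a]
    have h3 : ∑ b ∈ Finset.univ.erase a, ⟪v a, v b⟫ ≤ ∑ b ∈ Finset.univ.erase a, c :=
      Finset.sum_le_sum fun b hb => h a b (Finset.ne_of_mem_erase hb).symm
    rw [Finset.sum_const, Finset.card_erase_of_mem (Finset.mem_univ a), Finset.card_univ,
      Fintype.card_fin, nsmul_eq_mul, Nat.cast_sub (by have := a.2; omega)] at h3
    norm_num at h3 ⊢
    linarith only [h3]
  calc ∑ a, ⟪v a, ∑ b, v b⟫ ≤ ∑ _a : Fin m, (1 + ((m : ℝ) - 1) * c) :=
        Finset.sum_le_sum fun a _ => h2 a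
    _ = m + m * (m - 1) * c := by
      rw [Finset.sum_const, Finset.card_univ, Fintype.card_fin, nsmul_eq_mul]
      ring

/-- **Positivity of the overlaps** -/
theorem positivity (hGG : ∀ p : ℕ, AsympGG U S (fun x => x ^ p)) {ε : ℝ} (hε : 0 < ε) :
    Tendsto (fun N => (S N).tav (n := 2)
      (fun _ x => if (S N).R (x 0) (x 1) < -ε then 1 else 0)) U (𝓝 0) := by
  refine tendsto_zero_of_not_ge _ (fun N => Sys.tav_nonneg fun _ x => by
    split_ifs <;> norm_num) fun p hp hcon => ?_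
  obtain ⟨c, hc1, hc2, hc⟩ := exists_nonAtom U S (show -ε < 0 by linarith)
  obtain ⟨m, hm⟩ := exists_nat_gt (1 / (-c))
  have hA : ∀ᶠ N in (U : Filter ℕ), p ≤ (S N).pr
      (Ev (S N) (fun _ _ : Unit => Set.Iio c) (fun _ : Fin 2 => ())) := by
    filter_upwards [hcon] with N hN
    refine hN.trans ?_
    have h1 : (S N).tav (n := 2) (fun _ x => if (S N).R (x 0) (x 1) < -ε then 1 else 0) =
        (S N).pr (n := 2) (fun x => (S N).R (x 0) (x 1) < -ε) :=
      Sys.tav_congr fun _ x => (ind_eq _).symm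
    rw [h1]
    refine Sys.pr_mono (S N) fun x hx a b hab => ?_
    show (S N).R (x a) (x b) < c
    have hx' : (S N).R (x 0) (x 1) < -ε := hx
    fin_cases a <;> fin_cases b
    · exact absurd rfl hab
    · exact lt_trans hx' hc1
    · rw [Sys.R_symm]
      exact lt_trans hx' hc1
    · exact absurd rfl hab
  obtain ⟨δ, hδ, h⟩ := dup_iter hGG hc (fun _ _ : Unit => Set.Iio c) (fun _ _ => rfl) ()
    (fun _ => subset_rfl) subset_rfl le_rfl (fun _ : Fin 2 => ()) 0 rfl hp hA m
  obtain ⟨N, hN⟩ := h.exists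
  obtain ⟨x, hx⟩ := Sys.exists_of_pr_pos (lt_of_lt_of_le hδ hN)
  have h1 := norm_sum_sq_le (fun a => (S N).φ (x a)) (fun a => (S N).hφ _) (c := c)
    (fun a b hab => (le_of_lt (hx a b hab)))
  have h2 := sq_nonneg ‖∑ a, (S N).φ (x a)‖
  have h3 : 1 < m * (-c) := by
    rwa [div_lt_iff₀ (by linarith only [hc2])] at hm
  have hm0 : (0 : ℝ) ≤ m := Nat.cast_nonneg m
  push_cast at h1
  nlinarith only [hc2, h3, h1]

/-- the sets used for ultrametricity: types `0` and `2` are the close pair, `1` is the far point -/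
def umJ (c : ℝ) (I01 I02 I12 : Set ℝ) : Fin 3 → Fin 3 → Set ℝ :=
  ![![Set.Iio c, I01, I02], ![I01, Set.univ, I12], ![I02, I12, Set.Iio c]]

theorem umJ_symm (c : ℝ) (I01 I02 I12 : Set ℝ) (k l : Fin 3) :
    umJ c I01 I02 I12 k l = umJ c I01 I02 I12 l k := by
  fin_cases k <;> fin_cases l <;> rfl

/-- the geometric contradiction -/
theorem um_geom {V : Type*} [NormedAddCommGroup V] [InnerProductSpace ℝ V] {m : ℕ}
    (hm : 0 < m) (y z : Fin m → V) (x : V) (hx : ‖x‖ = 1) (hy : ∀ a, ‖y a‖ = 1)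
    (hz : ∀ a, ‖z a‖ = 1) {c β ζ α' h ε : ℝ} (hyy : ∀ a b, a ≠ b → ⟪y a, y b⟫ ≤ c)
    (hzz : ∀ a b, a ≠ b → ⟪z a, z b⟫ ≤ c) (hyz : ∀ a b, ζ ≤ ⟪y a, z b⟫)
    (hxy : ∀ a, β ≤ ⟪x, y a⟫) (hxz : ∀ a, ⟪x, z a⟫ ≤ α') (hε : 0 < ε) (hgap : ε / 2 ≤ β - α')
    (hc1 : -1 ≤ c) (hcζ : c - ζ ≤ 2 * h) (hh : h ≤ ε ^ 2 / 64) (hm2 : 64 / ε ^ 2 < m) : False := by
  have hmR : (0 : ℝ) < m := by exact_mod_cast hm
  have h1 := norm_sum_sq_le y hy hyy
  have h2 := norm_sum_sq_le z hz hzz
  have h3 : (m : ℝ) * (m * ζ) ≤ ⟪∑ a, y a, ∑ b, z b⟫ := by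
    rw [sum_inner]
    have h4 : ∀ a ∈ Finset.univ, (m : ℝ) * ζ ≤ ⟪y a, ∑ b, z b⟫ := by
      intro a _
      rw [inner_sum]
      have h5 := Finset.card_nsmul_le_sum Finset.univ (fun b => ⟪y a, z b⟫) ζ
        (fun b _ => hyz a b)
      rw [Finset.card_univ, Fintype.card_fin, nsmul_eq_mul] at h5
      exact h5
    have h6 := Finset.card_nsmul_le_sum Finset.univ (fun a => ⟪y a, ∑ b, z b⟫) _ h4
    rw [Finset.card_univ, Fintype.card_fin, nsmul_eq_mul] at h6
    exact h6
  have h4 : (m : ℝ) * (ε / 2) ≤ ⟪x, ∑ a, y a - ∑ b, z b⟫ := by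
    rw [inner_sub_right, inner_sum, inner_sum]
    have h5 := Finset.card_nsmul_le_sum Finset.univ (fun b => ⟪x, y b⟫) β (fun b _ => hxy b)
    have h6 := Finset.sum_le_card_nsmul Finset.univ (fun b => ⟪x, z b⟫) α' (fun b _ => hxz b)
    rw [Finset.card_univ, Fintype.card_fin, nsmul_eq_mul] at h5 h6
    nlinarith only [h5, h6, hgap]
  have h5 : ⟪x, ∑ a, y a - ∑ b, z b⟫ ≤ ‖∑ a, y a - ∑ b, z b‖ := by
    have := real_inner_le_norm x (∑ a, y a - ∑ b, z b)
    rwa [hx, one_mul] at this
  have h6 : ‖∑ a, y a - ∑ b, z b‖ ^ 2 =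
      ‖∑ a, y a‖ ^ 2 - 2 * ⟪∑ a, y a, ∑ b, z b⟫ + ‖∑ b, z b‖ ^ 2 := norm_sub_sq_real _ _
  have h7 : ((m : ℝ) * (ε / 2)) ^ 2 ≤ ‖∑ a, y a - ∑ b, z b‖ ^ 2 := by
    have h8 := h4.trans h5
    have h9 : 0 ≤ (m : ℝ) * (ε / 2) := by (clear * - hm hε; positivity)
    exact pow_le_pow_left₀ h9 h8 2
  have h8 : ((m : ℝ) * (ε / 2)) ^ 2 ≤ 4 * m + 4 * h * m ^ 2 := by nlinarith only [h1, h2, h3, h6, h7, hcζ, hc1]
  have h9 : (m : ℝ) * ε ^ 2 ≤ 64 := by
    have e1 : ((m : ℝ) * (ε / 2)) ^ 2 = m * (m * ε ^ 2 / 4) := by ring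
    have e2 : 4 * (m : ℝ) + 4 * h * m ^ 2 = m * (4 + 4 * h * m) := by ring
    rw [e1, e2] at h8
    have h10 := le_of_mul_le_mul_left h8 hmR
    have h11 : 4 * h * m ≤ ε ^ 2 / 16 * m := by nlinarith only [hh]
    linarith only [h10, h11, mul_pos hmR (pow_pos hε 2)]
  rw [div_lt_iff₀ (by positivity)] at hm2
  linarith only [hm2, h9]

theorem um_core (hGG : ∀ p : ℕ, AsympGG U S (fun x => x ^ p)) {ε h α β ζ : ℝ} (hε : 0 < ε)
    (h0 : 0 < h) (h1 : h ≤ ε / 4) (h2 : h ≤ ε ^ 2 / 64) (hζ : -1 ≤ ζ) (hβζ : β ≤ ζ)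
    (hα : α < β + h - ε) {p : ℝ} (hp : 0 < p)
    (hA : ∀ᶠ N in (U : Filter ℕ), p ≤ (S N).pr (n := 3) (fun x =>
      (S N).R (x 0) (x 1) ∈ Set.Ico β (β + h) ∧ (S N).R (x 0) (x 2) ∈ Set.Ico ζ (ζ + h) ∧
        (S N).R (x 1) (x 2) ∈ Set.Ico α (α + h))) : False := by
  obtain ⟨c, hc1, hc2, hc⟩ := exists_nonAtom U S (show ζ + h < ζ + 2 * h by linarith only [h0])
  obtain ⟨m, hm⟩ := exists_nat_gt (64 / ε ^ 2)
  have hm0 : 0 < m := by
    have : (0 : ℝ) < m := lt_trans (by positivity) hm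
    exact_mod_cast this
  set I01 : Set ℝ := Set.Ico β (β + h) with hI01
  set I02 : Set ℝ := Set.Ico ζ (ζ + h) with hI02
  set I12 : Set ℝ := Set.Ico α (α + h) with hI12
  set J := umJ c I01 I02 I12 with hJdef
  have e01 : I01 ⊆ Set.Iio c := fun r hr => lt_of_lt_of_le hr.2 (by linarith only [hβζ, hc1])
  have e02 : I02 ⊆ Set.Iio c := fun r hr => lt_of_lt_of_le hr.2 (by linarith only [hc1])
  have e12 : I12 ⊆ Set.Iio c := fun r hr => lt_of_lt_of_le hr.2 (by linarith only [h1, hβζ, hα, hc1, hc2])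
  have hJ0 : ∀ k, J 0 k ⊆ Set.Iio c := by
    intro k
    fin_cases k
    · exact subset_rfl
    · exact e01
    · exact e02
  have hJ2 : ∀ k, J 2 k ⊆ Set.Iio c := by
    intro k
    fin_cases k
    · exact e02
    · exact e12
    · exact subset_rfl
  have hA' : ∀ᶠ N in (U : Filter ℕ), p ≤ (S N).pr (Ev (S N) J (fun a : Fin 3 => a)) := by
    filter_upwards [hA] with N hN
    refine hN.trans (Sys.pr_mono (S N) fun x hx a b hab => ?_)
    obtain ⟨x01, x02, x12⟩ := hx
    fin_cases a <;> fin_cases b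
    · exact absurd rfl hab
    · exact x01
    · exact x02
    · show (S N).R (x 1) (x 0) ∈ I01
      rw [Sys.R_symm]
      exact x01
    · exact absurd rfl hab
    · exact x12
    · show (S N).R (x 2) (x 0) ∈ I02
      rw [Sys.R_symm]
      exact x02
    · show (S N).R (x 2) (x 1) ∈ I12
      rw [Sys.R_symm]
      exact x12
    · exact absurd rfl hab
  obtain ⟨δ, hδ, hB⟩ := dup_iter hGG hc J (umJ_symm _ _ _ _) 0 hJ0 subset_rfl (n := 3)
    (by norm_num) (fun a : Fin 3 => a) 0 rfl hp hA' m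
  obtain ⟨δ', hδ', hC⟩ := dup_iter hGG hc J (umJ_symm _ _ _ _) 2 hJ2 subset_rfl (n := 3 + m)
    (by (clear * - hm0; omega)) (Fin.append (fun a : Fin 3 => a) (fun _ : Fin m => 0)) (Fin.castAdd m 2)
    (Fin.append_left _ _ _) hδ hB m
  obtain ⟨N, hN⟩ := hC.exists
  obtain ⟨x, hx⟩ := Sys.exists_of_pr_pos (lt_of_lt_of_le hδ' hN)
  set τ : Fin (3 + m + m) → Fin 3 := Fin.append (Fin.append (fun a : Fin 3 => a)
    (fun _ : Fin m => 0)) (fun _ : Fin m => 2) with hτ
  let iy : Fin m → Fin (3 + m + m) := fun k => Fin.castAdd m (Fin.natAdd 3 k)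
  let iz : Fin m → Fin (3 + m + m) := fun k => Fin.natAdd (3 + m) k
  let ix : Fin (3 + m + m) := Fin.castAdd m (Fin.castAdd m 1)
  have ty : ∀ k, τ (iy k) = 0 := fun k => by
    simp only [hτ, iy]
    rw [Fin.append_left, Fin.append_right]
  have tz : ∀ k, τ (iz k) = 2 := fun k => by
    simp only [hτ, iz]
    rw [Fin.append_right]
  have tx : τ ix = 1 := by
    simp only [hτ, ix]
    rw [Fin.append_left, Fin.append_left]
  have nyy : ∀ a b, a ≠ b → iy a ≠ iy b := by
    intro a b hab heq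
    apply hab
    have := congrArg Fin.val heq
    simp only [iy, Fin.val_castAdd, Fin.val_natAdd] at this
    exact Fin.ext (by omega)
  have nzz : ∀ a b, a ≠ b → iz a ≠ iz b := by
    intro a b hab heq
    apply hab
    have := congrArg Fin.val heq
    simp only [iz, Fin.val_natAdd] at this
    exact Fin.ext (by omega)
  have nyz : ∀ a b, iy a ≠ iz b := by
    intro a b heq
    have := congrArg Fin.val heq
    simp only [iy, iz, Fin.val_castAdd, Fin.val_natAdd] at this
    have := a.2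
    omega
  have nxy : ∀ a, ix ≠ iy a := by
    intro a heq
    have := congrArg Fin.val heq
    simp only [ix, iy, Fin.val_castAdd, Fin.val_natAdd] at this
    simp only [Fin.isValue, Fin.coe_ofNat_eq_mod, Nat.one_mod] at this
    omega
  have nxz : ∀ a, ix ≠ iz a := by
    intro a heq
    have := congrArg Fin.val heq
    simp only [ix, iz, Fin.val_castAdd, Fin.val_natAdd] at this
    simp only [Fin.isValue, Fin.coe_ofNat_eq_mod, Nat.one_mod] at this
    omega
  refine um_geom hm0 (fun k => (S N).φ (x (iy k))) (fun k => (S N).φ (x (iz k)))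
    ((S N).φ (x ix)) ((S N).hφ _) (fun _ => (S N).hφ _) (fun _ => (S N).hφ _)
    (c := c) (β := β) (ζ := ζ) (α' := α + h) (h := h) (ε := ε) ?_ ?_ ?_ ?_ ?_ hε ?_ ?_ ?_ h2 hm
  · intro a b hab
    have h3 := hx (iy a) (iy b) (nyy a b hab)
    rw [ty, ty] at h3
    exact le_of_lt h3
  · intro a b hab
    have h3 := hx (iz a) (iz b) (nzz a b hab)
    rw [tz, tz] at h3
    exact le_of_lt h3
  · intro a b
    have h3 := hx (iy a) (iz b) (nyz a b)
    rw [ty, tz] at h3
    exact h3.1
  · intro a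
    have h3 := hx ix (iy a) (nxy a)
    rw [tx, ty] at h3
    exact h3.1
  · intro a
    have h3 := hx ix (iz a) (nxz a)
    rw [tx, tz] at h3
    exact le_of_lt h3.2
  · linarith only [hα, h1]
  · linarith only [hζ, hc1, hc2]
  · linarith only [hc2]

theorem Sys.pr_le_sum {S : Sys} {n : ℕ} {ι : Type*} [Fintype ι] (E : (Fin n → S.X) → Prop)
    (F : ι → (Fin n → S.X) → Prop) (h : ∀ x, E x → ∃ t, F t x) : S.pr E ≤ ∑ t, S.pr (F t) := by
  classical
  have h1 : ∀ s : Finset ι, ∑ t ∈ s, S.pr (F t) =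
      S.tav (n := n) (fun _ x => ∑ t ∈ s, ind (F t x)) := by
    intro s
    induction s using Finset.induction_on with
    | empty =>
      simp only [Finset.sum_empty]
      exact (Sys.tav_const 0).symm
    | insert t s hts ih =>
      rw [Finset.sum_insert hts, ih]
      obtain ⟨D, hD⟩ := Sys.exists_bdd (S := S) (fun x : Fin n → S.X => ∑ t ∈ s, ind (F t x))
      unfold Sys.pr
      rw [← Sys.tav_add (Sys.bdd_ind (F t)) hD]
      refine Sys.tav_congr fun _ x => ?_
      rw [Finset.sum_insert hts]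
  rw [h1 Finset.univ]
  obtain ⟨D, hD⟩ := Sys.exists_bdd (S := S) (fun x : Fin n → S.X => ∑ t, ind (F t x))
  refine Sys.tav_mono (Sys.bdd_ind E) hD fun _ x => ?_
  by_cases hE : E x
  · obtain ⟨t, ht⟩ := h x hE
    rw [ind_of hE, ← ind_of ht]
    exact Finset.single_le_sum (f := fun t => ind (F t x)) (fun t _ => ind_nonneg _)
      (Finset.mem_univ t)
  · rw [ind_of_not hE]
    exact Finset.sum_nonneg fun t _ => ind_nonneg _

theorem exists_bin {K : ℕ} {r : ℝ} (hr : r ∈ Set.Icc (-1 : ℝ) 1) :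
    ∃ k : Fin (K + 2), r ∈ Set.Ico (-1 + (k : ℕ) * (2 / ((K : ℝ) + 1)))
      (-1 + (k : ℕ) * (2 / ((K : ℝ) + 1)) + 2 / ((K : ℝ) + 1)) := by
  set h : ℝ := 2 / ((K : ℝ) + 1) with hh
  have hK : (0 : ℝ) < (K : ℝ) + 1 := by positivity
  have h0 : 0 < h := by (clear * -; positivity)
  have h1 : 0 ≤ (r + 1) / h := div_nonneg (by linarith only [hr.1]) h0.le
  have h2 : (r + 1) / h ≤ K + 1 := by
    rw [div_le_iff₀ h0, hh, mul_div_cancel₀ _ hK.ne']
    linarith only [hr.2]
  have h3 := Nat.floor_le h1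
  have h4 := Nat.lt_floor_add_one ((r + 1) / h)
  have h5 : ⌊(r + 1) / h⌋₊ < K + 2 := by
    have : (⌊(r + 1) / h⌋₊ : ℝ) ≤ K + 1 := h3.trans h2
    have h6 : ⌊(r + 1) / h⌋₊ ≤ K + 1 := by exact_mod_cast this
    omega
  refine ⟨⟨⌊(r + 1) / h⌋₊, h5⟩, ?_, ?_⟩
  · rw [le_div_iff₀ h0] at h3
    simp only
    linarith only [h3]
  · rw [div_lt_iff₀ h0] at h4
    simp only
    linarith only [h4]

/-- **Ultrametricity** (Panchenko's theorem). -/
theorem ultrametricity (hGG : ∀ p : ℕ, AsympGG U S (fun x => x ^ p)) {ε : ℝ} (hε : 0 < ε) :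
    Tendsto (fun N => (S N).tav (n := 3) (fun _ x =>
      if (S N).R (x 1) (x 2) < min ((S N).R (x 0) (x 1)) ((S N).R (x 0) (x 2)) - ε
        then 1 else 0)) U (𝓝 0) := by
  refine tendsto_zero_of_not_ge _ (fun N => Sys.tav_nonneg fun _ x => by
    split_ifs <;> norm_num) fun p hp hcon => ?_
  have hmin : 0 < min (ε / 4) (ε ^ 2 / 64) := lt_min (by positivity) (by positivity)
  obtain ⟨K, hK⟩ := exists_nat_gt (2 / min (ε / 4) (ε ^ 2 / 64))
  have hK1 : (0 : ℝ) < (K : ℝ) + 1 := by (clear * -; positivity)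
  set h : ℝ := 2 / ((K : ℝ) + 1) with hh
  have h0 : 0 < h := by (clear * -; positivity)
  have hle : h ≤ min (ε / 4) (ε ^ 2 / 64) := by
    rw [hh, div_le_iff₀ hK1]
    rw [div_lt_iff₀ hmin] at hK
    linarith only [hmin, hK]
  have h1 : h ≤ ε / 4 := hle.trans (min_le_left _ _)
  have h2 : h ≤ ε ^ 2 / 64 := hle.trans (min_le_right _ _)
  let ι := Fin (K + 2) × Fin (K + 2) × Fin (K + 2)
  let lo : Fin (K + 2) → ℝ := fun k => -1 + (k : ℕ) * h
  let F : (N : ℕ) → ι → (Fin 3 → (S N).X) → Prop := fun N t x =>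
    (S N).R (x 1) (x 2) < min ((S N).R (x 0) (x 1)) ((S N).R (x 0) (x 2)) - ε ∧
      ((S N).R (x 0) (x 1) ∈ Set.Ico (lo t.1) (lo t.1 + h) ∧
        (S N).R (x 0) (x 2) ∈ Set.Ico (lo t.2.1) (lo t.2.1 + h) ∧
        (S N).R (x 1) (x 2) ∈ Set.Ico (lo t.2.2) (lo t.2.2 + h))
  set q : ℝ := p / (Fintype.card ι) with hq
  have hcard : (0 : ℝ) < Fintype.card ι := by
    have : 0 < Fintype.card ι := Fintype.card_pos_iff.mpr ⟨(0, 0, 0)⟩
    exact_mod_cast this
  have hq0 : 0 < q := by (clear * - hp; positivity)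
  have hex : ∀ᶠ N in (U : Filter ℕ), ∃ t : ι, q ≤ (S N).pr (F N t) := by
    filter_upwards [hcon] with N hN
    have e1 : (S N).tav (n := 3) (fun _ x =>
      if (S N).R (x 1) (x 2) < min ((S N).R (x 0) (x 1)) ((S N).R (x 0) (x 2)) - ε
        then 1 else 0) = (S N).pr (n := 3) (fun x =>
        (S N).R (x 1) (x 2) < min ((S N).R (x 0) (x 1)) ((S N).R (x 0) (x 2)) - ε) :=
      Sys.tav_congr fun _ x => (ind_eq _).symm
    rw [e1] at hN
    have e2 := Sys.pr_le_sum (S := S N) (fun x : Fin 3 → (S N).X =>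
        (S N).R (x 1) (x 2) < min ((S N).R (x 0) (x 1)) ((S N).R (x 0) (x 2)) - ε) (F N)
      (fun x hx => by
        obtain ⟨k1, hk1⟩ := exists_bin (K := K) (Sys.R_mem (x 0) (x 1))
        obtain ⟨k2, hk2⟩ := exists_bin (K := K) (Sys.R_mem (x 0) (x 2))
        obtain ⟨k3, hk3⟩ := exists_bin (K := K) (Sys.R_mem (x 1) (x 2))
        exact ⟨(k1, k2, k3), hx, hk1, hk2, hk3⟩)
    by_contra hno
    push Not at hno
    have e3 : ∑ t, (S N).pr (F N t) < ∑ _t : ι, q :=
      Finset.sum_lt_sum_of_nonempty ⟨(0, 0, 0), Finset.mem_univ _⟩ fun t _ => hno t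
    rw [Finset.sum_const, Finset.card_univ, nsmul_eq_mul, hq, mul_div_cancel₀ _ hcard.ne'] at e3
    linarith only [hN, e2, e3]
  rw [Ultrafilter.eventually_exists_iff] at hex
  obtain ⟨⟨k1, k2, k3⟩, ht⟩ := hex
  obtain ⟨N, hN⟩ := ht.exists
  obtain ⟨x, hx⟩ := Sys.exists_of_pr_pos (lt_of_lt_of_le hq0 hN)
  obtain ⟨hb, hx1, hx2, hx3⟩ := hx
  have hm1 := min_le_left ((S N).R (x 0) (x 1)) ((S N).R (x 0) (x 2))
  have hm2 := min_le_right ((S N).R (x 0) (x 1)) ((S N).R (x 0) (x 2))
  have g1 : lo k3 < lo k1 + h - ε := by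
    have e1 := hx3.1
    have e2 := hx1.2
    simp only at e1 e2
    linarith only [hb, hm1, e1, e2]
  have g2 : lo k3 < lo k2 + h - ε := by
    have e1 := hx3.1
    have e2 := hx2.2
    simp only at e1 e2
    linarith only [hb, hm2, e1, e2]
  have hlo : ∀ k, -1 ≤ lo k := by
    intro k
    have : 0 ≤ ((k : ℕ) : ℝ) * h := by (clear * -; positivity)
    simp only [lo]
    linarith only [this]
  rcases le_total (lo k1) (lo k2) with hcase | hcase
  · refine um_core hGG hε h0 h1 h2 (hlo k2) hcase g1 hq0 ?_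
    filter_upwards [ht] with N hN
    exact hN.trans (Sys.pr_mono (S N) fun x hx => hx.2)
  · refine um_core hGG hε h0 h1 h2 (hlo k1) hcase g2 hq0 ?_
    filter_upwards [ht] with N hN
    refine hN.trans ?_
    let G : (Fin 3 → (S N).X) → Prop := fun x =>
      (S N).R (x 0) (x 1) ∈ Set.Ico (lo k1) (lo k1 + h) ∧
        (S N).R (x 0) (x 2) ∈ Set.Ico (lo k2) (lo k2 + h) ∧
        (S N).R (x 1) (x 2) ∈ Set.Ico (lo k3) (lo k3 + h)
    have e1 : (S N).pr (F N (k1, k2, k3)) ≤ (S N).pr G := Sys.pr_mono (S N) fun x hx => hx.2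
    have e2 : (S N).pr (fun x => G (fun k => x (Equiv.swap 1 2 k))) = (S N).pr G :=
      Sys.tav_comp (S := S N) (Equiv.swap (1 : Fin 3) 2) (Equiv.injective _)
        (fun _ x => ind (G x))
    rw [← e2] at e1
    refine e1.trans (Sys.pr_mono (S N) fun x hx => ?_)
    obtain ⟨g3, g4, g5⟩ := hx
    have s0 : (Equiv.swap (1 : Fin 3) 2) 0 = 0 := by decide
    have s1 : (Equiv.swap (1 : Fin 3) 2) 1 = 2 := by decide
    have s2 : (Equiv.swap (1 : Fin 3) 2) 2 = 1 := by decide
    simp only [s0, s1, s2] at g3 g4 g5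
    refine ⟨g4, g3, ?_⟩
    rw [Sys.R_symm]
    exact g5

end Vale.Agent.P157.Par
end

section

open MeasureTheory ProbabilityTheory Filter Topology

namespace Vale.Agent.P157.Par

/-- Average over the disorder of the average over replicas indexed by a finite type. -/
noncomputable def Sys.avT (S : Sys) {J : Type} [Fintype J] [DecidableEq J]
    (F : S.Ω → (J → S.X) → ℝ) : ℝ :=
  ∫ ω, ∑ x : J → S.X, (∏ a, S.w ω (x a)) * F ω x ∂S.P

/-- The level of a number with respect to the boundaries `b`. -/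
noncomputable def lev {k : ℕ} (b : Fin k → ℝ) (r : ℝ) : Fin (k + 1) :=
  ⟨(Finset.univ.filter fun i => b i ≤ r).card, by
    have := Finset.card_filter_le (Finset.univ : Finset (Fin k)) fun i => b i ≤ r
    rw [Finset.card_univ, Fintype.card_fin] at this
    omega⟩

/-- The matrix of levels of a family of replicas. -/
noncomputable def Sys.LMat (S : Sys) {k : ℕ} (b : Fin k → ℝ) {J : Type} [DecidableEq J]
    (x : J → S.X) : LM k J :=
  fun a c => if a = c then Fin.last k else lev b (S.R (x a) (x c))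

end Vale.Agent.P157.Par
end

section

open MeasureTheory ProbabilityTheory Filter Topology

namespace Vale.Agent.P157.Par

set_option linter.unusedSectionVars false
set_option linter.unusedVariables false

/-! ### levels -/

section lev

variable {k : ℕ} {b : Fin k → ℝ}

theorem le_iff_lt_lev (hb : StrictMono b) (i : Fin k) (r : ℝ) :
    b i ≤ r ↔ i.val < (lev b r).val := by
  unfold lev
  simp only
  constructor
  · intro h
    have h1 : Finset.Iic i ⊆ Finset.univ.filter fun j => b j ≤ r := by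
      intro j hj
      rw [Finset.mem_Iic] at hj
      rw [Finset.mem_filter]
      exact ⟨Finset.mem_univ _, (hb.monotone hj).trans h⟩
    have h2 := Finset.card_le_card h1
    rw [Fin.card_Iic] at h2
    omega
  · intro h
    by_contra hcon
    have h1 : (Finset.univ.filter fun j => b j ≤ r) ⊆ Finset.Iio i := by
      intro j hj
      rw [Finset.mem_filter] at hj
      rw [Finset.mem_Iio]
      by_contra hji
      exact hcon ((hb.monotone (not_lt.mp hji)).trans hj.2)
    have h2 := Finset.card_le_card h1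
    rw [Fin.card_Iio] at h2
    omega

theorem lev_val_eq (hb : StrictMono b) {m : ℕ} (hm : m ≤ k) {r : ℝ}
    (h : ∀ j : Fin k, b j ≤ r ↔ j.val < m) : (lev b r).val = m := by
  rcases lt_trichotomy (lev b r).val m with h1 | h1 | h1
  · have h2 := (h ⟨(lev b r).val, by omega⟩).2 h1
    rw [le_iff_lt_lev hb] at h2
    exact absurd h2 (lt_irrefl _)
  · exact h1
  · have h3 := (lev b r).2
    have h2 : b ⟨m, by omega⟩ ≤ r := by
      rw [le_iff_lt_lev hb]
      exact h1
    exact absurd ((h _).1 h2) (lt_irrefl _)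

theorem lev_remove {k : ℕ} {b : Fin (k + 1) → ℝ} (hb : StrictMono b) (i : Fin (k + 1))
    (l : Fin (k + 2)) (hil : l.val = i.val + 1 ∨ (l.val = 0 ∧ i.val = 0))
    (q : Fin (k + 2) → ℝ) (r : ℝ) (hr : lev b r ≠ l) :
    q (l.succAbove (lev (fun j => b (i.succAbove j)) r)) = q (lev b r) := by
  have hb' : StrictMono fun j => b (i.succAbove j) :=
    hb.comp (Fin.strictMono_succAbove i)
  set m := (lev b r).val with hm
  have hml : m ≠ l.val := fun h => hr (Fin.ext h)
  have hmk : m < k + 2 := (lev b r).2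
  have hik := i.2
  have h1 : (lev (fun j => b (i.succAbove j)) r).val = if i.val < m then m - 1 else m := by
    refine lev_val_eq hb' ?_ ?_
    · split_ifs <;> omega
    · intro j
      rw [le_iff_lt_lev hb, ← hm]
      have h2 : (i.succAbove j).val = if j.val < i.val then j.val else j.val + 1 := by
        unfold Fin.succAbove
        by_cases h3 : j.val < i.val
        · have h4 : j.castSucc < i := h3
          rw [if_pos h4, if_pos h3]
          rfl
        · have h4 : ¬ j.castSucc < i := h3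
          rw [if_neg h4, if_neg h3]
          rfl
      rw [h2]
      split_ifs <;> omega
  congr 1
  apply Fin.ext
  set j := lev (fun j => b (i.succAbove j)) r with hj
  have h2 : (l.succAbove j).val = if j.val < l.val then j.val else j.val + 1 := by
    unfold Fin.succAbove
    by_cases h3 : j.val < l.val
    · have h4 : j.castSucc < l := h3
      rw [if_pos h4, if_pos h3]
      rfl
    · have h4 : ¬ j.castSucc < l := h3
      rw [if_neg h4, if_neg h3]
      rfl
  rw [h2, h1, ← hm]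
  split_ifs <;> omega

end lev

/-! ### limits along the ultrafilter -/

theorem exists_ulim (U : Ultrafilter ℕ) {f : ℕ → ℝ} {C : ℝ} (h : ∀ N, |f N| ≤ C) :
    ∃ a, Tendsto f U (𝓝 a) := by
  have h1 : IsCompact (Set.Icc (-C) C) := isCompact_Icc
  have h2 : ((U.map f : Ultrafilter ℝ) : Filter ℝ) ≤ 𝓟 (Set.Icc (-C) C) := by
    rw [le_principal_iff]
    have h3 : f ⁻¹' (Set.Icc (-C) C) ∈ (U : Filter ℕ) := Filter.univ_mem' fun N => abs_le.mp (h N)
    exact h3
  obtain ⟨a, -, ha⟩ := h1.ultrafilter_le_nhds (U.map f) h2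
  exact ⟨a, ha⟩

variable {U : Ultrafilter ℕ} {S : ℕ → Sys}

theorem Sys.pr_le_one (S : Sys) {n : ℕ} (E : (Fin n → S.X) → Prop) : S.pr E ≤ 1 := by
  have h := Sys.tav_mono (G := fun _ _ => (1 : ℝ)) (D := 1) (Sys.bdd_ind E)
    ⟨fun _ => measurable_const, fun _ _ => by norm_num⟩ (fun _ x => ind_le_one (E x))
  rwa [Sys.tav_const] at h

theorem Sys.pr_sum_eq_one (S : Sys) {n : ℕ} {κ : Type*} [Fintype κ] [DecidableEq κ]
    (f : (Fin n → S.X) → κ) : ∑ l, S.pr (fun x => f x = l) = 1 := by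
  have h1 : ∀ s : Finset κ, ∑ t ∈ s, S.pr (fun x => f x = t) =
      S.tav (n := n) (fun _ x => ∑ t ∈ s, ind (f x = t)) := by
    intro s
    induction s using Finset.induction_on with
    | empty =>
      simp only [Finset.sum_empty]
      exact (Sys.tav_const 0).symm
    | insert t s hts ih =>
      rw [Finset.sum_insert hts, ih]
      obtain ⟨D, hD⟩ := Sys.exists_bdd (S := S) (fun x : Fin n → S.X => ∑ t ∈ s, ind (f x = t))
      unfold Sys.pr
      rw [← Sys.tav_add (Sys.bdd_ind fun x => f x = t) hD]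
      refine Sys.tav_congr fun _ x => ?_
      rw [Finset.sum_insert hts]
  rw [h1 Finset.univ]
  have h2 : ∀ x : Fin n → S.X, ∑ t, ind (f x = t) = 1 := by
    intro x
    rw [Finset.sum_eq_single (f x)]
    · exact ind_of rfl
    · intro t _ ht
      exact ind_of_not fun h => ht h.symm
    · intro h
      exact absurd (Finset.mem_univ _) h
  simp only [h2]
  exact Sys.tav_const 1

theorem Sys.pr_le_add (S : Sys) {n : ℕ} {E E1 E2 : (Fin n → S.X) → Prop}
    (h : ∀ x, E x → E1 x ∨ E2 x) : S.pr E ≤ S.pr E1 + S.pr E2 := by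
  have h1 := Sys.pr_le_sum (S := S) (ι := Bool) E (fun t x => if t then E1 x else E2 x)
    (fun x hx => by
      rcases h x hx with h2 | h2
      · exact ⟨true, by simpa using h2⟩
      · exact ⟨false, by simpa using h2⟩)
  simpa only [ge_iff_le, Fintype.univ_bool, Finset.mem_singleton, Bool.true_eq_false, not_false_eq_true,     Finset.sum_insert, ↓reduceIte, Finset.sum_singleton, Bool.false_eq_true] using h1

theorem tendsto_zero_of_le {f g : ℕ → ℝ} (h0 : ∀ N, 0 ≤ f N) (h : ∀ N, f N ≤ g N)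
    (hg : Tendsto g U (𝓝 0)) : Tendsto f U (𝓝 0) :=
  tendsto_of_tendsto_of_tendsto_of_le_of_le tendsto_const_nhds hg h0 h

/-- removal of the levels of weight zero -/
theorem levels_aux {ε : ℝ} (k : ℕ) : ∀ (b : Fin k → ℝ) (q : Fin (k + 1) → ℝ),
    StrictMono b → (∀ i, 0 < b i) → (∀ i, b i ≤ 1) → (∀ i, NonAtom U S (b i)) →
    Monotone q → (∀ l, 0 ≤ q l) → (∀ l, q l ≤ 1) →
    Tendsto (fun j => (S j).pr (fun x : Fin 2 → (S j).X =>
        ε < |(S j).R (x 0) (x 1) - q (lev b ((S j).R (x 0) (x 1)))|)) U (𝓝 0) →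
    ∃ (k : ℕ) (b : Fin k → ℝ) (q : Fin (k + 1) → ℝ) (w : Fin (k + 1) → ℝ),
      StrictMono b ∧ (∀ i, 0 < b i) ∧ (∀ i, b i ≤ 1) ∧ (∀ i, NonAtom U S (b i)) ∧
      Monotone q ∧ (∀ l, 0 ≤ q l) ∧ (∀ l, q l ≤ 1) ∧ (∀ l, 0 < w l) ∧ ∑ l, w l = 1 ∧
      (∀ l, Tendsto (fun j => (S j).pr (fun x : Fin 2 → (S j).X =>
        lev b ((S j).R (x 0) (x 1)) = l)) U (𝓝 (w l))) ∧
      Tendsto (fun j => (S j).pr (fun x : Fin 2 → (S j).X =>
        ε < |(S j).R (x 0) (x 1) - q (lev b ((S j).R (x 0) (x 1)))|)) U (𝓝 0) := by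
  induction k with
  | zero =>
    intro b q hb hb0 hb1 hna hq hq0 hq1 hlim
    refine ⟨0, b, q, fun _ => 1, hb, hb0, hb1, hna, hq, hq0, hq1, fun _ => one_pos, by simp only [Nat.reduceAdd, Finset.univ_unique, Fin.default_eq_zero, Fin.isValue, Finset.sum_const, Finset.card_singleton, one_smul], ?_, hlim⟩
    intro l
    have h1 : ∀ j, (S j).pr (fun x : Fin 2 → (S j).X => lev b ((S j).R (x 0) (x 1)) = l) = 1 := by
      intro j
      have h2 := (S j).pr_sum_eq_one (fun x : Fin 2 → (S j).X => lev b ((S j).R (x 0) (x 1)))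
      rw [Fintype.sum_eq_single l (fun l' hl' => absurd (Subsingleton.elim (α := Fin 1) l' l) hl')]
        at h2
      exact h2
    simp only [h1]
    exact tendsto_const_nhds
  | succ k ih =>
    intro b q hb hb0 hb1 hna hq hq0 hq1 hlim
    have hex : ∀ l : Fin (k + 2), ∃ a, Tendsto (fun j => (S j).pr (fun x : Fin 2 → (S j).X =>
        lev b ((S j).R (x 0) (x 1)) = l)) U (𝓝 a) := fun l =>
      exists_ulim U (C := 1) fun N => by
        rw [abs_of_nonneg ((S N).pr_nonneg _)]
        exact (S N).pr_le_one _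
    choose w hw using hex
    by_cases hpos : ∀ l, 0 < w l
    · refine ⟨k + 1, b, q, w, hb, hb0, hb1, hna, hq, hq0, hq1, hpos, ?_, hw, hlim⟩
      have h1 : Tendsto (fun j => ∑ l, (S j).pr (fun x : Fin 2 → (S j).X =>
        lev b ((S j).R (x 0) (x 1)) = l)) U (𝓝 (∑ l, w l)) :=
        tendsto_finsetSum _ fun l _ => hw l
      simp only [Sys.pr_sum_eq_one] at h1
      exact (tendsto_nhds_unique tendsto_const_nhds h1).symm
    · push Not at hpos
      obtain ⟨l, hl⟩ := hpos
      have hl0 : w l = 0 := by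
        refine le_antisymm hl ?_
        exact ge_of_tendsto' (hw l) fun j => (S j).pr_nonneg _
      obtain ⟨i, hil⟩ : ∃ i : Fin (k + 1), l.val = i.val + 1 ∨ (l.val = 0 ∧ i.val = 0) := by
        by_cases h0 : l.val = 0
        · exact ⟨0, Or.inr ⟨h0, rfl⟩⟩
        · exact ⟨⟨l.val - 1, by have := l.2; omega⟩, Or.inl (by simp only; omega)⟩
      refine ih (fun j => b (i.succAbove j)) (fun j => q (l.succAbove j))
        (hb.comp (Fin.strictMono_succAbove i)) (fun _ => hb0 _) (fun _ => hb1 _) (fun _ => hna _)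
        (hq.comp (Fin.strictMono_succAbove l).monotone) (fun _ => hq0 _) (fun _ => hq1 _) ?_
      have h2 := hlim.add (hw l)
      rw [hl0, add_zero] at h2
      refine tendsto_zero_of_le (fun N => (S N).pr_nonneg _) (fun N => ?_) h2
      refine (S N).pr_le_add fun x hx => ?_
      by_cases h3 : lev b ((S N).R (x 0) (x 1)) = l
      · exact Or.inr h3
      · left
        rw [lev_remove hb i l hil q _ h3] at hx
        exact hx

/-- Choice of the levels: for every mesh there are boundaries which are not atoms, such that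
every level has positive limiting probability and the overlap is close to the value of its
level. -/
theorem exists_levels {U : Ultrafilter ℕ} {S : ℕ → Sys}
    (hGG : ∀ p : ℕ, AsympGG U S (fun x => x ^ p)) {ε : ℝ} (hε : 0 < ε) :
    ∃ (k : ℕ) (b : Fin k → ℝ) (q : Fin (k + 1) → ℝ) (w : Fin (k + 1) → ℝ),
      StrictMono b ∧ (∀ i, 0 < b i) ∧ (∀ i, b i ≤ 1) ∧ (∀ i, NonAtom U S (b i)) ∧
      Monotone q ∧ (∀ l, 0 ≤ q l) ∧ (∀ l, q l ≤ 1) ∧ (∀ l, 0 < w l) ∧ ∑ l, w l = 1 ∧
      (∀ l, Tendsto (fun j => (S j).pr (fun x : Fin 2 → (S j).X =>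
        lev b ((S j).R (x 0) (x 1)) = l)) U (𝓝 (w l))) ∧
      Tendsto (fun j => (S j).pr (fun x : Fin 2 → (S j).X =>
        ε < |(S j).R (x 0) (x 1) - q (lev b ((S j).R (x 0) (x 1)))|)) U (𝓝 0) := by
  obtain ⟨K, hK⟩ := exists_nat_gt (2 / ε)
  have hK0 : (0 : ℝ) < K := lt_trans (by positivity) hK
  set h : ℝ := 1 / K with hh
  have h0 : 0 < h := by positivity
  have h2 : 2 * h < ε := by
    rw [hh, mul_one_div, div_lt_iff₀ hK0]
    rw [div_lt_iff₀ hε] at hK
    (clear * - hK; linarith)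
  have hKh : (K : ℝ) * h = 1 := by
    rw [hh]
    (clear * - hK0; field_simp)
  have hex : ∀ i : Fin K, ∃ c, (i.val : ℝ) * h < c ∧ c < ((i.val : ℝ) + 1) * h ∧ NonAtom U S c :=
    fun i => exists_nonAtom U S (by linarith only [h0])
  choose b hb1 hb2 hna using hex
  have hble : ∀ i, b i < 1 := by
    intro i
    have h3 : ((i.val : ℝ) + 1) * h ≤ K * h := by
      have h4 : (i.val : ℝ) + 1 ≤ K := by exact_mod_cast i.2
      exact mul_le_mul_of_nonneg_right h4 h0.le
    linarith only [hKh, h3, hb2 i]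
  have hbpos : ∀ i, 0 < b i := fun i => lt_of_le_of_lt (by (clear * - hK0; positivity)) (hb1 i)
  have hbm : StrictMono b := by
    intro i j hij
    have h3 : ((i.val : ℝ) + 1) * h ≤ (j.val : ℝ) * h := by
      have h4 : (i.val : ℝ) + 1 ≤ j.val := by exact_mod_cast hij
      exact mul_le_mul_of_nonneg_right h4 h0.le
    linarith only [h3, hb2 i, hb1 j]
  let q : Fin (K + 1) → ℝ := Fin.cons 0 b
  refine levels_aux K b q hbm hbpos (fun i => (hble i).le) hna ?_ ?_ ?_ ?_
  · intro l l' hll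
    induction l using Fin.cases with
    | zero =>
      induction l' using Fin.cases with
      | zero => exact le_rfl
      | succ j => exact (hbpos j).le
    | succ i =>
      induction l' using Fin.cases with
      | zero => exact absurd hll (by simp only [nonpos_iff_eq_zero, Fin.succ_ne_zero, not_false_eq_true])
      | succ j => exact hbm.monotone (Fin.succ_le_succ_iff.mp hll)
  · intro l
    induction l using Fin.cases with
    | zero => exact le_rfl
    | succ j => exact (hbpos j).le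
  · intro l
    induction l using Fin.cases with
    | zero => exact zero_le_one
    | succ j => exact (hble j).le
  · refine tendsto_zero_of_le (fun N => (S N).pr_nonneg _) (fun N => ?_) (positivity hGG hε)
    have e1 : (S N).tav (n := 2) (fun _ x => if (S N).R (x 0) (x 1) < -ε then 1 else 0) =
        (S N).pr (n := 2) (fun x => (S N).R (x 0) (x 1) < -ε) :=
      Sys.tav_congr fun _ x => (ind_eq _).symm
    rw [e1]
    refine Sys.pr_mono (S N) fun x hx => ?_
    by_contra hcon
    push Not at hcon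
    have hR := (Sys.R_mem (S := S N) (x 0) (x 1)).2
    generalize (S N).R (x 0) (x 1) = r at hx hcon hR
    apply absurd hx
    rw [not_lt]
    have hlk := (lev b r).2
    by_cases hl0 : (lev b r).val = 0
    · have h3 : lev b r = 0 := Fin.ext hl0
      have h4 : q (lev b r) = 0 := by rw [h3]; rfl
      rw [h4, sub_zero, abs_le]
      refine ⟨by linarith only [hcon], ?_⟩
      have hKpos : 0 < K := by exact_mod_cast hK0
      have h5 : ¬ b ⟨0, hKpos⟩ ≤ r := by
        rw [le_iff_lt_lev hbm, hl0]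
        exact lt_irrefl _
      have h6 := hb2 ⟨0, hKpos⟩
      simp only [Nat.cast_zero, zero_add, one_mul] at h6
      linarith only [h0, h2, h6, not_le.mp h5]
    · obtain ⟨m, hm⟩ : ∃ m, (lev b r).val = m + 1 := ⟨(lev b r).val - 1, by (clear * - hl0; omega)⟩
      have hmK : m < K := by omega
      have h3 : lev b r = Fin.succ ⟨m, hmK⟩ := Fin.ext hm
      have h4 : q (lev b r) = b ⟨m, hmK⟩ := by rw [h3]; rfl
      have h5 : b ⟨m, hmK⟩ ≤ r := by
        rw [le_iff_lt_lev hbm, hm]
        exact Nat.lt_succ_self m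
      rw [h4, abs_le]
      refine ⟨by linarith only [h0, h2, h5], ?_⟩
      have h6 : r ≤ ((m : ℝ) + 2) * h := by
        by_cases hmK2 : m + 1 < K
        · have h7 : ¬ b ⟨m + 1, hmK2⟩ ≤ r := by
            rw [le_iff_lt_lev hbm, hm]
            exact lt_irrefl _
          have h8 := hb2 ⟨m + 1, hmK2⟩
          simp only [Nat.cast_add, Nat.cast_one] at h8
          have h9 := not_le.mp h7
          linarith only [h7, h8]
        · have h7 : K = m + 1 := by omega
          have h8 : (K : ℝ) = m + 1 := by exact_mod_cast h7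
          rw [h8] at hKh
          linarith only [h0, hR, hKh]
      have h7 := hb1 ⟨m, hmK⟩
      simp only at h7
      linarith only [h2, h6, h7]

/-! ### averages over replicas indexed by a finite type -/

theorem Sys.avT_eq (S : Sys) {J : Type} [Fintype J] [DecidableEq J] {n : ℕ} (e : J ≃ Fin n)
    (G : S.T → (J → S.X) → ℝ) :
    S.avT (fun ω x => G (S.π ω) x) = S.tav (n := n) (fun t y => G t (fun a => y (e a))) := by
  unfold Sys.avT Sys.tav Sys.av
  congr 1
  funext ω
  rw [← Equiv.sum_comp (Equiv.arrowCongr e.symm (Equiv.refl S.X))]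
  refine Finset.sum_congr rfl fun y _ => ?_
  have h1 : (Equiv.arrowCongr e.symm (Equiv.refl S.X)) y = fun a => y (e a) := by
    funext a
    simp [Equiv.arrowCongr]
  rw [h1]
  congr 1
  exact Equiv.prod_comp e fun i => S.w ω (y i)

theorem Sys.avT_comp (S : Sys) {J J' : Type} [Fintype J] [DecidableEq J] [Fintype J']
    [DecidableEq J'] (f : J → J') (hf : Function.Injective f) (G : S.T → (J → S.X) → ℝ) :
    S.avT (fun ω (x : J' → S.X) => G (S.π ω) (fun a => x (f a))) =
      S.avT (fun ω x => G (S.π ω) x) := by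
  let e := Fintype.equivFin J
  let e' := Fintype.equivFin J'
  rw [S.avT_eq e G, S.avT_eq e' (fun t x => G t (fun a => x (f a)))]
  have h := Sys.tav_comp (S := S) (fun k => e' (f (e.symm k)))
    (e'.injective.comp (hf.comp e.symm.injective)) (fun t y => G t (fun a => y (e a)))
  rw [← h]
  simp only [Equiv.symm_apply_apply]

section aseq

variable {k : ℕ} {δ : Type} [Fintype δ] [DecidableEq δ]

/-- The sequence of the averages. -/
noncomputable def aseq (S : ℕ → Sys) (b : Fin k → ℝ) (Φ : ∀ j, (S j).T → (δ → (S j).X) → ℝ)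
    (ι : Type) [Fintype ι] [DecidableEq ι] (A : LM k (δ ⊕ ι) → ℝ) (j : ℕ) : ℝ :=
  (S j).avT (fun ω (x : δ ⊕ ι → (S j).X) => Φ j ((S j).π ω) (fun i => x (Sum.inl i)) *
    A ((S j).LMat b x))

variable {S : ℕ → Sys} {b : Fin k → ℝ} {Φ : ∀ j, (S j).T → (δ → (S j).X) → ℝ}

theorem exists_max {k : ℕ} {J : Type} [Finite J] (A : LM k J → ℝ) : ∃ M, 0 < M ∧ ∀ L, |A L| ≤ M := by
  classical
  have : Fintype J := Fintype.ofFinite J
  refine ⟨1 + ∑ L, |A L|, by positivity, fun L => ?_⟩
  have := Finset.single_le_sum (f := fun L => |A L|) (fun _ _ => abs_nonneg _) (Finset.mem_univ L)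
  linarith only [this]

theorem bdd_aseq (hΦm : ∀ j x, Measurable fun t => Φ j t x) (hΦ : ∀ j t x, |Φ j t x| ≤ 1)
    {ι : Type} [Fintype ι] {n : ℕ} (e : δ ⊕ ι ≃ Fin n) (A : LM k (δ ⊕ ι) → ℝ) {a : ℝ}
    (ha : ∀ L, |A L| ≤ a) (ψ : (j : ℕ) → (Fin n → (S j).X) → LM k (δ ⊕ ι)) (j : ℕ) :
    Sys.Bdd (S j) (fun t (y : Fin n → (S j).X) =>
      Φ j t (fun i => y (e (Sum.inl i))) * A (ψ j y)) a where
  meas y := (hΦm j _).mul_const _
  bdd t y := by
    rw [abs_mul]
    calc |Φ j t (fun i => y (e (Sum.inl i)))| * |A (ψ j y)| ≤ 1 * |A (ψ j y)| :=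
          mul_le_mul_of_nonneg_right (hΦ j t _) (abs_nonneg _)
      _ ≤ a := by rw [one_mul]; exact ha _

theorem aseq_eq {ι : Type} [Fintype ι] [DecidableEq ι] {n : ℕ} (e : δ ⊕ ι ≃ Fin n)
    (A : LM k (δ ⊕ ι) → ℝ) (j : ℕ) :
    aseq S b Φ ι A j = (S j).tav (n := n) (fun t y => Φ j t (fun i => y (e (Sum.inl i))) *
      A ((S j).LMat b fun a => y (e a))) :=
  (S j).avT_eq e fun t x => Φ j t (fun i => x (Sum.inl i)) * A ((S j).LMat b x)

theorem aseq_bound (hΦm : ∀ j x, Measurable fun t => Φ j t x) (hΦ : ∀ j t x, |Φ j t x| ≤ 1)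
    {ι : Type} [Fintype ι] [DecidableEq ι] {A : LM k (δ ⊕ ι) → ℝ} {a : ℝ}
    (ha : ∀ L, |A L| ≤ a) (j : ℕ) : |aseq S b Φ ι A j| ≤ a := by
  rw [aseq_eq (Fintype.equivFin (δ ⊕ ι))]
  have h1 := bdd_aseq hΦm hΦ (Fintype.equivFin (δ ⊕ ι)) A ha
    (fun j y => (S j).LMat b fun a => y ((Fintype.equivFin (δ ⊕ ι)) a)) j
  have ha0 : 0 ≤ a := (abs_nonneg _).trans (ha fun _ _ => 0)
  have h2 := Sys.tav_abs_le (G := fun _ _ => a) (D := a) h1
    ⟨fun _ => measurable_const, fun _ _ => by rw [abs_of_nonneg ha0]⟩ (fun t x => h1.bdd t x)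
  rwa [Sys.tav_const] at h2

theorem aseq_add (hΦm : ∀ j x, Measurable fun t => Φ j t x) (hΦ : ∀ j t x, |Φ j t x| ≤ 1)
    {ι : Type} [Fintype ι] [DecidableEq ι] (A B : LM k (δ ⊕ ι) → ℝ) (j : ℕ) :
    aseq S b Φ ι (A + B) j = aseq S b Φ ι A j + aseq S b Φ ι B j := by
  obtain ⟨a, -, ha⟩ := exists_max A
  obtain ⟨a', -, ha'⟩ := exists_max B
  rw [aseq_eq (Fintype.equivFin (δ ⊕ ι)), aseq_eq (Fintype.equivFin (δ ⊕ ι)),
    aseq_eq (Fintype.equivFin (δ ⊕ ι)), ← Sys.tav_add
    (bdd_aseq hΦm hΦ (Fintype.equivFin (δ ⊕ ι)) A ha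
      (fun j y => (S j).LMat b fun a => y ((Fintype.equivFin (δ ⊕ ι)) a)) j)
    (bdd_aseq hΦm hΦ (Fintype.equivFin (δ ⊕ ι)) B ha'
      (fun j y => (S j).LMat b fun a => y ((Fintype.equivFin (δ ⊕ ι)) a)) j)]
  refine Sys.tav_congr fun t y => ?_
  rw [Pi.add_apply, mul_add]

theorem aseq_smul {ι : Type} [Fintype ι] [DecidableEq ι] (c : ℝ) (A : LM k (δ ⊕ ι) → ℝ) (j : ℕ) :
    aseq S b Φ ι (c • A) j = c * aseq S b Φ ι A j := by
  rw [aseq_eq (Fintype.equivFin (δ ⊕ ι)), aseq_eq (Fintype.equivFin (δ ⊕ ι)), ← Sys.tav_smul]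
  refine Sys.tav_congr fun t y => ?_
  rw [Pi.smul_apply, smul_eq_mul]
  ring

theorem LMat_comp (S : Sys) (b : Fin k → ℝ) {J J' : Type} [DecidableEq J] [DecidableEq J']
    (f : J → J') (hf : Function.Injective f) (x : J' → S.X) :
    S.LMat b (fun a => x (f a)) = fun a c => S.LMat b x (f a) (f c) := by
  funext a c
  unfold Sys.LMat
  by_cases h : a = c
  · rw [if_pos h, if_pos (congrArg f h)]
  · rw [if_neg h, if_neg fun h' => h (hf h')]

theorem aseq_reindex {ι ι' : Type} [Fintype ι] [DecidableEq ι] [Fintype ι'] [DecidableEq ι']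
    (e : ι ≃ ι') (A : LM k (δ ⊕ ι') → ℝ) (j : ℕ) :
    aseq S b Φ ι (fun L => A fun a b => L (Sum.map id e.symm a) (Sum.map id e.symm b)) j =
      aseq S b Φ ι' A j := by
  have hinj : Function.Injective (Sum.map id e.symm : δ ⊕ ι' → δ ⊕ ι) :=
    Function.Injective.sumMap Function.injective_id e.symm.injective
  have h := (S j).avT_comp (Sum.map id e.symm : δ ⊕ ι' → δ ⊕ ι) hinj
    (fun t x => Φ j t (fun i => x (Sum.inl i)) * A ((S j).LMat b x))
  unfold aseq
  rw [← h]
  congr 1
  funext ω x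
  change _ = Φ j ((S j).π ω) (fun i => x (Sum.inl i)) *
    A ((S j).LMat b fun a => x (Sum.map id e.symm a))
  rw [LMat_comp (S j) b _ hinj]

/-- the matrices of levels which are not ultrametric -/
theorem not_ultra {k : ℕ} {b : Fin k → ℝ} (hb : StrictMono b) (S : Sys) {J : Type}
    [DecidableEq J] (x : J → S.X) (h : ¬ Ultra (S.LMat b x)) :
    ∃ (a c d : J) (i : Fin k), a ≠ c ∧ c ≠ d ∧ a ≠ d ∧ b i ≤ S.R (x a) (x c) ∧
      b i ≤ S.R (x c) (x d) ∧ S.R (x a) (x d) < b i := by
  by_contra hcon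
  push Not at hcon
  apply h
  refine ⟨fun a c => ?_, fun a => ?_, fun a c d => ?_⟩
  · unfold Sys.LMat
    by_cases h1 : a = c
    · rw [if_pos h1, if_pos h1.symm]
    · rw [if_neg h1, if_neg (fun h2 => h1 h2.symm), Sys.R_symm]
  · unfold Sys.LMat
    rw [if_pos rfl]
  · by_cases had : a = d
    · have h1 : S.LMat b x a d = Fin.last k := by
        unfold Sys.LMat
        rw [if_pos had]
      rw [h1]
      exact Fin.le_last _
    · by_cases hac : a = c
      · subst hac
        exact min_le_right _ _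
      · by_cases hcd : c = d
        · subst hcd
          exact min_le_left _ _
        · unfold Sys.LMat
          rw [if_neg hac, if_neg hcd, if_neg had]
          by_contra hlt
          rw [not_le, lt_min_iff] at hlt
          have h1 : (lev b (S.R (x a) (x d))).val < (lev b (S.R (x a) (x c))).val := hlt.1
          have h2 : (lev b (S.R (x a) (x d))).val < (lev b (S.R (x c) (x d))).val := hlt.2
          have h3 := (lev b (S.R (x a) (x c))).2
          have h4 := hcon a c d ⟨(lev b (S.R (x a) (x d))).val, by omega⟩ hac hcd had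
            (by rw [le_iff_lt_lev hb]; exact h1) (by rw [le_iff_lt_lev hb]; exact h2)
          rw [le_iff_lt_lev hb] at h4
          exact absurd h4 (lt_irrefl _)

theorem Sys.pr_triple (S : Sys) {n : ℕ} {a c d : Fin n} (hac : a ≠ c) (hcd : c ≠ d) (had : a ≠ d)
    (E : S.X → S.X → S.X → Prop) :
    S.pr (fun y : Fin n → S.X => E (y a) (y c) (y d)) =
      S.pr (fun y : Fin 3 → S.X => E (y 0) (y 1) (y 2)) := by
  have h := Sys.tav_comp (S := S) (![a, c, d] : Fin 3 → Fin n) (by
    intro k l hkl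
    fin_cases k <;> fin_cases l <;> simp_all) (fun _ x => ind (E (x 0) (x 1) (x 2)))
  exact h

theorem Sys.pr_pair (S : Sys) {n : ℕ} {a c : Fin n} (hac : a ≠ c) (E : S.X → S.X → Prop) :
    S.pr (fun y : Fin n → S.X => E (y a) (y c)) = S.pr (fun y : Fin 2 → S.X => E (y 0) (y 1)) :=
  Sys.tav_pair hac fun u v => ind (E u v)

/-- the limiting array is carried by the ultrametric matrices -/
theorem tendsto_not_ultra {U : Ultrafilter ℕ} (hGG : ∀ p : ℕ, AsympGG U S (fun x => x ^ p))
    (hb : StrictMono b) (hna : ∀ i, NonAtom U S (b i)) {J : Type} [DecidableEq J] {n : ℕ}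
    (e : J ≃ Fin n) :
    Tendsto (fun j => (S j).pr (fun y : Fin n → (S j).X =>
      ¬ Ultra ((S j).LMat b fun a => y (e a)))) U (𝓝 0) := by
  -- each elementary event
  have hel : ∀ (a c d : Fin n) (i : Fin k), Tendsto (fun j => (S j).pr (fun y : Fin n → (S j).X =>
      a ≠ c ∧ c ≠ d ∧ a ≠ d ∧ b i ≤ (S j).R (y a) (y c) ∧
      b i ≤ (S j).R (y c) (y d) ∧ (S j).R (y a) (y d) < b i)) U (𝓝 0) := by
    intro a c d i
    by_cases hne : a ≠ c ∧ c ≠ d ∧ a ≠ d
    · obtain ⟨hac, hcd, had⟩ := hne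
      refine tendsto_zero_of_not_ge _ (fun N => (S N).pr_nonneg _) fun p hp hcon => ?_
      obtain ⟨η, hη, h1⟩ := hna i (p / 3) (by linarith only [hp])
      have h2 := ultrametricity hGG hη
      have h3 := (tendsto_order.mp h2).2 (p / 3) (by linarith only [hp])
      obtain ⟨N, hN, hN1, hN2⟩ := (hcon.and (h1.and h3)).exists
      have h4 : (S N).pr (fun y : Fin n → (S N).X => a ≠ c ∧ c ≠ d ∧ a ≠ d ∧
          b i ≤ (S N).R (y a) (y c) ∧ b i ≤ (S N).R (y c) (y d) ∧ (S N).R (y a) (y d) < b i) ≤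
          (S N).pr (fun y : Fin n → (S N).X => (S N).R (y a) (y d) <
            min ((S N).R (y c) (y a)) ((S N).R (y c) (y d)) - η) +
          (S N).pr (fun y : Fin n → (S N).X => |(S N).R (y a) (y d) - b i| ≤ η) := by
        refine (S N).pr_le_add fun y hy => ?_
        obtain ⟨-, -, -, g1, g2, g3⟩ := hy
        by_cases g4 : |(S N).R (y a) (y d) - b i| ≤ η
        · exact Or.inr g4
        · left
          rw [abs_le, not_and_or, not_le, not_le] at g4
          have g5 : (S N).R (y a) (y d) - b i < -η := by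
            rcases g4 with g4 | g4
            · exact g4
            · linarith only [g3, g4]
          rw [Sys.R_symm (y c) (y a)]
          have g6 := le_min g1 g2
          linarith only [g5, g6]
      have h5 : (S N).pr (fun y : Fin n → (S N).X => (S N).R (y a) (y d) <
            min ((S N).R (y c) (y a)) ((S N).R (y c) (y d)) - η) =
          (S N).tav (n := 3) (fun _ x => if (S N).R (x 1) (x 2) <
            min ((S N).R (x 0) (x 1)) ((S N).R (x 0) (x 2)) - η then 1 else 0) := by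
        rw [(S N).pr_triple (a := c) (c := a) (d := d) hac.symm had hcd
          (fun u v w => (S N).R v w < min ((S N).R u v) ((S N).R u w) - η)]
        exact Sys.tav_congr fun _ x => ind_eq _
      have h6 : (S N).pr (fun y : Fin n → (S N).X => |(S N).R (y a) (y d) - b i| ≤ η) =
          (S N).tav (n := 2) (fun _ x => if |(S N).R (x 0) (x 1) - b i| ≤ η then 1 else 0) := by
        rw [(S N).pr_pair had (fun u v => |(S N).R u v - b i| ≤ η)]
        exact Sys.tav_congr fun _ x => ind_eq _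
      rw [h5, h6] at h4
      linarith only [hp, hN, hN1, hN2, h4]
    · have h1 : ∀ j, (S j).pr (fun y : Fin n → (S j).X => a ≠ c ∧ c ≠ d ∧ a ≠ d ∧
          b i ≤ (S j).R (y a) (y c) ∧ b i ≤ (S j).R (y c) (y d) ∧
            (S j).R (y a) (y d) < b i) = 0 := by
        intro j
        have h2 : (S j).pr (fun y : Fin n → (S j).X => a ≠ c ∧ c ≠ d ∧ a ≠ d ∧
          b i ≤ (S j).R (y a) (y c) ∧ b i ≤ (S j).R (y c) (y d) ∧
            (S j).R (y a) (y d) < b i) = (S j).tav (n := n) (fun _ _ => 0) :=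
          Sys.tav_congr fun _ x => ind_of_not fun h => hne ⟨h.1, h.2.1, h.2.2.1⟩
        rw [h2, Sys.tav_const]
      simp only [h1]
      exact tendsto_const_nhds
  have hsum : Tendsto (fun j => ∑ t : Fin n × Fin n × Fin n × Fin k,
      (S j).pr (fun y : Fin n → (S j).X =>
      t.1 ≠ t.2.1 ∧ t.2.1 ≠ t.2.2.1 ∧ t.1 ≠ t.2.2.1 ∧ b t.2.2.2 ≤ (S j).R (y t.1) (y t.2.1) ∧
      b t.2.2.2 ≤ (S j).R (y t.2.1) (y t.2.2.1) ∧ (S j).R (y t.1) (y t.2.2.1) < b t.2.2.2)) U
      (𝓝 (∑ _t : Fin n × Fin n × Fin n × Fin k, (0 : ℝ))) :=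
    tendsto_finsetSum _ fun t _ => hel t.1 t.2.1 t.2.2.1 t.2.2.2
  rw [Finset.sum_const_zero] at hsum
  refine tendsto_zero_of_le (fun N => (S N).pr_nonneg _) (fun N => ?_) hsum
  refine Sys.pr_le_sum _ _ fun y hy => ?_
  obtain ⟨a, c, d, i, h1, h2, h3, h4, h5, h6⟩ := not_ultra hb (S N) (fun a => y (e a)) hy
  exact ⟨(e a, e c, e d, i), fun h => h1 (e.injective h), fun h => h2 (e.injective h),
    fun h => h3 (e.injective h), h4, h5, h6⟩

theorem aseq_supp {U : Ultrafilter ℕ} (hGG : ∀ p : ℕ, AsympGG U S (fun x => x ^ p))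
    (hb : StrictMono b) (hna : ∀ i, NonAtom U S (b i))
    (hΦm : ∀ j x, Measurable fun t => Φ j t x) (hΦ : ∀ j t x, |Φ j t x| ≤ 1)
    {ι : Type} [Fintype ι] [DecidableEq ι] {A : LM k (δ ⊕ ι) → ℝ}
    (hA : ∀ L, Ultra L → A L = 0) : Tendsto (aseq S b Φ ι A) U (𝓝 0) := by
  obtain ⟨M, hM, hAM⟩ := exists_max A
  set e := Fintype.equivFin (δ ⊕ ι) with he
  have h1 := (tendsto_not_ultra hGG hb hna e).const_mul M
  rw [mul_zero] at h1
  refine squeeze_zero_norm (fun j => ?_) h1
  rw [Real.norm_eq_abs, aseq_eq e]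
  unfold Sys.pr
  rw [← Sys.tav_smul]
  refine Sys.tav_abs_le (D := M) (bdd_aseq hΦm hΦ e A hAM
      (fun j y => (S j).LMat b fun a => y (e a)) j)
    ⟨fun _ => measurable_const, fun t x => ?_⟩ fun t x => ?_
  · rw [abs_mul, abs_of_pos hM]
    exact mul_le_of_le_one_right hM.le (abs_ind_le_one _)
  · by_cases hU : Ultra ((S j).LMat b fun a => x (e a))
    · rw [hA _ hU, mul_zero, abs_zero]
      exact mul_nonneg hM.le (ind_nonneg _)
    · rw [ind_of hU, mul_one, abs_mul]
      calc |Φ j t (fun i => x (e (Sum.inl i)))| * |A ((S j).LMat b fun a => x (e a))| ≤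
            1 * |A ((S j).LMat b fun a => x (e a))| :=
            mul_le_mul_of_nonneg_right (hΦ j t _) (abs_nonneg _)
        _ ≤ M := by rw [one_mul]; exact hAM _

/-- the Ghirlanda-Guerra identities for the levels -/
theorem AsympGG.level {U : Ultrafilter ℕ} (hGG : ∀ p : ℕ, AsympGG U S (fun x => x ^ p))
    (hb : StrictMono b) (hna : ∀ i, NonAtom U S (b i)) (l : Fin (k + 1)) :
    AsympGG U S (fun r => if lev b r = l then 1 else 0) := by
  -- the event `l ≤ lev`
  have hge : ∀ m : ℕ, AsympGG U S (fun r => if m ≤ (lev b r).val then 1 else 0) := by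
    intro m
    cases m with
    | zero =>
      have h := hGG 0
      have h1 : (fun r : ℝ => r ^ 0) = fun r => if 0 ≤ (lev b r).val then 1 else 0 := by
        funext r
        simp only [pow_zero, zero_le, ↓reduceIte]
      rwa [h1] at h
    | succ m =>
      by_cases hm : m < k
      · have h := AsympGG.indicator hGG (hna ⟨m, hm⟩)
        have h1 : (Set.Ici (b ⟨m, hm⟩)).indicator (1 : ℝ → ℝ) =
            fun r => if m + 1 ≤ (lev b r).val then 1 else 0 := by
          funext r
          have h2 : b ⟨m, hm⟩ ≤ r ↔ m + 1 ≤ (lev b r).val := le_iff_lt_lev hb ⟨m, hm⟩ r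
          by_cases h3 : b ⟨m, hm⟩ ≤ r
          · rw [Set.indicator_of_mem (Set.mem_Ici.mpr h3), if_pos (h2.1 h3)]
            rfl
          · rw [Set.indicator_of_notMem (fun h => h3 (Set.mem_Ici.mp h)),
              if_neg (fun h => h3 (h2.2 h))]
        rwa [h1] at h
      · have h := (hGG 0).smul 0
        have h1 : (fun r : ℝ => 0 * r ^ 0) = fun r => if m + 1 ≤ (lev b r).val then 1 else 0 := by
          funext r
          have h2 := (lev b r).2
          rw [if_neg (by omega), zero_mul]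
        rwa [h1] at h
  have h := (hge l.val).sub (hge (l.val + 1))
  have h1 : (fun r => (if l.val ≤ (lev b r).val then (1 : ℝ) else 0) -
      (if l.val + 1 ≤ (lev b r).val then 1 else 0)) = fun r => if lev b r = l then 1 else 0 := by
    funext r
    by_cases h2 : lev b r = l
    · rw [h2, if_pos le_rfl, if_neg (by omega), if_pos rfl, sub_zero]
    · rw [if_neg h2]
      have h3 : (lev b r).val ≠ l.val := fun h => h2 (Fin.ext h)
      by_cases h4 : l.val ≤ (lev b r).val
      · rw [if_pos h4, if_pos (by omega), sub_self]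
      · rw [if_neg h4, if_neg (by omega), sub_self]
  rwa [h1] at h

theorem injective_map_some {ι : Type} :
    Function.Injective (Sum.map id some : δ ⊕ ι → δ ⊕ Option ι) :=
  Function.Injective.sumMap Function.injective_id (Option.some_injective ι)

/-- the defect of the test function given by `A` -/
theorem ggDefect_aseq {ι : Type} [Fintype ι] [DecidableEq ι]
    (A : LM k (δ ⊕ ι) → ℝ) (i : δ ⊕ ι) (l : Fin (k + 1)) (j : ℕ) {n : ℕ} (e : δ ⊕ ι ≃ Fin n)
    (c : ℝ) :
    (S j).ggDefect (fun r => if lev b r = l then 1 else 0) (e i)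
      (fun t (y : Fin n → (S j).X) => c * (Φ j t (fun i => y (e (Sum.inl i))) *
        A ((S j).LMat b fun a => y (e a)))) =
    c * (n * aseq S b Φ (Option ι) (fun L =>
        A (fun a b => L (Sum.map id some a) (Sum.map id some b)) *
          if L (Sum.map id some i) (Sum.inr none) = l then 1 else 0) j -
      (aseq S b Φ ι A j * (S j).pr (fun x : Fin 2 → (S j).X =>
        lev b ((S j).R (x 0) (x 1)) = l) +
        (∑ m, aseq S b Φ ι (fun L => A L * if L i m = l then 1 else 0) j -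
          aseq S b Φ ι (fun L => A L * if L i i = l then 1 else 0) j))) := by
  unfold Sys.ggDefect
  -- first term
  have t1 : (S j).tav (fun t (x : Fin (n + 1) → (S j).X) =>
      c * (Φ j t (fun i => x (e (Sum.inl i)).castSucc) *
        A ((S j).LMat b fun a => x (e a).castSucc)) *
        (if lev b ((S j).R (x (e i).castSucc) (x (Fin.last n))) = l then 1 else 0)) =
      c * aseq S b Φ (Option ι) (fun L =>
        A (fun a b => L (Sum.map id some a) (Sum.map id some b)) *
          if L (Sum.map id some i) (Sum.inr none) = l then 1 else 0) j := by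
    let f : Fin (n + 1) → δ ⊕ Option ι :=
      Fin.snoc (α := fun _ => δ ⊕ Option ι) (fun m => Sum.map id some (e.symm m)) (Sum.inr none)
    have hf1 : ∀ m : Fin n, f m.castSucc = Sum.map id some (e.symm m) := fun m =>
      Fin.snoc_castSucc _ _ _
    have hf2 : f (Fin.last n) = Sum.inr none := Fin.snoc_last _ _
    have hns : ∀ a : δ ⊕ ι, (Sum.map id some a : δ ⊕ Option ι) ≠ Sum.inr none := by
      rintro (a | a) h
      · simp at h
      · simp at h
    have hf : Function.Injective f := by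
      intro m m'
      induction m using Fin.lastCases with
      | last =>
        induction m' using Fin.lastCases with
        | last => intro _; rfl
        | cast m' =>
          intro h
          rw [hf1, hf2] at h
          exact absurd h.symm (hns _)
      | cast m =>
        induction m' using Fin.lastCases with
        | last =>
          intro h
          rw [hf1, hf2] at h
          exact absurd h (hns _)
        | cast m' =>
          intro h
          rw [hf1, hf1] at h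
          rw [e.symm.injective (injective_map_some h)]
    have h := (S j).avT_comp f hf (fun t x => c * (Φ j t (fun i => x (e (Sum.inl i)).castSucc) *
        A ((S j).LMat b fun a => x (e a).castSucc)) *
        (if lev b ((S j).R (x (e i).castSucc) (x (Fin.last n))) = l then 1 else 0))
    have h' : (S j).tav (fun t (x : Fin (n + 1) → (S j).X) =>
      c * (Φ j t (fun i => x (e (Sum.inl i)).castSucc) *
        A ((S j).LMat b fun a => x (e a).castSucc)) *
        (if lev b ((S j).R (x (e i).castSucc) (x (Fin.last n))) = l then 1 else 0)) =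
        (S j).avT (fun ω (x : Fin (n + 1) → (S j).X) =>
      c * (Φ j ((S j).π ω) (fun i => x (e (Sum.inl i)).castSucc) *
        A ((S j).LMat b fun a => x (e a).castSucc)) *
        (if lev b ((S j).R (x (e i).castSucc) (x (Fin.last n))) = l then 1 else 0)) := rfl
    rw [h', ← h, ← aseq_smul]
    unfold aseq
    congr 1
    funext ω x
    simp only [hf1, hf2, Equiv.symm_apply_apply, Pi.smul_apply, smul_eq_mul, Sum.map_inl, id]
    have h3 : (S j).LMat b (fun a => x (Sum.map id some a)) =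
        fun a c => (S j).LMat b x (Sum.map id some a) (Sum.map id some c) :=
      LMat_comp (S j) b _ injective_map_some x
    have h4 : (S j).LMat b x (Sum.map id some i) (Sum.inr none) =
        lev b ((S j).R (x (Sum.map id some i)) (x (Sum.inr none))) := by
      unfold Sys.LMat
      rw [if_neg (hns i)]
    rw [h3, h4]
    ring
  -- second term
  have t2 : (S j).tav (fun t (y : Fin n → (S j).X) => c * (Φ j t (fun i => y (e (Sum.inl i))) *
        A ((S j).LMat b fun a => y (e a)))) = c * aseq S b Φ ι A j := by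
    rw [Sys.tav_smul, aseq_eq e]
  have t2' : (S j).tav (fun _ (x : Fin 2 → (S j).X) =>
      if lev b ((S j).R (x 0) (x 1)) = l then 1 else 0) = (S j).pr (fun x : Fin 2 → (S j).X =>
        lev b ((S j).R (x 0) (x 1)) = l) :=
    Sys.tav_congr fun _ x => (ind_eq _).symm
  -- third term
  have t3 : ∀ m : δ ⊕ ι, m ≠ i → (S j).tav (fun t (x : Fin n → (S j).X) =>
      c * (Φ j t (fun i => x (e (Sum.inl i))) * A ((S j).LMat b fun a => x (e a))) *
        (if lev b ((S j).R (x (e i)) (x (e m))) = l then 1 else 0)) =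
      c * aseq S b Φ ι (fun L => A L * if L i m = l then 1 else 0) j := by
    intro m hm
    rw [aseq_eq e, ← Sys.tav_smul]
    refine Sys.tav_congr fun t x => ?_
    have h4 : (S j).LMat b (fun a => x (e a)) i m = lev b ((S j).R (x (e i)) (x (e m))) := by
      unfold Sys.LMat
      rw [if_neg (fun h => hm h.symm)]
    rw [h4]
    ring
  have t4 : ∑ m ∈ Finset.univ.erase (e i), (S j).tav (fun t (x : Fin n → (S j).X) =>
      c * (Φ j t (fun i => x (e (Sum.inl i))) * A ((S j).LMat b fun a => x (e a))) *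
        (if lev b ((S j).R (x (e i)) (x m)) = l then 1 else 0)) =
      c * (∑ m, aseq S b Φ ι (fun L => A L * if L i m = l then 1 else 0) j -
          aseq S b Φ ι (fun L => A L * if L i i = l then 1 else 0) j) := by
    rw [← Finset.sum_erase_eq_sub (Finset.mem_univ i), Finset.mul_sum]
    symm
    refine Finset.sum_bij (fun m _ => e m) ?_ ?_ ?_ ?_
    · intro m hm
      rw [Finset.mem_erase] at hm ⊢
      exact ⟨fun h => hm.1 (e.injective h), Finset.mem_univ _⟩
    · intro m _ m' _ h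
      exact e.injective h
    · intro m hm
      rw [Finset.mem_erase] at hm
      refine ⟨e.symm m, ?_, e.apply_symm_apply m⟩
      rw [Finset.mem_erase]
      refine ⟨fun h => hm.1 ?_, Finset.mem_univ _⟩
      rw [← h, e.apply_symm_apply]
    · intro m hm
      exact (t3 m (Finset.ne_of_mem_erase hm)).symm
  rw [t1, t2, t2', t4]
  ring

/-- the functional: limit of the averages -/
noncomputable def aE (U : Ultrafilter ℕ) (S : ℕ → Sys) (b : Fin k → ℝ)
    (Φ : ∀ j, (S j).T → (δ → (S j).X) → ℝ) (ι : Type) [Fintype ι] (A : LM k (δ ⊕ ι) → ℝ) : ℝ :=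
  letI := Classical.decEq ι
  limUnder (U : Filter ℕ) (aseq S b Φ ι A)

theorem tendsto_aE (U : Ultrafilter ℕ) (hΦm : ∀ j x, Measurable fun t => Φ j t x)
    (hΦ : ∀ j t x, |Φ j t x| ≤ 1) (ι : Type) [Fintype ι] [inst : DecidableEq ι]
    (A : LM k (δ ⊕ ι) → ℝ) : Tendsto (aseq S b Φ ι A) U (𝓝 (aE U S b Φ ι A)) := by
  obtain ⟨a, -, ha⟩ := exists_max A
  have h1 := exists_ulim U fun N => aseq_bound (b := b) hΦm hΦ ha N
  have h0 : Classical.decEq ι = inst := Subsingleton.elim _ _
  have h2 : aE U S b Φ ι A = limUnder (U : Filter ℕ) (aseq S b Φ ι A) := by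
    unfold aE
    rw [h0]
  rw [h2]
  exact tendsto_nhds_limUnder h1

/-- The limiting array, with test functions depending on the disorder and on the special
replicas. -/
theorem exists_arr {U : Ultrafilter ℕ} {S : ℕ → Sys}
    (hGG : ∀ p : ℕ, AsympGG U S (fun x => x ^ p)) {k : ℕ} {b : Fin k → ℝ} (hb : StrictMono b)
    (hb0 : ∀ i, 0 < b i) (hb1 : ∀ i, b i ≤ 1) (hna : ∀ i, NonAtom U S (b i)) {w : Fin (k + 1) → ℝ}
    (hw : ∀ l, Tendsto (fun j => (S j).pr (fun x : Fin 2 → (S j).X =>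
      lev b ((S j).R (x 0) (x 1)) = l)) U (𝓝 (w l)))
    {δ : Type} [Fintype δ] [DecidableEq δ] (Φ : ∀ j, (S j).T → (δ → (S j).X) → ℝ)
    (hΦm : ∀ j x, Measurable fun t => Φ j t x) (hΦ : ∀ j t x, |Φ j t x| ≤ 1) :
    ∃ 𝓐 : Arr k w δ, 𝓐.C = 1 ∧ (∀ (ι : Type) [Fintype ι] [DecidableEq ι]
      (A : LM k (δ ⊕ ι) → ℝ), Tendsto (fun j => (S j).avT
        (fun ω (x : δ ⊕ ι → (S j).X) => Φ j ((S j).π ω) (fun i => x (Sum.inl i)) *
          A ((S j).LMat b x))) U (𝓝 (𝓐.E ι A))) := by
  classical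
  have htd := fun (ι : Type) [Fintype ι] [DecidableEq ι] (A : LM k (δ ⊕ ι) → ℝ) =>
    tendsto_aE (S := S) (b := b) (Φ := Φ) U hΦm hΦ ι A
  refine ⟨{
    E := fun ι _ =>
      { toFun := aE U S b Φ ι
        map_add' := ?_
        map_smul' := ?_ }
    C := 1
    bound := ?_
    supp := ?_
    reindex := ?_
    gg := ?_ }, rfl, fun ι _ _ A => htd ι A⟩
  · intro A B
    have h1 := htd ι (A + B)
    have h2 := (htd ι A).add (htd ι B)
    have h3 : (fun j => aseq S b Φ ι A j + aseq S b Φ ι B j) = aseq S b Φ ι (A + B) :=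
      funext fun j => (aseq_add hΦm hΦ A B j).symm
    rw [h3] at h2
    exact tendsto_nhds_unique h1 h2
  · intro c A
    have h1 := htd ι (c • A)
    have h2 := (htd ι A).const_mul c
    have h3 : (fun j => c * aseq S b Φ ι A j) = aseq S b Φ ι (c • A) :=
      funext fun j => (aseq_smul c A j).symm
    rw [h3] at h2
    exact tendsto_nhds_unique h1 h2
  · intro ι _ A a ha
    have h1 := (htd ι A).abs
    rw [one_mul]
    exact le_of_tendsto' h1 fun j => aseq_bound hΦm hΦ ha j
  · intro ι _ A hA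
    exact tendsto_nhds_unique (htd ι A) (aseq_supp hGG hb hna hΦm hΦ hA)
  · intro ι ι' _ _ e A
    have h1 := htd ι (fun L => A fun a b => L (Sum.map id e.symm a) (Sum.map id e.symm b))
    have h2 := htd ι' A
    have h3 : aseq S b Φ ι (fun L => A fun a b => L (Sum.map id e.symm a) (Sum.map id e.symm b)) =
        aseq S b Φ ι' A := funext fun j => aseq_reindex e A j
    rw [h3] at h1
    exact tendsto_nhds_unique h1 h2
  · intro ι _ A i l
    obtain ⟨M, hM, hAM⟩ := exists_max A
    set e := Fintype.equivFin (δ ⊕ ι) with he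
    -- the limit of the defects
    have hgg := AsympGG.level hGG hb hna l (Fintype.card (δ ⊕ ι)) (e i)
    have hdef : Tendsto (fun j => (S j).ggDefect (fun r => if lev b r = l then 1 else 0) (e i)
      (fun t (y : Fin (Fintype.card (δ ⊕ ι)) → (S j).X) =>
        (1 / M) * (Φ j t (fun i => y (e (Sum.inl i))) *
        A ((S j).LMat b fun a => y (e a))))) U (𝓝 0) := by
      rw [Metric.tendsto_nhds]
      intro ε hε
      filter_upwards [hgg (ε / 2) (by linarith only [hε])] with j hj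
      rw [dist_zero_right, Real.norm_eq_abs]
      refine lt_of_le_of_lt (hj _ ⟨fun y => ?_, fun t y => ?_⟩) (by linarith only [hε])
      · exact ((hΦm j _).mul_const _).const_mul _
      · have h1 := (bdd_aseq hΦm hΦ e A hAM (fun j y => (S j).LMat b fun a => y (e a)) j).bdd t y
        rw [abs_mul, abs_of_pos (by (clear * - hM; positivity) : 0 < 1 / M)]
        calc 1 / M * |Φ j t (fun i => y (e (Sum.inl i))) * A ((S j).LMat b fun a => y (e a))| ≤
              1 / M * M := mul_le_mul_of_nonneg_left h1 (by positivity)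
          _ = 1 := by (clear * - hM; field_simp)
    simp only [ggDefect_aseq] at hdef
    have h2 := hdef.const_mul M
    rw [mul_zero] at h2
    have h3 : ∀ x : ℝ, M * (1 / M * x) = x := by
      intro x
      (clear * - hM; field_simp)
    simp only [h3] at h2
    have h4 := ((htd (Option ι) (fun L => A (fun a b => L (Sum.map id some a) (Sum.map id some b)) *
          if L (Sum.map id some i) (Sum.inr none) = l then 1 else 0)).const_mul
            ((Fintype.card (δ ⊕ ι) : ℕ) : ℝ)).sub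
      (((htd ι A).mul (hw l)).add ((tendsto_finsetSum Finset.univ fun m _ =>
        htd ι (fun L => A L * if L i m = l then 1 else 0)).sub
          (htd ι (fun L => A L * if L i i = l then 1 else 0))))
    have h5 := tendsto_nhds_unique h2 h4
    have h6 : ((Fintype.card (δ ⊕ ι) : ℕ) : ℝ) = (Fintype.card δ : ℝ) + Fintype.card ι := by
      rw [Fintype.card_sum]
      push_cast
      ring
    rw [h6] at h5
    simp only [LinearMap.coe_mk, AddHom.coe_mk]
    linarith only [h5]

end aseq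

end Vale.Agent.P157.Par
end

section

open MeasureTheory ProbabilityTheory

namespace Vale.Agent.P157.Exist

variable {X : Type} [MeasurableSpace X]

/-- A jointly measurable family of weights, bounded above and away from zero. -/
structure GoodFam {Ω : Type} [MeasurableSpace Ω] (v : Ω → X → ℝ) : Prop where
  meas : Measurable (fun p : Ω × X => v p.1 p.2)
  bdd : ∃ c₁ c₂ : ℝ, 0 < c₁ ∧ ∀ ω x, c₁ ≤ v ω x ∧ v ω x ≤ c₂

/-- A measurable weight, bounded above and away from zero. -/
structure Good (w : X → ℝ) : Prop where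
  meas : Measurable w
  bdd : ∃ c₁ c₂ : ℝ, 0 < c₁ ∧ ∀ x, c₁ ≤ w x ∧ w x ≤ c₂

lemma GoodFam.mul {Ω Ω' : Type} [MeasurableSpace Ω] [MeasurableSpace Ω'] {v : Ω → X → ℝ}
    {u : Ω' → X → ℝ} (hv : GoodFam v) (hu : GoodFam u) :
    GoodFam (fun (p : Ω × Ω') x => v p.1 x * u p.2 x) := by
  obtain ⟨a₁, a₂, ha, hab⟩ := hv.bdd
  obtain ⟨b₁, b₂, hb, hbb⟩ := hu.bdd
  refine ⟨?_, a₁ * b₁, a₂ * b₂, mul_pos ha hb, fun p x => ⟨?_, ?_⟩⟩
  · have h1 : Measurable fun q : (Ω × Ω') × X => v q.1.1 q.2 :=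
      hv.meas.comp (g := fun p : Ω × X => v p.1 p.2)
        (f := fun q : (Ω × Ω') × X => (q.1.1, q.2)) (by fun_prop)
    have h2 : Measurable fun q : (Ω × Ω') × X => u q.1.2 q.2 :=
      hu.meas.comp (g := fun p : Ω' × X => u p.1 p.2)
        (f := fun q : (Ω × Ω') × X => (q.1.2, q.2)) (by fun_prop)
    exact h1.mul h2
  · exact mul_le_mul (hab _ _).1 (hbb _ _).1 hb.le (ha.le.trans (hab _ _).1)
  · exact mul_le_mul (hab p.1 x).2 (hbb p.2 x).2 (hb.le.trans (hbb p.2 x).1)
      ((ha.le.trans (hab p.1 x).1).trans (hab p.1 x).2)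

lemma GoodFam.comp {Ω Ω' : Type} [MeasurableSpace Ω] [MeasurableSpace Ω'] {v : Ω → X → ℝ}
    (hv : GoodFam v) {f : Ω' → Ω} (hf : Measurable f) : GoodFam (fun ω => v (f ω)) := by
  obtain ⟨a₁, a₂, ha, hab⟩ := hv.bdd
  refine ⟨?_, a₁, a₂, ha, fun p x => hab _ _⟩
  exact hv.meas.comp (g := fun p : Ω × X => v p.1 p.2)
    (f := fun q : Ω' × X => (f q.1, q.2)) (by fun_prop)

lemma GoodFam.good {Ω : Type} [MeasurableSpace Ω] {v : Ω → X → ℝ} (hv : GoodFam v) (ω : Ω) :
    Good (v ω) := by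
  obtain ⟨a₁, a₂, ha, hab⟩ := hv.bdd
  refine ⟨?_, a₁, a₂, ha, fun x => hab _ _⟩
  exact hv.meas.comp (g := fun p : Ω × X => v p.1 p.2) (f := fun x : X => (ω, x)) (by fun_prop)

lemma Good.goodFam {w : X → ℝ} (hw : Good w) {Ω : Type} [MeasurableSpace Ω] :
    GoodFam (fun (_ : Ω) => w) := by
  obtain ⟨a₁, a₂, ha, hab⟩ := hw.bdd
  exact ⟨hw.meas.comp measurable_snd, a₁, a₂, ha, fun _ x => hab x⟩

/-- Functionals of weights which are measurable and bounded along good families. -/
structure Nice (Ψ : (X → ℝ) → ℝ) : Prop where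
  meas : ∀ {Ω : Type} [MeasurableSpace Ω] (v : Ω → X → ℝ), GoodFam v →
    Measurable (fun ω => Ψ (v ω))
  bdd : ∀ {Ω : Type} [MeasurableSpace Ω] (v : Ω → X → ℝ), GoodFam v → ∃ C, ∀ ω, |Ψ (v ω)| ≤ C

/-- Pointwise comparison of functionals on good weights. -/
def FLE (Ψ Φ : (X → ℝ) → ℝ) : Prop := ∀ w, Good w → Ψ w ≤ Φ w

/-- Pointwise equality of functionals on good weights. -/
def FEQ (Ψ Φ : (X → ℝ) → ℝ) : Prop := ∀ w, Good w → Ψ w = Φ w

lemma FEQ.symm {Ψ Φ : (X → ℝ) → ℝ} (h : FEQ Ψ Φ) : FEQ Φ Ψ := fun w hw => (h w hw).symm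
lemma FEQ.trans {Ψ Φ Χ : (X → ℝ) → ℝ} (h : FEQ Ψ Φ) (h' : FEQ Φ Χ) : FEQ Ψ Χ :=
  fun w hw => (h w hw).trans (h' w hw)
/-- A random factor: a probability space with a good family of weights on it. -/
structure Factor (X : Type) [MeasurableSpace X] where
  G : Type
  mG : MeasurableSpace G
  γ : @Measure G mG
  prob : @IsProbabilityMeasure G mG γ
  u : G → X → ℝ
  good : @GoodFam X _ G mG u

attribute [instance] Factor.mG Factor.prob

/-- Average of a functional over a random factor. -/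
noncomputable def avg (F : Factor X) (Ψ : (X → ℝ) → ℝ) : (X → ℝ) → ℝ :=
  fun w => ∫ g, Ψ (fun x => w x * F.u g x) ∂F.γ

lemma Good.mulU {w : X → ℝ} (hw : Good w) (F : Factor X) :
    GoodFam (fun (g : F.G) x => w x * F.u g x) :=
  ((hw.goodFam (Ω := Unit)).mul F.good).comp (f := fun g : F.G => ((), g)) (by fun_prop)

lemma Nice.integrable {Ψ : (X → ℝ) → ℝ} (hΨ : Nice Ψ) {w : X → ℝ} (hw : Good w)
    (F : Factor X) : Integrable (fun g => Ψ (fun x => w x * F.u g x)) F.γ := by
  obtain ⟨C, hC⟩ := hΨ.bdd _ (hw.mulU F)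
  exact Integrable.mono' (integrable_const C) (hΨ.meas _ (hw.mulU F)).aestronglyMeasurable
    (Filter.Eventually.of_forall hC)

lemma Nice.avg {Ψ : (X → ℝ) → ℝ} (hΨ : Nice Ψ) (F : Factor X) : Nice (avg F Ψ) := by
  constructor
  · intro Ω _ v hv
    have h1 := hΨ.meas _ (hv.mul F.good)
    apply StronglyMeasurable.measurable
    exact StronglyMeasurable.integral_prod_right'
      (f := fun p : Ω × F.G => Ψ (fun x => v p.1 x * F.u p.2 x)) h1.stronglyMeasurable
  · intro Ω _ v hv
    obtain ⟨C, hC⟩ := hΨ.bdd _ (hv.mul F.good)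
    refine ⟨C, fun ω => ?_⟩
    have := norm_integral_le_of_norm_le_const (μ := F.γ)
      (f := fun g => Ψ (fun x => v ω x * F.u g x)) (C := C)
      (Filter.Eventually.of_forall fun g => hC (ω, g))
    simpa only [Exist.avg, ge_iff_le, Real.norm_eq_abs, probReal_univ, mul_one] using this

lemma Nice.iter {Ψ : (X → ℝ) → ℝ} (hΨ : Nice Ψ) (F : Factor X) (n : ℕ) :
    Nice ((Exist.avg F)^[n] Ψ) := by
  induction n with
  | zero => exact hΨ
  | succ n ih => rw [Function.iterate_succ_apply']; exact ih.avg F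

lemma FLE.avg {Ψ Φ : (X → ℝ) → ℝ} (h : FLE Ψ Φ) (hΨ : Nice Ψ) (hΦ : Nice Φ) (F : Factor X) :
    FLE (avg F Ψ) (avg F Φ) := by
  intro w hw
  exact integral_mono (hΨ.integrable hw F) (hΦ.integrable hw F)
    (fun g => h _ ((hw.mulU F).good g))

lemma FEQ.avg {Ψ Φ : (X → ℝ) → ℝ} (h : FEQ Ψ Φ) (F : Factor X) :
    FEQ (avg F Ψ) (avg F Φ) := by
  intro w hw
  unfold Exist.avg
  congr 1
  ext g
  exact h _ ((hw.mulU F).good g)

lemma FLE.iter {Ψ Φ : (X → ℝ) → ℝ} (h : FLE Ψ Φ) (hΨ : Nice Ψ) (hΦ : Nice Φ) (F : Factor X)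
    (n : ℕ) : FLE ((Exist.avg F)^[n] Ψ) ((Exist.avg F)^[n] Φ) := by
  induction n with
  | zero => exact h
  | succ n ih =>
    rw [Function.iterate_succ_apply', Function.iterate_succ_apply']
    exact ih.avg (hΨ.iter F n) (hΦ.iter F n) F

lemma FEQ.iter {Ψ Φ : (X → ℝ) → ℝ} (h : FEQ Ψ Φ) (F : Factor X)
    (n : ℕ) : FEQ ((Exist.avg F)^[n] Ψ) ((Exist.avg F)^[n] Φ) := by
  induction n with
  | zero => exact h
  | succ n ih =>
    rw [Function.iterate_succ_apply', Function.iterate_succ_apply']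
    exact ih.avg F

lemma avg_comm {Ψ : (X → ℝ) → ℝ} (hΨ : Nice Ψ) (F F' : Factor X) :
    FEQ (avg F (avg F' Ψ)) (avg F' (avg F Ψ)) := by
  intro w hw
  unfold avg
  rw [integral_integral_swap]
  · congr 1
    ext g'
    congr 1
    ext g
    congr 1
    ext x
    ring
  · have h0 := ((hw.mulU F).mul F'.good)
    obtain ⟨C, hC⟩ := hΨ.bdd _ h0
    exact Integrable.mono' (integrable_const C) (hΨ.meas _ h0).aestronglyMeasurable
      (Filter.Eventually.of_forall hC)

lemma avg_iter_comm {Ψ : (X → ℝ) → ℝ} (hΨ : Nice Ψ) (F F' : Factor X) (n : ℕ) :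
    FEQ ((avg F)^[n] (avg F' Ψ)) (avg F' ((avg F)^[n] Ψ)) := by
  induction n with
  | zero => intro w _; rfl
  | succ n ih =>
    rw [Function.iterate_succ_apply', Function.iterate_succ_apply']
    exact (ih.avg F).trans (avg_comm (hΨ.iter F n) F F')

lemma avg_linear {Ψ Φ : (X → ℝ) → ℝ} (hΨ : Nice Ψ) (hΦ : Nice Φ) (a b : ℝ) (F : Factor X) :
    FEQ (avg F (fun w => a * Ψ w + b * Φ w)) (fun w => a * avg F Ψ w + b * avg F Φ w) := by
  intro w hw
  unfold avg
  rw [integral_add ((hΨ.integrable hw F).const_mul a) ((hΦ.integrable hw F).const_mul b),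
    integral_const_mul, integral_const_mul]

lemma Nice.linear {Ψ Φ : (X → ℝ) → ℝ} (hΨ : Nice Ψ) (hΦ : Nice Φ) (a b : ℝ) :
    Nice (fun w => a * Ψ w + b * Φ w) := by
  constructor
  · intro Ω _ v hv
    exact ((hΨ.meas v hv).const_mul a).add ((hΦ.meas v hv).const_mul b)
  · intro Ω _ v hv
    obtain ⟨C, hC⟩ := hΨ.bdd v hv
    obtain ⟨C', hC'⟩ := hΦ.bdd v hv
    refine ⟨|a| * C + |b| * C', fun ω => ?_⟩
    calc |a * Ψ (v ω) + b * Φ (v ω)| ≤ |a * Ψ (v ω)| + |b * Φ (v ω)| := abs_add_le _ _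
      _ ≤ |a| * C + |b| * C' := by
        rw [abs_mul, abs_mul]
        gcongr
        · exact hC ω
        · exact hC' ω

lemma iter_linear {Ψ Φ : (X → ℝ) → ℝ} (hΨ : Nice Ψ) (hΦ : Nice Φ) (a b : ℝ) (F : Factor X)
    (n : ℕ) :
    FEQ ((avg F)^[n] (fun w => a * Ψ w + b * Φ w))
      (fun w => a * (avg F)^[n] Ψ w + b * (avg F)^[n] Φ w) := by
  induction n with
  | zero => intro w _; rfl
  | succ n ih =>
    simp only [Function.iterate_succ_apply']
    exact (ih.avg F).trans (avg_linear (hΨ.iter F n) (hΦ.iter F n) a b F)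

/-- The log partition function functional. -/
noncomputable def logZ (μ : Measure X) : (X → ℝ) → ℝ := fun w => Real.log (∫ x, w x ∂μ)

lemma Good.integrable {w : X → ℝ} (hw : Good w) (μ : Measure X) [IsFiniteMeasure μ] :
    Integrable w μ := by
  obtain ⟨c₁, c₂, h, hb⟩ := hw.bdd
  apply Integrable.mono' (integrable_const c₂) hw.meas.aestronglyMeasurable
  filter_upwards with x
  rw [Real.norm_eq_abs, abs_of_pos (h.trans_le (hb x).1)]
  exact (hb x).2

lemma nice_logZ (μ : Measure X) [IsProbabilityMeasure μ] : Nice (logZ μ) := by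
  constructor
  · intro Ω _ v hv
    unfold logZ
    have : Measurable fun ω => ∫ x, v ω x ∂μ := by
      apply StronglyMeasurable.measurable
      exact StronglyMeasurable.integral_prod_right' (f := fun p : Ω × X => v p.1 p.2)
        hv.meas.stronglyMeasurable
    fun_prop
  · intro Ω _ v hv
    obtain ⟨c₁, c₂, h, hb⟩ := hv.bdd
    refine ⟨|Real.log c₁| + |Real.log c₂|, fun ω => ?_⟩
    have hi := (hv.good ω).integrable μ
    have h3 : c₁ ≤ ∫ x, v ω x ∂μ := by
      have := integral_mono (integrable_const c₁) hi (fun x => (hb ω x).1)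
      simpa only [ge_iff_le, integral_const, probReal_univ, smul_eq_mul, one_mul] using this
    have h4 : ∫ x, v ω x ∂μ ≤ c₂ := by
      have := integral_mono hi (integrable_const c₂) (fun x => (hb ω x).2)
      simpa only [ge_iff_le, integral_const, probReal_univ, smul_eq_mul, one_mul] using this
    unfold logZ
    rw [abs_le]
    have e1 := Real.log_le_log h h3
    have e2 := Real.log_le_log (h.trans_le h3) h4
    constructor
    · have := neg_abs_le (Real.log c₁)
      have := abs_nonneg (Real.log c₂)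
      linarith
    · have := le_abs_self (Real.log c₂)
      have := abs_nonneg (Real.log c₁)
      linarith

end Vale.Agent.P157.Exist
end
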