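import Mathlib
import Vale.Agent.P157.ParDefs
import Vale.Agent.P367.GT.Stein
attribute [-instance] ProperSMul.toContinuousSMul IsTopologicalTorsor.toContinuousSMul IdemSemiring.toCanonicallyOrderedAdd IdemSemiring.toMulLeftMono IdemSemiring.toMulRightMono AddQuantale.instAddLeftMono AddQuantale.instAddRightMono Quantale.instMulLeftMono Quantale.instMulRightMono FiniteDimensional.rclike_to_real IsScalarTower.complexToReal FiniteDimensional.complexToReal

set_option linter.all false

section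

/-!
Definitions for the Guerra upper bound (module U of the Parisi plan): the cascades in dimension
`N`, the tilted chain, and the log-weights of a finite system in a Gaussian field.
-/

open MeasureTheory ProbabilityTheory

namespace Vale.Agent.P157.Par

/-- The standard Gaussian measure on `ℝ^N`. -/
noncomputable abbrev gN (N : ℕ) : Measure (Fin N → ℝ) := Measure.pi fun _ => gaussianReal 0 1

variable {N : ℕ}

/-- One step of the cascade in dimension `N`: `y ↦ (1/m) log E exp(m G(y + √v z))`. -/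
noncomputable def gstepN (m v : ℝ) (G : (Fin N → ℝ) → ℝ) : (Fin N → ℝ) → ℝ := fun y =>
  1 / m * Real.log (∫ z, Real.exp (m * G (y + √v • z)) ∂(gN N))

/-- One step of the tilted chain: `y ↦ E[h(y + √v z) e^{m G(y + √v z)}] / E[e^{m G(y + √v z)}]`. -/
noncomputable def tiltN (m v : ℝ) (G h : (Fin N → ℝ) → ℝ) : (Fin N → ℝ) → ℝ := fun y =>
  (∫ z, h (y + √v • z) * Real.exp (m * G (y + √v • z)) ∂(gN N)) /
    ∫ z, Real.exp (m * G (y + √v • z)) ∂(gN N)

/-- The value of the full cascade started at the level `l` with the function `G`. -/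
noncomputable def topN (m r : ℕ → ℝ) : ℕ → ((Fin N → ℝ) → ℝ) → ℝ
  | 0, G => ∫ z, G (√(r 0) • z) ∂(gN N)
  | l + 1, G => topN m r l (gstepN (m (l + 1)) (r (l + 1) - r l) G)

theorem topN_succ_def (m r : ℕ → ℝ) (l : ℕ) (G : (Fin N → ℝ) → ℝ) :
    topN m r (l + 1) G = topN m r l (gstepN (m (l + 1)) (r (l + 1) - r l) G) := by
  have h1 := @topN.eq_1
  have h2 := @topN.eq_def
  simp only [topN]

variable {X : Type} [Fintype X]

/-- The log-partition function in the field `c y`: `y ↦ log ∑_x e^{u x + c ⟨y, φ x⟩}`. -/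
noncomputable def lw (φ : X → Fin N → ℝ) (c : ℝ) (u : X → ℝ) : (Fin N → ℝ) → ℝ := fun y =>
  Real.log (∑ x, Real.exp (u x + c * ∑ i, y i * φ x i))

end Vale.Agent.P157.Par
end

section

/-!
Basic facts about the cascades and the tilted chain in dimension `N`: functions of exponential
growth, integrability, linearity, monotonicity, Lipschitz estimates.
-/

open MeasureTheory ProbabilityTheory Filter Topology

namespace Vale.Agent.P157.Par

variable {N : ℕ}

/-- Measurable functions of at most exponential growth. -/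
structure EG (h : (Fin N → ℝ) → ℝ) : Prop where
  meas : Measurable h
  bdd : ∃ C a : ℝ, 0 ≤ C ∧ 0 ≤ a ∧ ∀ y, |h y| ≤ C * Real.exp (a * ‖y‖)

/-- Lipschitz functions. -/
def Lip (G : (Fin N → ℝ) → ℝ) : Prop := ∃ L : ℝ, 0 ≤ L ∧ ∀ y y', |G y - G y'| ≤ L * ‖y - y'‖

lemma Lip.continuous {G : (Fin N → ℝ) → ℝ} (h : Lip G) : Continuous G := by
  obtain ⟨L, hL, h⟩ := h
  refine (LipschitzWith.of_dist_le_mul (K := ⟨L, hL⟩) fun y y' => ?_).continuous
  rw [Real.dist_eq, dist_eq_norm]; exact h y y'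

lemma Lip.measurable {G : (Fin N → ℝ) → ℝ} (h : Lip G) : Measurable G := h.continuous.measurable

namespace EG

lemma of_bdd {h : (Fin N → ℝ) → ℝ} (hm : Measurable h) {C : ℝ} (hC : ∀ y, |h y| ≤ C) : EG h :=
  ⟨hm, |C|, 0, abs_nonneg _, le_rfl, fun y => by simpa only [zero_mul, Real.exp_zero, mul_one] using (hC y).trans (le_abs_self C)⟩

lemma const (c : ℝ) : EG (fun _ : Fin N → ℝ => c) := of_bdd measurable_const fun _ => le_rfl

lemma add {f g : (Fin N → ℝ) → ℝ} (hf : EG f) (hg : EG g) : EG (fun y => f y + g y) := by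
  obtain ⟨C, a, hC, ha, h1⟩ := hf.bdd
  obtain ⟨D, b, hD, hb, h2⟩ := hg.bdd
  refine ⟨hf.meas.add hg.meas, C + D, max a b, by (clear * - hC hD; positivity), by positivity, fun y => ?_⟩
  have e1 : Real.exp (a * ‖y‖) ≤ Real.exp (max a b * ‖y‖) :=
    Real.exp_le_exp.2 (mul_le_mul_of_nonneg_right (le_max_left _ _) (norm_nonneg _))
  have e2 : Real.exp (b * ‖y‖) ≤ Real.exp (max a b * ‖y‖) :=
    Real.exp_le_exp.2 (mul_le_mul_of_nonneg_right (le_max_right _ _) (norm_nonneg _))
  calc |f y + g y| ≤ |f y| + |g y| := abs_add_le _ _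
    _ ≤ C * Real.exp (a * ‖y‖) + D * Real.exp (b * ‖y‖) := add_le_add (h1 y) (h2 y)
    _ ≤ C * Real.exp (max a b * ‖y‖) + D * Real.exp (max a b * ‖y‖) := by (clear * - e1 hC e2 hD; gcongr)
    _ = _ := by ring

lemma mul {f g : (Fin N → ℝ) → ℝ} (hf : EG f) (hg : EG g) : EG (fun y => f y * g y) := by
  obtain ⟨C, a, hC, ha, h1⟩ := hf.bdd
  obtain ⟨D, b, hD, hb, h2⟩ := hg.bdd
  refine ⟨hf.meas.mul hg.meas, C * D, a + b, by (clear * - hC hD; positivity), by (clear * - ha hb; positivity), fun y => ?_⟩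
  calc |f y * g y| = |f y| * |g y| := abs_mul _ _
    _ ≤ (C * Real.exp (a * ‖y‖)) * (D * Real.exp (b * ‖y‖)) := by
        gcongr
        · exact h1 y
        · exact h2 y
    _ = C * D * Real.exp ((a + b) * ‖y‖) := by rw [add_mul, Real.exp_add]; ring

lemma const_mul {f : (Fin N → ℝ) → ℝ} (c : ℝ) (hf : EG f) : EG (fun y => c * f y) :=
  (const c).mul hf

lemma neg {f : (Fin N → ℝ) → ℝ} (hf : EG f) : EG (fun y => -f y) := by
  simpa only [neg_mul, one_mul] using hf.const_mul (-1)

lemma pow {f : (Fin N → ℝ) → ℝ} (hf : EG f) (n : ℕ) : EG (fun y => f y ^ n) := by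
  induction n with
  | zero => simpa using const 1
  | succ n ih => simpa [pow_succ] using ih.mul hf

lemma mono {f g : (Fin N → ℝ) → ℝ} (hg : EG g) (hf : Measurable f) (h : ∀ y, |f y| ≤ |g y|) :
    EG f := by
  obtain ⟨C, a, hC, ha, h1⟩ := hg.bdd
  exact ⟨hf, C, a, hC, ha, fun y => (h y).trans (h1 y)⟩

end EG

lemma Lip.exp_eg {G : (Fin N → ℝ) → ℝ} (h : Lip G) (m : ℝ) :
    EG (fun y => Real.exp (m * G y)) := by
  obtain ⟨L, hL, h'⟩ := id h
  refine ⟨Real.measurable_exp.comp (h.measurable.const_mul m), Real.exp (|m| * |G 0|), |m| * L,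
    (Real.exp_pos _).le, by (clear * - hL; positivity), fun y => ?_⟩
  rw [abs_of_pos (Real.exp_pos _), ← Real.exp_add, Real.exp_le_exp]
  have h1 : |G y| ≤ |G 0| + L * ‖y‖ := by
    have := h' y 0
    rw [sub_zero] at this
    calc |G y| = |(G y - G 0) + G 0| := by ring_nf
      _ ≤ |G y - G 0| + |G 0| := abs_add_le _ _
      _ ≤ _ := by linarith only [this]
  calc m * G y ≤ |m * G y| := le_abs_self _
    _ = |m| * |G y| := abs_mul _ _
    _ ≤ |m| * (|G 0| + L * ‖y‖) := by (clear * - h1; gcongr)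
    _ = _ := by ring

lemma integrable_exp_norm (a : ℝ) :
    Integrable (fun z : Fin N → ℝ => Real.exp (a * ‖z‖)) (gN N) := by
  have h1 : Integrable (fun x : ℝ => Real.exp (|a| * |x|)) (gaussianReal 0 1) :=
    ProbabilityTheory.integrable_exp_mul_abs (X := fun x => x) (t := |a|)
      (by simpa only using integrable_exp_mul_gaussianReal (μ := 0) (v := 1) (|a|))
      (by simpa only [neg_mul] using integrable_exp_mul_gaussianReal (μ := 0) (v := 1) (-|a|))
  have h2 : Integrable (fun z : Fin N → ℝ => ∏ i, Real.exp (|a| * |z i|)) (gN N) :=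
    Integrable.fintype_prod (f := fun _ x => Real.exp (|a| * |x|)) fun _ => h1
  refine h2.mono' ?_ (Filter.Eventually.of_forall fun z => ?_)
  · exact (by fun_prop : Continuous fun z : Fin N → ℝ => Real.exp (a * ‖z‖)).aestronglyMeasurable
  · rw [Real.norm_eq_abs, abs_of_pos (Real.exp_pos _), ← Real.exp_sum, Real.exp_le_exp,
      ← Finset.mul_sum]
    have hn : ‖z‖ ≤ ∑ i, |z i| := by
      refine (pi_norm_le_iff_of_nonneg (Finset.sum_nonneg fun i _ => abs_nonneg _)).2 fun i => ?_
      rw [Real.norm_eq_abs]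
      exact Finset.single_le_sum (f := fun i => |z i|) (fun i _ => abs_nonneg _)
        (Finset.mem_univ i)
    calc a * ‖z‖ ≤ |a| * ‖z‖ := mul_le_mul_of_nonneg_right (le_abs_self a) (norm_nonneg _)
      _ ≤ |a| * ∑ i, |z i| := by gcongr

/-- Functions of exponential growth are integrable after any shift and scaling. -/
lemma EG.integrable {h : (Fin N → ℝ) → ℝ} (hh : EG h) (y : Fin N → ℝ) (s : ℝ) :
    Integrable (fun z => h (y + s • z)) (gN N) := by
  obtain ⟨C, a, hC, ha, hb⟩ := hh.bdd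
  refine ((integrable_exp_norm (N := N) (a * |s|)).const_mul (C * Real.exp (a * ‖y‖))).mono'
    (hh.meas.comp (by fun_prop)).aestronglyMeasurable (Filter.Eventually.of_forall fun z => ?_)
  rw [Real.norm_eq_abs]
  refine (hb _).trans ?_
  rw [mul_assoc, ← Real.exp_add]
  gcongr
  calc a * ‖y + s • z‖ ≤ a * (‖y‖ + ‖s • z‖) := by gcongr; exact norm_add_le _ _
    _ = _ := by rw [norm_smul, Real.norm_eq_abs]; ring

/-- Averages of functions of exponential growth over a Gaussian shift are measurable. -/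
lemma EG.meas_int {h : (Fin N → ℝ) → ℝ} (hh : EG h) (s : ℝ) :
    Measurable (fun y => ∫ z, h (y + s • z) ∂(gN N)) := by
  have : StronglyMeasurable (Function.uncurry fun (y z : Fin N → ℝ) => h (y + s • z)) :=
    (hh.meas.comp (by fun_prop)).stronglyMeasurable
  exact this.integral_prod_right.measurable

lemma int_exp_pos {G : (Fin N → ℝ) → ℝ} (hG : Lip G) (m v : ℝ) (y : Fin N → ℝ) :
    0 < ∫ z, Real.exp (m * G (y + √v • z)) ∂(gN N) :=
  integral_exp_pos ((hG.exp_eg m).integrable y (√v))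

lemma EG.integrable_tilt {G h : (Fin N → ℝ) → ℝ} (hG : Lip G) (hh : EG h) (m v : ℝ)
    (y : Fin N → ℝ) :
    Integrable (fun z => h (y + √v • z) * Real.exp (m * G (y + √v • z))) (gN N) :=
  (hh.mul (hG.exp_eg m)).integrable y (√v)

lemma EG.measurable_tilt {G h : (Fin N → ℝ) → ℝ} (hG : Lip G) (hh : EG h) (m v : ℝ) :
    Measurable (tiltN m v G h) :=
  ((hh.mul (hG.exp_eg m)).meas_int (√v)).div ((hG.exp_eg m).meas_int (√v))

lemma tiltN_mono {G h h' : (Fin N → ℝ) → ℝ} (hG : Lip G) (hh : EG h) (hh' : EG h')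
    (hle : ∀ y, h y ≤ h' y) (m v : ℝ) (y : Fin N → ℝ) : tiltN m v G h y ≤ tiltN m v G h' y := by
  unfold tiltN
  refine div_le_div_of_nonneg_right ?_ (int_exp_pos hG m v y).le
  exact integral_mono (hh.integrable_tilt hG m v y) (hh'.integrable_tilt hG m v y)
    fun z => mul_le_mul_of_nonneg_right (hle _) (Real.exp_pos _).le

lemma tiltN_const {G : (Fin N → ℝ) → ℝ} (hG : Lip G) (m v c : ℝ) (y : Fin N → ℝ) :
    tiltN m v G (fun _ => c) y = c := by
  unfold tiltN
  rw [integral_const_mul, mul_div_assoc, div_self (int_exp_pos hG m v y).ne', mul_one]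

lemma tiltN_const_mul (G h : (Fin N → ℝ) → ℝ) (m v c : ℝ) (y : Fin N → ℝ) :
    tiltN m v G (fun y => c * h y) y = c * tiltN m v G h y := by
  unfold tiltN
  simp only [mul_assoc]
  rw [integral_const_mul, mul_div_assoc]

lemma tiltN_neg (G h : (Fin N → ℝ) → ℝ) (m v : ℝ) (y : Fin N → ℝ) :
    tiltN m v G (fun y => -h y) y = -tiltN m v G h y := by
  simpa only [neg_mul, one_mul] using tiltN_const_mul G h m v (-1) y

lemma abs_tiltN_le {G h : (Fin N → ℝ) → ℝ} (hG : Lip G) (hh : EG h) (m v : ℝ) (y : Fin N → ℝ) :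
    |tiltN m v G h y| ≤ tiltN m v G (fun y => |h y|) y := by
  have habs : EG (fun y => |h y|) := hh.mono hh.meas.abs fun y => by simp
  rw [abs_le]
  constructor
  · rw [← tiltN_neg]
    exact tiltN_mono hG habs.neg hh (fun y => neg_abs_le _) m v y
  · exact tiltN_mono hG hh habs (fun y => le_abs_self _) m v y

lemma abs_tiltN_le_of_bdd {G h : (Fin N → ℝ) → ℝ} (hG : Lip G) (hh : Measurable h) {C : ℝ}
    (hC : ∀ y, |h y| ≤ C) (m v : ℝ) (y : Fin N → ℝ) : |tiltN m v G h y| ≤ C := by
  have h1 := EG.of_bdd hh hC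
  have habs : EG (fun y => |h y|) := h1.mono h1.meas.abs fun y => by simp
  calc _ ≤ tiltN m v G (fun y => |h y|) y := abs_tiltN_le hG h1 m v y
    _ ≤ tiltN m v G (fun _ => C) y := tiltN_mono hG habs (EG.const C) hC m v y
    _ = C := tiltN_const hG m v C y

/-- Cascade steps preserve Lipschitz functions. -/
lemma Lip.gstep {G : (Fin N → ℝ) → ℝ} (hG : Lip G) {m : ℝ} (hm : 0 < m) (v : ℝ) :
    Lip (gstepN m v G) := by
  obtain ⟨L, hL, hl⟩ := id hG
  have key : ∀ y y', gstepN m v G y ≤ gstepN m v G y' + L * ‖y - y'‖ := by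
    intro y y'
    unfold gstepN
    have h1 : ∫ z, Real.exp (m * G (y + √v • z)) ∂(gN N) ≤
        Real.exp (m * (L * ‖y - y'‖)) * ∫ z, Real.exp (m * G (y' + √v • z)) ∂(gN N) := by
      rw [← integral_const_mul]
      refine integral_mono ((hG.exp_eg m).integrable y (√v))
        (((hG.exp_eg m).integrable y' (√v)).const_mul _) fun z => ?_
      dsimp only
      rw [← Real.exp_add, Real.exp_le_exp, ← mul_add]
      refine mul_le_mul_of_nonneg_left ?_ hm.le
      have := (abs_le.1 (hl (y + √v • z) (y' + √v • z))).2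
      rw [add_sub_add_right_eq_sub] at this
      linarith
    have h2 := Real.log_le_log (int_exp_pos hG m v y) h1
    rw [Real.log_mul (Real.exp_pos _).ne' (int_exp_pos hG m v y').ne', Real.log_exp] at h2
    calc 1 / m * Real.log (∫ z, Real.exp (m * G (y + √v • z)) ∂(gN N)) ≤
        1 / m * (m * (L * ‖y - y'‖) + Real.log (∫ z, Real.exp (m * G (y' + √v • z)) ∂(gN N))) := by
          (clear * - h2 hm; gcongr)
      _ = _ := by field_simp; ring
  refine ⟨L, hL, fun y y' => abs_le.2 ⟨?_, ?_⟩⟩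
  · have := key y' y
    rw [norm_sub_rev] at this
    linarith only [this]
  · have := key y y'
    linarith

section chain

variable {m r : ℕ → ℝ}

end chain

section lw

variable {X : Type} [Fintype X] [Nonempty X]

end lw

section meas

variable {X : Type} [Fintype X] [Nonempty X] {m r : ℕ → ℝ}

end meas

end Vale.Agent.P157.Par
end

section

/-!
Calculus for the tilted chain: Gaussian integration by parts and differentiation under the
integral for functions of exponential growth on `ℝ^N`.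
-/

open MeasureTheory ProbabilityTheory

namespace Vale.Agent.P157.Par

open Vale.Agent.P367.GT (map_update measurable_upd)

variable {N : ℕ}

theorem integrable_gaussianReal_iff (g : ℝ → ℝ) :
    Integrable g (gaussianReal 0 1) ↔ Integrable (fun x => gaussianPDFReal 0 1 x * g x) := by
  rw [gaussianReal_of_var_ne_zero _ one_ne_zero,
    integrable_withDensity_iff_integrable_smul' (measurable_gaussianPDF 0 1)
      (Filter.Eventually.of_forall fun x => gaussianPDF_lt_top)]
  simp only [smul_eq_mul, gaussianPDF, ENNReal.toReal_ofReal (gaussianPDFReal_nonneg 0 1 _)]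

/-- One-dimensional Gaussian integration by parts. -/
theorem stein_one_int (g g' : ℝ → ℝ) (hd : ∀ x, HasDerivAt g (g' x) x)
    (h0 : Integrable g (gaussianReal 0 1)) (h1 : Integrable (fun x => x * g x) (gaussianReal 0 1))
    (h2 : Integrable g' (gaussianReal 0 1)) :
    ∫ x, x * g x ∂(gaussianReal 0 1) = ∫ x, g' x ∂(gaussianReal 0 1) := by
  set φ : ℝ → ℝ := gaussianPDFReal 0 1 with hφ
  have hφd : ∀ x, HasDerivAt φ (-(x * φ x)) x := by
    intro x
    have h1 : HasDerivAt (fun y : ℝ => -(y - 0) ^ 2 / (2 * ((1 : NNReal) : ℝ))) (-x) x := by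
      have h2 : HasDerivAt (fun y : ℝ => -(y ^ 2) / 2) (-(2 * x) / 2) x := by
        have h0 := ((hasDerivAt_pow 2 x).neg).div_const (2 : ℝ)
        simpa only [Pi.neg_apply, Nat.cast_ofNat, Nat.add_one_sub_one, pow_one] using h0
      have h2' : (fun y : ℝ => -(y - 0) ^ 2 / (2 * ((1 : NNReal) : ℝ))) = fun y => -(y ^ 2) / 2 := by
        funext y
        simp
      rw [h2']
      have h2'' : -x = -(2 * x) / 2 := by ring
      rw [h2'']
      exact h2
    have h3 := (h1.exp).const_mul ((Real.sqrt (2 * Real.pi * ((1 : NNReal) : ℝ)))⁻¹)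
    have h4 : φ = fun y => (Real.sqrt (2 * Real.pi * ((1 : NNReal) : ℝ)))⁻¹
        * Real.exp (-(y - 0) ^ 2 / (2 * ((1 : NNReal) : ℝ))) := by
      funext y
      rw [hφ, gaussianPDFReal_def]
    have h5 : -(x * φ x) = (Real.sqrt (2 * Real.pi * ((1 : NNReal) : ℝ)))⁻¹
        * (Real.exp (-(x - 0) ^ 2 / (2 * ((1 : NNReal) : ℝ))) * -x) := by
      rw [h4]
      ring
    rw [h5, h4]
    exact h3
  have e1 : ∫ x, x * g x ∂(gaussianReal 0 1) = ∫ x, φ x * (x * g x) := by
    rw [integral_gaussianReal_eq_integral_smul one_ne_zero]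
    rfl
  have e2 : ∫ x, g' x ∂(gaussianReal 0 1) = ∫ x, φ x * g' x := by
    rw [integral_gaussianReal_eq_integral_smul one_ne_zero]
    rfl
  rw [integrable_gaussianReal_iff] at h0 h1 h2
  have i1 : Integrable (g * fun x => -(x * φ x)) := by
    refine h1.neg.congr (Filter.Eventually.of_forall fun x => ?_)
    simp only [Pi.neg_apply, Pi.mul_apply]
    ring
  have i2 : Integrable (g' * φ) := by
    refine h2.congr (Filter.Eventually.of_forall fun x => ?_)
    simp only [Pi.mul_apply]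
    ring
  have i3 : Integrable (g * φ) := by
    refine h0.congr (Filter.Eventually.of_forall fun x => ?_)
    simp only [Pi.mul_apply]
    ring
  have key := integral_mul_deriv_eq_deriv_mul_of_integrable (u := g) (v := φ) (u' := g')
    (v' := fun x => -(x * φ x)) (fun x _ => hd x) (fun x _ => hφd x) i1 i2 i3
  rw [e1, e2]
  have h5 : ∫ x, φ x * (x * g x) = - ∫ x, g x * -(x * φ x) := by
    rw [← integral_neg]
    congr 1
    funext x
    ring
  rw [h5, key, neg_neg]
  congr 1
  funext x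
  ring

/-- Gaussian integration by parts in the coordinate `e`. -/
theorem stein_pi_int (e : Fin N) (G G' : (Fin N → ℝ) → ℝ)
    (hd : ∀ J x, HasDerivAt (fun y => G (Function.update J e y)) (G' (Function.update J e x)) x)
    (h0 : Integrable G (gN N)) (h1 : Integrable (fun J => J e * G J) (gN N))
    (h2 : Integrable G' (gN N)) :
    ∫ J, J e * G J ∂(gN N) = ∫ J, G' J ∂(gN N) := by
  have hupd : ((gN N).prod (gaussianReal 0 1)).map
      (fun q : (Fin N → ℝ) × ℝ => Function.update q.1 e q.2) = gN N := map_update e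
  have hprod : ∀ F : (Fin N → ℝ) → ℝ, Integrable F (gN N) →
      Integrable (fun q : (Fin N → ℝ) × ℝ => F (Function.update q.1 e q.2))
        ((gN N).prod (gaussianReal 0 1)) := by
    intro F hF
    have hF' : Integrable F (((gN N).prod (gaussianReal 0 1)).map
        (fun q : (Fin N → ℝ) × ℝ => Function.update q.1 e q.2)) := by
      rw [hupd]; exact hF
    exact (integrable_map_measure hF'.aestronglyMeasurable
      (measurable_upd e).aemeasurable).mp hF'
  have hres : ∀ F : (Fin N → ℝ) → ℝ, Integrable F (gN N) →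
      ∫ J, F J ∂(gN N) = ∫ J, ∫ x, F (Function.update J e x) ∂(gaussianReal 0 1) ∂(gN N) := by
    intro F hF
    have hF' : Integrable F (((gN N).prod (gaussianReal 0 1)).map
        (fun q : (Fin N → ℝ) × ℝ => Function.update q.1 e q.2)) := by
      rw [hupd]; exact hF
    conv_lhs => rw [← hupd]
    rw [integral_map (measurable_upd e).aemeasurable hF'.aestronglyMeasurable]
    rw [integral_prod]
    exact hprod F hF
  rw [hres _ h1, hres _ h2]
  apply integral_congr_ae
  have a0 := (hprod _ h0).prod_right_ae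
  have a1 := (hprod _ h1).prod_right_ae
  have a2 := (hprod _ h2).prod_right_ae
  filter_upwards [a0, a1, a2] with J b0 b1 b2
  simp only [Function.update_self] at b1 ⊢
  exact stein_one_int (fun x => G (Function.update J e x)) (fun x => G' (Function.update J e x))
    (hd J) b0 b1 b2

/-! ### Partial derivatives -/

/-- `H'` is the partial derivative of `H` in the coordinate `i`. -/
def PD (i : Fin N) (H H' : (Fin N → ℝ) → ℝ) : Prop :=
  ∀ y x, HasDerivAt (fun t => H (Function.update y i t)) (H' (Function.update y i x)) x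

theorem update_add_smul (y z : Fin N → ℝ) (i : Fin N) (t s : ℝ) :
    Function.update y i t + s • z = Function.update (y + s • z) i (t + s * z i) := by
  funext j
  by_cases hj : j = i
  · subst hj; simp
  · simp [Function.update_of_ne hj]

theorem PD.shift {i : Fin N} {H H' : (Fin N → ℝ) → ℝ} (hd : PD i H H') (y z : Fin N → ℝ)
    (s x : ℝ) : HasDerivAt (fun t => H (Function.update y i t + s • z))
      (H' (Function.update y i x + s • z)) x := by
  simp only [update_add_smul]
  exact (hd (y + s • z) (x + s * z i)).comp_add_const x (s * z i)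

theorem norm_update_le (y : Fin N → ℝ) (i : Fin N) (t : ℝ) :
    ‖Function.update y i t‖ ≤ ‖y‖ + |t| := by
  rw [pi_norm_le_iff_of_nonneg (by positivity)]
  intro j
  by_cases hj : j = i
  · subst hj
    rw [Function.update_self, Real.norm_eq_abs]
    linarith only [norm_nonneg y]
  · rw [Function.update_of_ne hj]
    linarith only [norm_le_pi_norm y j, abs_nonneg t]

/-- Differentiation under the integral. -/
theorem PD.integral {i : Fin N} {H H' : (Fin N → ℝ) → ℝ} (hd : PD i H H') (hg : EG H)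
    (hg' : EG H') (s : ℝ) :
    PD i (fun y => ∫ z, H (y + s • z) ∂(gN N)) (fun y => ∫ z, H' (y + s • z) ∂(gN N)) := by
  intro y x
  have hm := hg.meas
  have hm' := hg'.meas
  obtain ⟨C, a, hC, ha, h1⟩ := hg'.bdd
  refine (hasDerivAt_integral_of_dominated_loc_of_deriv_le
    (F := fun t z => H (Function.update y i t + s • z))
    (F' := fun t z => H' (Function.update y i t + s • z))
    (bound := fun z => C * Real.exp (a * (‖y‖ + |x| + 1)) * Real.exp (a * |s| * ‖z‖))
    (Metric.ball_mem_nhds x one_pos) ?_ ?_ ?_ ?_ ?_ ?_).2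
  · exact Filter.Eventually.of_forall fun t => (hg.integrable _ s).aestronglyMeasurable
  · exact hg.integrable _ s
  · exact (hg'.integrable _ s).aestronglyMeasurable
  · refine Filter.Eventually.of_forall fun z t ht => ?_
    rw [Metric.mem_ball, Real.dist_eq] at ht
    have h2 : ‖Function.update y i t + s • z‖ ≤ (‖y‖ + |x| + 1) + |s| * ‖z‖ := by
      refine (norm_add_le _ _).trans ?_
      rw [norm_smul, Real.norm_eq_abs]
      have h3 := norm_update_le y i t
      have h4 : |t| ≤ |x| + 1 := by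
        have := abs_add_le (t - x) x
        rw [sub_add_cancel] at this
        linarith
      linarith
    rw [Real.norm_eq_abs]
    calc |H' (Function.update y i t + s • z)|
        ≤ C * Real.exp (a * ‖Function.update y i t + s • z‖) := h1 _
      _ ≤ C * Real.exp (a * ((‖y‖ + |x| + 1) + |s| * ‖z‖)) := by (clear * - h2 ha hC; gcongr)
      _ = C * Real.exp (a * (‖y‖ + |x| + 1)) * Real.exp (a * |s| * ‖z‖) := by
          rw [mul_assoc, ← Real.exp_add]
          congr 2
          ring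
  · exact (integrable_exp_norm (a * |s|)).const_mul _
  · refine Filter.Eventually.of_forall fun z t _ => hd.shift y z s t

theorem integrable_coord_mul {h : (Fin N → ℝ) → ℝ} (hh : EG h) (i : Fin N) (y : Fin N → ℝ)
    (s : ℝ) : Integrable (fun z => z i * h (y + s • z)) (gN N) := by
  obtain ⟨C, a, hC, ha, hb⟩ := hh.bdd
  refine ((integrable_exp_norm (N := N) (a * |s| + 1)).const_mul
    (C * Real.exp (a * ‖y‖))).mono'
    ((measurable_pi_apply i).mul (hh.meas.comp (by fun_prop))).aestronglyMeasurable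
    (Filter.Eventually.of_forall fun z => ?_)
  rw [Real.norm_eq_abs, abs_mul]
  have h0 : |z i| ≤ Real.exp ‖z‖ := by
    rw [← Real.norm_eq_abs]
    exact (norm_le_pi_norm z i).trans ((Real.add_one_le_exp ‖z‖).trans' (by linarith))
  have h1 : |h (y + s • z)| ≤ C * Real.exp (a * ‖y‖) * Real.exp (a * |s| * ‖z‖) := by
    refine (hb _).trans ?_
    rw [mul_assoc, ← Real.exp_add]
    gcongr
    calc a * ‖y + s • z‖ ≤ a * (‖y‖ + ‖s • z‖) := by gcongr; exact norm_add_le _ _
      _ = _ := by rw [norm_smul, Real.norm_eq_abs]; ring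
  calc |z i| * |h (y + s • z)|
      ≤ Real.exp ‖z‖ * (C * Real.exp (a * ‖y‖) * Real.exp (a * |s| * ‖z‖)) := by gcongr
    _ = _ := by rw [add_mul, Real.exp_add, one_mul]; ring

/-- Integration by parts with a shift. -/
theorem PD.stein {i : Fin N} {H H' : (Fin N → ℝ) → ℝ} (hd : PD i H H') (hg : EG H)
    (hg' : EG H') (s : ℝ) (y : Fin N → ℝ) :
    ∫ z, z i * H (y + s • z) ∂(gN N) = s * ∫ z, H' (y + s • z) ∂(gN N) := by
  rw [← integral_const_mul]
  refine stein_pi_int i (fun z => H (y + s • z)) (fun z => s * H' (y + s • z)) ?_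
    (hg.integrable y s) (integrable_coord_mul hg i y s) ((hg'.integrable y s).const_mul s)
  intro z x
  have h1 : ∀ t, y + s • Function.update z i t =
      Function.update (y + s • z) i (s * t + y i) := by
    intro t
    funext j
    by_cases hj : j = i
    · subst hj; simp only [Pi.add_apply, Pi.smul_apply, Function.update_self, smul_eq_mul, add_comm]
    · simp only [Pi.add_apply, Pi.smul_apply, Function.update_of_ne hj, smul_eq_mul]
  simp only [h1]
  have h2 : HasDerivAt (fun t : ℝ => s * t + y i) s x := by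
    simpa only [hasDerivAt_add_const_iff, id_eq, mul_one] using ((hasDerivAt_id x).const_mul s).add_const (y i)
  have h3 := (hd (y + s • z) (s * x + y i)).comp x h2
  rw [mul_comm] at h3
  exact h3

theorem PD.congr {i : Fin N} {H H' K' : (Fin N → ℝ) → ℝ} (hd : PD i H H')
    (h : ∀ y, H' y = K' y) : PD i H K' := by
  intro y x
  rw [← h]
  exact hd y x

theorem PD.mul {i : Fin N} {H H' K K' : (Fin N → ℝ) → ℝ} (hd : PD i H H') (hk : PD i K K') :
    PD i (fun y => H y * K y) (fun y => H' y * K y + H y * K' y) :=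
  fun y x => (hd y x).mul (hk y x)

theorem PD.const_mul {i : Fin N} {H H' : (Fin N → ℝ) → ℝ} (hd : PD i H H') (c : ℝ) :
    PD i (fun y => c * H y) (fun y => c * H' y) := fun y x => (hd y x).const_mul c

theorem PD.exp {i : Fin N} {H H' : (Fin N → ℝ) → ℝ} (hd : PD i H H') :
    PD i (fun y => Real.exp (H y)) (fun y => Real.exp (H y) * H' y) :=
  fun y x => (hd y x).exp

theorem PD.log {i : Fin N} {H H' : (Fin N → ℝ) → ℝ} (hd : PD i H H') (h0 : ∀ y, H y ≠ 0) :
    PD i (fun y => Real.log (H y)) (fun y => H' y / H y) :=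
  fun y x => (hd y x).log (h0 _)

theorem PD.div {i : Fin N} {H H' K K' : (Fin N → ℝ) → ℝ} (hd : PD i H H') (hk : PD i K K')
    (h0 : ∀ y, K y ≠ 0) :
    PD i (fun y => H y / K y) (fun y => (H' y * K y - H y * K' y) / (K y) ^ 2) :=
  fun y x => (hd y x).div (hk y x) (h0 _)

/-! ### The data of a level of the tilted chain -/

/-- `G` is Lipschitz with gradient `c B`, and `∂_i B_i = d_i`, everything bounded. -/
structure Lvl (c : ℝ) (G : (Fin N → ℝ) → ℝ) (B d : (Fin N → ℝ) → Fin N → ℝ) : Prop where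
  lip : Lip G
  pd : ∀ i, PD i G (fun y => c * B y i)
  pd2 : ∀ i, PD i (fun y => B y i) (fun y => d y i)
  mB : ∀ i, Measurable (fun y => B y i)
  md : ∀ i, Measurable (fun y => d y i)
  bB : ∃ K : ℝ, ∀ y i, |B y i| ≤ K
  bd : ∃ K : ℝ, ∀ y i, |d y i| ≤ K

namespace Lvl

variable {c : ℝ} {G : (Fin N → ℝ) → ℝ} {B d : (Fin N → ℝ) → Fin N → ℝ}

theorem egB (H : Lvl c G B d) (i : Fin N) : EG (fun y => B y i) := by
  obtain ⟨K, hK⟩ := H.bB
  exact EG.of_bdd (H.mB i) fun y => hK y i

theorem egd (H : Lvl c G B d) (i : Fin N) : EG (fun y => d y i) := by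
  obtain ⟨K, hK⟩ := H.bd
  exact EG.of_bdd (H.md i) fun y => hK y i

theorem pd_exp (H : Lvl c G B d) (m : ℝ) (i : Fin N) :
    PD i (fun y => Real.exp (m * G y)) (fun y => m * c * B y i * Real.exp (m * G y)) :=
  ((H.pd i).const_mul m).exp.congr fun y => by ring

theorem eg_pd_exp (H : Lvl c G B d) (m : ℝ) (i : Fin N) :
    EG (fun y => m * c * B y i * Real.exp (m * G y)) :=
  ((H.egB i).const_mul (m * c)).mul (H.lip.exp_eg m)

theorem pd_int (H : Lvl c G B d) (m v : ℝ) (i : Fin N) :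
    PD i (fun y => ∫ z, Real.exp (m * G (y + √v • z)) ∂(gN N))
      (fun y => ∫ z, m * c * B (y + √v • z) i * Real.exp (m * G (y + √v • z)) ∂(gN N)) :=
  (H.pd_exp m i).integral (H.lip.exp_eg m) (H.eg_pd_exp m i) (√v)

theorem pd_gstep (H : Lvl c G B d) {m : ℝ} (hm : m ≠ 0) (v : ℝ) (i : Fin N) :
    PD i (gstepN m v G) (fun y => c * tiltN m v G (fun y => B y i) y) := by
  have h1 := ((H.pd_int m v i).log fun y => (int_exp_pos H.lip m v y).ne').const_mul (1 / m)
  refine h1.congr fun y => ?_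
  unfold tiltN
  have h2 : ∫ z, m * c * B (y + √v • z) i * Real.exp (m * G (y + √v • z)) ∂(gN N) =
      m * c * ∫ z, B (y + √v • z) i * Real.exp (m * G (y + √v • z)) ∂(gN N) := by
    rw [← integral_const_mul]
    refine integral_congr_ae (Filter.Eventually.of_forall fun z => ?_)
    ring
  rw [h2]
  (clear * - hm; field_simp)

/-- derivative of the tilted average of `B_i`. -/
theorem pd_tilt (H : Lvl c G B d) (m v : ℝ) (i : Fin N) :
    PD i (tiltN m v G (fun y => B y i)) (fun y => tiltN m v G (fun y => d y i + m * c * B y i ^ 2) y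
      - m * c * (tiltN m v G (fun y => B y i) y) ^ 2) := by
  have hP := H.pd_int m v i
  have hQ0 : PD i (fun y => B y i * Real.exp (m * G y))
      (fun y => (d y i + m * c * B y i ^ 2) * Real.exp (m * G y)) :=
    ((H.pd2 i).mul (H.pd_exp m i)).congr fun y => by ring
  have egd2 : EG (fun y => d y i + m * c * B y i ^ 2) :=
    (H.egd i).add (((H.egB i).pow 2).const_mul _)
  have hQ := hQ0.integral ((H.egB i).mul (H.lip.exp_eg m)) (egd2.mul (H.lip.exp_eg m)) (√v)
  have h3 := hQ.div hP fun y => (int_exp_pos H.lip m v y).ne'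
  refine h3.congr fun y => ?_
  unfold tiltN
  have h2 : ∫ z, m * c * B (y + √v • z) i * Real.exp (m * G (y + √v • z)) ∂(gN N) =
      m * c * ∫ z, B (y + √v • z) i * Real.exp (m * G (y + √v • z)) ∂(gN N) := by
    rw [← integral_const_mul]
    refine integral_congr_ae (Filter.Eventually.of_forall fun z => ?_)
    ring
  rw [h2]
  have hpos := int_exp_pos H.lip m v y
  (clear * - hpos; field_simp)

theorem step (H : Lvl c G B d) {m : ℝ} (hm : 0 < m) (v : ℝ) :
    Lvl c (gstepN m v G) (fun y i => tiltN m v G (fun y => B y i) y)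
      (fun y i => tiltN m v G (fun y => d y i + m * c * B y i ^ 2) y
        - m * c * (tiltN m v G (fun y => B y i) y) ^ 2) := by
  have egd2 : ∀ i, EG (fun y => d y i + m * c * B y i ^ 2) := fun i =>
    (H.egd i).add (((H.egB i).pow 2).const_mul _)
  obtain ⟨K, hK⟩ := H.bB
  obtain ⟨K', hK'⟩ := H.bd
  refine ⟨H.lip.gstep hm v, H.pd_gstep hm.ne' v, H.pd_tilt m v, fun i =>
    (H.egB i).measurable_tilt H.lip m v, fun i => ?_, ⟨K, fun y i =>
      abs_tiltN_le_of_bdd H.lip (H.mB i) (fun y => hK y i) m v y⟩,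
      ⟨(K' + |m * c| * K ^ 2) + |m * c| * K ^ 2, fun y i => ?_⟩⟩
  · exact ((egd2 i).measurable_tilt H.lip m v).sub
      ((((H.egB i).measurable_tilt H.lip m v).pow_const 2).const_mul _)
  · have h1 : |tiltN m v G (fun y => d y i + m * c * B y i ^ 2) y| ≤ K' + |m * c| * K ^ 2 := by
      refine abs_tiltN_le_of_bdd H.lip (egd2 i).meas (fun y => ?_) m v y
      refine (abs_add_le _ _).trans (add_le_add (hK' y i) ?_)
      rw [abs_mul, abs_pow]
      gcongr
      exact hK y i
    have h2 : |tiltN m v G (fun y => B y i) y| ≤ K :=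
      abs_tiltN_le_of_bdd H.lip (H.mB i) (fun y => hK y i) m v y
    refine (abs_sub _ _).trans (add_le_add h1 ?_)
    rw [abs_mul, abs_pow]
    gcongr

end Lvl

end Vale.Agent.P157.Par
end

section

/-!
Definitions for the upper bound for general potentials (module U-ALL): a finite system with
standard Gaussian coordinates `z : ι → ℝ` organized in levels, the exponents `m`, the tilted
conditional averages `T l` and the tilted average `Ex`.
-/

open MeasureTheory ProbabilityTheory

namespace Vale.Agent.P157.Lv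

/-- The standard Gaussian measure on `ι → ℝ`. -/
noncomputable abbrev gI (ι : Type) [Fintype ι] : Measure (ι → ℝ) :=
  Measure.pi fun _ => gaussianReal 0 1

variable {ι X : Type}

/-- The coordinates of level at most `l` are taken from `z`, the others from `w`. -/
def mix (lev : ι → ℕ) (l : ℕ) (z w : ι → ℝ) : ι → ℝ := fun e => if lev e ≤ l then z e else w e

/-- The average over the coordinates of level larger than `l`. -/
noncomputable def J [Fintype ι] (lev : ι → ℕ) (l : ℕ) (h : (ι → ℝ) → ℝ) : (ι → ℝ) → ℝ :=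
  fun z => ∫ w, h (mix lev l z w) ∂(gI ι)

/-- `h` depends only on the coordinates of level at most `l`. -/
def Dep (lev : ι → ℕ) (l : ℕ) (h : (ι → ℝ) → ℝ) : Prop := ∀ z w, h (mix lev l z w) = h z

/-- Measurable functions of at most exponential growth. -/
structure EG [Fintype ι] (h : (ι → ℝ) → ℝ) : Prop where
  meas : Measurable h
  bdd : ∃ C a : ℝ, 0 ≤ C ∧ 0 ≤ a ∧ ∀ y, |h y| ≤ C * Real.exp (a * ‖y‖)

/-- Lipschitz functions. -/
def Lip [Fintype ι] (G : (ι → ℝ) → ℝ) : Prop :=
  ∃ L : ℝ, 0 ≤ L ∧ ∀ y y', |G y - G y'| ≤ L * ‖y - y'‖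

/-- `H'` is the partial derivative of `H` in the coordinate `e`. -/
def PD [DecidableEq ι] (e : ι) (H H' : (ι → ℝ) → ℝ) : Prop :=
  ∀ (y : ι → ℝ) (x : ℝ), HasDerivAt (fun t => H (Function.update y e t))
    (H' (Function.update y e x)) x

/-- A system: the levels of the Gaussian coordinates, the number of levels (they are
`0, …, K`), the exponents and the energy. -/
structure Sy (ι X : Type) where
  lev : ι → ℕ
  K : ℕ
  m : ℕ → ℝ
  H : (ι → ℝ) → X → ℝ

namespace Sy

variable [Fintype ι] [Fintype X] (S : Sy ι X)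

/-- The log-partition function. -/
noncomputable def top (z : ι → ℝ) : ℝ := Real.log (∑ x, Real.exp (S.H z x))

/-- One step of the recursion, from the level `l + 1` to the level `l`. -/
noncomputable def stp (l : ℕ) (F : (ι → ℝ) → ℝ) : (ι → ℝ) → ℝ := fun z =>
  1 / S.m (l + 1) * Real.log (J S.lev l (fun z => Real.exp (S.m (l + 1) * F z)) z)

/-- The value at the level `l` of the recursion started at the level `l + d`. -/
noncomputable def rec' : ℕ → ℕ → (ι → ℝ) → ℝ
  | _, 0 => S.top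
  | l, d + 1 => S.stp l (rec' (l + 1) d)

/-- The log-weight at the level `l`. -/
noncomputable def lg (l : ℕ) : (ι → ℝ) → ℝ := S.rec' l (S.K - l)

/-- The free energy. -/
noncomputable def fe : ℝ := ∫ z, S.lg 0 z ∂(gI ι)

/-- The density of the tilted law of the levels larger than `l`. -/
noncomputable def dn (l : ℕ) (z : ι → ℝ) : ℝ :=
  Real.exp (∑ i ∈ Finset.Ico l S.K, S.m (i + 1) * (S.lg (i + 1) z - S.lg i z))

/-- The Gibbs weights. -/
noncomputable def gb (z : ι → ℝ) (x : X) : ℝ := Real.exp (S.H z x) / ∑ x', Real.exp (S.H z x')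

/-- The Gibbs average. -/
noncomputable def av (h : (ι → ℝ) → X → ℝ) : (ι → ℝ) → ℝ := fun z => ∑ x, S.gb z x * h z x

/-- The tilted conditional average given the levels at most `l`. -/
noncomputable def T (l : ℕ) (h : (ι → ℝ) → X → ℝ) : (ι → ℝ) → ℝ :=
  J S.lev l (fun z => S.dn l z * S.av h z)

/-- The tilted average. -/
noncomputable def Ex (h : (ι → ℝ) → X → ℝ) : ℝ := ∫ z, S.dn 0 z * S.av h z ∂(gI ι)

/-- The weights of the levels. -/
def p (l : ℕ) : ℝ := S.m (l + 1) - S.m l

/-- Regularity of a system. -/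
structure Reg : Prop where
  m0 : S.m 0 = 0
  mK : S.m (S.K + 1) = 1
  mono : ∀ l ≤ S.K, S.m l ≤ S.m (l + 1)
  pos : 0 < S.m 1
  lev : ∀ e, S.lev e ≤ S.K
  lip : ∀ x, Lip fun z => S.H z x

/-- Regularity of a system with the partial derivatives `D e` of the energy. -/
structure RegD [DecidableEq ι] (D : ι → (ι → ℝ) → X → ℝ) : Prop extends S.Reg where
  pd : ∀ e x, PD e (fun z => S.H z x) (fun z => D e z x)
  md : ∀ e x, Measurable fun z => D e z x
  bd : ∃ C : ℝ, ∀ e z x, |D e z x| ≤ C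

end Sy

/-- The system with another energy. -/
def Sy.wH (S : Sy ι X) (H' : (ι → ℝ) → X → ℝ) : Sy ι X := { S with H := H' }

/-- Observables of exponential growth. -/
def Nh [Fintype ι] (h : (ι → ℝ) → X → ℝ) : Prop := ∀ x, EG fun z => h z x

end Vale.Agent.P157.Lv
end

section

/-!
Functions of exponential growth on `ℝ^ι`, averages over the higher levels, partial derivatives.
-/

open MeasureTheory ProbabilityTheory Filter Topology

namespace Vale.Agent.P157.Lv

variable {ι : Type} [Fintype ι]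

section eg

lemma Lip.continuous {G : (ι → ℝ) → ℝ} (h : Lip G) : Continuous G := by
  obtain ⟨L, hL, h⟩ := h
  refine (LipschitzWith.of_dist_le_mul (K := ⟨L, hL⟩) fun y y' => ?_).continuous
  rw [Real.dist_eq, dist_eq_norm]; exact h y y'

lemma Lip.measurable {G : (ι → ℝ) → ℝ} (h : Lip G) : Measurable G := h.continuous.measurable

lemma EG.of_bdd {h : (ι → ℝ) → ℝ} (hm : Measurable h) {C : ℝ} (hC : ∀ y, |h y| ≤ C) : EG h :=
  ⟨hm, |C|, 0, abs_nonneg _, le_rfl, fun y => by simpa only [zero_mul, Real.exp_zero, mul_one] using (hC y).trans (le_abs_self C)⟩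

lemma EG.const (c : ℝ) : EG (fun _ : ι → ℝ => c) := EG.of_bdd measurable_const fun _ => le_rfl

lemma EG.add {f g : (ι → ℝ) → ℝ} (hf : EG f) (hg : EG g) : EG (fun y => f y + g y) := by
  obtain ⟨C, a, hC, ha, h1⟩ := hf.bdd
  obtain ⟨D, b, hD, hb, h2⟩ := hg.bdd
  refine ⟨hf.meas.add hg.meas, C + D, max a b, by (clear * - hC hD; positivity), by (clear * - ha; positivity), fun y => ?_⟩
  have e1 : Real.exp (a * ‖y‖) ≤ Real.exp (max a b * ‖y‖) :=
    Real.exp_le_exp.2 (mul_le_mul_of_nonneg_right (le_max_left _ _) (norm_nonneg _))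
  have e2 : Real.exp (b * ‖y‖) ≤ Real.exp (max a b * ‖y‖) :=
    Real.exp_le_exp.2 (mul_le_mul_of_nonneg_right (le_max_right _ _) (norm_nonneg _))
  calc |f y + g y| ≤ |f y| + |g y| := abs_add_le _ _
    _ ≤ C * Real.exp (a * ‖y‖) + D * Real.exp (b * ‖y‖) := add_le_add (h1 y) (h2 y)
    _ ≤ C * Real.exp (max a b * ‖y‖) + D * Real.exp (max a b * ‖y‖) := by (clear * - e1 hC e2 hD; gcongr)
    _ = _ := by ring

lemma EG.mul {f g : (ι → ℝ) → ℝ} (hf : EG f) (hg : EG g) : EG (fun y => f y * g y) := by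
  obtain ⟨C, a, hC, ha, h1⟩ := hf.bdd
  obtain ⟨D, b, hD, hb, h2⟩ := hg.bdd
  refine ⟨hf.meas.mul hg.meas, C * D, a + b, by (clear * - hC hD; positivity), by (clear * - ha hb; positivity), fun y => ?_⟩
  calc |f y * g y| = |f y| * |g y| := abs_mul _ _
    _ ≤ (C * Real.exp (a * ‖y‖)) * (D * Real.exp (b * ‖y‖)) := by
        gcongr
        · exact h1 y
        · exact h2 y
    _ = C * D * Real.exp ((a + b) * ‖y‖) := by rw [add_mul, Real.exp_add]; ring

lemma EG.const_mul {f : (ι → ℝ) → ℝ} (c : ℝ) (hf : EG f) : EG (fun y => c * f y) :=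
  (EG.const c).mul hf

lemma EG.neg {f : (ι → ℝ) → ℝ} (hf : EG f) : EG (fun y => -f y) := by
  simpa using hf.const_mul (-1)

lemma EG.sub {f g : (ι → ℝ) → ℝ} (hf : EG f) (hg : EG g) : EG (fun y => f y - g y) := by
  simpa only [sub_eq_add_neg] using hf.add hg.neg

lemma EG.sum {κ : Type*} (s : Finset κ) {f : κ → (ι → ℝ) → ℝ} (hf : ∀ i ∈ s, EG (f i)) :
    EG (fun y => ∑ i ∈ s, f i y) := by
  classical
  induction s using Finset.induction_on with
  | empty => simpa using EG.const 0
  | insert a s ha ih =>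
    simp only [Finset.sum_insert ha]
    exact (hf a (Finset.mem_insert_self a s)).add
      (ih fun i hi => hf i (Finset.mem_insert_of_mem hi))

lemma EG.pow {f : (ι → ℝ) → ℝ} (hf : EG f) (n : ℕ) : EG (fun y => f y ^ n) := by
  induction n with
  | zero => simpa using EG.const 1
  | succ n ih => simpa [pow_succ] using ih.mul hf

lemma EG.mono {f g : (ι → ℝ) → ℝ} (hg : EG g) (hf : Measurable f) (h : ∀ y, |f y| ≤ |g y|) :
    EG f := by
  obtain ⟨C, a, hC, ha, h1⟩ := hg.bdd
  exact ⟨hf, C, a, hC, ha, fun y => (h y).trans (h1 y)⟩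

lemma EG.abs {f : (ι → ℝ) → ℝ} (hf : EG f) : EG (fun y => |f y|) :=
  hf.mono hf.meas.abs fun y => by simp

lemma EG.coord (i : ι) : EG (fun y : ι → ℝ => y i) := by
  refine ⟨measurable_pi_apply i, 1, 1, zero_le_one, zero_le_one, fun y => ?_⟩
  rw [one_mul, one_mul, ← Real.norm_eq_abs]
  exact (norm_le_pi_norm y i).trans ((Real.add_one_le_exp ‖y‖).trans' (by linarith))

lemma Lip.eg {G : (ι → ℝ) → ℝ} (h : Lip G) : EG G := by
  obtain ⟨L, hL, h'⟩ := id h
  refine ⟨h.measurable, |G 0| + L, 1, by positivity, zero_le_one, fun y => ?_⟩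
  have h1 : |G y| ≤ |G 0| + L * ‖y‖ := by
    have := h' y 0
    rw [sub_zero] at this
    calc |G y| = |(G y - G 0) + G 0| := by ring_nf
      _ ≤ |G y - G 0| + |G 0| := abs_add_le _ _
      _ ≤ _ := by linarith
  have h2 : ‖y‖ ≤ Real.exp ‖y‖ := (Real.add_one_le_exp ‖y‖).trans' (by linarith only [])
  have h3 : 1 ≤ Real.exp ‖y‖ := Real.one_le_exp (norm_nonneg _)
  rw [one_mul]
  calc |G y| ≤ |G 0| + L * ‖y‖ := h1
    _ ≤ |G 0| * Real.exp ‖y‖ + L * Real.exp ‖y‖ := by
        refine add_le_add (le_mul_of_one_le_right (abs_nonneg _) h3) (by gcongr)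
    _ = _ := by ring

lemma Lip.exp_eg {G : (ι → ℝ) → ℝ} (h : Lip G) (m : ℝ) : EG (fun y => Real.exp (m * G y)) := by
  obtain ⟨L, hL, h'⟩ := id h
  refine ⟨Real.measurable_exp.comp (h.measurable.const_mul m), Real.exp (|m| * |G 0|), |m| * L,
    (Real.exp_pos _).le, by (clear * - hL; positivity), fun y => ?_⟩
  rw [abs_of_pos (Real.exp_pos _), ← Real.exp_add, Real.exp_le_exp]
  have h1 : |G y| ≤ |G 0| + L * ‖y‖ := by
    have := h' y 0
    rw [sub_zero] at this
    calc |G y| = |(G y - G 0) + G 0| := by ring_nf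
      _ ≤ |G y - G 0| + |G 0| := abs_add_le _ _
      _ ≤ _ := by linarith
  calc m * G y ≤ |m * G y| := le_abs_self _
    _ = |m| * |G y| := abs_mul _ _
    _ ≤ |m| * (|G 0| + L * ‖y‖) := by (clear * - h1; gcongr)
    _ = _ := by ring

lemma Lip.add {F G : (ι → ℝ) → ℝ} (hF : Lip F) (hG : Lip G) : Lip (fun y => F y + G y) := by
  obtain ⟨L, hL, h1⟩ := hF
  obtain ⟨M, hM, h2⟩ := hG
  refine ⟨L + M, add_nonneg hL hM, fun y y' => ?_⟩
  calc |F y + G y - (F y' + G y')| = |(F y - F y') + (G y - G y')| := by ring_nf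
    _ ≤ |F y - F y'| + |G y - G y'| := abs_add_le _ _
    _ ≤ L * ‖y - y'‖ + M * ‖y - y'‖ := add_le_add (h1 y y') (h2 y y')
    _ = _ := by ring

lemma Lip.const_mul {F : (ι → ℝ) → ℝ} (hF : Lip F) (c : ℝ) : Lip (fun y => c * F y) := by
  obtain ⟨L, hL, h1⟩ := hF
  refine ⟨|c| * L, mul_nonneg (abs_nonneg _) hL, fun y y' => ?_⟩
  rw [← mul_sub, abs_mul, mul_assoc]
  exact mul_le_mul_of_nonneg_left (h1 y y') (abs_nonneg _)

lemma Lip.const (c : ℝ) : Lip (fun _ : ι → ℝ => c) :=
  ⟨0, le_rfl, fun y y' => by simp⟩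

lemma Lip.coord (i : ι) : Lip (fun y : ι → ℝ => y i) := by
  refine ⟨1, zero_le_one, fun y y' => ?_⟩
  rw [one_mul, ← Real.norm_eq_abs]
  exact norm_le_pi_norm (y - y') i

lemma Lip.sum {κ : Type*} (s : Finset κ) {f : κ → (ι → ℝ) → ℝ} (hf : ∀ i ∈ s, Lip (f i)) :
    Lip (fun y => ∑ i ∈ s, f i y) := by
  classical
  induction s using Finset.induction_on with
  | empty => simpa using Lip.const 0
  | insert a s ha ih =>
    simp only [Finset.sum_insert ha]
    exact (hf a (Finset.mem_insert_self a s)).add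
      (ih fun i hi => hf i (Finset.mem_insert_of_mem hi))

/-- Composition with a Lipschitz function of one variable. -/
lemma Lip.comp {F : (ι → ℝ) → ℝ} (hF : Lip F) {g : ℝ → ℝ} {L : ℝ} (hL : 0 ≤ L)
    (hg : ∀ x y, |g x - g y| ≤ L * |x - y|) : Lip (fun y => g (F y)) := by
  obtain ⟨M, hM, h1⟩ := hF
  refine ⟨L * M, mul_nonneg hL hM, fun y y' => (hg _ _).trans ?_⟩
  rw [mul_assoc]
  exact mul_le_mul_of_nonneg_left (h1 y y') hL

lemma integrable_exp_norm (a : ℝ) :
    Integrable (fun z : ι → ℝ => Real.exp (a * ‖z‖)) (gI ι) := by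
  have h1 : Integrable (fun x : ℝ => Real.exp (|a| * |x|)) (gaussianReal 0 1) :=
    ProbabilityTheory.integrable_exp_mul_abs (X := fun x => x) (t := |a|)
      (by simpa only using integrable_exp_mul_gaussianReal (μ := 0) (v := 1) (|a|))
      (by simpa only [neg_mul] using integrable_exp_mul_gaussianReal (μ := 0) (v := 1) (-|a|))
  have h2 : Integrable (fun z : ι → ℝ => ∏ i, Real.exp (|a| * |z i|)) (gI ι) :=
    Integrable.fintype_prod (f := fun _ x => Real.exp (|a| * |x|)) fun _ => h1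
  refine h2.mono' ?_ (Filter.Eventually.of_forall fun z => ?_)
  · exact (by (clear * -; fun_prop) : Continuous fun z : ι → ℝ => Real.exp (a * ‖z‖)).aestronglyMeasurable
  · rw [Real.norm_eq_abs, abs_of_pos (Real.exp_pos _), ← Real.exp_sum, Real.exp_le_exp,
      ← Finset.mul_sum]
    have hn : ‖z‖ ≤ ∑ i, |z i| := by
      refine (pi_norm_le_iff_of_nonneg (Finset.sum_nonneg fun i _ => abs_nonneg _)).2 fun i => ?_
      rw [Real.norm_eq_abs]
      exact Finset.single_le_sum (f := fun i => |z i|) (fun i _ => abs_nonneg _)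
        (Finset.mem_univ i)
    calc a * ‖z‖ ≤ |a| * ‖z‖ := mul_le_mul_of_nonneg_right (le_abs_self a) (norm_nonneg _)
      _ ≤ |a| * ∑ i, |z i| := by gcongr

lemma EG.integrable {h : (ι → ℝ) → ℝ} (hh : EG h) : Integrable h (gI ι) := by
  obtain ⟨C, a, hC, ha, hb⟩ := hh.bdd
  refine ((integrable_exp_norm a).const_mul C).mono' hh.meas.aestronglyMeasurable
    (Filter.Eventually.of_forall fun z => ?_)
  rw [Real.norm_eq_abs]
  exact hb z

end eg

section J

variable {lev : ι → ℕ} {l : ℕ}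

omit [Fintype ι] in
lemma mix_mix_left (l : ℕ) (z w w' : ι → ℝ) :
    mix lev l (mix lev l z w) w' = mix lev l z w' := by
  funext e
  unfold mix
  split_ifs <;> rfl

omit [Fintype ι] in
lemma mix_le {l l' : ℕ} (hl : l ≤ l') (z w w' : ι → ℝ) :
    mix lev l (mix lev l' z w) w' = mix lev l z w' := by
  funext e
  unfold mix
  by_cases h : lev e ≤ l
  · rw [if_pos h, if_pos (h.trans hl), if_pos h]
  · rw [if_neg h, if_neg h]

omit [Fintype ι] in
lemma mix_self (l : ℕ) (z : ι → ℝ) : mix lev l z z = z := by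
  funext e
  unfold mix
  split_ifs <;> rfl

omit [Fintype ι] in
lemma mix_top {K : ℕ} (hK : ∀ e, lev e ≤ K) (z w : ι → ℝ) : mix lev K z w = z := by
  funext e
  unfold mix
  rw [if_pos (hK e)]

omit [Fintype ι] in
/-- Mixing at a higher level after mixing at a lower level. -/
lemma mix_assoc {l l' : ℕ} (hl : l ≤ l') (z w w' : ι → ℝ) :
    mix lev l' (mix lev l z w) w' = mix lev l z (mix lev l' w w') := by
  funext e
  unfold mix
  by_cases h : lev e ≤ l
  · rw [if_pos h, if_pos (h.trans hl), if_pos h]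
  · rw [if_neg h, if_neg h]

lemma norm_mix_le (z w : ι → ℝ) : ‖mix lev l z w‖ ≤ ‖z‖ + ‖w‖ := by
  rw [pi_norm_le_iff_of_nonneg (by positivity)]
  intro e
  unfold mix
  split_ifs
  · (clear * -; linarith [norm_le_pi_norm z e, norm_nonneg w])
  · linarith only [norm_le_pi_norm w e, norm_nonneg z]

omit [Fintype ι] in
lemma measurable_mix (lev : ι → ℕ) (l : ℕ) :
    Measurable (fun q : (ι → ℝ) × (ι → ℝ) => mix lev l q.1 q.2) := by
  rw [measurable_pi_iff]
  intro e
  unfold mix
  split_ifs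
  · exact (measurable_pi_apply e).comp measurable_fst
  · exact (measurable_pi_apply e).comp measurable_snd

omit [Fintype ι] in
lemma measurable_mix_right (lev : ι → ℕ) (l : ℕ) (z : ι → ℝ) :
    Measurable (fun w : ι → ℝ => mix lev l z w) :=
  (measurable_mix lev l).comp measurable_prodMk_left

/-- Resampling the coordinates of the higher levels. -/
lemma map_mix (lev : ι → ℕ) (l : ℕ) :
    ((gI ι).prod (gI ι)).map (fun q : (ι → ℝ) × (ι → ℝ) => mix lev l q.1 q.2) = gI ι := by
  symm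
  apply Measure.pi_eq
  intro s hs
  rw [Measure.map_apply (measurable_mix lev l) (MeasurableSet.univ_pi hs)]
  have h1 : (fun q : (ι → ℝ) × (ι → ℝ) => mix lev l q.1 q.2) ⁻¹' (Set.univ.pi s)
      = (Set.univ.pi fun e => if lev e ≤ l then s e else Set.univ) ×ˢ
        (Set.univ.pi fun e => if lev e ≤ l then Set.univ else s e) := by
    ext ⟨z, w⟩
    simp only [Set.mem_preimage, Set.mem_pi, Set.mem_univ, forall_true_left, Set.mem_prod, mix]
    constructor
    · intro h
      refine ⟨fun e => ?_, fun e => ?_⟩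
      · have := h e
        by_cases he : lev e ≤ l
        · rw [if_pos he]; rwa [if_pos he] at this
        · rw [if_neg he]; exact Set.mem_univ _
      · have := h e
        by_cases he : lev e ≤ l
        · rw [if_pos he]; exact Set.mem_univ _
        · rw [if_neg he]; rwa [if_neg he] at this
    · rintro ⟨h, h'⟩ e
      by_cases he : lev e ≤ l
      · have := h e
        rw [if_pos he] at this ⊢; exact this
      · have := h' e
        rw [if_neg he] at this ⊢; exact this
  rw [h1, Measure.prod_prod, Measure.pi_pi, Measure.pi_pi, ← Finset.prod_mul_distrib]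
  refine Finset.prod_congr rfl fun e _ => ?_
  by_cases he : lev e ≤ l
  · rw [if_pos he, if_pos he, measure_univ, mul_one]
  · rw [if_neg he, if_neg he, measure_univ, one_mul]

lemma integral_mix {h : (ι → ℝ) → ℝ} (hh : EG h) (lev : ι → ℕ) (l : ℕ) :
    ∫ z, ∫ w, h (mix lev l z w) ∂(gI ι) ∂(gI ι) = ∫ z, h z ∂(gI ι) := by
  have hF : Integrable h (((gI ι).prod (gI ι)).map
      (fun q : (ι → ℝ) × (ι → ℝ) => mix lev l q.1 q.2)) := by
    rw [map_mix]; exact hh.integrable
  have hi : Integrable (fun q : (ι → ℝ) × (ι → ℝ) => h (mix lev l q.1 q.2))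
      ((gI ι).prod (gI ι)) :=
    (integrable_map_measure hF.aestronglyMeasurable (measurable_mix lev l).aemeasurable).mp hF
  conv_rhs => rw [← map_mix lev l]
  rw [integral_map (measurable_mix lev l).aemeasurable hF.aestronglyMeasurable, integral_prod _ hi]

lemma EG.mix {h : (ι → ℝ) → ℝ} (hh : EG h) (z : ι → ℝ) :
    Integrable (fun w => h (Lv.mix lev l z w)) (gI ι) := by
  obtain ⟨C, a, hC, ha, hb⟩ := hh.bdd
  refine ((integrable_exp_norm (ι := ι) a).const_mul (C * Real.exp (a * ‖z‖))).mono'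
    (hh.meas.comp (measurable_mix_right lev l z)).aestronglyMeasurable
    (Filter.Eventually.of_forall fun w => ?_)
  rw [Real.norm_eq_abs]
  refine (hb _).trans ?_
  rw [mul_assoc, ← Real.exp_add, ← mul_add]
  gcongr
  exact norm_mix_le z w

lemma EG.J {h : (ι → ℝ) → ℝ} (hh : EG h) (lev : ι → ℕ) (l : ℕ) : EG (Lv.J lev l h) := by
  obtain ⟨C, a, hC, ha, hb⟩ := hh.bdd
  have hA0 : 0 ≤ ∫ w : ι → ℝ, Real.exp (a * ‖w‖) ∂(gI ι) :=
    integral_nonneg fun w => (Real.exp_pos _).le
  refine ⟨?_, C * ∫ w : ι → ℝ, Real.exp (a * ‖w‖) ∂(gI ι), a, mul_nonneg hC hA0, ha, fun z => ?_⟩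
  · have : StronglyMeasurable (Function.uncurry fun (z w : ι → ℝ) => h (Lv.mix lev l z w)) :=
      (hh.meas.comp (measurable_mix lev l)).stronglyMeasurable
    exact this.integral_prod_right.measurable
  · have h1 : |Lv.J lev l h z| ≤ ∫ w, |h (Lv.mix lev l z w)| ∂(gI ι) := by
      rw [← Real.norm_eq_abs]
      exact (norm_integral_le_integral_norm _)
    refine h1.trans ?_
    have h2 : ∫ w, |h (Lv.mix lev l z w)| ∂(gI ι) ≤
        ∫ w, C * Real.exp (a * ‖z‖) * Real.exp (a * ‖w‖) ∂(gI ι) := by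
      refine integral_mono (hh.abs.mix z) ((integrable_exp_norm _).const_mul _) fun w => ?_
      refine (hb _).trans ?_
      rw [mul_assoc, ← Real.exp_add, ← mul_add]
      gcongr
      exact norm_mix_le z w
    refine h2.trans (le_of_eq ?_)
    rw [integral_const_mul]
    ring

lemma J_add {f g : (ι → ℝ) → ℝ} (hf : EG f) (hg : EG g) (z : ι → ℝ) :
    J lev l (fun z => f z + g z) z = J lev l f z + J lev l g z :=
  integral_add (hf.mix z) (hg.mix z)

lemma J_sub {f g : (ι → ℝ) → ℝ} (hf : EG f) (hg : EG g) (z : ι → ℝ) :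
    J lev l (fun z => f z - g z) z = J lev l f z - J lev l g z :=
  integral_sub (hf.mix z) (hg.mix z)

lemma J_const_mul (c : ℝ) (f : (ι → ℝ) → ℝ) (z : ι → ℝ) :
    J lev l (fun z => c * f z) z = c * J lev l f z :=
  integral_const_mul _ _

lemma J_const (c : ℝ) (z : ι → ℝ) : J lev l (fun _ => c) z = c := by
  unfold J
  simp

lemma J_sum {κ : Type*} (s : Finset κ) {f : κ → (ι → ℝ) → ℝ} (hf : ∀ i ∈ s, EG (f i))
    (z : ι → ℝ) : J lev l (fun z => ∑ i ∈ s, f i z) z = ∑ i ∈ s, J lev l (f i) z :=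
  integral_finsetSum _ fun i hi => (hf i hi).mix z

lemma J_mono {f g : (ι → ℝ) → ℝ} (hf : EG f) (hg : EG g) (h : ∀ z, f z ≤ g z) (z : ι → ℝ) :
    J lev l f z ≤ J lev l g z :=
  integral_mono (hf.mix z) (hg.mix z) fun _ => h _

lemma J_pos {f : (ι → ℝ) → ℝ} (hf : EG f) (h : ∀ z, 0 < f z) (z : ι → ℝ) :
    0 < J lev l f z := by
  unfold J
  rw [integral_pos_iff_support_of_nonneg (fun w => (h _).le) (hf.mix z)]
  have : (Function.support fun w => f (mix lev l z w)) = Set.univ :=
    Set.eq_univ_of_forall fun w => (h _).ne'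
  rw [this, measure_univ]
  exact one_pos

/-- Functions of the lower levels can be taken out. -/
lemma Dep.J_mul {φ : (ι → ℝ) → ℝ} (hφ : Dep lev l φ) (h : (ι → ℝ) → ℝ) (z : ι → ℝ) :
    J lev l (fun z => φ z * h z) z = φ z * J lev l h z := by
  unfold J
  rw [← integral_const_mul]
  refine integral_congr_ae (Filter.Eventually.of_forall fun w => ?_)
  dsimp only
  rw [hφ z w]

lemma dep_J (lev : ι → ℕ) (l : ℕ) (h : (ι → ℝ) → ℝ) : Dep lev l (J lev l h) := by
  intro z w
  unfold J
  simp only [mix_mix_left]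

lemma Dep.J_eq {h : (ι → ℝ) → ℝ} (hh : Dep lev l h) (z : ι → ℝ) : J lev l h z = h z := by
  unfold J
  simp only [hh z, integral_const, probReal_univ, one_smul]

omit [Fintype ι] in
lemma Dep.mono {l' : ℕ} (hl : l ≤ l') {h : (ι → ℝ) → ℝ} (hh : Dep lev l h) : Dep lev l' h := by
  intro z w
  rw [← hh (mix lev l' z w) z, mix_le hl, mix_self]

/-- The tower property. -/
lemma J_J {l' : ℕ} (hl : l ≤ l') {h : (ι → ℝ) → ℝ} (hh : EG h) (z : ι → ℝ) :
    J lev l (J lev l' h) z = J lev l h z := by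
  unfold J
  simp only [mix_assoc hl]
  obtain ⟨C, a, hC, ha, hb⟩ := hh.bdd
  refine integral_mix (h := fun w => h (mix lev l z w)) ⟨hh.meas.comp
    (measurable_mix_right lev l z), C * Real.exp (a * ‖z‖), a, by positivity, ha, fun w => ?_⟩
    lev l'
  refine (hb _).trans ?_
  rw [mul_assoc, ← Real.exp_add, ← mul_add]
  gcongr
  exact norm_mix_le z w

lemma integral_J {h : (ι → ℝ) → ℝ} (hh : EG h) : ∫ z, J lev l h z ∂(gI ι) = ∫ z, h z ∂(gI ι) :=
  integral_mix hh lev l

end J

section stein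

theorem integrable_gaussianReal_iff (g : ℝ → ℝ) :
    Integrable g (gaussianReal 0 1) ↔ Integrable (fun x => gaussianPDFReal 0 1 x * g x) := by
  rw [gaussianReal_of_var_ne_zero _ one_ne_zero,
    integrable_withDensity_iff_integrable_smul' (measurable_gaussianPDF 0 1)
      (Filter.Eventually.of_forall fun x => gaussianPDF_lt_top)]
  simp only [smul_eq_mul, gaussianPDF, ENNReal.toReal_ofReal (gaussianPDFReal_nonneg 0 1 _)]

/-- One-dimensional Gaussian integration by parts. -/
theorem stein_one_int (g g' : ℝ → ℝ) (hd : ∀ x, HasDerivAt g (g' x) x)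
    (h0 : Integrable g (gaussianReal 0 1)) (h1 : Integrable (fun x => x * g x) (gaussianReal 0 1))
    (h2 : Integrable g' (gaussianReal 0 1)) :
    ∫ x, x * g x ∂(gaussianReal 0 1) = ∫ x, g' x ∂(gaussianReal 0 1) := by
  set φ : ℝ → ℝ := gaussianPDFReal 0 1 with hφ
  have hφd : ∀ x, HasDerivAt φ (-(x * φ x)) x := by
    intro x
    have h1 : HasDerivAt (fun y : ℝ => -(y - 0) ^ 2 / (2 * ((1 : NNReal) : ℝ))) (-x) x := by
      have h2 : HasDerivAt (fun y : ℝ => -(y ^ 2) / 2) (-(2 * x) / 2) x := by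
        have h0 := ((hasDerivAt_pow 2 x).neg).div_const (2 : ℝ)
        simpa only [Pi.neg_apply, Nat.cast_ofNat, Nat.add_one_sub_one, pow_one] using h0
      have h2' : (fun y : ℝ => -(y - 0) ^ 2 / (2 * ((1 : NNReal) : ℝ))) = fun y => -(y ^ 2) / 2 := by
        funext y
        simp
      rw [h2']
      have h2'' : -x = -(2 * x) / 2 := by ring
      rw [h2'']
      exact h2
    have h3 := (h1.exp).const_mul ((Real.sqrt (2 * Real.pi * ((1 : NNReal) : ℝ)))⁻¹)
    have h4 : φ = fun y => (Real.sqrt (2 * Real.pi * ((1 : NNReal) : ℝ)))⁻¹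
        * Real.exp (-(y - 0) ^ 2 / (2 * ((1 : NNReal) : ℝ))) := by
      funext y
      rw [hφ, gaussianPDFReal_def]
    have h5 : -(x * φ x) = (Real.sqrt (2 * Real.pi * ((1 : NNReal) : ℝ)))⁻¹
        * (Real.exp (-(x - 0) ^ 2 / (2 * ((1 : NNReal) : ℝ))) * -x) := by
      rw [h4]
      ring
    rw [h5, h4]
    exact h3
  have e1 : ∫ x, x * g x ∂(gaussianReal 0 1) = ∫ x, φ x * (x * g x) := by
    rw [integral_gaussianReal_eq_integral_smul one_ne_zero]
    rfl
  have e2 : ∫ x, g' x ∂(gaussianReal 0 1) = ∫ x, φ x * g' x := by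
    rw [integral_gaussianReal_eq_integral_smul one_ne_zero]
    rfl
  rw [integrable_gaussianReal_iff] at h0 h1 h2
  have i1 : Integrable (g * fun x => -(x * φ x)) := by
    refine h1.neg.congr (Filter.Eventually.of_forall fun x => ?_)
    simp only [Pi.neg_apply, Pi.mul_apply]
    ring
  have i2 : Integrable (g' * φ) := by
    refine h2.congr (Filter.Eventually.of_forall fun x => ?_)
    simp only [Pi.mul_apply]
    ring
  have i3 : Integrable (g * φ) := by
    refine h0.congr (Filter.Eventually.of_forall fun x => ?_)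
    simp only [Pi.mul_apply]
    ring
  have key := integral_mul_deriv_eq_deriv_mul_of_integrable (u := g) (v := φ) (u' := g')
    (v' := fun x => -(x * φ x)) (fun x _ => hd x) (fun x _ => hφd x) i1 i2 i3
  rw [e1, e2]
  have h5 : ∫ x, φ x * (x * g x) = - ∫ x, g x * -(x * φ x) := by
    rw [← integral_neg]
    congr 1
    funext x
    ring
  rw [h5, key, neg_neg]
  congr 1
  funext x
  ring

/-- Gaussian integration by parts in the coordinate `e`. -/
theorem stein_pi_int [DecidableEq ι] (e : ι) (G G' : (ι → ℝ) → ℝ)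
    (hd : ∀ J x, HasDerivAt (fun y => G (Function.update J e y)) (G' (Function.update J e x)) x)
    (h0 : Integrable G (gI ι)) (h1 : Integrable (fun J => J e * G J) (gI ι))
    (h2 : Integrable G' (gI ι)) :
    ∫ J, J e * G J ∂(gI ι) = ∫ J, G' J ∂(gI ι) := by
  have hupd : ((gI ι).prod (gaussianReal 0 1)).map
      (fun q : (ι → ℝ) × ℝ => Function.update q.1 e q.2) = gI ι := Vale.Agent.P367.GT.map_update e
  have hprod : ∀ F : (ι → ℝ) → ℝ, Integrable F (gI ι) →
      Integrable (fun q : (ι → ℝ) × ℝ => F (Function.update q.1 e q.2))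
        ((gI ι).prod (gaussianReal 0 1)) := by
    intro F hF
    have hF' : Integrable F (((gI ι).prod (gaussianReal 0 1)).map
        (fun q : (ι → ℝ) × ℝ => Function.update q.1 e q.2)) := by
      rw [hupd]; exact hF
    exact (integrable_map_measure hF'.aestronglyMeasurable
      (Vale.Agent.P367.GT.measurable_upd e).aemeasurable).mp hF'
  have hres : ∀ F : (ι → ℝ) → ℝ, Integrable F (gI ι) →
      ∫ J, F J ∂(gI ι) = ∫ J, ∫ x, F (Function.update J e x) ∂(gaussianReal 0 1) ∂(gI ι) := by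
    intro F hF
    have hF' : Integrable F (((gI ι).prod (gaussianReal 0 1)).map
        (fun q : (ι → ℝ) × ℝ => Function.update q.1 e q.2)) := by
      rw [hupd]; exact hF
    conv_lhs => rw [← hupd]
    rw [integral_map (Vale.Agent.P367.GT.measurable_upd e).aemeasurable hF'.aestronglyMeasurable]
    rw [integral_prod]
    exact hprod F hF
  rw [hres _ h1, hres _ h2]
  apply integral_congr_ae
  have a0 := (hprod _ h0).prod_right_ae
  have a1 := (hprod _ h1).prod_right_ae
  have a2 := (hprod _ h2).prod_right_ae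
  filter_upwards [a0, a1, a2] with J b0 b1 b2
  simp only [Function.update_self] at b1 ⊢
  exact stein_one_int (fun x => G (Function.update J e x)) (fun x => G' (Function.update J e x))
    (hd J) b0 b1 b2

end stein

section pd

variable [DecidableEq ι] {e : ι}

lemma norm_update_le (y : ι → ℝ) (i : ι) (t : ℝ) :
    ‖Function.update y i t‖ ≤ ‖y‖ + |t| := by
  rw [pi_norm_le_iff_of_nonneg (by positivity)]
  intro j
  by_cases hj : j = i
  · subst hj
    rw [Function.update_self, Real.norm_eq_abs]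
    linarith only [norm_nonneg y]
  · rw [Function.update_of_ne hj]
    linarith only [norm_le_pi_norm y j, abs_nonneg t]

omit [Fintype ι] in
lemma PD.congr {H H' K' : (ι → ℝ) → ℝ} (hd : PD e H H') (h : ∀ y, H' y = K' y) :
    PD e H K' := by
  intro y x
  rw [← h]
  exact hd y x

lemma PD.add {H H' K K' : (ι → ℝ) → ℝ} (hd : PD e H H') (hk : PD e K K') :
    PD e (fun y => H y + K y) (fun y => H' y + K' y) := fun y x => (hd y x).add (hk y x)

lemma PD.sub {H H' K K' : (ι → ℝ) → ℝ} (hd : PD e H H') (hk : PD e K K') :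
    PD e (fun y => H y - K y) (fun y => H' y - K' y) := fun y x => (hd y x).sub (hk y x)

lemma PD.mul {H H' K K' : (ι → ℝ) → ℝ} (hd : PD e H H') (hk : PD e K K') :
    PD e (fun y => H y * K y) (fun y => H' y * K y + H y * K' y) :=
  fun y x => (hd y x).mul (hk y x)

lemma PD.const_mul {H H' : (ι → ℝ) → ℝ} (hd : PD e H H') (c : ℝ) :
    PD e (fun y => c * H y) (fun y => c * H' y) := fun y x => (hd y x).const_mul c

lemma PD.const (c : ℝ) : PD e (fun _ : ι → ℝ => c) (fun _ => 0) := fun _ x => hasDerivAt_const x c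

lemma PD.exp {H H' : (ι → ℝ) → ℝ} (hd : PD e H H') :
    PD e (fun y => Real.exp (H y)) (fun y => Real.exp (H y) * H' y) := fun y x => (hd y x).exp

lemma PD.log {H H' : (ι → ℝ) → ℝ} (hd : PD e H H') (h0 : ∀ y, H y ≠ 0) :
    PD e (fun y => Real.log (H y)) (fun y => H' y / H y) := fun y x => (hd y x).log (h0 _)

lemma PD.div {H H' K K' : (ι → ℝ) → ℝ} (hd : PD e H H') (hk : PD e K K') (h0 : ∀ y, K y ≠ 0) :
    PD e (fun y => H y / K y) (fun y => (H' y * K y - H y * K' y) / (K y) ^ 2) :=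
  fun y x => (hd y x).div (hk y x) (h0 _)

lemma PD.sum {κ : Type*} (s : Finset κ) {H H' : κ → (ι → ℝ) → ℝ}
    (hd : ∀ a ∈ s, PD e (H a) (H' a)) :
    PD e (fun y => ∑ a ∈ s, H a y) (fun y => ∑ a ∈ s, H' a y) :=
  fun y x => HasDerivAt.fun_sum fun a ha => hd a ha y x

/-- Composition with a function of one variable. -/
lemma PD.comp {H H' : (ι → ℝ) → ℝ} (hd : PD e H H') {g g' : ℝ → ℝ}
    (hg : ∀ x, HasDerivAt g (g' x) x) : PD e (fun y => g (H y)) (fun y => g' (H y) * H' y) :=
  fun y x => (hg _).comp x (hd y x)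

lemma PD.coord (e' : ι) : PD e (fun y : ι → ℝ => y e') (fun _ => if e' = e then 1 else 0) := by
  intro y x
  by_cases h : e' = e
  · subst h
    simp only [Function.update_self, if_true]
    exact hasDerivAt_id x
  · simp only [Function.update_of_ne h, if_neg h]
    exact hasDerivAt_const x _

/-- A function which does not depend on the coordinate `e`. -/
lemma PD.of_indep {H : (ι → ℝ) → ℝ} (h : ∀ y t, H (Function.update y e t) = H y) :
    PD e H (fun _ => 0) := by
  intro y x
  simp only [h]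
  exact hasDerivAt_const x _

omit [Fintype ι] in
lemma mix_update {lev : ι → ℕ} {l : ℕ} (he : lev e ≤ l) (z w : ι → ℝ) (t : ℝ) :
    mix lev l (Function.update z e t) w = Function.update (mix lev l z w) e t := by
  funext j
  unfold mix
  by_cases hj : j = e
  · subst hj
    rw [Function.update_self, Function.update_self, if_pos he]
  · rw [Function.update_of_ne hj, Function.update_of_ne hj]

/-- Differentiation under the average over the higher levels. -/
lemma PD.J {H H' : (ι → ℝ) → ℝ} (hd : PD e H H') (hg : EG H) (hg' : EG H') {lev : ι → ℕ} {l : ℕ}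
    (he : lev e ≤ l) : PD e (Lv.J lev l H) (Lv.J lev l H') := by
  intro y x
  obtain ⟨C, a, hC, ha, h1⟩ := hg'.bdd
  refine (hasDerivAt_integral_of_dominated_loc_of_deriv_le
    (F := fun t w => H (mix lev l (Function.update y e t) w))
    (F' := fun t w => H' (mix lev l (Function.update y e t) w))
    (bound := fun w => C * Real.exp (a * (‖y‖ + |x| + 1)) * Real.exp (a * ‖w‖))
    (Metric.ball_mem_nhds x one_pos) ?_ ?_ ?_ ?_ ?_ ?_).2
  · exact Filter.Eventually.of_forall fun t => (hg.mix _).aestronglyMeasurable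
  · exact hg.mix _
  · exact (hg'.mix _).aestronglyMeasurable
  · refine Filter.Eventually.of_forall fun w t ht => ?_
    rw [Metric.mem_ball, Real.dist_eq] at ht
    have h2 : ‖mix lev l (Function.update y e t) w‖ ≤ (‖y‖ + |x| + 1) + ‖w‖ := by
      refine (norm_mix_le _ _).trans ?_
      have h3 := norm_update_le y e t
      have h4 : |t| ≤ |x| + 1 := by
        have := abs_add_le (t - x) x
        rw [sub_add_cancel] at this
        linarith only [ht, this]
      linarith only [h3, h4]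
    rw [Real.norm_eq_abs]
    calc |H' (mix lev l (Function.update y e t) w)|
        ≤ C * Real.exp (a * ‖mix lev l (Function.update y e t) w‖) := h1 _
      _ ≤ C * Real.exp (a * ((‖y‖ + |x| + 1) + ‖w‖)) := by (clear * - h2 ha hC; gcongr)
      _ = C * Real.exp (a * (‖y‖ + |x| + 1)) * Real.exp (a * ‖w‖) := by
          rw [mul_assoc, ← Real.exp_add]
          congr 2
          ring
  · exact (integrable_exp_norm a).const_mul _
  · refine Filter.Eventually.of_forall fun w t _ => ?_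
    simp only [mix_update he]
    exact hd _ _

/-- Functions of the levels `≤ l` do not depend on the coordinates of level `> l`. -/
lemma Dep.pd {lev : ι → ℕ} {l : ℕ} {H : (ι → ℝ) → ℝ} (h : Dep lev l H) (he : l < lev e) :
    PD e H (fun _ => 0) := by
  refine PD.of_indep fun y t => ?_
  rw [← h (Function.update y e t) y]
  congr 1
  funext j
  unfold mix
  by_cases hj : lev j ≤ l
  · rw [if_pos hj, Function.update_of_ne]
    rintro rfl
    omega
  · rw [if_neg hj]

/-- Gaussian integration by parts. -/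
lemma PD.stein {H H' : (ι → ℝ) → ℝ} (hd : PD e H H') (hg : EG H) (hg' : EG H') :
    ∫ z, z e * H z ∂(gI ι) = ∫ z, H' z ∂(gI ι) :=
  stein_pi_int e H H' hd hg.integrable ((EG.coord e).mul hg).integrable hg'.integrable

end pd

end Vale.Agent.P157.Lv
end

section

/-!
The tilted chain of a system: log-weights, densities, tilted conditional averages.
-/

open MeasureTheory ProbabilityTheory Filter Topology

namespace Vale.Agent.P157.Lv

set_option linter.unusedSectionVars false

variable {ι X : Type} [Fintype ι] [Fintype X] [Nonempty X] {S : Sy ι X}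

namespace Sy

lemma sum_exp_pos (z : ι → ℝ) : 0 < ∑ x, Real.exp (S.H z x) :=
  Finset.sum_pos (fun _ _ => Real.exp_pos _) Finset.univ_nonempty

lemma Reg.m_mono (hS : S.Reg) {l l' : ℕ} (h : l ≤ l') (hl : l' ≤ S.K + 1) : S.m l ≤ S.m l' := by
  induction l', h using Nat.le_induction with
  | base => exact le_rfl
  | succ n hn ih => exact (ih (by omega)).trans (hS.mono n (by omega))

lemma Reg.m_pos (hS : S.Reg) {l : ℕ} (hl : 1 ≤ l) (hl' : l ≤ S.K + 1) : 0 < S.m l :=
  lt_of_lt_of_le hS.pos (hS.m_mono hl hl')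

lemma Reg.m_le_one (hS : S.Reg) {l : ℕ} (hl : l ≤ S.K + 1) : S.m l ≤ 1 := by
  rw [← hS.mK]
  exact hS.m_mono hl le_rfl

/-! ### The log-weights -/

lemma lg_top (S : Sy ι X) : S.lg S.K = S.top := by
  unfold lg
  rw [Nat.sub_self]
  rfl

lemma lg_step (S : Sy ι X) {l : ℕ} (hl : l < S.K) : S.lg l = S.stp l (S.lg (l + 1)) := by
  unfold lg
  rw [show S.K - l = (S.K - (l + 1)) + 1 by (clear * - hl; omega)]
  rfl

/-- Downward induction on the levels. -/
lemma down_ind {K : ℕ} {P : ℕ → Prop} (top : P K) (step : ∀ l < K, P (l + 1) → P l) :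
    ∀ l ≤ K, P l := by
  intro l hl
  obtain ⟨d, rfl⟩ := Nat.exists_eq_add_of_le hl
  clear hl
  induction d generalizing l with
  | zero => exact top
  | succ d ih =>
    have e : l + (d + 1) = (l + 1) + d := by omega
    refine step l (by omega) ?_
    have h := ih (l := l + 1)
    rw [← e] at h
    exact h top step

/-- One-sided Lipschitz bound of the logarithm of a sum or an average. -/
lemma lc_log_le {a b c : ℝ} (ha : 0 < a) (hb : 0 < b) (h : a ≤ Real.exp c * b) :
    Real.log a - Real.log b ≤ c := by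
  have h1 := Real.log_le_log ha h
  rw [Real.log_mul (Real.exp_pos _).ne' hb.ne', Real.log_exp] at h1
  linarith only [h1]

lemma Reg.lip_top (hS : S.Reg) : Lip S.top := by
  choose L hL0 hL using hS.lip
  have hsum0 : 0 ≤ ∑ x, L x := Finset.sum_nonneg fun x _ => hL0 x
  have key : ∀ y y', S.top y - S.top y' ≤ (∑ x, L x) * ‖y - y'‖ := by
    intro y y'
    refine lc_log_le (sum_exp_pos y) (sum_exp_pos y') ?_
    rw [Finset.mul_sum]
    refine Finset.sum_le_sum fun x _ => ?_
    rw [← Real.exp_add]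
    apply Real.exp_le_exp.2
    have h1 := (abs_le.1 (hL x y y')).2
    have h2 : L x * ‖y - y'‖ ≤ (∑ x, L x) * ‖y - y'‖ :=
      mul_le_mul_of_nonneg_right
        (Finset.single_le_sum (fun x _ => hL0 x) (Finset.mem_univ x)) (norm_nonneg _)
    simp only at h1
    linarith only [h1, h2]
  refine ⟨∑ x, L x, hsum0, fun y y' => ?_⟩
  rw [abs_le]
  have h1 := key y y'
  have h2 := key y' y
  rw [norm_sub_rev] at h2
  exact ⟨by linarith only [h2], h1⟩

lemma lc_norm_mix (lev : ι → ℕ) (l : ℕ) (y y' w : ι → ℝ) :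
    ‖mix lev l y w - mix lev l y' w‖ ≤ ‖y - y'‖ := by
  rw [pi_norm_le_iff_of_nonneg (norm_nonneg _)]
  intro i
  rw [Pi.sub_apply]
  unfold mix
  split_ifs
  · exact norm_le_pi_norm (y - y') i
  · rw [sub_self, norm_zero]
    exact norm_nonneg _

lemma lc_lip_stp {F : (ι → ℝ) → ℝ} (hF : Lip F) {l : ℕ} (hm : 0 < S.m (l + 1)) :
    Lip (S.stp l F) := by
  have heg := hF.exp_eg (S.m (l + 1))
  obtain ⟨L, hL0, hL⟩ := hF
  have hpos : ∀ z, 0 < J S.lev l (fun z => Real.exp (S.m (l + 1) * F z)) z :=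
    fun z => J_pos heg (fun _ => Real.exp_pos _) z
  have key : ∀ y y', S.stp l F y - S.stp l F y' ≤ L * ‖y - y'‖ := by
    intro y y'
    have h1 : J S.lev l (fun z => Real.exp (S.m (l + 1) * F z)) y ≤
        Real.exp (S.m (l + 1) * (L * ‖y - y'‖)) *
          J S.lev l (fun z => Real.exp (S.m (l + 1) * F z)) y' := by
      unfold J
      rw [← integral_const_mul]
      refine integral_mono (heg.mix y) ((heg.mix y').const_mul _) fun w => ?_
      simp only
      rw [← Real.exp_add]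
      apply Real.exp_le_exp.2
      have h2 := (abs_le.1 (hL (mix S.lev l y w) (mix S.lev l y' w))).2
      have h3 : L * ‖mix S.lev l y w - mix S.lev l y' w‖ ≤ L * ‖y - y'‖ :=
        mul_le_mul_of_nonneg_left (lc_norm_mix _ _ _ _ _) hL0
      have h4 : F (mix S.lev l y w) ≤ L * ‖y - y'‖ + F (mix S.lev l y' w) := by linarith
      calc S.m (l + 1) * F (mix S.lev l y w)
          ≤ S.m (l + 1) * (L * ‖y - y'‖ + F (mix S.lev l y' w)) :=
            mul_le_mul_of_nonneg_left h4 hm.le
        _ = _ := by ring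
    have h5 := lc_log_le (hpos y) (hpos y') h1
    unfold stp
    rw [← mul_sub, one_div, inv_mul_le_iff₀ hm]
    exact h5
  refine ⟨L, hL0, fun y y' => ?_⟩
  rw [abs_le]
  have h1 := key y y'
  have h2 := key y' y
  rw [norm_sub_rev] at h2
  exact ⟨by linarith only [h2], h1⟩

lemma Reg.lip_lg (hS : S.Reg) {l : ℕ} (hl : l ≤ S.K) : Lip (S.lg l) := by
  refine down_ind (P := fun l => Lip (S.lg l)) ?_ ?_ l hl
  · rw [lg_top]
    exact hS.lip_top
  · intro l hl ih
    rw [lg_step S hl]
    exact lc_lip_stp ih (hS.m_pos (by omega) (by omega))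

lemma Reg.dep_lg (hS : S.Reg) {l : ℕ} (hl : l ≤ S.K) : Dep S.lev l (S.lg l) := by
  rcases Nat.lt_or_ge l S.K with h | h
  · rw [lg_step S h]
    intro z w
    unfold stp
    rw [dep_J S.lev l _ z w]
  · have e : l = S.K := le_antisymm hl h
    subst e
    intro z w
    rw [mix_top hS.lev]

lemma Reg.J_exp_lg (hS : S.Reg) {l : ℕ} (hl : l < S.K) (z : ι → ℝ) :
    J S.lev l (fun z => Real.exp (S.m (l + 1) * S.lg (l + 1) z)) z =
      Real.exp (S.m (l + 1) * S.lg l z) := by
  have hm : 0 < S.m (l + 1) := hS.m_pos (by omega) (by omega)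
  have heg := (hS.lip_lg (l := l + 1) (by omega)).exp_eg (S.m (l + 1))
  have hpos := J_pos (lev := S.lev) (l := l) heg (fun _ => Real.exp_pos _) z
  have e : S.lg l z = 1 / S.m (l + 1) *
      Real.log (J S.lev l (fun z => Real.exp (S.m (l + 1) * S.lg (l + 1) z)) z) := by
    rw [lg_step S hl]
    rfl
  rw [e, ← mul_assoc, mul_one_div_cancel hm.ne', one_mul, Real.exp_log hpos]

lemma Reg.integrable_lg (hS : S.Reg) {l : ℕ} (hl : l ≤ S.K) : Integrable (S.lg l) (gI ι) :=
  (hS.lip_lg hl).eg.integrable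

/-! ### The densities -/

lemma dn_pos (S : Sy ι X) (l : ℕ) (z : ι → ℝ) : 0 < S.dn l z := Real.exp_pos _

lemma dn_top (S : Sy ι X) (z : ι → ℝ) : S.dn S.K z = 1 := by simp [dn]

lemma dn_step (S : Sy ι X) {l : ℕ} (hl : l < S.K) (z : ι → ℝ) :
    S.dn l z = Real.exp (S.m (l + 1) * (S.lg (l + 1) z - S.lg l z)) * S.dn (l + 1) z := by
  unfold dn
  rw [← Real.exp_add, Finset.sum_eq_sum_Ico_succ_bot hl]

lemma lc_lip_sum (hS : S.Reg) {a b : ℕ} (hb : b ≤ S.K) :
    Lip fun z => ∑ i ∈ Finset.Ico a b, S.m (i + 1) * (S.lg (i + 1) z - S.lg i z) := by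
  refine Lip.sum _ fun i hi => ?_
  rw [Finset.mem_Ico] at hi
  have h1 := hS.lip_lg (l := i + 1) (by omega)
  have h2 := (hS.lip_lg (l := i) (by omega)).const_mul (-1)
  have h3 := (h1.add h2).const_mul (S.m (i + 1))
  have e : (fun z => S.m (i + 1) * (S.lg (i + 1) z - S.lg i z)) =
      fun z => S.m (i + 1) * (S.lg (i + 1) z + -1 * S.lg i z) := by
    funext z
    ring
  rw [e]
  exact h3

lemma lc_eg_exp {G : (ι → ℝ) → ℝ} (hG : Lip G) : EG fun z => Real.exp (G z) := by
  have h := hG.exp_eg 1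
  simp only [one_mul] at h
  exact h

lemma Reg.eg_dn (hS : S.Reg) {l : ℕ} (_hl : l ≤ S.K) : EG (S.dn l) :=
  lc_eg_exp (lc_lip_sum hS le_rfl)

lemma lc_dep_mul {lev : ι → ℕ} {l : ℕ} {f g : (ι → ℝ) → ℝ} (hf : Dep lev l f)
    (hg : Dep lev l g) : Dep lev l (fun z => f z * g z) := fun z w => by
  simp only [hf z w, hg z w]

lemma Reg.J_dn (hS : S.Reg) {l : ℕ} (hl : l ≤ S.K) (z : ι → ℝ) : J S.lev l (S.dn l) z = 1 := by
  revert z
  refine down_ind (P := fun l => ∀ z, J S.lev l (S.dn l) z = 1) ?_ ?_ l hl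
  · intro z
    have e : S.dn S.K = fun _ => 1 := funext fun z => dn_top S z
    rw [e, J_const]
  · intro l hl ih z
    have e1 : S.dn l = fun z => Real.exp (S.m (l + 1) * (S.lg (l + 1) z - S.lg l z)) *
        S.dn (l + 1) z := funext fun z => dn_step S hl z
    have heg := hS.eg_dn hl.le
    rw [← J_J (Nat.le_succ l) heg]
    have hdep : Dep S.lev (l + 1) fun z =>
        Real.exp (S.m (l + 1) * (S.lg (l + 1) z - S.lg l z)) := by
      intro z w
      dsimp only
      rw [hS.dep_lg (l := l + 1) (by omega) z w, (hS.dep_lg hl.le).mono (Nat.le_succ l) z w]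
    have e2 : J S.lev l.succ (S.dn l) = fun z =>
        Real.exp (S.m (l + 1) * (S.lg (l + 1) z - S.lg l z)) := by
      funext z
      rw [e1]
      show J S.lev (l + 1) _ z = _
      rw [hdep.J_mul, ih, mul_one]
    rw [e2]
    have e3 : (fun z => Real.exp (S.m (l + 1) * (S.lg (l + 1) z - S.lg l z))) =
        fun z => Real.exp (-(S.m (l + 1) * S.lg l z)) * Real.exp (S.m (l + 1) * S.lg (l + 1) z) := by
      funext z
      rw [← Real.exp_add]
      congr 1
      ring
    have hdep2 : Dep S.lev l fun z => Real.exp (-(S.m (l + 1) * S.lg l z)) := by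
      intro z w
      dsimp only
      rw [hS.dep_lg hl.le z w]
    rw [e3, hdep2.J_mul, hS.J_exp_lg hl, ← Real.exp_add, neg_add_cancel, Real.exp_zero]

/-! ### The Gibbs average -/

lemma gb_pos (S : Sy ι X) (z : ι → ℝ) (x : X) : 0 < S.gb z x :=
  div_pos (Real.exp_pos _) (sum_exp_pos z)

lemma sum_gb (S : Sy ι X) (z : ι → ℝ) : ∑ x, S.gb z x = 1 := by
  unfold gb
  rw [← Finset.sum_div, div_self (sum_exp_pos z).ne']

lemma Reg.eg_gb (hS : S.Reg) (x : X) : EG (fun z => S.gb z x) := by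
  refine EG.of_bdd (C := 1) ?_ ?_
  · unfold gb
    exact ((hS.lip x).measurable.exp).div
      (Finset.measurable_sum _ fun x' _ => (hS.lip x').measurable.exp)
  · intro y
    rw [abs_of_pos (gb_pos S y x), ← sum_gb S y]
    exact Finset.single_le_sum (f := fun x => S.gb y x) (fun x _ => (gb_pos S y x).le)
      (Finset.mem_univ x)

lemma av_add (S : Sy ι X) (f g : (ι → ℝ) → X → ℝ) (z : ι → ℝ) :
    S.av (fun z x => f z x + g z x) z = S.av f z + S.av g z := by
  unfold av
  rw [← Finset.sum_add_distrib]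
  exact Finset.sum_congr rfl fun x _ => mul_add _ _ _

lemma av_sub (S : Sy ι X) (f g : (ι → ℝ) → X → ℝ) (z : ι → ℝ) :
    S.av (fun z x => f z x - g z x) z = S.av f z - S.av g z := by
  unfold av
  rw [← Finset.sum_sub_distrib]
  exact Finset.sum_congr rfl fun x _ => mul_sub _ _ _

lemma av_sum (S : Sy ι X) {κ : Type*} (s : Finset κ) (f : κ → (ι → ℝ) → X → ℝ) (z : ι → ℝ) :
    S.av (fun z x => ∑ i ∈ s, f i z x) z = ∑ i ∈ s, S.av (f i) z := by
  unfold av
  rw [Finset.sum_comm]
  exact Finset.sum_congr rfl fun x _ => Finset.mul_sum _ _ _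

/-- Functions of the Gaussian coordinates can be taken out of the Gibbs average. -/
lemma av_mul_left (S : Sy ι X) (φ : (ι → ℝ) → ℝ) (f : (ι → ℝ) → X → ℝ) (z : ι → ℝ) :
    S.av (fun z x => φ z * f z x) z = φ z * S.av f z := by
  unfold av
  rw [Finset.mul_sum]
  exact Finset.sum_congr rfl fun x _ => by ring

lemma av_fst (S : Sy ι X) (φ : (ι → ℝ) → ℝ) (z : ι → ℝ) : S.av (fun z _ => φ z) z = φ z := by
  unfold av
  rw [← Finset.sum_mul, sum_gb, one_mul]

lemma av_mono (S : Sy ι X) {f g : (ι → ℝ) → X → ℝ} {z : ι → ℝ} (h : ∀ x, f z x ≤ g z x) :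
    S.av f z ≤ S.av g z :=
  Finset.sum_le_sum fun x _ => mul_le_mul_of_nonneg_left (h x) (gb_pos S z x).le

lemma Reg.eg_av (hS : S.Reg) {h : (ι → ℝ) → X → ℝ} (hh : Nh h) : EG (S.av h) :=
  EG.sum _ fun x _ => (hS.eg_gb x).mul (hh x)

/-! ### Observables -/

lemma Nh.add {f g : (ι → ℝ) → X → ℝ} (hf : Nh f) (hg : Nh g) : Nh fun z x => f z x + g z x :=
  fun x => (hf x).add (hg x)

lemma Nh.sub {f g : (ι → ℝ) → X → ℝ} (hf : Nh f) (hg : Nh g) : Nh fun z x => f z x - g z x :=
  fun x => (hf x).sub (hg x)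

lemma Nh.mul {f g : (ι → ℝ) → X → ℝ} (hf : Nh f) (hg : Nh g) : Nh fun z x => f z x * g z x :=
  fun x => (hf x).mul (hg x)

lemma Nh.const_mul {f : (ι → ℝ) → X → ℝ} (c : ℝ) (hf : Nh f) : Nh fun z x => c * f z x :=
  fun x => (hf x).const_mul c

lemma Nh.abs {f : (ι → ℝ) → X → ℝ} (hf : Nh f) : Nh fun z x => |f z x| := fun x => (hf x).abs

lemma Nh.pow {f : (ι → ℝ) → X → ℝ} (hf : Nh f) (n : ℕ) : Nh fun z x => f z x ^ n :=
  fun x => (hf x).pow n

lemma Nh.fst {φ : (ι → ℝ) → ℝ} (h : EG φ) : Nh (X := X) fun z _ => φ z := fun _ => h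

lemma Nh.snd (f : X → ℝ) : Nh (ι := ι) fun _ x => f x := fun _ => EG.const _

lemma Nh.sum {κ : Type*} (s : Finset κ) {f : κ → (ι → ℝ) → X → ℝ} (hf : ∀ i ∈ s, Nh (f i)) :
    Nh fun z x => ∑ i ∈ s, f i z x := fun x => EG.sum s fun i hi => hf i hi x

/-! ### The tilted conditional average -/

lemma Reg.eg_T (hS : S.Reg) {l : ℕ} (hl : l ≤ S.K) {h : (ι → ℝ) → X → ℝ} (hh : Nh h) :
    EG (S.T l h) := ((hS.eg_dn hl).mul (hS.eg_av hh)).J _ _

lemma dep_T (S : Sy ι X) (l : ℕ) (h : (ι → ℝ) → X → ℝ) : Dep S.lev l (S.T l h) := dep_J _ _ _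

lemma Reg.T_add (hS : S.Reg) {l : ℕ} (hl : l ≤ S.K) {f g : (ι → ℝ) → X → ℝ} (hf : Nh f)
    (hg : Nh g) (z : ι → ℝ) : S.T l (fun z x => f z x + g z x) z = S.T l f z + S.T l g z := by
  unfold T
  rw [← J_add ((hS.eg_dn hl).mul (hS.eg_av hf)) ((hS.eg_dn hl).mul (hS.eg_av hg))]
  congr 1
  funext z
  rw [av_add S, mul_add]

lemma Reg.T_sub (hS : S.Reg) {l : ℕ} (hl : l ≤ S.K) {f g : (ι → ℝ) → X → ℝ} (hf : Nh f)
    (hg : Nh g) (z : ι → ℝ) : S.T l (fun z x => f z x - g z x) z = S.T l f z - S.T l g z := by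
  unfold T
  rw [← J_sub ((hS.eg_dn hl).mul (hS.eg_av hf)) ((hS.eg_dn hl).mul (hS.eg_av hg))]
  congr 1
  funext z
  rw [av_sub S, mul_sub]

lemma Reg.T_sum (hS : S.Reg) {l : ℕ} (hl : l ≤ S.K) {κ : Type*} (s : Finset κ)
    {f : κ → (ι → ℝ) → X → ℝ} (hf : ∀ i ∈ s, Nh (f i)) (z : ι → ℝ) :
    S.T l (fun z x => ∑ i ∈ s, f i z x) z = ∑ i ∈ s, S.T l (f i) z := by
  unfold T
  rw [← J_sum s fun i hi => (hS.eg_dn hl).mul (hS.eg_av (hf i hi))]
  congr 1
  funext z
  rw [av_sum S, Finset.mul_sum]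

lemma T_const_mul (S : Sy ι X) (l : ℕ) (c : ℝ) (f : (ι → ℝ) → X → ℝ) (z : ι → ℝ) :
    S.T l (fun z x => c * f z x) z = c * S.T l f z := by
  unfold T
  rw [← J_const_mul]
  congr 1
  funext z
  rw [av_mul_left S (fun _ => c)]
  ring

/-- Functions of the levels at most `l` can be taken out. -/
lemma T_mul_left (S : Sy ι X) {l : ℕ} {φ : (ι → ℝ) → ℝ} (hφ : Dep S.lev l φ)
    (f : (ι → ℝ) → X → ℝ) (z : ι → ℝ) : S.T l (fun z x => φ z * f z x) z = φ z * S.T l f z := by
  unfold T
  rw [← hφ.J_mul]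
  congr 1
  funext z
  rw [av_mul_left S φ]
  ring

lemma Reg.T_fst (hS : S.Reg) {l : ℕ} (hl : l ≤ S.K) {φ : (ι → ℝ) → ℝ} (hφ : Dep S.lev l φ)
    (z : ι → ℝ) : S.T l (fun z _ => φ z) z = φ z := by
  have e : S.T l (fun z _ => φ z) z = J S.lev l (fun z => φ z * S.dn l z) z := by
    unfold T
    congr 1
    funext z
    rw [av_fst S φ, mul_comm]
  rw [e, hφ.J_mul, hS.J_dn hl, mul_one]

lemma Reg.T_const (hS : S.Reg) {l : ℕ} (hl : l ≤ S.K) (c : ℝ) (z : ι → ℝ) :
    S.T l (fun _ _ => c) z = c := hS.T_fst hl (φ := fun _ => c) (fun _ _ => rfl) z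

lemma Reg.T_mono (hS : S.Reg) {l : ℕ} (hl : l ≤ S.K) {f g : (ι → ℝ) → X → ℝ} (hf : Nh f)
    (hg : Nh g) (h : ∀ z x, f z x ≤ g z x) (z : ι → ℝ) : S.T l f z ≤ S.T l g z :=
  J_mono ((hS.eg_dn hl).mul (hS.eg_av hf)) ((hS.eg_dn hl).mul (hS.eg_av hg))
    (fun z => mul_le_mul_of_nonneg_left (av_mono S (h z)) (dn_pos S l z).le) z

lemma Reg.abs_T_le (hS : S.Reg) {l : ℕ} (hl : l ≤ S.K) {f : (ι → ℝ) → X → ℝ} (hf : Nh f)
    {C : ℝ} (h : ∀ z x, |f z x| ≤ C) (z : ι → ℝ) : |S.T l f z| ≤ C := by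
  rw [abs_le]
  constructor
  · rw [← hS.T_const hl (-C) z]
    exact hS.T_mono hl (fun _ => EG.const _) hf (fun z x => (abs_le.1 (h z x)).1) z
  · rw [← hS.T_const hl C z]
    exact hS.T_mono hl hf (fun _ => EG.const _) (fun z x => (abs_le.1 (h z x)).2) z

/-- Jensen. -/
lemma Reg.sq_T_le (hS : S.Reg) {l : ℕ} (hl : l ≤ S.K) {f : (ι → ℝ) → X → ℝ} (hf : Nh f)
    (z : ι → ℝ) : S.T l f z ^ 2 ≤ S.T l (fun z x => f z x ^ 2) z := by
  obtain ⟨c, hc⟩ : ∃ c, c = S.T l f z := ⟨_, rfl⟩
  have h0 : 0 ≤ S.T l (fun z x => (f z x - c) ^ 2) z := by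
    have h1 := hS.T_mono hl (f := fun _ _ => 0) (g := fun z x => (f z x - c) ^ 2)
      (fun _ => EG.const _) (Nh.pow (Nh.sub hf (fun _ => EG.const c)) 2)
      (fun z x => sq_nonneg _) z
    rwa [hS.T_const hl] at h1
  have h1 : S.T l (fun z x => (f z x - c) ^ 2) z =
      S.T l (fun z x => f z x ^ 2) z - 2 * c * S.T l f z + c ^ 2 := by
    have e : (fun (z : ι → ℝ) (x : X) => (f z x - c) ^ 2) =
        fun z x => (f z x ^ 2 - 2 * c * f z x) + c ^ 2 := by
      funext z x
      ring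
    rw [e, hS.T_add hl (Nh.sub (Nh.pow hf 2) (Nh.const_mul _ hf)) (fun _ => EG.const _),
      hS.T_sub hl (Nh.pow hf 2) (Nh.const_mul _ hf), T_const_mul, hS.T_const hl]
  rw [h1, ← hc] at h0
  rw [← hc]
  linarith only [h0]

lemma Reg.T_top (hS : S.Reg) (f : (ι → ℝ) → X → ℝ) (z : ι → ℝ) : S.T S.K f z = S.av f z := by
  unfold T J
  simp only [mix_top hS.lev, dn_top, one_mul]
  simp

/-- The tower property. -/
lemma Reg.T_T (hS : S.Reg) {l l' : ℕ} (hl : l ≤ l') (hl' : l' ≤ S.K) {f : (ι → ℝ) → X → ℝ}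
    (hf : Nh f) (z : ι → ℝ) : S.T l (fun z _ => S.T l' f z) z = S.T l f z := by
  have hll : l ≤ S.K := hl.trans hl'
  obtain ⟨P, hP⟩ : ∃ P : (ι → ℝ) → ℝ, P = fun z =>
    Real.exp (∑ i ∈ Finset.Ico l l', S.m (i + 1) * (S.lg (i + 1) z - S.lg i z)) := ⟨_, rfl⟩
  have hdn : ∀ z, S.dn l z = P z * S.dn l' z := by
    intro z
    rw [hP]
    unfold dn
    rw [← Real.exp_add, Finset.sum_Ico_consecutive _ hl hl']
  have hPd : Dep S.lev l' P := by
    rw [hP]
    intro z w
    dsimp only
    congr 1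
    refine Finset.sum_congr rfl fun i hi => ?_
    rw [Finset.mem_Ico] at hi
    rw [(hS.dep_lg (l := i + 1) (by omega)).mono (show i + 1 ≤ l' by omega) z w,
      (hS.dep_lg (l := i) (by omega)).mono (show i ≤ l' by omega) z w]
  have hPe : EG P := by
    rw [hP]
    exact lc_eg_exp (lc_lip_sum hS hl')
  have hTe := hS.eg_T hl' hf
  have e1 : S.T l (fun z _ => S.T l' f z) z =
      J S.lev l (fun z => (P z * S.T l' f z) * S.dn l' z) z := by
    unfold T
    congr 1
    funext z
    rw [av_fst S (fun z => J S.lev l' (fun z => S.dn l' z * S.av f z) z), hdn]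
    ring
  have e2 : S.T l f z = J S.lev l (fun z => P z * (S.dn l' z * S.av f z)) z := by
    unfold T
    congr 1
    funext z
    rw [hdn]
    ring
  have hd2 : Dep S.lev l' fun z => P z * S.T l' f z := lc_dep_mul hPd (dep_T S l' f)
  rw [e1, e2, ← J_J hl ((hPe.mul hTe).mul (hS.eg_dn hl')),
    ← J_J hl (hPe.mul ((hS.eg_dn hl').mul (hS.eg_av hf)))]
  congr 1
  funext z
  rw [hd2.J_mul, hPd.J_mul, hS.J_dn hl', mul_one]
  rfl

/-! ### The tilted average -/

lemma lc_int (hS : S.Reg) {f : (ι → ℝ) → X → ℝ} (hf : Nh f) :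
    Integrable (fun z => S.dn 0 z * S.av f z) (gI ι) :=
  ((hS.eg_dn (Nat.zero_le _)).mul (hS.eg_av hf)).integrable

lemma Reg.Ex_add (hS : S.Reg) {f g : (ι → ℝ) → X → ℝ} (hf : Nh f) (hg : Nh g) :
    S.Ex (fun z x => f z x + g z x) = S.Ex f + S.Ex g := by
  unfold Ex
  rw [← integral_add (lc_int hS hf) (lc_int hS hg)]
  congr 1
  funext z
  rw [av_add S, mul_add]

lemma Reg.Ex_sub (hS : S.Reg) {f g : (ι → ℝ) → X → ℝ} (hf : Nh f) (hg : Nh g) :
    S.Ex (fun z x => f z x - g z x) = S.Ex f - S.Ex g := by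
  unfold Ex
  rw [← integral_sub (lc_int hS hf) (lc_int hS hg)]
  congr 1
  funext z
  rw [av_sub S, mul_sub]

lemma Reg.Ex_sum (hS : S.Reg) {κ : Type*} (s : Finset κ) {f : κ → (ι → ℝ) → X → ℝ}
    (hf : ∀ i ∈ s, Nh (f i)) : S.Ex (fun z x => ∑ i ∈ s, f i z x) = ∑ i ∈ s, S.Ex (f i) := by
  unfold Ex
  rw [← integral_finsetSum s fun i hi => lc_int hS (hf i hi)]
  congr 1
  funext z
  rw [av_sum S, Finset.mul_sum]

lemma Ex_const_mul (S : Sy ι X) (c : ℝ) (f : (ι → ℝ) → X → ℝ) :
    S.Ex (fun z x => c * f z x) = c * S.Ex f := by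
  unfold Ex
  rw [← integral_const_mul]
  congr 1
  funext z
  rw [av_mul_left S (fun _ => c)]
  ring

lemma lc_Ex_T0 (hS : S.Reg) {f : (ι → ℝ) → X → ℝ} (hf : Nh f) :
    S.Ex f = ∫ z, S.T 0 f z ∂(gI ι) :=
  (integral_J ((hS.eg_dn (Nat.zero_le _)).mul (hS.eg_av hf))).symm

lemma Reg.Ex_const (hS : S.Reg) (c : ℝ) : S.Ex (fun _ _ => c) = c := by
  rw [lc_Ex_T0 hS (fun _ => EG.const c)]
  simp only [hS.T_const (Nat.zero_le _)]
  simp

lemma Reg.Ex_mono (hS : S.Reg) {f g : (ι → ℝ) → X → ℝ} (hf : Nh f) (hg : Nh g)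
    (h : ∀ z x, f z x ≤ g z x) : S.Ex f ≤ S.Ex g :=
  integral_mono (lc_int hS hf) (lc_int hS hg)
    fun z => mul_le_mul_of_nonneg_left (av_mono S (h z)) (dn_pos S 0 z).le

lemma Reg.abs_Ex_le (hS : S.Reg) {f : (ι → ℝ) → X → ℝ} (hf : Nh f) :
    |S.Ex f| ≤ S.Ex (fun z x => |f z x|) := by
  rw [abs_le]
  constructor
  · have h := hS.Ex_mono (f := fun z x => -1 * |f z x|) (Nh.const_mul (-1) (Nh.abs hf)) hf
      (fun z x => by
        have := neg_abs_le (f z x)
        linarith)
    rw [Ex_const_mul] at h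
    linarith only [h]
  · exact hS.Ex_mono hf (Nh.abs hf) fun z x => le_abs_self _

/-- Cauchy-Schwarz. -/
lemma Reg.Ex_cs (hS : S.Reg) {f g : (ι → ℝ) → X → ℝ} (hf : Nh f) (hg : Nh g) :
    S.Ex (fun z x => f z x * g z x) ^ 2 ≤
      S.Ex (fun z x => f z x ^ 2) * S.Ex (fun z x => g z x ^ 2) := by
  have h0 : ∀ t : ℝ, 0 ≤ S.Ex (fun z x => g z x ^ 2) * (t * t) +
      (-2 * S.Ex (fun z x => f z x * g z x)) * t + S.Ex (fun z x => f z x ^ 2) := by
    intro t
    have h1 : 0 ≤ S.Ex (fun z x => (f z x - t * g z x) ^ 2) := by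
      have h2 := hS.Ex_mono (f := fun _ _ => 0) (g := fun z x => (f z x - t * g z x) ^ 2)
        (fun _ => EG.const _) (Nh.pow (Nh.sub hf (Nh.const_mul t hg)) 2)
        (fun z x => sq_nonneg _)
      rwa [hS.Ex_const] at h2
    have h2 : S.Ex (fun z x => (f z x - t * g z x) ^ 2) = S.Ex (fun z x => f z x ^ 2) -
        2 * t * S.Ex (fun z x => f z x * g z x) + t * t * S.Ex (fun z x => g z x ^ 2) := by
      have e : (fun (z : ι → ℝ) (x : X) => (f z x - t * g z x) ^ 2) =
          fun z x => (f z x ^ 2 - 2 * t * (f z x * g z x)) + t * t * g z x ^ 2 := by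
        funext z x
        ring
      rw [e, hS.Ex_add (Nh.sub (Nh.pow hf 2) (Nh.const_mul _ (Nh.mul hf hg)))
        (Nh.const_mul _ (Nh.pow hg 2)), hS.Ex_sub (Nh.pow hf 2) (Nh.const_mul _ (Nh.mul hf hg)),
        Ex_const_mul, Ex_const_mul]
    rw [h2] at h1
    linarith only [h1]
  have h3 := discrim_le_zero h0
  unfold discrim at h3
  linarith

lemma Reg.Ex_T (hS : S.Reg) {l : ℕ} (hl : l ≤ S.K) {f : (ι → ℝ) → X → ℝ} (hf : Nh f) :
    S.Ex (fun z _ => S.T l f z) = S.Ex f := by
  rw [lc_Ex_T0 hS (fun _ => hS.eg_T hl hf), lc_Ex_T0 hS hf]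
  simp only [hS.T_T (Nat.zero_le _) hl hf]

lemma Reg.Ex_mul_T (hS : S.Reg) {l : ℕ} (hl : l ≤ S.K) {φ : (ι → ℝ) → ℝ} (hφ : Dep S.lev l φ)
    (hφe : EG φ) {f : (ι → ℝ) → X → ℝ} (hf : Nh f) :
    S.Ex (fun z _ => φ z * S.T l f z) = S.Ex (fun z x => φ z * f z x) := by
  rw [← hS.Ex_T hl (f := fun z x => φ z * f z x) (fun x => hφe.mul (hf x))]
  congr 1
  funext z _
  rw [T_mul_left S hφ]

/-- At the level zero the law is not tilted. -/
lemma Reg.Ex_dep (hS : S.Reg) {φ : (ι → ℝ) → ℝ} (hφ : Dep S.lev 0 φ) (hφe : EG φ) :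
    S.Ex (fun z _ => φ z) = ∫ z, φ z ∂(gI ι) := by
  rw [lc_Ex_T0 hS (fun _ => hφe)]
  simp only [hS.T_fst (Nat.zero_le _) hφ]

end Sy

end Vale.Agent.P157.Lv
end

section

/-!
Derivatives of the log-weights and of the tilted averages, integration by parts.
-/

open MeasureTheory ProbabilityTheory Filter Topology

namespace Vale.Agent.P157.Lv

set_option linter.unusedSectionVars false

variable {ι X : Type} [Fintype ι] [DecidableEq ι] [Fintype X] [Nonempty X] {S : Sy ι X}
  {D : ι → (ι → ℝ) → X → ℝ}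

namespace Sy

lemma RegD.nh (hS : S.RegD D) (e : ι) : Nh (D e) := by
  obtain ⟨C, hC⟩ := hS.bd
  exact fun x => EG.of_bdd (hS.md e x) (C := C) fun y => hC e y x

/-- The derivative of the log-partition function. -/
lemma RegD.pd_top (hS : S.RegD D) (e : ι) : PD e S.top (S.av (D e)) := by
  have h1 : PD e (fun z => ∑ x, Real.exp (S.H z x)) (fun z => ∑ x, Real.exp (S.H z x) * D e z x) :=
    PD.sum Finset.univ fun x _ => (hS.pd e x).exp
  refine (h1.log fun z => (sum_exp_pos z).ne').congr fun z => ?_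
  simp only [av, gb, Finset.sum_div]
  exact Finset.sum_congr rfl fun x _ => by ring

/-- One step of the tilted conditional averages. -/
lemma Reg.T_stepI (hS : S.Reg) {l : ℕ} (hl : l < S.K) {h : (ι → ℝ) → X → ℝ} (hh : Nh h)
    (z : ι → ℝ) : S.T l h z =
      J S.lev l (fun z => Real.exp (S.m (l + 1) * (S.lg (l + 1) z - S.lg l z)) *
        S.T (l + 1) h z) z := by
  have hEG : EG (fun z => S.dn l z * S.av h z) := (hS.eg_dn hl.le).mul (hS.eg_av hh)
  have hdep : Dep S.lev (l + 1) (fun z => Real.exp (S.m (l + 1) * (S.lg (l + 1) z - S.lg l z))) := by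
    intro z w
    have h1 := hS.dep_lg (l := l + 1) hl z w
    have h2 := (hS.dep_lg (l := l) hl.le).mono (Nat.le_succ l) z w
    simp only [h1, h2]
  have key : J S.lev (l + 1) (fun z => S.dn l z * S.av h z) =
      fun z => Real.exp (S.m (l + 1) * (S.lg (l + 1) z - S.lg l z)) * S.T (l + 1) h z := by
    funext z
    have := hdep.J_mul (fun z => S.dn (l + 1) z * S.av h z) z
    rw [T, ← this]
    congr 1
    funext z
    rw [dn_step S hl z]
    ring
  rw [← key]
  exact (J_J (Nat.le_succ l) hEG z).symm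

/-- `∂_e X_l = T_l(∂_e H)`, for the coordinates of level at most `l`. -/
theorem RegD.pd_lg (hS : S.RegD D) {l : ℕ} (hl : l ≤ S.K) {e : ι} (he : S.lev e ≤ l) :
    PD e (S.lg l) (S.T l (D e)) := by
  revert he
  refine down_ind (P := fun l => S.lev e ≤ l → PD e (S.lg l) (S.T l (D e))) ?_ ?_ l hl
  · intro _
    rw [lg_top]
    exact (hS.pd_top e).congr fun z => (hS.toReg.T_top (D e) z).symm
  · intro l hl ih he
    have h1 := ih (he.trans (Nat.le_succ l))
    have hm : 0 < S.m (l + 1) := hS.toReg.m_pos (Nat.succ_le_succ (Nat.zero_le l)) (by omega)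
    have hLip := hS.toReg.lip_lg (l := l + 1) hl
    have hEGe : EG (fun z => Real.exp (S.m (l + 1) * S.lg (l + 1) z)) := hLip.exp_eg _
    have hEGT : EG (S.T (l + 1) (D e)) := hS.toReg.eg_T hl (hS.nh e)
    have h2 : PD e (J S.lev l (fun z => Real.exp (S.m (l + 1) * S.lg (l + 1) z)))
        (J S.lev l (fun z => Real.exp (S.m (l + 1) * S.lg (l + 1) z) *
          (S.m (l + 1) * S.T (l + 1) (D e) z))) :=
      PD.J (h1.const_mul (S.m (l + 1))).exp hEGe (hEGe.mul (hEGT.const_mul _)) he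
    have hne : ∀ z, J S.lev l (fun z => Real.exp (S.m (l + 1) * S.lg (l + 1) z)) z ≠ 0 :=
      fun z => by rw [hS.toReg.J_exp_lg hl z]; exact (Real.exp_pos _).ne'
    have h3 := (h2.log hne).const_mul (1 / S.m (l + 1))
    rw [lg_step S hl]
    refine PD.congr (H := S.stp l (S.lg (l + 1))) h3 fun z => ?_
    rw [hS.toReg.J_exp_lg hl z, hS.toReg.T_stepI hl (hS.nh e) z]
    have hdep : Dep S.lev l (fun z => Real.exp (-(S.m (l + 1) * S.lg l z))) := by
      intro z w
      have h2 := (hS.toReg.dep_lg (l := l) hl.le) z w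
      simp only [h2]
    have h4 := hdep.J_mul (fun z => Real.exp (S.m (l + 1) * S.lg (l + 1) z) *
      (S.m (l + 1) * S.T (l + 1) (D e) z)) z
    have h5 : J S.lev l (fun z => Real.exp (-(S.m (l + 1) * S.lg l z)) *
        (Real.exp (S.m (l + 1) * S.lg (l + 1) z) * (S.m (l + 1) * S.T (l + 1) (D e) z))) z =
        S.m (l + 1) * J S.lev l (fun z => Real.exp (S.m (l + 1) * (S.lg (l + 1) z - S.lg l z)) *
        S.T (l + 1) (D e) z) z := by
      rw [← J_const_mul]
      congr 1
      funext z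
      have : Real.exp (S.m (l + 1) * (S.lg (l + 1) z - S.lg l z)) =
          Real.exp (-(S.m (l + 1) * S.lg l z)) * Real.exp (S.m (l + 1) * S.lg (l + 1) z) := by
        rw [← Real.exp_add]; congr 1; ring
      rw [this]; ring
    have h6 := h4.symm.trans h5
    rw [Real.exp_neg] at h6
    rw [div_mul_eq_mul_div, one_mul, div_div, div_eq_iff (by positivity)]
    rw [inv_mul_eq_div, div_eq_iff (Real.exp_pos _).ne'] at h6
    rw [h6]; ring

/-- Derivative of the Gibbs weights. -/
theorem RegD.pd_gb (hS : S.RegD D) (e : ι) (x : X) :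
    PD e (fun z => S.gb z x) (fun z => S.gb z x * (D e z x - S.T S.K (D e) z)) := by
  have h1 : PD e (fun z => ∑ x, Real.exp (S.H z x)) (fun z => ∑ x, Real.exp (S.H z x) * D e z x) :=
    PD.sum Finset.univ fun x _ => (hS.pd e x).exp
  refine ((hS.pd e x).exp.div h1 fun z => (sum_exp_pos z).ne').congr fun z => ?_
  rw [hS.toReg.T_top]
  have h0 := (sum_exp_pos (S := S) z).ne'
  have h2 : S.av (D e) z = (∑ x, Real.exp (S.H z x) * D e z x) / ∑ x, Real.exp (S.H z x) := by
    simp only [av, gb, Finset.sum_div]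
    exact Finset.sum_congr rfl fun x _ => by ring
  rw [h2, gb]
  field_simp

/-- Abel summation. -/
lemma abel (m f : ℕ → ℝ) {l K : ℕ} (h : l ≤ K) :
    ∑ i ∈ Finset.Ico l K, m (i + 1) * (f (i + 1) - f i) =
      m (K + 1) * f K - ∑ i ∈ Finset.Ico (l + 1) (K + 1), (m (i + 1) - m i) * f i -
        m (l + 1) * f l := by
  induction K, h using Nat.le_induction with
  | base => simp only [Std.le_refl, Finset.Ico_eq_empty_of_le, Finset.sum_empty, sub_zero, sub_self]
  | succ K hK ih =>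
    rw [Finset.sum_Ico_succ_top hK, ih, Finset.sum_Ico_succ_top (Nat.succ_le_succ hK)]
    ring

/-- The derivative of the full density `dn l * gb`, for coordinates of level at most `l`. -/
theorem RegD.pd_dn (hS : S.RegD D) {l : ℕ} (hl : l ≤ S.K) {e : ι} (he : S.lev e ≤ l) :
    PD e (S.dn l) (fun z => S.dn l z * (S.T S.K (D e) z -
      ∑ i ∈ Finset.Ico (l + 1) (S.K + 1), S.p i * S.T i (D e) z - S.m (l + 1) * S.T l (D e) z)) := by
  have h1 : PD e (fun z => ∑ i ∈ Finset.Ico l S.K, S.m (i + 1) * (S.lg (i + 1) z - S.lg i z))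
      (fun z => ∑ i ∈ Finset.Ico l S.K, S.m (i + 1) * (S.T (i + 1) (D e) z - S.T i (D e) z)) := by
    refine PD.sum _ fun i hi => ?_
    obtain ⟨hi1, hi2⟩ := Finset.mem_Ico.1 hi
    exact ((hS.pd_lg (l := i + 1) hi2 (by omega)).sub
      (hS.pd_lg (l := i) hi2.le (by omega))).const_mul _
  refine h1.exp.congr fun z => ?_
  rw [abel S.m (fun i => S.T i (D e) z) hl, hS.mK, one_mul]
  rfl

/-- The derivative of the density for a coordinate of any level. -/
lemma RegD.pd_dn_zero (hS : S.RegD D) (e : ι) :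
    PD e (S.dn 0) (fun z => S.dn 0 z * (S.T S.K (D e) z -
      ∑ i ∈ Finset.Ico (S.lev e) (S.K + 1), S.p i * S.T i (D e) z)) := by
  have hlg : ∀ i ≤ S.K, PD e (S.lg i) (fun z => if S.lev e ≤ i then S.T i (D e) z else 0) := by
    intro i hi
    by_cases he : S.lev e ≤ i
    · simp only [he, if_true]
      exact hS.pd_lg hi he
    · simp only [he, if_false]
      exact (hS.toReg.dep_lg hi).pd (not_le.1 he)
  have h1 : PD e (fun z => ∑ i ∈ Finset.Ico 0 S.K, S.m (i + 1) * (S.lg (i + 1) z - S.lg i z))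
      (fun z => ∑ i ∈ Finset.Ico 0 S.K, S.m (i + 1) *
        ((if S.lev e ≤ i + 1 then S.T (i + 1) (D e) z else 0) -
          (if S.lev e ≤ i then S.T i (D e) z else 0))) := by
    refine PD.sum _ fun i hi => ?_
    obtain ⟨_, hi2⟩ := Finset.mem_Ico.1 hi
    exact ((hlg (i + 1) hi2).sub (hlg i hi2.le)).const_mul _
  refine h1.exp.congr fun z => ?_
  rw [abel S.m (fun i => if S.lev e ≤ i then S.T i (D e) z else 0) (Nat.zero_le S.K), hS.mK,
    one_mul, if_pos (hS.lev e)]
  have h2 : ∑ i ∈ Finset.Ico (S.lev e) (S.K + 1), S.p i * S.T i (D e) z =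
      ∑ i ∈ Finset.Ico 0 (S.K + 1), S.p i * (if S.lev e ≤ i then S.T i (D e) z else 0) := by
    have : Finset.Ico (S.lev e) (S.K + 1) =
        (Finset.Ico 0 (S.K + 1)).filter fun i => S.lev e ≤ i := by
      ext i; simp only [Finset.mem_Ico, Finset.mem_filter]; omega
    rw [this, Finset.sum_filter]
    exact Finset.sum_congr rfl fun i _ => by split_ifs <;> simp
  have h3 := Finset.sum_eq_sum_Ico_succ_bot (Nat.succ_pos S.K)
    (fun i => S.p i * (if S.lev e ≤ i then S.T i (D e) z else 0))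
  rw [h2]
  have h4 : S.p 0 = S.m (0 + 1) := by simp only [p, zero_add, hS.m0, sub_zero]
  rw [h3, h4]
  simp only [dn, p]
  ring

/-- The derivative of a Gibbs average multiplied by a function. -/
lemma RegD.pd_mul_av (hS : S.RegD D) {e : ι} {Y A : (ι → ℝ) → ℝ}
    (hY : PD e Y (fun z => Y z * (S.T S.K (D e) z - A z)))
    {h h' : (ι → ℝ) → X → ℝ} (hd : ∀ x, PD e (fun z => h z x) (fun z => h' z x)) :
    PD e (fun z => Y z * S.av h z)
      (fun z => Y z * S.av (fun z x => h' z x + h z x * (D e z x - A z)) z) := by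
  have h1 : PD e (S.av h) (fun z => ∑ x, (S.gb z x * (D e z x - S.T S.K (D e) z) * h z x +
      S.gb z x * h' z x)) :=
    PD.sum Finset.univ fun x _ => (hS.pd_gb e x).mul (hd x)
  refine (hY.mul h1).congr fun z => ?_
  simp only [av, Finset.mul_sum]
  rw [← Finset.sum_add_distrib]
  exact Finset.sum_congr rfl fun x _ => by ring

/-- Derivative of a tilted average. -/
theorem RegD.pd_T (hS : S.RegD D) {l : ℕ} (hl : l ≤ S.K) {e : ι} (he : S.lev e ≤ l)
    {h h' : (ι → ℝ) → X → ℝ} (hd : ∀ x, PD e (fun z => h z x) (fun z => h' z x)) (hh : Nh h)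
    (hh' : Nh h') :
    PD e (S.T l h) (S.T l (fun z x => h' z x + h z x * (D e z x -
      ∑ i ∈ Finset.Ico (l + 1) (S.K + 1), S.p i * S.T i (D e) z - S.m (l + 1) * S.T l (D e) z))) := by
  have hT : ∀ i ≤ S.K, EG (S.T i (D e)) := fun i hi => hS.toReg.eg_T hi (hS.nh e)
  have hA : EG (fun z => ∑ i ∈ Finset.Ico (l + 1) (S.K + 1), S.p i * S.T i (D e) z) :=
    EG.sum _ fun i hi => (hT i (by have := Finset.mem_Ico.1 hi; omega)).const_mul _
  have hB : EG (fun z => S.m (l + 1) * S.T l (D e) z) := (hT l hl).const_mul _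
  have hN : Nh (fun z x => h' z x + h z x * (D e z x -
      ∑ i ∈ Finset.Ico (l + 1) (S.K + 1), S.p i * S.T i (D e) z - S.m (l + 1) * S.T l (D e) z)) :=
    Nh.add hh' (Nh.mul hh (Nh.sub (Nh.sub (hS.nh e) (Nh.fst hA)) (Nh.fst hB)))
  have h1 : PD e (fun z => S.dn l z * S.av h z) (fun z => S.dn l z * S.av (fun z x =>
      h' z x + h z x * (D e z x - ∑ i ∈ Finset.Ico (l + 1) (S.K + 1), S.p i * S.T i (D e) z -
        S.m (l + 1) * S.T l (D e) z)) z) := by
    have h2 := hS.pd_mul_av (A := fun z => ∑ i ∈ Finset.Ico (l + 1) (S.K + 1),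
      S.p i * S.T i (D e) z + S.m (l + 1) * S.T l (D e) z)
      ((hS.pd_dn hl he).congr fun z => by rw [sub_sub]) hd
    refine h2.congr fun z => ?_
    simp only [sub_sub]
  exact PD.J h1 ((hS.toReg.eg_dn hl).mul (hS.toReg.eg_av hh))
    ((hS.toReg.eg_dn hl).mul (hS.toReg.eg_av hN)) he

/-- **Integration by parts.** -/
theorem RegD.ibp (hS : S.RegD D) (e : ι) {h h' : (ι → ℝ) → X → ℝ}
    (hd : ∀ x, PD e (fun z => h z x) (fun z => h' z x)) (hh : Nh h) (hh' : Nh h') :
    S.Ex (fun z x => z e * h z x) = S.Ex (fun z x => h' z x + h z x * (D e z x -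
      ∑ l ∈ Finset.Ico (S.lev e) (S.K + 1), S.p l * S.T l (D e) z)) := by
  have hT : ∀ i ≤ S.K, EG (S.T i (D e)) := fun i hi => hS.toReg.eg_T hi (hS.nh e)
  have hA : EG (fun z => ∑ i ∈ Finset.Ico (S.lev e) (S.K + 1), S.p i * S.T i (D e) z) :=
    EG.sum _ fun i hi => (hT i (by have := Finset.mem_Ico.1 hi; omega)).const_mul _
  have hN : Nh (fun z x => h' z x + h z x * (D e z x -
      ∑ i ∈ Finset.Ico (S.lev e) (S.K + 1), S.p i * S.T i (D e) z)) :=
    Nh.add hh' (Nh.mul hh (Nh.sub (hS.nh e) (Nh.fst hA)))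
  have h1 := hS.pd_mul_av (hS.pd_dn_zero e) hd
  have h2 := PD.stein h1 ((hS.toReg.eg_dn (Nat.zero_le _)).mul (hS.toReg.eg_av hh))
    ((hS.toReg.eg_dn (Nat.zero_le _)).mul (hS.toReg.eg_av hN))
  rw [Ex, Ex, ← h2]
  congr 1
  funext z
  rw [av_mul_left S (fun z => z e) h z]
  ring

end Sy

end Vale.Agent.P157.Lv
end

section

open MeasureTheory ProbabilityTheory Complex
open scoped RealInnerProductSpace

namespace Vale.Agent.P157.Exist

variable {E : Type*} [NormedAddCommGroup E] [InnerProductSpace ℝ E] [FiniteDimensional ℝ E]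
  [MeasurableSpace E] [BorelSpace E]
variable {Y : Type*} [MeasurableSpace Y]

end Vale.Agent.P157.Exist
end

section

open MeasureTheory ProbabilityTheory Complex
open scoped RealInnerProductSpace

namespace Vale.Agent.P157.Exist

variable {E : Type*} [NormedAddCommGroup E] [InnerProductSpace ℝ E] [FiniteDimensional ℝ E]
  [MeasurableSpace E] [BorelSpace E]
variable {X : Type*} [MeasurableSpace X]

/-- `v` is the Fourier transform of the complex measure `ω ν`. -/
def SpecRep (ν : Measure ℝ) (ω : ℝ → ℂ) (v : ℝ → ℝ) : Prop :=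
  ∀ s : ℝ, (v s : ℂ) = ∫ l, ω l * cexp ((l * s : ℝ) * I) ∂ν

section

variable {ν : Measure ℝ} [IsFiniteMeasure ν] {ω : ℝ → ℂ} {v : ℝ → ℝ}

lemma SpecRep.abs_le (h : SpecRep ν ω v) (hω1 : ∀ l, ‖ω l‖ ≤ 1) (s : ℝ) :
    |v s| ≤ ν.real Set.univ := by
  have : ‖(v s : ℂ)‖ ≤ ν.real Set.univ := by
    rw [h s]
    refine (norm_integral_le_integral_norm _).trans ?_
    calc ∫ l, ‖ω l * cexp ((l * s : ℝ) * I)‖ ∂ν ≤ ∫ _, (1:ℝ) ∂ν := by
          refine integral_mono_of_nonneg (Filter.Eventually.of_forall fun _ => norm_nonneg _)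
            (integrable_const _) (Filter.Eventually.of_forall fun l => ?_)
          simp only [norm_mul, Complex.norm_exp_ofReal_mul_I, mul_one]
          exact hω1 l
      _ = ν.real Set.univ := by simp
  simpa only [ge_iff_le, norm_real, Real.norm_eq_abs] using this

end

end Vale.Agent.P157.Exist
end

section

open Filter Topology

namespace Vale.Agent.P157.Exist

lemma sqrt_gap_aux {m n : ℝ} (hm : 0 ≤ m) (hmn : m ≤ n) :
    √m ≤ 2 * (√m + √n - √(m + n)) := by
  have hn : 0 ≤ n := hm.trans hmn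
  have h1 : √(m + n) ≤ √n + √m / 2 := by
    apply Real.sqrt_le_iff.2
    constructor
    · (clear * -; positivity)
    · have e1 := Real.mul_self_sqrt hm
      have e2 := Real.mul_self_sqrt hn
      have e3 : √m ≤ √n := Real.sqrt_le_sqrt hmn
      have e4 := mul_le_mul_of_nonneg_left e3 (Real.sqrt_nonneg m)
      linarith only [e4, e2, e1, hm]
  linarith only [h1]

lemma sqrt_gap {m n : ℝ} (hm : 0 ≤ m) (hn : 0 ≤ n) :
    √(min m n) ≤ 2 * (√m + √n - √(m + n)) := by
  rcases le_total m n with h | h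
  · rw [min_eq_left h]; exact sqrt_gap_aux hm h
  · rw [min_eq_right h]
    have := sqrt_gap_aux hn h
    rw [add_comm m n]
    linarith

/-- Almost superadditive sequences of linear growth converge after division by `n`. -/
theorem tendsto_of_almost_superadditive (a : ℕ → ℝ) (C C' : ℝ) (hC' : 0 ≤ C')
    (hb : ∀ n, |a n| ≤ C * n)
    (hs : ∀ m n : ℕ, 1 ≤ m → 1 ≤ n → a m + a n - C' * √(min (m : ℝ) n) ≤ a (m + n)) :
    ∃ L, Tendsto (fun n : ℕ => a n / n) atTop (𝓝 L) := by
  have ha0 : a 0 = 0 := by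
    have := hb 0
    simp only [CharP.cast_eq_zero, mul_zero] at this
    exact abs_nonpos_iff.1 this
  have hsub : Subadditive fun n : ℕ => 2 * C' * √(n : ℝ) - a n := by
    intro m n
    rcases Nat.eq_zero_or_pos m with rfl | hm
    · simp [ha0]
    rcases Nat.eq_zero_or_pos n with rfl | hn
    · simp [ha0]
    have h1 := hs m n hm hn
    have h2 := sqrt_gap (Nat.cast_nonneg (α := ℝ) m) (Nat.cast_nonneg (α := ℝ) n)
    have h3 := mul_le_mul_of_nonneg_left h2 hC'
    push_cast
    linarith only [h3, h1]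
  have hbd : BddBelow (Set.range fun n : ℕ => (2 * C' * √(n : ℝ) - a n) / n) := by
    refine ⟨-|C|, ?_⟩
    rintro _ ⟨n, rfl⟩
    rcases Nat.eq_zero_or_pos n with rfl | hn
    · simp only [CharP.cast_eq_zero, Real.sqrt_zero, mul_zero, zero_sub, div_zero, Left.neg_nonpos_iff, abs_nonneg]
    have hn' : (0 : ℝ) < n := Nat.cast_pos.2 hn
    beta_reduce
    rw [le_div_iff₀ hn']
    have h1 := (abs_le.1 (hb n)).2
    have h2 : 0 ≤ 2 * C' * √(n : ℝ) := by (clear * - hC' hn; positivity)
    have h3 := mul_le_mul_of_nonneg_right (le_abs_self C) hn'.le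
    linarith only [h1, h2, h3]
  have hlim := hsub.tendsto_lim hbd
  refine ⟨0 - hsub.lim, ?_⟩
  have h0 : Tendsto (fun n : ℕ => 2 * C' * (√(n : ℝ) / n)) atTop (𝓝 0) := by
    have : Tendsto (fun n : ℕ => √(n : ℝ) / n) atTop (𝓝 0) := by
      have h1 : (fun n : ℕ => √(n : ℝ) / n) = fun n : ℕ => (√(n : ℝ))⁻¹ := by
        ext n
        rw [Real.sqrt_div_self']
        simp
      rw [h1]
      exact (Real.tendsto_sqrt_atTop.comp tendsto_natCast_atTop_atTop).inv_tendsto_atTop
    simpa only [mul_zero] using this.const_mul (2 * C')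
  have h1 := h0.sub hlim
  refine h1.congr fun n => ?_
  ring

end Vale.Agent.P157.Exist
end
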