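import Mathlib
import Vale.Agent.P157.Defs
import Vale.Agent.P157.ParDefs
attribute [-instance] ProperSMul.toContinuousSMul IsTopologicalTorsor.toContinuousSMul IdemSemiring.toCanonicallyOrderedAdd IdemSemiring.toMulLeftMono IdemSemiring.toMulRightMono AddQuantale.instAddLeftMono AddQuantale.instAddRightMono Quantale.instMulLeftMono Quantale.instMulRightMono FiniteDimensional.rclike_to_real IsScalarTower.complexToReal FiniteDimensional.complexToReal

set_option linter.all false

section

namespace Vale.Agent.P157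

/-- The cube point coded by a Boolean vector. -/
def spin {N : ℕ} (σ : Fin N → Bool) : Fin N → ℝ := fun i => if σ i then 1 else -1

end Vale.Agent.P157
end

section

open MeasureTheory ProbabilityTheory

namespace Vale.Agent.P157

lemma spin_sq {N : ℕ} (σ : Fin N → Bool) (i : Fin N) : spin σ i * spin σ i = 1 := by
  unfold spin; split_ifs <;> norm_num

lemma coin_eq : ((1 / 2 : ENNReal) • (Measure.dirac (1 : ℝ) + Measure.dirac (-1 : ℝ))) =
    ∑ b : Bool, (1 / 2 : ENNReal) • Measure.dirac (if b then (1 : ℝ) else -1) := by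
  simp [smul_add]

instance : IsProbabilityMeasure
    ((1 / 2 : ENNReal) • (Measure.dirac (1 : ℝ) + Measure.dirac (-1 : ℝ))) := by
  constructor
  simp only [Measure.smul_apply, Measure.add_apply, measure_univ, smul_eq_mul, one_div]
  rw [one_add_one_eq_two]
  exact ENNReal.inv_mul_cancel (by norm_num) (by norm_num)

instance (N : ℕ) : IsProbabilityMeasure (cube N) := by unfold cube; infer_instance

lemma cube_eq (N : ℕ) :
    cube N = ∑ σ : Fin N → Bool, ((1 / 2 : ENNReal) ^ N) • Measure.dirac (spin σ) := by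
  unfold cube
  refine Measure.pi_eq fun s hs => ?_
  rw [Measure.finsetSum_apply]
  have h1 : ∀ i : Fin N,
      ((1 / 2 : ENNReal) • (Measure.dirac (1 : ℝ) + Measure.dirac (-1 : ℝ))) (s i) =
      ∑ b : Bool, (1 / 2 : ENNReal) * (s i).indicator 1 (if b then (1 : ℝ) else -1) := by
    intro i
    rw [coin_eq, Measure.finsetSum_apply]
    refine Finset.sum_congr rfl fun b _ => ?_
    rw [Measure.smul_apply, Measure.dirac_apply' _ (hs i), smul_eq_mul]
  simp_rw [h1]
  rw [Finset.prod_univ_sum]
  rw [Fintype.piFinset_univ]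
  refine Finset.sum_congr rfl fun σ _ => ?_
  rw [Measure.smul_apply, Measure.dirac_apply' _ (MeasurableSet.univ_pi hs), smul_eq_mul,
    Finset.prod_mul_distrib, Finset.prod_const, Finset.card_univ, Fintype.card_fin]
  congr 1
  by_cases h : spin σ ∈ Set.univ.pi s
  · rw [Set.indicator_of_mem h]
    symm
    apply Finset.prod_eq_one
    intro i _
    exact Set.indicator_of_mem (h i (Set.mem_univ i)) _
  · rw [Set.indicator_of_notMem h]
    simp only [Set.mem_pi, Set.mem_univ, forall_true_left, not_forall] at h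
    obtain ⟨i, hi⟩ := h
    symm
    apply Finset.prod_eq_zero (Finset.mem_univ i)
    exact Set.indicator_of_notMem hi _

/-- Integrals over the cube are averages over Boolean vectors. -/
lemma integral_cube {N : ℕ} (F : (Fin N → ℝ) → ℝ) :
    ∫ x, F x ∂(cube N) = (1 / 2 : ℝ) ^ N * ∑ σ : Fin N → Bool, F (spin σ) := by
  rw [cube_eq, integral_finset_sum_measure]
  · rw [Finset.mul_sum]
    refine Finset.sum_congr rfl fun σ _ => ?_
    rw [integral_smul_measure, integral_dirac]
    simp only [one_div, ENNReal.toReal_pow, ENNReal.toReal_inv, ENNReal.toReal_ofNat, inv_pow, smul_eq_mul]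
  · intro σ _
    refine Integrable.smul_measure ?_ (by simp)
    exact integrable_dirac (by simp)

end Vale.Agent.P157
end

section

/-!
The mean pressure is bounded.
-/

open MeasureTheory ProbabilityTheory Filter Topology

namespace Vale.Agent.P157.Par

theorem abs_pressure_le {M N : ℕ} (μ : Measure (Fin N → ℝ)) [IsProbabilityMeasure μ] {f : ℝ → ℝ}
    (hf : Measurable f) {B : ℝ} (hB : ∀ x, |f x| ≤ B) (g : Fin M → Fin N → ℝ) :
    |pressure μ f g| ≤ 1 / N * (M * B) := by
  unfold pressure
  set H : (Fin N → ℝ) → ℝ := fun x => ∑ a, f ((∑ i, g a i * x i) / √(N : ℝ)) with hH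
  have hHm : Measurable H := Finset.measurable_sum _ fun a _ => hf.comp (by fun_prop)
  have hb : ∀ x, |H x| ≤ M * B := by
    intro x
    refine (Finset.abs_sum_le_sum_abs _ _).trans ?_
    refine (Finset.sum_le_sum fun a _ => hB _).trans ?_
    simp only [Finset.sum_const, Finset.card_univ, Fintype.card_fin, nsmul_eq_mul, Std.le_refl]
  have hi : Integrable (fun x => Real.exp (H x)) μ :=
    (integrable_const (Real.exp (M * B))).mono' hHm.exp.aestronglyMeasurable
      (ae_of_all _ fun x => by
        rw [Real.norm_eq_abs, abs_of_pos (Real.exp_pos _)]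
        exact Real.exp_le_exp.2 (abs_le.1 (hb x)).2)
  have h1 : Real.exp (-(M * B)) ≤ ∫ x, Real.exp (H x) ∂μ := by
    have := integral_mono (integrable_const (Real.exp (-(M * B)))) hi
      (fun x => Real.exp_le_exp.2 (abs_le.1 (hb x)).1)
    simpa only [ge_iff_le, integral_const, probReal_univ, smul_eq_mul, one_mul] using this
  have h2 : ∫ x, Real.exp (H x) ∂μ ≤ Real.exp (M * B) := by
    have := integral_mono hi (integrable_const (Real.exp (M * B)))
      (fun x => Real.exp_le_exp.2 (abs_le.1 (hb x)).2)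
    simpa only [ge_iff_le, integral_const, probReal_univ, smul_eq_mul, one_mul] using this
  have h3 : 0 < ∫ x, Real.exp (H x) ∂μ := (Real.exp_pos _).trans_le h1
  rw [abs_mul, abs_of_nonneg (by (clear * -; positivity) : (0 : ℝ) ≤ 1 / N)]
  refine mul_le_mul_of_nonneg_left (abs_le.2 ⟨?_, ?_⟩) (by (clear * -; positivity))
  · exact (Real.le_log_iff_exp_le h3).2 h1
  · exact (Real.log_le_iff_le_exp h3).2 h2

/-- The mean pressure is bounded. -/
theorem abs_meanPressure_le (μ : (N : ℕ) → Measure (Fin N → ℝ)) {N : ℕ}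
    [IsProbabilityMeasure (μ N)] {f : ℝ → ℝ} (hf : Measurable f) {B : ℝ}
    (hB : ∀ x, |f x| ≤ B) {α : ℝ} (hα : 0 ≤ α) : |meanPressure μ α f N| ≤ α * B := by
  have hB0 : 0 ≤ B := (abs_nonneg _).trans (hB 0)
  unfold meanPressure
  have : IsProbabilityMeasure (patterns ⌊α * N⌋₊ N) := by unfold patterns; infer_instance
  have hpt : ∀ g : Fin ⌊α * N⌋₊ → Fin N → ℝ, ‖pressure (μ N) f g‖ ≤ α * B := by
    intro g
    rw [Real.norm_eq_abs]
    refine (abs_pressure_le (μ N) hf hB g).trans ?_
    rcases Nat.eq_zero_or_pos N with hN | hN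
    · subst hN
      simp only [Nat.cast_zero, div_zero, zero_mul]
      (clear * - hα hB0; positivity)
    · have hN' : (0 : ℝ) < N := by exact_mod_cast hN
      have h : (⌊α * N⌋₊ : ℝ) ≤ α * N := Nat.floor_le (by (clear * - hα hN; positivity))
      rw [one_div, inv_mul_le_iff₀ hN']
      calc (⌊α * N⌋₊ : ℝ) * B ≤ α * N * B := mul_le_mul_of_nonneg_right h hB0
        _ = N * (α * B) := by ring
  have h := norm_integral_le_of_norm_le_const (μ := patterns ⌊α * N⌋₊ N) (ae_of_all _ hpt)
  simpa only [ge_iff_le, Real.norm_eq_abs, probReal_univ, mul_one] using h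

end Vale.Agent.P157.Par
end

section

/-!
Uniform stability of the Parisi cascade under truncation.
-/

open MeasureTheory ProbabilityTheory Filter Topology Finset

namespace Vale.Agent.P157.Par

/-! ### Gaussian integrals -/

lemma clo_int_exp (t : ℝ) : ∫ z, Real.exp (t * z) ∂(gaussianReal 0 1) = Real.exp (t ^ 2 / 2) := by
  have h := congrFun (mgf_fun_id_gaussianReal (μ := 0) (v := 1)) t
  simpa [mgf] using h

lemma clo_integrable_exp_abs (a : ℝ) :
    Integrable (fun x : ℝ => Real.exp (a * |x|)) (gaussianReal 0 1) := by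
  refine Integrable.mono' ((integrable_exp_mul_gaussianReal a).add
    (integrable_exp_mul_gaussianReal (-a))) (by (clear * -; exact Continuous.aestronglyMeasurable (by fun_prop)))
    (Filter.Eventually.of_forall fun x => ?_)
  rw [Real.norm_eq_abs, Real.abs_exp]
  simp only [Pi.add_apply]
  rcases abs_cases x with h | h
  · rw [h.1]
    linarith only [Real.exp_pos (-a * x)]
  · rw [h.1]
    have : a * -x = -a * x := by ring
    rw [this]
    linarith [Real.exp_pos (a * x)]

lemma clo_integrable {h : ℝ → ℝ} (hm : Measurable h) {C a : ℝ}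
    (hb : ∀ z, |h z| ≤ C * Real.exp (a * |z|)) : Integrable h (gaussianReal 0 1) :=
  Integrable.mono' ((clo_integrable_exp_abs a).const_mul C) hm.aestronglyMeasurable
    (Filter.Eventually.of_forall fun z => by rw [Real.norm_eq_abs]; exact hb z)

lemma clo_sq_exp_le (a : ℝ) (z : ℝ) : z ^ 2 * Real.exp (a * |z|) ≤ 2 * Real.exp ((a + 1) * |z|) := by
  have h1 : z ^ 2 ≤ 2 * Real.exp |z| := by
    have h2 := Real.quadratic_le_exp_of_nonneg (abs_nonneg z)
    rw [sq_abs] at h2
    linarith only [abs_nonneg z, h2]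
  calc z ^ 2 * Real.exp (a * |z|) ≤ 2 * Real.exp |z| * Real.exp (a * |z|) := by gcongr
    _ = 2 * Real.exp ((a + 1) * |z|) := by
        rw [mul_assoc, ← Real.exp_add]
        congr 2
        ring

lemma clo_integrable_sq_exp (a : ℝ) :
    Integrable (fun z : ℝ => z ^ 2 * Real.exp (a * |z|)) (gaussianReal 0 1) :=
  clo_integrable (by (clear * -; fun_prop)) (C := 2) (a := a + 1) fun z => by
    rw [abs_of_nonneg (by positivity)]
    exact clo_sq_exp_le a z

lemma clo_integral_neg (h : ℝ → ℝ) :
    ∫ z, h (-z) ∂(gaussianReal 0 1) = ∫ z, h z ∂(gaussianReal 0 1) := by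
  have h1 : (gaussianReal 0 1).map (fun x : ℝ => -x) = gaussianReal 0 1 := by
    rw [gaussianReal_map_neg, neg_zero]
  conv_rhs => rw [← h1]
  exact (integral_map_equiv (MeasurableEquiv.neg ℝ) h).symm

/-! ### Elementary inequalities -/

lemma clo_sinh_le (t : ℝ) : Real.sinh t ≤ t * Real.exp t := by
  rw [Real.sinh_eq]
  have h1 : -(2 * t) + 1 ≤ Real.exp (-(2 * t)) := Real.add_one_le_exp _
  have h2 : Real.exp (-t) = Real.exp t * Real.exp (-(2 * t)) := by
    rw [← Real.exp_add]; congr 1; ring
  rw [h2]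
  linarith only [mul_nonneg (sub_nonneg.2 h1) (le_of_lt (sub_pos.2 (Real.exp_pos t)))]

lemma clo_abs_sinh_le (h : ℝ) : |Real.sinh h| ≤ |h| * Real.exp |h| := by
  rw [Real.abs_sinh]
  exact clo_sinh_le |h|

lemma clo_cosh_sub_one_le (h : ℝ) : Real.cosh h - 1 ≤ h ^ 2 * Real.exp |h| := by
  have h1 : Real.cosh h = 1 + 2 * Real.sinh (|h| / 2) ^ 2 := by
    rw [← Real.cosh_abs]
    have h2 := Real.cosh_two_mul (|h| / 2)
    have h3 := Real.cosh_sq (|h| / 2)
    rw [show 2 * (|h| / 2) = |h| by ring] at h2
    rw [h2, h3]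
    ring
  have h4 := clo_sinh_le (|h| / 2)
  have h5 : 0 ≤ Real.sinh (|h| / 2) := Real.sinh_nonneg_iff.2 (by positivity)
  have h6 : Real.sinh (|h| / 2) ^ 2 ≤ (|h| / 2 * Real.exp (|h| / 2)) ^ 2 :=
    pow_le_pow_left₀ h5 h4 2
  have h7 : (|h| / 2 * Real.exp (|h| / 2)) ^ 2 = h ^ 2 / 4 * Real.exp |h| := by
    rw [mul_pow, div_pow, sq_abs, ← Real.exp_nat_mul]
    congr 2
    · norm_num
    · push_cast; ring
  rw [h1]
  rw [h7] at h6
  have h8 : 0 ≤ h ^ 2 * Real.exp |h| := by (clear * -; positivity)
  nlinarith only [h6]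

lemma clo_exp_sub_exp_le (a b : ℝ) : Real.exp a - Real.exp b ≤ |a - b| * Real.exp (max a b) := by
  rcases le_total a b with hab | hab
  · have h1 : Real.exp a ≤ Real.exp b := Real.exp_le_exp.2 hab
    have h2 : 0 ≤ |a - b| * Real.exp (max a b) := by positivity
    linarith
  · rw [max_eq_left hab, abs_of_nonneg (by linarith only [hab])]
    have h1 : (b - a) + 1 ≤ Real.exp (b - a) := Real.add_one_le_exp _
    have h2 : Real.exp b = Real.exp a * Real.exp (b - a) := by
      rw [← Real.exp_add]; congr 1; ring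
    rw [h2]
    nlinarith only [h1, Real.exp_pos a]

lemma clo_abs_exp_sub_exp_le (a b : ℝ) :
    |Real.exp a - Real.exp b| ≤ |a - b| * Real.exp (max a b) := by
  rw [abs_le]
  constructor
  · have := clo_exp_sub_exp_le b a
    rw [abs_sub_comm, max_comm] at this
    linarith
  · exact clo_exp_sub_exp_le a b

/-! ### One step -/

section step

variable {F : ℝ → ℝ} {m v : ℝ}

lemma clo_lip (hF : LipschitzWith 1 F) (x h : ℝ) : |F (x + h) - F x| ≤ |h| := by
  have h1 := hF.dist_le_mul (x + h) x
  rw [Real.dist_eq, Real.dist_eq, NNReal.coe_one, one_mul, add_sub_cancel_left] at h1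
  exact h1

lemma clo_abs_sqrt_mul (v z : ℝ) : |√v * z| = √v * |z| := by
  rw [abs_mul, abs_of_nonneg (Real.sqrt_nonneg v)]

lemma clo_weight_le (hF : LipschitzWith 1 F) (hm : 0 < m) (hm1 : m ≤ 1) (x z : ℝ) :
    Real.exp (m * F (x + √v * z)) ≤ Real.exp (m * F x) * Real.exp (√v * |z|) := by
  rw [← Real.exp_add, Real.exp_le_exp]
  have h1 := (abs_le.1 (clo_lip hF x (√v * z))).2
  rw [clo_abs_sqrt_mul] at h1
  have h2 : 0 ≤ √v * |z| := by (clear * -; positivity)
  nlinarith only [hm, h1, hm1, h2]

lemma clo_le_weight (hF : LipschitzWith 1 F) (hm : 0 < m) (hm1 : m ≤ 1) (x z : ℝ) :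
    Real.exp (m * F x) * Real.exp (-(√v * |z|)) ≤ Real.exp (m * F (x + √v * z)) := by
  rw [← Real.exp_add, Real.exp_le_exp]
  have h1 := (abs_le.1 (clo_lip hF x (√v * z))).1
  rw [clo_abs_sqrt_mul] at h1
  have h2 : 0 ≤ √v * |z| := by (clear * -; positivity)
  nlinarith only [hm, h1, hm1, h2]

lemma clo_meas_weight (hF : LipschitzWith 1 F) (x : ℝ) :
    Measurable fun z : ℝ => Real.exp (m * F (x + √v * z)) := by
  have := hF.continuous.measurable
  fun_prop

lemma clo_int_mul_weight (hF : LipschitzWith 1 F) (hm : 0 < m) (hm1 : m ≤ 1) (x : ℝ) {h : ℝ → ℝ}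
    (hh : Measurable h) {C a : ℝ} (hC : ∀ z, |h z| ≤ C * Real.exp (a * |z|)) :
    Integrable (fun z => h z * Real.exp (m * F (x + √v * z))) (gaussianReal 0 1) := by
  refine clo_integrable (hh.mul (clo_meas_weight hF x)) (C := C * Real.exp (m * F x))
    (a := a + √v) fun z => ?_
  rw [abs_mul, abs_of_pos (Real.exp_pos _)]
  have hC0 : 0 ≤ C * Real.exp (a * |z|) := (abs_nonneg _).trans (hC z)
  calc |h z| * Real.exp (m * F (x + √v * z)) ≤ (C * Real.exp (a * |z|)) *
        (Real.exp (m * F x) * Real.exp (√v * |z|)) :=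
        mul_le_mul (hC z) (clo_weight_le hF hm hm1 x z) (Real.exp_pos _).le hC0
    _ = C * Real.exp (m * F x) * Real.exp ((a + √v) * |z|) := by
        rw [add_mul, Real.exp_add]; ring

lemma clo_int_weight (hF : LipschitzWith 1 F) (hm : 0 < m) (hm1 : m ≤ 1) (x : ℝ) :
    Integrable (fun z => Real.exp (m * F (x + √v * z))) (gaussianReal 0 1) := by
  have := clo_int_mul_weight (v := v) hF hm hm1 x (h := fun _ => 1) measurable_const (C := 1)
    (a := 0) (fun z => by simp)
  simpa only [one_mul] using this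

lemma clo_weight_pos (hF : LipschitzWith 1 F) (hm : 0 < m) (hm1 : m ≤ 1) (x : ℝ) :
    0 < ∫ z, Real.exp (m * F (x + √v * z)) ∂(gaussianReal 0 1) :=
  integral_exp_pos (clo_int_weight hF hm hm1 x)

/-- A cascade step preserves 1-Lipschitz functions. -/
lemma clo_gstep_lip (hF : LipschitzWith 1 F) (hm : 0 < m) (hm1 : m ≤ 1) (v : ℝ) :
    LipschitzWith 1 (gstep m v F) := by
  have key : ∀ x y, gstep m v F x ≤ gstep m v F y + |x - y| := by
    intro x y
    unfold gstep
    have h1 : ∫ z, Real.exp (m * F (x + √v * z)) ∂(gaussianReal 0 1) ≤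
        Real.exp (m * |x - y|) * ∫ z, Real.exp (m * F (y + √v * z)) ∂(gaussianReal 0 1) := by
      rw [← integral_const_mul]
      refine integral_mono (clo_int_weight hF hm hm1 x)
        ((clo_int_weight hF hm hm1 y).const_mul _) fun z => ?_
      dsimp only
      rw [← Real.exp_add, Real.exp_le_exp, ← mul_add]
      refine mul_le_mul_of_nonneg_left ?_ hm.le
      have h2 := clo_lip hF (y + √v * z) (x - y)
      rw [show y + √v * z + (x - y) = x + √v * z by ring] at h2
      linarith only [(abs_le.1 h2).2]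
    have h2 := Real.log_le_log (clo_weight_pos hF hm hm1 x) h1
    rw [Real.log_mul (Real.exp_pos _).ne' (clo_weight_pos hF hm hm1 y).ne', Real.log_exp] at h2
    calc 1 / m * Real.log (∫ z, Real.exp (m * F (x + √v * z)) ∂(gaussianReal 0 1)) ≤
        1 / m * (m * |x - y| + Real.log (∫ z, Real.exp (m * F (y + √v * z))
          ∂(gaussianReal 0 1))) := by gcongr
      _ = _ := by field_simp; ring
  refine LipschitzWith.of_dist_le_mul fun x y => ?_
  rw [Real.dist_eq, Real.dist_eq, NNReal.coe_one, one_mul, abs_le]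
  constructor
  · have := key y x
    rw [abs_sub_comm] at this
    linarith only [this]
  · linarith [key x y]

/-- Jensen: the increment of a step is at most the tilted average. -/
lemma clo_gstep_sub_le {G : ℝ → ℝ} (hF : LipschitzWith 1 F) (hG : LipschitzWith 1 G) (hm : 0 < m)
    (hm1 : m ≤ 1) (x : ℝ) : gstep m v F x - gstep m v G x ≤
      (∫ z, (F (x + √v * z) - G (x + √v * z)) * Real.exp (m * F (x + √v * z))
        ∂(gaussianReal 0 1)) / ∫ z, Real.exp (m * F (x + √v * z)) ∂(gaussianReal 0 1) := by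
  set P := ∫ z, Real.exp (m * F (x + √v * z)) ∂(gaussianReal 0 1) with hP
  set Q := ∫ z, Real.exp (m * G (x + √v * z)) ∂(gaussianReal 0 1) with hQ
  set S := ∫ z, (F (x + √v * z) - G (x + √v * z)) * Real.exp (m * F (x + √v * z))
        ∂(gaussianReal 0 1) with hS
  have hPpos : 0 < P := clo_weight_pos hF hm hm1 x
  have hQpos : 0 < Q := clo_weight_pos hG hm hm1 x
  have hFm := hF.continuous.measurable
  have hGm := hG.continuous.measurable
  have hDb : ∀ z, |F (x + √v * z) - G (x + √v * z)| ≤
      (|F x - G x| + 2 * √v) * Real.exp (1 * |z|) := by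
    intro z
    have h1 := clo_lip hF x (√v * z)
    have h2 := clo_lip hG x (√v * z)
    rw [clo_abs_sqrt_mul] at h1 h2
    have h3 : |F (x + √v * z) - G (x + √v * z)| ≤ |F x - G x| + 2 * √v * |z| := by
      have h4 : F (x + √v * z) - G (x + √v * z) = (F x - G x) + ((F (x + √v * z) - F x) -
          (G (x + √v * z) - G x)) := by ring
      rw [h4]
      refine (abs_add_le _ _).trans ?_
      have := abs_sub (F (x + √v * z) - F x) (G (x + √v * z) - G x)
      linarith only [h1, h2, this]
    have h5 : |z| + 1 ≤ Real.exp |z| := Real.add_one_le_exp _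
    have h6 : 0 ≤ |F x - G x| := abs_nonneg _
    have h7 : 0 ≤ √v := Real.sqrt_nonneg v
    have h8 := abs_nonneg z
    rw [one_mul, add_mul]
    refine h3.trans (add_le_add ?_ ?_)
    · exact le_mul_of_one_le_right h6 (by linarith only [h5, h8])
    · exact mul_le_mul_of_nonneg_left (by linarith only [h5]) (by (clear * -; positivity))
  have hSint : Integrable (fun z => (F (x + √v * z) - G (x + √v * z)) *
      Real.exp (m * F (x + √v * z))) (gaussianReal 0 1) :=
    clo_int_mul_weight hF hm hm1 x (by fun_prop) hDb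
  set a := m * (S / P) with ha
  have hkey : Real.exp (-a) * P ≤ Q := by
    have h1 : ∀ z, Real.exp (-a) * ((1 + a) * Real.exp (m * F (x + √v * z)) -
        m * ((F (x + √v * z) - G (x + √v * z)) * Real.exp (m * F (x + √v * z)))) ≤
        Real.exp (m * G (x + √v * z)) := by
      intro z
      set f := F (x + √v * z)
      set g := G (x + √v * z)
      have h2 : (a - m * (f - g)) + 1 ≤ Real.exp (a - m * (f - g)) := Real.add_one_le_exp _
      calc Real.exp (-a) * ((1 + a) * Real.exp (m * f) - m * ((f - g) * Real.exp (m * f))) =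
          Real.exp (-a) * Real.exp (m * f) * ((a - m * (f - g)) + 1) := by ring
        _ ≤ Real.exp (-a) * Real.exp (m * f) * Real.exp (a - m * (f - g)) := by (clear * - h2; gcongr)
        _ = Real.exp (m * g) := by
            rw [← Real.exp_add, ← Real.exp_add]
            congr 1
            ring
    have h3 := integral_mono ((((clo_int_weight hF hm hm1 x).const_mul (1 + a)).sub
      (hSint.const_mul m)).const_mul (Real.exp (-a))) (clo_int_weight (v := v) hG hm hm1 x) h1
    refine le_trans (le_of_eq ?_) h3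
    rw [integral_const_mul, integral_sub' ((clo_int_weight hF hm hm1 x).const_mul (1 + a))
      (hSint.const_mul m), integral_const_mul, integral_const_mul, ← hP, ← hS]
    have h4 : m * S = a * P := by rw [ha]; (clear * - hPpos hm; field_simp)
    rw [h4]
    ring
  have h5 := Real.log_le_log (by (clear * - hPpos; positivity)) hkey
  rw [Real.log_mul (Real.exp_pos _).ne' hPpos.ne', Real.log_exp] at h5
  unfold gstep
  rw [← hP, ← hQ, ← mul_sub]
  calc 1 / m * (Real.log P - Real.log Q) ≤ 1 / m * a := by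
        refine mul_le_mul_of_nonneg_left (by linarith only [h5]) (by positivity)
    _ = S / P := by rw [ha]; (clear * - hm hPpos; field_simp)

/-- The constants of the one-step estimate. -/
noncomputable def cloK (R : ℝ) : ℝ := ∫ z, z ^ 2 * Real.exp (2 * √R * |z|) ∂(gaussianReal 0 1)

noncomputable def cloc (R : ℝ) : ℝ := ∫ z, Real.exp (-√R * |z|) ∂(gaussianReal 0 1)

lemma cloK_nonneg (R : ℝ) : 0 ≤ cloK R := integral_nonneg fun z => by (clear * -; positivity)

lemma cloc_pos (R : ℝ) : 0 < cloc R := integral_exp_pos (clo_integrable_exp_abs _)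

lemma clo_int_h2_le {v R : ℝ} (hv : 0 ≤ v) (hvR : v ≤ R) :
    ∫ z, (√v * z) ^ 2 * Real.exp (2 * (√v * |z|)) ∂(gaussianReal 0 1) ≤ v * cloK R := by
  unfold cloK
  rw [← integral_const_mul]
  refine integral_mono ?_ ((clo_integrable_sq_exp _).const_mul v) fun z => ?_
  · have := (clo_integrable_sq_exp (2 * √v)).const_mul v
    refine this.congr (Filter.Eventually.of_forall fun z => ?_)
    dsimp only
    rw [mul_pow, Real.sq_sqrt hv]
    ring_nf
  · dsimp only
    rw [mul_pow, Real.sq_sqrt hv, mul_assoc]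
    have h1 : √v ≤ √R := Real.sqrt_le_sqrt hvR
    have h2 : 2 * (√v * |z|) ≤ 2 * √R * |z| := by
      have := mul_le_mul_of_nonneg_right h1 (abs_nonneg z)
      linarith only [this]
    gcongr

/-- The tilted average of `cosh`. -/
lemma clo_tilt_cosh {v R : ℝ} (hv : 0 ≤ v) (hvR : v ≤ R) (hF : LipschitzWith 1 F) (hm : 0 < m)
    (hm1 : m ≤ 1) (x : ℝ) :
    (∫ z, Real.cosh (x + √v * z) * Real.exp (m * F (x + √v * z)) ∂(gaussianReal 0 1)) /
      (∫ z, Real.exp (m * F (x + √v * z)) ∂(gaussianReal 0 1)) ≤
      Real.cosh x * (1 + 2 * cloK R / cloc R * v) := by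
  set P := ∫ z, Real.exp (m * F (x + √v * z)) ∂(gaussianReal 0 1) with hP
  have hPpos : 0 < P := clo_weight_pos hF hm hm1 x
  set e0 := Real.exp (m * F x) with he0
  have he0pos : 0 < e0 := Real.exp_pos _
  set h : ℝ → ℝ := fun z => √v * z with hh
  set w : ℝ → ℝ := fun z => Real.exp (m * F (x + √v * z)) with hw
  have hwm : Measurable w := clo_meas_weight hF x
  have habs : ∀ z, |h z| = √v * |z| := fun z => clo_abs_sqrt_mul v z
  have hwle : ∀ z, w z ≤ e0 * Real.exp (√v * |z|) := fun z => clo_weight_le hF hm hm1 x z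
  -- growth
  have g1 : ∀ z, |Real.cosh (h z) - 1| ≤ 2 * Real.exp ((√v + √v + 1) * |z|) * (v + 1) := by
    intro z
    have h1 := clo_cosh_sub_one_le (h z)
    have h2 : 1 ≤ Real.cosh (h z) := Real.one_le_cosh _
    rw [abs_of_nonneg (by linarith only [h2])]
    refine h1.trans ?_
    rw [habs, hh]
    have h3 := clo_sq_exp_le (√v) z
    have h4 : Real.exp ((√v + 1) * |z|) ≤ Real.exp ((√v + √v + 1) * |z|) := by
      apply Real.exp_le_exp.2
      have := Real.sqrt_nonneg v
      have := abs_nonneg z
      linarith only [mul_nonneg (Real.sqrt_nonneg v) (abs_nonneg z)]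
    calc (√v * z) ^ 2 * Real.exp (√v * |z|) = v * (z ^ 2 * Real.exp (√v * |z|)) := by
          rw [mul_pow, Real.sq_sqrt hv]; ring
      _ ≤ v * (2 * Real.exp ((√v + 1) * |z|)) := by (clear * - h3 hv; gcongr)
      _ ≤ v * (2 * Real.exp ((√v + √v + 1) * |z|)) := by (clear * - h4 hv; gcongr)
      _ ≤ 2 * Real.exp ((√v + √v + 1) * |z|) * (v + 1) := by
          have := Real.exp_pos ((√v + √v + 1) * |z|)
          linarith only [this]
  have g2 : ∀ z, |Real.sinh (h z)| ≤ 1 * Real.exp (√v * |z|) := by
    intro z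
    rw [one_mul, Real.abs_sinh, Real.sinh_eq, habs]
    have h1 : Real.exp (-(√v * |z|)) ≤ Real.exp (√v * |z|) := by
      apply Real.exp_le_exp.2
      have : 0 ≤ √v * |z| := by (clear * -; positivity)
      linarith only [this]
    have h2 := Real.exp_pos (-(√v * |z|))
    linarith only [h1, h2]
  have i1 : Integrable (fun z => (Real.cosh (h z) - 1) * w z) (gaussianReal 0 1) := by
    refine clo_int_mul_weight hF hm hm1 x (by fun_prop) (C := 2 * (v + 1))
      (a := √v + √v + 1) fun z => ?_
    refine (g1 z).trans (le_of_eq ?_)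
    ring
  have i2 : Integrable (fun z => Real.sinh (h z) * w z) (gaussianReal 0 1) :=
    clo_int_mul_weight hF hm hm1 x (by fun_prop) g2
  have i0 : Integrable w (gaussianReal 0 1) := clo_int_weight hF hm hm1 x
  -- the main identity
  have e1 : ∫ z, Real.cosh (x + √v * z) * Real.exp (m * F (x + √v * z)) ∂(gaussianReal 0 1) =
      Real.cosh x * (P + ∫ z, (Real.cosh (h z) - 1) * w z ∂(gaussianReal 0 1)) +
        Real.sinh x * ∫ z, Real.sinh (h z) * w z ∂(gaussianReal 0 1) := by
    have i01 : Integrable (fun z => Real.cosh x * (w z + (Real.cosh (h z) - 1) * w z))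
        (gaussianReal 0 1) := (i0.add i1).const_mul _
    rw [hP, ← integral_add i0 i1, ← integral_const_mul, ← integral_const_mul,
      ← integral_add i01 (i2.const_mul _)]
    refine integral_congr_ae (Filter.Eventually.of_forall fun z => ?_)
    dsimp only
    rw [Real.cosh_add]
    ring
  -- the two estimates
  set K := ∫ z, (√v * z) ^ 2 * Real.exp (2 * (√v * |z|)) ∂(gaussianReal 0 1) with hK
  have hKi : Integrable (fun z => (√v * z) ^ 2 * Real.exp (2 * (√v * |z|)))
      (gaussianReal 0 1) := by
    have := (clo_integrable_sq_exp (2 * √v)).const_mul v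
    refine this.congr (Filter.Eventually.of_forall fun z => ?_)
    dsimp only
    rw [mul_pow, Real.sq_sqrt hv]
    ring_nf
  have hKle : K ≤ v * cloK R := clo_int_h2_le hv hvR
  have b1 : ∫ z, (Real.cosh (h z) - 1) * w z ∂(gaussianReal 0 1) ≤ e0 * K := by
    rw [hK, ← integral_const_mul]
    refine integral_mono i1 (hKi.const_mul e0) fun z => ?_
    have h1 := clo_cosh_sub_one_le (h z)
    have h2 : 1 ≤ Real.cosh (h z) := Real.one_le_cosh _
    rw [habs] at h1
    calc (Real.cosh (h z) - 1) * w z ≤ (h z ^ 2 * Real.exp (√v * |z|)) *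
          (e0 * Real.exp (√v * |z|)) :=
          mul_le_mul h1 (hwle z) (Real.exp_pos _).le (by (clear * -; positivity))
      _ = e0 * ((√v * z) ^ 2 * Real.exp (2 * (√v * |z|))) := by
          rw [two_mul, Real.exp_add]; ring
  have b2 : |∫ z, Real.sinh (h z) * w z ∂(gaussianReal 0 1)| ≤ e0 * K := by
    have s1 : ∫ z, Real.sinh (h z) * w z ∂(gaussianReal 0 1) =
        -∫ z, Real.sinh (h z) * w (-z) ∂(gaussianReal 0 1) := by
      rw [← clo_integral_neg (fun z => Real.sinh (h z) * w z), ← integral_neg]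
      refine integral_congr_ae (Filter.Eventually.of_forall fun z => ?_)
      simp only [hh]
      rw [mul_neg, Real.sinh_neg]
      ring
    have i3 : Integrable (fun z => Real.sinh (h z) * w (-z)) (gaussianReal 0 1) := by
      refine clo_integrable (by fun_prop) (C := e0) (a := √v + √v) fun z => ?_
      rw [abs_mul, abs_of_pos (show 0 < w (-z) from Real.exp_pos _)]
      have h1 := hwle (-z)
      rw [abs_neg] at h1
      calc |Real.sinh (h z)| * w (-z) ≤ (1 * Real.exp (√v * |z|)) * (e0 * Real.exp (√v * |z|)) :=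
            mul_le_mul (g2 z) h1 (Real.exp_pos _).le (by positivity)
        _ = e0 * Real.exp ((√v + √v) * |z|) := by rw [add_mul, Real.exp_add]; ring
    have s2 : ∫ z, Real.sinh (h z) * w z ∂(gaussianReal 0 1) =
        1 / 2 * ∫ z, Real.sinh (h z) * (w z - w (-z)) ∂(gaussianReal 0 1) := by
      have h1 : ∫ z, Real.sinh (h z) * (w z - w (-z)) ∂(gaussianReal 0 1) =
          ∫ z, Real.sinh (h z) * w z ∂(gaussianReal 0 1) -
            ∫ z, Real.sinh (h z) * w (-z) ∂(gaussianReal 0 1) := by
        rw [← integral_sub i2 i3]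
        refine integral_congr_ae (Filter.Eventually.of_forall fun z => ?_)
        ring
      rw [h1]
      linarith only [s1]
    rw [s2, abs_mul, abs_of_pos (by norm_num : (0 : ℝ) < 1 / 2)]
    have s3 : |∫ z, Real.sinh (h z) * (w z - w (-z)) ∂(gaussianReal 0 1)| ≤ 2 * (e0 * K) := by
      rw [hK, ← integral_const_mul, ← integral_const_mul, ← Real.norm_eq_abs]
      refine norm_integral_le_of_norm_le ((hKi.const_mul e0).const_mul 2)
        (Filter.Eventually.of_forall fun z => ?_)
      rw [Real.norm_eq_abs, abs_mul]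
      have h1 := clo_abs_sinh_le (h z)
      rw [habs] at h1
      have h2 : |w z - w (-z)| ≤ 2 * (√v * |z|) * (e0 * Real.exp (√v * |z|)) := by
        have h3 := clo_abs_exp_sub_exp_le (m * F (x + √v * z)) (m * F (x + √v * -z))
        have h4 := clo_lip hF x (√v * z)
        have h5 := clo_lip hF x (√v * -z)
        rw [clo_abs_sqrt_mul] at h4 h5
        rw [abs_neg] at h5
        have h6 : |m * F (x + √v * z) - m * F (x + √v * -z)| ≤ 2 * (√v * |z|) := by
          rw [← mul_sub, abs_mul, abs_of_pos hm]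
          have h7 : |F (x + √v * z) - F (x + √v * -z)| ≤ 2 * (√v * |z|) := by
            have := abs_sub (F (x + √v * z) - F x) (F (x + √v * -z) - F x)
            rw [sub_sub_sub_cancel_right] at this
            linarith only [h4, h5, this]
          calc m * |F (x + √v * z) - F (x + √v * -z)| ≤
              1 * |F (x + √v * z) - F (x + √v * -z)| := by (clear * - hm1; gcongr)
            _ ≤ _ := by rw [one_mul]; exact h7
        have h8 : Real.exp (max (m * F (x + √v * z)) (m * F (x + √v * -z))) ≤
            e0 * Real.exp (√v * |z|) := by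
          have h9 := hwle z
          have h10 := hwle (-z)
          rw [abs_neg] at h10
          rcases max_cases (m * F (x + √v * z)) (m * F (x + √v * -z)) with hc | hc
          · rw [hc.1]; exact h9
          · rw [hc.1]; exact h10
        exact h3.trans (mul_le_mul h6 h8 (Real.exp_pos _).le (by (clear * -; positivity)))
      calc |Real.sinh (h z)| * |w z - w (-z)| ≤ (√v * |z| * Real.exp (√v * |z|)) *
            (2 * (√v * |z|) * (e0 * Real.exp (√v * |z|))) :=
            mul_le_mul h1 h2 (abs_nonneg _) (by (clear * -; positivity))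
        _ = 2 * (e0 * ((√v * |z|) ^ 2 * (Real.exp (√v * |z|) * Real.exp (√v * |z|)))) := by ring
        _ = 2 * (e0 * ((√v * z) ^ 2 * Real.exp (2 * (√v * |z|)))) := by
            rw [← Real.exp_add, ← two_mul, mul_pow, sq_abs, ← mul_pow]
    linarith only [s3]
  have b3 : e0 * cloc R ≤ P := by
    unfold cloc
    rw [← integral_const_mul]
    refine integral_mono ((clo_integrable_exp_abs _).const_mul _) i0 fun z => ?_
    refine le_trans ?_ (clo_le_weight hF hm hm1 x z)
    dsimp only
    have h1 : √v ≤ √R := Real.sqrt_le_sqrt hvR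
    have h2 : -√R * |z| ≤ -(√v * |z|) := by
      have := mul_le_mul_of_nonneg_right h1 (abs_nonneg z)
      linarith only [this]
    (clear * - h2; gcongr)
  have hcpos := cloc_pos R
  have hK0 : 0 ≤ K := integral_nonneg fun z => by (clear * -; positivity)
  rw [e1, div_le_iff₀ hPpos]
  have hcosh : 1 ≤ Real.cosh x := Real.one_le_cosh x
  have hsinh : |Real.sinh x| ≤ Real.cosh x := by
    rw [Real.abs_sinh, Real.sinh_eq, ← Real.cosh_abs, Real.cosh_eq]
    have := Real.exp_pos (-|x|)
    linarith only [this]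
  have b4 : Real.sinh x * ∫ z, Real.sinh (h z) * w z ∂(gaussianReal 0 1) ≤
      Real.cosh x * (e0 * K) := by
    refine (le_abs_self _).trans ?_
    rw [abs_mul]
    exact mul_le_mul hsinh b2 (abs_nonneg _) (by linarith only [hcosh])
  have b5 : e0 * K ≤ P * (cloK R / cloc R * v) := by
    have h1 : e0 ≤ P / cloc R := by
      rw [le_div_iff₀ hcpos]; exact b3
    calc e0 * K ≤ P / cloc R * (v * cloK R) := by
          exact mul_le_mul h1 hKle hK0 (by (clear * - hPpos hcpos; positivity))
      _ = P * (cloK R / cloc R * v) := by ring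
  have b6 : Real.cosh x * (P + ∫ z, (Real.cosh (h z) - 1) * w z ∂(gaussianReal 0 1)) ≤
      Real.cosh x * (P + e0 * K) := by (clear * - b1; gcongr)
  have b7 : Real.cosh x * (e0 * K) ≤ Real.cosh x * (P * (cloK R / cloc R * v)) := by (clear * - b5; gcongr)
  calc _ ≤ Real.cosh x * (P + e0 * K) + Real.cosh x * (e0 * K) := add_le_add b6 b4
    _ = Real.cosh x * P + 2 * (Real.cosh x * (e0 * K)) := by ring
    _ ≤ Real.cosh x * P + 2 * (Real.cosh x * (P * (cloK R / cloc R * v))) := by linarith only [b7]
    _ = Real.cosh x * (1 + 2 * cloK R / cloc R * v) * P := by ring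

/-- One step of the cascade is stable. -/
lemma clo_step {G : ℝ → ℝ} {v R κ : ℝ} (hv : 0 ≤ v) (hvR : v ≤ R) (hF : LipschitzWith 1 F)
    (hG : LipschitzWith 1 G) (hm : 0 < m) (hm1 : m ≤ 1) (hκ : 0 ≤ κ)
    (hFG : ∀ x, |F x - G x| ≤ κ * Real.cosh x) (x : ℝ) :
    |gstep m v F x - gstep m v G x| ≤ κ * (1 + 2 * cloK R / cloc R * v) * Real.cosh x := by
  have key : ∀ {F G : ℝ → ℝ}, LipschitzWith 1 F → LipschitzWith 1 G →
      (∀ x, |F x - G x| ≤ κ * Real.cosh x) →
      gstep m v F x - gstep m v G x ≤ κ * (1 + 2 * cloK R / cloc R * v) * Real.cosh x := by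
    intro F G hF hG hFG
    refine (clo_gstep_sub_le hF hG hm hm1 x).trans ?_
    have h1 := clo_tilt_cosh hv hvR hF hm hm1 x
    have hP := clo_weight_pos (v := v) hF hm hm1 x
    have hFm := hF.continuous.measurable
    have hGm := hG.continuous.measurable
    have hcb : ∀ z, |Real.cosh (x + √v * z)| ≤ Real.exp |x| * Real.exp (√v * |z|) := by
      intro z
      rw [abs_of_pos (Real.cosh_pos _), ← Real.exp_add, ← Real.cosh_abs, Real.cosh_eq]
      have h2 : |x + √v * z| ≤ |x| + √v * |z| := by
        refine (abs_add_le _ _).trans ?_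
        rw [clo_abs_sqrt_mul]
      have h3 : Real.exp |x + √v * z| ≤ Real.exp (|x| + √v * |z|) := Real.exp_le_exp.2 h2
      have h4 : Real.exp (-|x + √v * z|) ≤ Real.exp |x + √v * z| := by
        apply Real.exp_le_exp.2
        have := abs_nonneg (x + √v * z)
        linarith only [this]
      linarith only [h3, h4]
    have i1 : Integrable (fun z => Real.cosh (x + √v * z) * Real.exp (m * F (x + √v * z)))
        (gaussianReal 0 1) := clo_int_mul_weight hF hm hm1 x (by fun_prop) hcb
    have i2 : Integrable (fun z => (F (x + √v * z) - G (x + √v * z)) *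
        Real.exp (m * F (x + √v * z))) (gaussianReal 0 1) := by
      refine clo_int_mul_weight hF hm hm1 x (by fun_prop) (C := κ * Real.exp |x|) (a := √v)
        fun z => (hFG _).trans ?_
      rw [mul_assoc]
      exact mul_le_mul_of_nonneg_left ((le_abs_self _).trans (hcb z)) hκ
    have h2 : ∫ z, (F (x + √v * z) - G (x + √v * z)) * Real.exp (m * F (x + √v * z))
        ∂(gaussianReal 0 1) ≤
        κ * ∫ z, Real.cosh (x + √v * z) * Real.exp (m * F (x + √v * z)) ∂(gaussianReal 0 1) := by
      rw [← integral_const_mul]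
      refine integral_mono i2 (i1.const_mul κ) fun z => ?_
      dsimp only
      rw [← mul_assoc]
      exact mul_le_mul_of_nonneg_right ((le_abs_self _).trans (hFG _)) (Real.exp_pos _).le
    calc _ ≤ (κ * ∫ z, Real.cosh (x + √v * z) * Real.exp (m * F (x + √v * z))
          ∂(gaussianReal 0 1)) / ∫ z, Real.exp (m * F (x + √v * z)) ∂(gaussianReal 0 1) :=
          div_le_div_of_nonneg_right h2 hP.le
      _ = κ * ((∫ z, Real.cosh (x + √v * z) * Real.exp (m * F (x + √v * z))
          ∂(gaussianReal 0 1)) / ∫ z, Real.exp (m * F (x + √v * z)) ∂(gaussianReal 0 1)) := by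
          rw [mul_div_assoc]
      _ ≤ κ * (Real.cosh x * (1 + 2 * cloK R / cloc R * v)) := by (clear * - h1 hκ; gcongr)
      _ = _ := by ring
  rw [abs_le]
  constructor
  · have := key hG hF fun x => by rw [abs_sub_comm]; exact hFG x
    linarith only [this]
  · exact key hF hG hFG

end step

/-! ### Uniform truncation -/

/-- The cascade is Lipschitz, with a constant depending only on the total variance. -/
theorem cascade_close : ∃ C : ℝ → ℝ, ∀ (R : ℝ) (k : ℕ) (m q : ℕ → ℝ) (F G : ℝ → ℝ) (κ : ℝ),
    (∀ l, 1 ≤ l → l ≤ k → 0 < m l ∧ m l ≤ 1) → (∀ l < k, q l ≤ q (l + 1)) → q k - q 0 ≤ R →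
    LipschitzWith 1 F → LipschitzWith 1 G → 0 ≤ κ → (∀ x, |F x - G x| ≤ κ * Real.cosh x) →
    ∀ x, |cascade m q k F x - cascade m q k G x| ≤ κ * C R * Real.cosh x := by
  refine ⟨fun R => Real.exp (2 * cloK R / cloc R * R), fun R k m q F G κ hm hq hR hF hG hκ hFG => ?_⟩
  set A := 2 * cloK R / cloc R with hA
  have hA0 : 0 ≤ A := div_nonneg (mul_nonneg (by norm_num) (cloK_nonneg R)) (cloc_pos R).le
  have hmono : ∀ a b, a ≤ b → b ≤ k → q a ≤ q b := by
    intro a b hab hb
    induction b, hab using Nat.le_induction with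
    | base => exact le_rfl
    | succ b hab ih => exact (ih (by omega)).trans (hq b (by omega))
  -- the precise induction
  have key : ∀ (j : ℕ) (F G : ℝ → ℝ) (κ : ℝ), j ≤ k → LipschitzWith 1 F → LipschitzWith 1 G →
      0 ≤ κ → (∀ x, |F x - G x| ≤ κ * Real.cosh x) →
      ∀ x, |cascade m q j F x - cascade m q j G x| ≤
        κ * Real.exp (A * (q j - q 0)) * Real.cosh x := by
    intro j
    induction j with
    | zero =>
      intro F G κ _ _ _ _ hFG x
      simpa only [cascade, sub_self, mul_zero, Real.exp_zero, mul_one] using hFG x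
    | succ j ih =>
      intro F G κ hj hF hG hκ hFG x
      obtain ⟨hm0, hm1⟩ := hm (j + 1) (by omega) hj
      have hv : 0 ≤ q (j + 1) - q j := sub_nonneg.2 (hq j (by (clear * - hj; omega)))
      have hvR : q (j + 1) - q j ≤ R := by
        have h1 := hmono 0 j (Nat.zero_le _) (by omega)
        have h2 := hmono (j + 1) k hj le_rfl
        linarith only [hR, h1, h2]
      have h1 := clo_step hv hvR hF hG hm0 hm1 hκ hFG
      rw [← hA] at h1
      have h2 := ih _ _ (κ * (1 + A * (q (j + 1) - q j))) (by omega) (clo_gstep_lip hF hm0 hm1 _)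
        (clo_gstep_lip hG hm0 hm1 _) (by (clear * - hκ hA0 hv; positivity)) h1 x
      change |cascade m q j (gstep (m (j + 1)) (q (j + 1) - q j) F) x -
        cascade m q j (gstep (m (j + 1)) (q (j + 1) - q j) G) x| ≤ _
      refine h2.trans ?_
      have h3 : A * (q (j + 1) - q j) + 1 ≤ Real.exp (A * (q (j + 1) - q j)) :=
        Real.add_one_le_exp _
      have h4 : Real.exp (A * (q (j + 1) - q 0)) =
          Real.exp (A * (q (j + 1) - q j)) * Real.exp (A * (q j - q 0)) := by
        rw [← Real.exp_add]; congr 1; ring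
      rw [h4]
      have hc := Real.cosh_pos x
      calc κ * (1 + A * (q (j + 1) - q j)) * Real.exp (A * (q j - q 0)) * Real.cosh x ≤
          κ * Real.exp (A * (q (j + 1) - q j)) * Real.exp (A * (q j - q 0)) * Real.cosh x := by
            gcongr
            linarith only [h3]
        _ = _ := by ring
  intro x
  refine (key k F G κ le_rfl hF hG hκ hFG x).trans ?_
  have hc := Real.cosh_pos x
  have hfin : Real.exp (A * (q k - q 0)) ≤ Real.exp (A * R) :=
    Real.exp_le_exp.2 (mul_le_mul_of_nonneg_left hR hA0)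
  exact mul_le_mul_of_nonneg_right (mul_le_mul_of_nonneg_left hfin hκ) hc.le

lemma clo_gstep_add_const {m v : ℝ} (hm : 0 < m) (hv : 0 ≤ v) (c x : ℝ) :
    gstep m v (fun x => x + c) x = x + (c + 1 / 2 * (m * v)) := by
  unfold gstep
  have h1 : ∀ z : ℝ, Real.exp (m * (x + √v * z + c)) =
      Real.exp (m * (x + c)) * Real.exp (m * √v * z) := by
    intro z
    rw [← Real.exp_add]
    congr 1
    ring
  simp only [h1]
  rw [integral_const_mul, clo_int_exp, ← Real.exp_add, Real.log_exp, mul_pow, Real.sq_sqrt hv]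
  field_simp
  ring

theorem cascade_id {m q : ℕ → ℝ} {k : ℕ} (hm : ∀ l, 1 ≤ l → l ≤ k → 0 < m l)
    (hq : ∀ l < k, q l ≤ q (l + 1)) (x : ℝ) :
    cascade m q k (fun x => x) x =
      x + 1 / 2 * ∑ l ∈ Finset.range k, m (l + 1) * (q (l + 1) - q l) := by
  have key : ∀ (j : ℕ) (c : ℝ), j ≤ k → cascade m q j (fun x => x + c) x =
      x + c + 1 / 2 * ∑ l ∈ Finset.range j, m (l + 1) * (q (l + 1) - q l) := by
    intro j
    induction j with
    | zero => intro c _; simp only [cascade, one_div, range_zero, sum_empty, mul_zero, add_zero]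
    | succ j ih =>
      intro c hj
      have h1 : gstep (m (j + 1)) (q (j + 1) - q j) (fun x => x + c) =
          fun x => x + (c + 1 / 2 * (m (j + 1) * (q (j + 1) - q j))) :=
        funext (clo_gstep_add_const (hm (j + 1) (by omega) hj)
          (sub_nonneg.2 (hq j (by omega))) c)
      change cascade m q j (gstep (m (j + 1)) (q (j + 1) - q j) (fun x => x + c)) x = _
      rw [h1, ih _ (by omega), Finset.sum_range_succ]
      ring
  have := key k 0 le_rfl
  simpa only [one_div, add_zero] using this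

theorem gstep_one_logcosh {τ : ℝ} (hτ : 0 ≤ τ) (x : ℝ) :
    gstep 1 τ (fun x => Real.log (Real.cosh x)) x = Real.log (Real.cosh x) + τ / 2 := by
  unfold gstep
  have h1 : ∀ z : ℝ, Real.exp (1 * Real.log (Real.cosh (x + √τ * z))) =
      Real.exp x / 2 * Real.exp (√τ * z) + Real.exp (-x) / 2 * Real.exp (-√τ * z) := by
    intro z
    rw [one_mul, Real.exp_log (Real.cosh_pos _), Real.cosh_eq, neg_add, Real.exp_add,
      Real.exp_add]
    rw [show -(√τ * z) = -√τ * z by ring]
    ring
  simp only [h1]
  rw [integral_add ((integrable_exp_mul_gaussianReal _).const_mul _)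
    ((integrable_exp_mul_gaussianReal _).const_mul _), integral_const_mul, integral_const_mul,
    clo_int_exp, clo_int_exp, neg_sq, Real.sq_sqrt hτ, ← add_mul]
  have h2 : Real.exp x / 2 + Real.exp (-x) / 2 = Real.cosh x := by rw [Real.cosh_eq]; ring
  rw [h2, Real.log_mul (Real.cosh_pos x).ne' (Real.exp_pos _).ne', Real.log_exp]
  ring

theorem gstep_one_id {τ : ℝ} (hτ : 0 ≤ τ) (x : ℝ) : gstep 1 τ (fun x => x) x = x + τ / 2 := by
  have h := clo_gstep_add_const (m := 1) one_pos hτ 0 x
  simp only [add_zero, zero_add, one_mul] at h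
  rw [h]
  ring

end Vale.Agent.P157.Par
end

section

open MeasureTheory ProbabilityTheory Complex

namespace Vale.Agent.P157

end Vale.Agent.P157
end

section

open MeasureTheory ProbabilityTheory

namespace Vale.Agent.P157

end Vale.Agent.P157
end
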