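import Vale.Agent.P157.Bdl.B1
import Vale.Agent.P157.Bdl.B2
import Vale.Agent.P157.Defs
import Vale.Agent.P157.Bdl.B4
import Vale.Agent.P157.Bdl.B3
attribute [-instance] ProperSMul.toContinuousSMul IsTopologicalTorsor.toContinuousSMul IdemSemiring.toCanonicallyOrderedAdd IdemSemiring.toMulLeftMono IdemSemiring.toMulRightMono AddQuantale.instAddLeftMono AddQuantale.instAddRightMono Quantale.instMulLeftMono Quantale.instMulRightMono FiniteDimensional.rclike_to_real IsScalarTower.complexToReal FiniteDimensional.complexToReal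

set_option linter.all false

section

/-! Concentration of the free energy of the perturbed system, for flat features. -/

open MeasureTheory ProbabilityTheory Filter Topology
open scoped RealInnerProductSpace

namespace Vale.Agent.P157.Par

set_option linter.unusedSectionVars false

/-- Functions of the base disorder which vary less than the Hamiltonian have variance at
most `v`. -/
def Base.Conc (B : Base) (v : ℝ) : Prop :=
  ∀ g : B.Ω → ℝ, Measurable g → MemLp g 2 B.P →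
    (∀ ω ω' C, (∀ x, |B.H ω x - B.H ω' x| ≤ C) → |g ω - g ω'| ≤ C) → VV B.P g ≤ v

/-- The base whose disorder consists of `M` independent patterns. -/
noncomputable def patBase {E : Type} [mE : MeasurableSpace E] (μ : Measure E) [hμ : IsProbabilityMeasure μ]
    (M : ℕ) {X : Type} [fX : Fintype X] [nX : Nonempty X] (H : (Fin M → E) → X → ℝ)
    (hH : ∀ x, Measurable fun ω => H ω x) (K : ℝ) (hK : ∀ ω x, |H ω x| ≤ K) {d : ℕ}
    (φ : X → EuclideanSpace ℝ (Fin d)) (hφ : ∀ x, ‖φ x‖ = 1) : Base where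
  Ω := Fin M → E
  mΩ := inferInstance
  P := Measure.pi fun _ => μ
  hP := inferInstance
  X := X
  fX := fX
  nX := nX
  H := H
  hH := hH
  K := K
  hK := hK
  d := d
  φ := φ
  hφ := hφ

lemma conc_patBase {E : Type} [mE : MeasurableSpace E] (μ : Measure E)
    [hμ : IsProbabilityMeasure μ]
    (M : ℕ) {X : Type} [fX : Fintype X] [nX : Nonempty X] (H : (Fin M → E) → X → ℝ)
    (hH : ∀ x, Measurable fun ω => H ω x) (K : ℝ) (hK : ∀ ω x, |H ω x| ≤ K) {d : ℕ}
    (φ : X → EuclideanSpace ℝ (Fin d)) (hφ : ∀ x, ‖φ x‖ = 1) {L : ℝ}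
    (hd : ∀ ω a e x, |H (Function.update ω a e) x - H ω x| ≤ L) :
    (patBase μ M H hH K hK φ hφ).Conc (M * L ^ 2) := by
  intro g hg hg2 hgd
  have h := ES_pi μ (ι := Fin M) (ρ := fun _ => 1) (f := g) (by simp only [one_pow, enorm_one, ne_eq, ENNReal.one_ne_top, not_false_eq_true, integrable_const_enorm]) (by simp only [one_pow, integral_const, probReal_univ, smul_eq_mul, mul_one, Nat.one_le_ofNat]) hg2
    (fun _ => L) (fun ω a e => by
      rw [mul_one]
      refine hgd ω (Function.update ω a e) L fun x => ?_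
      rw [abs_sub_comm]
      exact hd ω a e x)
  have h' : VV (Measure.pi fun _ : Fin M => μ) g ≤ M * L ^ 2 := by simpa only [Finset.sum_const, Finset.card_univ, Fintype.card_fin, nsmul_eq_mul] using h
  exact h'

namespace Base

variable (B : Base) {P : ℕ} (s : ℝ) (u : Fin P → ℝ)

lemma gen_update_sub (ω : B.Ω) (a : GI P B.d → B.X → ℝ) (g : GI P B.d → ℝ) (e : GI P B.d)
    (y : ℝ) (x : B.X) :
    gen (B.H ω) a g x - gen (B.H ω) a (Function.update g e y) x = (g e - y) * a e x := by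
  classical
  have h1 := gen_update (B.H ω) a g e y
  have h2 := gen_update (B.H ω) a g e (g e)
  rw [Function.update_eq_self] at h2
  rw [h1, h2]
  ring

lemma lz_update_le (ω : B.Ω) (g : GI P B.d → ℝ) (e : GI P B.d) (y : ℝ) {A : ℝ}
    (hA : ∀ x, |B.coef P s u e x| ≤ A) :
    |B.lz s u (ω, g) - B.lz s u (ω, Function.update g e y)| ≤ A * |g e - y| := by
  unfold lz
  refine abs_glog_sub_le fun x => ?_
  rw [gen_update_sub, abs_mul, mul_comm]
  exact mul_le_mul_of_nonneg_right (hA x) (abs_nonneg _)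

lemma lz_base_le (ω ω' : B.Ω) (g : GI P B.d → ℝ) {C : ℝ}
    (hC : ∀ x, |B.H ω x - B.H ω' x| ≤ C) :
    |B.lz s u (ω, g) - B.lz s u (ω', g)| ≤ C := by
  unfold lz
  refine abs_glog_sub_le fun x => ?_
  unfold gen
  simp only [add_sub_add_right_eq_sub]
  exact hC x

lemma gauss_pair : Integrable (fun z : ℝ × ℝ => |z.1 - z.2| ^ 2)
    ((gaussianReal 0 1).prod (gaussianReal 0 1)) ∧
    ∫ z : ℝ × ℝ, |z.1 - z.2| ^ 2 ∂((gaussianReal 0 1).prod (gaussianReal 0 1)) ≤ 2 := by
  have h : MemLp (fun x : ℝ => x) 2 (gaussianReal 0 1) := memLp_id_gaussianReal 2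
  constructor
  · simp only [sq_abs]
    exact ((h.comp_fst _).sub (h.comp_snd _)).integrable_sq
  · simp only [sq_abs]
    rw [VV_pair (gaussianReal 0 1) h]
    have h1 : VV (gaussianReal 0 1) (fun x : ℝ => x) = 1 := by
      rw [VV_eq _ h]
      have h2 := variance_eq_integral (μ := gaussianReal 0 1) (X := fun x : ℝ => x)
        measurable_id.aemeasurable
      rw [← h2]
      exact variance_fun_id_gaussianReal
    rw [h1]
    norm_num

/-- The coefficients are small if the features are flat. -/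
lemma coef_le_of_flat (hflat : ∀ x i, B.φ x i ^ 2 ≤ 1 / B.d) (e : GI P B.d) (x : B.X) :
    |B.coef P s u e x| ≤ |s * u e.1 * (1 / 2) ^ ((e.1 : ℕ) + 1)| *
      Real.sqrt ((1 / B.d) ^ ((e.1 : ℕ) + 1)) := by
  unfold coef
  rw [abs_mul]
  refine mul_le_mul_of_nonneg_left ?_ (abs_nonneg _)
  refine Real.le_sqrt_of_sq_le ?_
  rw [sq_abs, ← Finset.prod_pow]
  calc ∏ r, B.φ x (e.2 r) ^ 2 ≤ ∏ _r : Fin ((e.1 : ℕ) + 1), (1 / (B.d : ℝ)) :=
        Finset.prod_le_prod (fun _ _ => sq_nonneg _) fun r _ => hflat x _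
    _ = _ := by simp only [one_div, Finset.prod_inv_distrib, Finset.prod_const, Finset.card_univ, Fintype.card_fin, inv_pow]

lemma d_pos : 0 < B.d := by
  rcases Nat.eq_zero_or_pos B.d with h | h
  · exfalso
    obtain ⟨x⟩ := B.nX
    have h1 := B.hφ x
    have h2 : B.φ x = 0 := by
      ext i
      exact absurd i.2 (by omega)
    rw [h2, norm_zero] at h1
    exact zero_ne_one h1
  · exact h

lemma sum_coef_sq (hu : ∀ q, 0 ≤ u q ∧ u q ≤ 3) :
    ∑ e : GI P B.d, (|s * u e.1 * (1 / 2) ^ ((e.1 : ℕ) + 1)| *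
      Real.sqrt ((1 / B.d) ^ ((e.1 : ℕ) + 1))) ^ 2 ≤ 3 * s ^ 2 := by
  have hd : (0 : ℝ) < B.d := by exact_mod_cast B.d_pos
  have e1 : ∀ e : GI P B.d, (|s * u e.1 * (1 / 2) ^ ((e.1 : ℕ) + 1)| *
      Real.sqrt ((1 / B.d) ^ ((e.1 : ℕ) + 1))) ^ 2 =
      s ^ 2 * u e.1 ^ 2 * (1 / 4) ^ ((e.1 : ℕ) + 1) * (1 / B.d) ^ ((e.1 : ℕ) + 1) := by
    intro e
    rw [mul_pow, sq_abs, Real.sq_sqrt (by (clear * - hd; positivity)), mul_pow, mul_pow, ← pow_mul,
      mul_comm _ 2, pow_mul]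
    norm_num
  simp only [e1]
  rw [Fintype.sum_sigma]
  have e2 : ∀ p : Fin P, ∑ _k : Fin ((p : ℕ) + 1) → Fin B.d,
      s ^ 2 * u p ^ 2 * (1 / 4) ^ ((p : ℕ) + 1) * (1 / (B.d : ℝ)) ^ ((p : ℕ) + 1) =
      s ^ 2 * (u p ^ 2 * (1 / 4) ^ ((p : ℕ) + 1)) := by
    intro p
    rw [Finset.sum_const, Finset.card_univ, Fintype.card_fun, Fintype.card_fin,
      Fintype.card_fin, nsmul_eq_mul]
    push_cast
    have h : (B.d : ℝ) ^ ((p : ℕ) + 1) * (1 / (B.d : ℝ)) ^ ((p : ℕ) + 1) = 1 := by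
      rw [← mul_pow, mul_one_div_cancel hd.ne', one_pow]
    calc _ = ((B.d : ℝ) ^ ((p : ℕ) + 1) * (1 / (B.d : ℝ)) ^ ((p : ℕ) + 1)) *
          (s ^ 2 * (u p ^ 2 * (1 / 4) ^ ((p : ℕ) + 1))) := by ring
      _ = _ := by rw [h, one_mul]
  simp only [e2]
  rw [← Finset.mul_sum]
  have e3 : ∑ p : Fin P, u p ^ 2 * (1 / 4 : ℝ) ^ ((p : ℕ) + 1) ≤ 3 := by
    calc ∑ p : Fin P, u p ^ 2 * (1 / 4 : ℝ) ^ ((p : ℕ) + 1)
        ≤ ∑ p : Fin P, 9 * (1 / 4 : ℝ) ^ ((p : ℕ) + 1) := by
          refine Finset.sum_le_sum fun p _ => mul_le_mul_of_nonneg_right ?_ (by positivity)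
          have := hu p
          nlinarith only [this]
      _ = 9 / 4 * ∑ p : Fin P, (1 / 4 : ℝ) ^ (p : ℕ) := by
          rw [Finset.mul_sum]
          exact Finset.sum_congr rfl fun p _ => by ring
      _ = 9 / 4 * ∑ p ∈ Finset.range P, (1 / 4 : ℝ) ^ p := by
          rw [Fin.sum_univ_eq_sum_range (fun p => (1 / 4 : ℝ) ^ p)]
      _ ≤ 9 / 4 * (4 / 3) := by
          refine mul_le_mul_of_nonneg_left ?_ (by norm_num)
          rw [geom_sum_eq (by norm_num)]
          have : (0 : ℝ) ≤ (1 / 4) ^ P := by positivity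
          rw [div_le_iff_of_neg (by norm_num)]
          linarith only [this]
      _ = 3 := by norm_num
  calc s ^ 2 * ∑ p : Fin P, u p ^ 2 * (1 / 4 : ℝ) ^ ((p : ℕ) + 1) ≤ s ^ 2 * 3 :=
        mul_le_mul_of_nonneg_left e3 (sq_nonneg _)
    _ = 3 * s ^ 2 := by ring

lemma int_lz_section (ω : B.Ω) :
    Integrable (fun g => B.lz s u (ω, g)) (P367.GT.gM (GI P B.d)) := by
  have hm : Measurable fun g : GI P B.d → ℝ => B.lz s u (ω, g) :=
    (B.meas_lz s u).comp measurable_prodMk_left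
  have hc : ∀ e : GI P B.d, Integrable (fun g : GI P B.d → ℝ => |g e|)
      (P367.GT.gM (GI P B.d)) := fun e =>
    (integrable_comp_eval (μ := fun _ : GI P B.d => gaussianReal 0 1) (i := e) (f := fun x => x)
      ((memLp_id_gaussianReal 1).integrable le_rfl)).abs
  have hb : ∀ p : Fin P, Integrable (fun g : GI P B.d → ℝ => B.hb p (ω, g))
      (P367.GT.gM (GI P B.d)) := fun p => by
    unfold hb
    exact integrable_finsetSum _ fun k _ => hc ⟨p, k⟩
  have hi : Integrable (fun g : GI P B.d → ℝ => |Real.log (Fintype.card B.X)| +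
      (B.K + |s| * ∑ p, |u p| * B.hb p (ω, g))) (P367.GT.gM (GI P B.d)) := by
    have h1 : Integrable (fun g : GI P B.d → ℝ => ∑ p, |u p| * B.hb p (ω, g))
        (P367.GT.gM (GI P B.d)) := integrable_finsetSum _ fun p _ => (hb p).const_mul _
    have h2 : Integrable (fun g : GI P B.d → ℝ => B.K + |s| * ∑ p, |u p| * B.hb p (ω, g))
        (P367.GT.gM (GI P B.d)) := (integrable_const _).add (h1.const_mul _)
    exact (integrable_const _).add h2
  refine hi.mono' hm.aestronglyMeasurable (Filter.Eventually.of_forall fun g => ?_)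
  rw [Real.norm_eq_abs]
  exact B.abs_lz_le s u (ω, g)

/-- The variance of the free energy of the perturbed system. -/
theorem VV_lz_le {v : ℝ} (hc : B.Conc v) (hflat : ∀ x i, B.φ x i ^ 2 ≤ 1 / B.d)
    (hu : ∀ q, 0 ≤ u q ∧ u q ≤ 3) : VV (B.jl (GI P B.d)) (B.lz s u) ≤ 3 * s ^ 2 + v := by
  classical
  refine VV_prod_le B.P (P367.GT.gM (GI P B.d)) (B.memLp_lz s u) ?_ ?_
  · intro ω hω
    refine (ES_pi (gaussianReal 0 1) (ρ := fun z => |z.1 - z.2|) gauss_pair.1 gauss_pair.2 hω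
      (fun e => |s * u e.1 * (1 / 2) ^ ((e.1 : ℕ) + 1)| *
        Real.sqrt ((1 / B.d) ^ ((e.1 : ℕ) + 1))) (fun g e y => ?_)).trans
      (B.sum_coef_sq s u hu)
    exact B.lz_update_le s u ω g e y fun x => B.coef_le_of_flat s u hflat e x
  · intro hg
    refine hc _ ?_ hg ?_
    · exact ((B.meas_lz s u).stronglyMeasurable.integral_prod_right'
        (ν := P367.GT.gM (GI P B.d))).measurable
    · intro ω ω' C hC
      have hi : ∀ ω, Integrable (fun y => B.lz s u (ω, y)) (P367.GT.gM (GI P B.d)) := by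
        intro ω
        exact B.int_lz_section s u ω
      rw [← integral_sub (hi ω) (hi ω')]
      refine (abs_integral_le_integral_abs).trans ?_
      have h4 := integral_mono ((hi ω).sub (hi ω')).abs
          (integrable_const (μ := P367.GT.gM (GI P B.d)) C)
          (fun g => B.lz_base_le s u ω ω' g hC)
      simpa only [ge_iff_le, Pi.sub_apply, integral_const, probReal_univ, smul_eq_mul, one_mul] using h4

/-- The expected deviation of the free energy of the perturbed system. -/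
theorem dlz_le {v : ℝ} (hc : B.Conc v) (hflat : ∀ x i, B.φ x i ^ 2 ≤ 1 / B.d)
    (hu : ∀ q, 0 ≤ u q ∧ u q ≤ 3) : B.dlz s u ≤ Real.sqrt (3 * s ^ 2 + v) :=
  (l1_le_sqrt_VV (B.jl (GI P B.d)) (B.memLp_lz s u)).trans
    (Real.sqrt_le_sqrt (B.VV_lz_le s u hc hflat hu))

/-- The average over the parameters of the fluctuation of the `p`-th process. -/
theorem integral_dev_le_flat (hs : 0 < s) (p : Fin P) {η v : ℝ} (h0 : 0 < η) (h1 : η ≤ 1)
    (hc : B.Conc v) (hflat : ∀ x i, B.φ x i ^ 2 ≤ 1 / B.d) :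
    ∫ u, B.dev P s u p (B.mh P s u p) ∂(nuP P) ≤
      5 / 2 + 3 * Real.sqrt (3 * s ^ 2 + v) / (η * (s * (1 / 2) ^ ((p : ℕ) + 1))) +
        12 * η * (s * (1 / 2) ^ ((p : ℕ) + 1)) :=
  B.integral_dev_le s hs p h0 h1 fun u hu => B.dlz_le s u hc hflat hu

/-- Convenient form: if `v ≤ A d`, `1 ≤ s`, `s^2 ≤ d` and `d^(1/2) ≤ s^2`, then the average over
the parameters of the fluctuation of the `p`-th process is at most `C d^(1/4)`. -/
theorem integral_dev_le_sqrt (hs : 1 ≤ s) (p : Fin P) {A : ℝ} (hA : 0 ≤ A)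
    (hc : B.Conc (A * B.d)) (hflat : ∀ x i, B.φ x i ^ 2 ≤ 1 / B.d)
    (hs1 : s ^ 2 ≤ B.d) (hs2 : Real.sqrt B.d ≤ s ^ 2) :
    ∫ u, B.dev P s u p (B.mh P s u p) ∂(nuP P) ≤
      2 ^ ((p : ℕ) + 1) * (15 + 3 * Real.sqrt (3 + A)) * Real.sqrt (Real.sqrt B.d) := by
  have hd1 : (1 : ℝ) ≤ B.d := by exact_mod_cast B.d_pos
  have hs0 : 0 < s := by linarith only [hs]
  set q := Real.sqrt (Real.sqrt B.d) with hq
  have hq4 : q ^ 2 = Real.sqrt B.d := Real.sq_sqrt (Real.sqrt_nonneg _)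
  have hsd : Real.sqrt B.d ^ 2 = B.d := Real.sq_sqrt (by linarith only [])
  have hq1 : 1 ≤ q := by
    rw [hq]
    exact Real.one_le_sqrt.2 (Real.one_le_sqrt.2 hd1)
  have hqs : q ≤ s := by
    rw [← hq4] at hs2
    exact (sq_le_sq₀ (by linarith only [hq1]) hs0.le).1 hs2
  have h := B.integral_dev_le_flat s hs0 p (η := q / s) (by (clear * - hd1 hs; positivity))
    (by rw [div_le_one hs0]; exact hqs) hc hflat
  refine h.trans ?_
  have hc1 : (0 : ℝ) < (1 / 2) ^ ((p : ℕ) + 1) := by positivity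
  have hc2 : ((1 : ℝ) / 2) ^ ((p : ℕ) + 1) ≤ 1 := pow_le_one₀ (by norm_num) (by norm_num)
  have hc3 : (2 : ℝ) ^ ((p : ℕ) + 1) * (1 / 2) ^ ((p : ℕ) + 1) = 1 := by
    rw [← mul_pow]; norm_num
  have hc4 : (1 : ℝ) ≤ 2 ^ ((p : ℕ) + 1) := one_le_pow₀ (by norm_num)
  have b1 : Real.sqrt (3 * s ^ 2 + A * B.d) ≤ Real.sqrt (3 + A) * q ^ 2 := by
    rw [hq4, ← Real.sqrt_mul (by linarith only [hA])]
    exact Real.sqrt_le_sqrt (by linarith only [hs1])
  have e1 : q / s * (s * (1 / 2) ^ ((p : ℕ) + 1)) = q * (1 / 2) ^ ((p : ℕ) + 1) := by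
    (clear * - hs hq1; field_simp)
  have e2 : 12 * (q / s) * (s * (1 / 2) ^ ((p : ℕ) + 1)) = 12 * (q * (1 / 2) ^ ((p : ℕ) + 1)) := by
    rw [mul_assoc, e1]
  rw [e1, e2]
  have b2 : 3 * Real.sqrt (3 * s ^ 2 + A * B.d) / (q * (1 / 2) ^ ((p : ℕ) + 1)) ≤
      2 ^ ((p : ℕ) + 1) * (3 * Real.sqrt (3 + A)) * q := by
    rw [div_le_iff₀ (by (clear * - hd1; positivity))]
    calc 3 * Real.sqrt (3 * s ^ 2 + A * B.d) ≤ 3 * (Real.sqrt (3 + A) * q ^ 2) := by linarith only [b1]
      _ = (2 ^ ((p : ℕ) + 1) * (1 / 2) ^ ((p : ℕ) + 1)) * (3 * (Real.sqrt (3 + A) * q ^ 2)) := by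
          rw [hc3, one_mul]
      _ = _ := by ring
  have b3 : (5 : ℝ) / 2 ≤ 3 * (2 ^ ((p : ℕ) + 1) * q) := by linarith only [mul_nonneg (sub_nonneg.2 hq1) (sub_nonneg.2 hc4), hc4, hq1]
  have b4 : 12 * (q * (1 / 2) ^ ((p : ℕ) + 1)) ≤ 12 * (2 ^ ((p : ℕ) + 1) * q) := by nlinarith only [hc2, hc4, hq1]
  linarith only [b2, b3, b4]

end Base

end Vale.Agent.P157.Par
end

section

/-! Ghirlanda-Guerra identities for perturbed systems.

Main results (namespace `Vale.Agent.P157.Par`):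
* `Base`, `Base.sys B P s u : Sys` (the perturbed system), `Base.sys_w` (its weights),
* `Base.ggDefect_le`, `Base.ggDefect_le_mh`, `Sys.ggDefect_zero`,
* `patBase`, `conc_patBase` (independent patterns),
* `Base.integral_dev_le`, `Base.integral_dev_le_flat`, `Base.integral_dev_le_sqrt`,
* `Base.cont_dev`, `Base.cont_mh`, `Base.cont_elz`, `nuP`, `ae_nuP`, `int_nuP`,
* `asympGG_of_dev`. -/

open MeasureTheory ProbabilityTheory Filter Topology
open scoped RealInnerProductSpace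

namespace Vale.Agent.P157.Par

/-- If the fluctuations of the perturbations are small compared to `s N`, the Ghirlanda-Guerra
identities hold asymptotically for all monomials. -/
theorem asympGG_of_dev {U : Ultrafilter ℕ} (B : ℕ → Base) (P : ℕ → ℕ) (s : ℕ → ℝ)
    (u : ∀ N, Fin (P N) → ℝ) (hs : ∀ᶠ N in (U : Filter ℕ), 0 < s N)
    (hu : ∀ᶠ N in (U : Filter ℕ), ∀ q, 1 ≤ u N q) (c : ∀ N, Fin (P N) → ℝ)
    (hP : ∀ p : ℕ, ∀ᶠ N in (U : Filter ℕ), p < P N)
    (hdev : ∀ (p : ℕ) (ε : ℝ), 0 < ε → ∀ᶠ N in (U : Filter ℕ), ∀ h : p < P N,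
      (B N).dev (P N) (s N) (u N) ⟨p, h⟩ (c N ⟨p, h⟩) ≤ ε * s N) (p : ℕ) :
    AsympGG U (fun N => (B N).sys (P N) (s N) (u N)) (fun x => x ^ p) := by
  intro n i ε hε
  cases p with
  | zero =>
    refine Filter.Eventually.of_forall fun N F _ => ?_
    rw [Sys.ggDefect_zero]
    simpa only [abs_zero] using hε.le
  | succ p =>
    filter_upwards [hs, hu, hP p, hdev p (ε / (2 * 2 ^ (p + 1))) (by (clear * - hε; positivity))]
      with N hsN huN hPN hdN F hF
    have h := (B N).ggDefect_le (P N) (s N) (u N) hsN ⟨p, hPN⟩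
      (by linarith only [huN ⟨p, hPN⟩]) (c N ⟨p, hPN⟩) i F hF
    refine h.trans ?_
    have hd := hdN hPN
    have h2 : (0 : ℝ) < (1 / 2) ^ (p + 1) := by positivity
    have h3 : (2 : ℝ) ^ (p + 1) * (1 / 2) ^ (p + 1) = 1 := by rw [← mul_pow]; norm_num
    have huq := huN ⟨p, hPN⟩
    have hden : 0 < s N * u N ⟨p, hPN⟩ * (1 / 2) ^ (p + 1) := by (clear * - hPN hsN huq; positivity)
    rw [div_le_iff₀ hden]
    have h4 : 2 * (ε / (2 * 2 ^ (p + 1)) * s N) = ε * (s N * 1 * (1 / 2) ^ (p + 1)) := by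
      have h5 : ((1 : ℝ) / 2) ^ (p + 1) = 1 / 2 ^ (p + 1) := by rw [one_div_pow]
      rw [h5]
      (clear * - hsN hε; field_simp)
    calc 2 * (B N).dev (P N) (s N) (u N) ⟨p, hPN⟩ (c N ⟨p, hPN⟩)
        ≤ 2 * (ε / (2 * 2 ^ (p + 1)) * s N) := by linarith only [hd]
      _ = ε * (s N * 1 * (1 / 2) ^ (p + 1)) := h4
      _ ≤ ε * (s N * u N ⟨p, hPN⟩ * (1 / 2) ^ (p + 1)) := by
          refine mul_le_mul_of_nonneg_left ?_ hε.le
          refine mul_le_mul_of_nonneg_right ?_ h2.le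
          exact mul_le_mul_of_nonneg_left huq hsN.le

end Vale.Agent.P157.Par
end

section

open MeasureTheory ProbabilityTheory Filter Topology Finset

namespace Vale.Agent.P157.Par

open Vale.Agent.P367.GT (gM)

/-- Functions with three bounded derivatives. -/
structure CB3 (C : ℝ) (f f1 f2 f3 : ℝ → ℝ) : Prop where
  d1 : ∀ x, HasDerivAt f (f1 x) x
  d2 : ∀ x, HasDerivAt f1 (f2 x) x
  d3 : ∀ x, HasDerivAt f2 (f3 x) x
  b0 : ∀ x, |f x| ≤ C
  b1 : ∀ x, |f1 x| ≤ C
  b2 : ∀ x, |f2 x| ≤ C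
  b3 : ∀ x, |f3 x| ≤ C

/-- the linearized energy of one pattern; `S` is the field of the system, `H` the new field -/
noncomputable def linE (δ : ℝ) (f f1 f2 : ℝ → ℝ) (S H : ℝ) : ℝ :=
  f S + √δ * f1 S * H + δ / 2 * (f2 S - S * f1 S)

namespace Lin

/-- exponential constant -/
noncomputable def cc (C : ℝ) : ℝ := 2 * C ^ 2 + 6 * C + 5

lemma absorb {C T : ℝ} (hC : 0 ≤ C) (hT : 1 ≤ T) :
    Real.exp C * ((2 * C ^ 2 + 4 * C + 1) * T ^ 4 * Real.exp (C * T)) ≤ Real.exp (cc C * T) := by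
  have hk : 0 ≤ 2 * C ^ 2 + 4 * C + 1 := by positivity
  have e1 : Real.exp C ≤ Real.exp (C * T) := Real.exp_le_exp.2 (le_mul_of_one_le_right hC hT)
  have e2 : 2 * C ^ 2 + 4 * C + 1 ≤ Real.exp ((2 * C ^ 2 + 4 * C + 1) * T) := by
    have h1 := Real.add_one_le_exp ((2 * C ^ 2 + 4 * C + 1) * T)
    have h2 := le_mul_of_one_le_right hk hT
    linarith only [h1, h2]
  have e3 : T ^ 4 ≤ Real.exp (4 * T) := by
    have h1 : T ≤ Real.exp T := by linarith only [Real.add_one_le_exp T]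
    calc T ^ 4 ≤ Real.exp T ^ 4 := pow_le_pow_left₀ (by linarith) h1 4
      _ = Real.exp (4 * T) := by rw [← Real.exp_nat_mul]; norm_num
  have hT0 : 0 ≤ T := by linarith only [hT]
  calc Real.exp C * ((2 * C ^ 2 + 4 * C + 1) * T ^ 4 * Real.exp (C * T))
      ≤ Real.exp (C * T) * (Real.exp ((2 * C ^ 2 + 4 * C + 1) * T) * Real.exp (4 * T)
          * Real.exp (C * T)) := by gcongr
    _ = Real.exp (cc C * T) := by
        rw [← Real.exp_add, ← Real.exp_add, ← Real.exp_add]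
        congr 1
        unfold cc
        ring

lemma mvt {g g' : ℝ → ℝ} {M x : ℝ} (hd : ∀ y, HasDerivAt g (g' y) y)
    (hM : ∀ y, |y| ≤ |x| → |g' y| ≤ M) : |g x - g 0| ≤ M * |x| := by
  have h := Convex.norm_image_sub_le_of_norm_hasDerivWithin_le (f := g) (f' := g') (C := M)
    (s := Metric.closedBall (0 : ℝ) |x|) (x := 0) (y := x)
    (fun y _ => (hd y).hasDerivWithinAt)
    (fun y hy => by
      rw [mem_closedBall_zero_iff, Real.norm_eq_abs] at hy
      exact hM y hy)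
    (convex_closedBall _ _) (Metric.mem_closedBall_self (abs_nonneg _))
    (by rw [mem_closedBall_zero_iff, Real.norm_eq_abs])
  rw [sub_zero] at h
  exact h

variable {C : ℝ} {f f1 f2 f3 : ℝ → ℝ}

lemma C_nonneg (hf : CB3 C f f1 f2 f3) : 0 ≤ C := (abs_nonneg _).trans (hf.b0 0)

lemma lip (hf : CB3 C f f1 f2 f3) (s x : ℝ) : |f (s + x) - f s| ≤ C * |x| := by
  have h := mvt (g := fun y => f (s + y)) (g' := fun y => f1 (s + y)) (M := C) (x := x)
    (fun y => by
      have := (hf.d1 (s + y)).comp y ((hasDerivAt_id y).const_add s)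
      rwa [mul_one] at this)
    (fun y _ => hf.b1 _)
  simp only [add_zero] at h
  exact h

lemma lip2 (hf : CB3 C f f1 f2 f3) (s x : ℝ) : |f2 (s + x) - f2 s| ≤ C * |x| := by
  have h := mvt (g := fun y => f2 (s + y)) (g' := fun y => f3 (s + y)) (M := C) (x := x)
    (fun y => by
      have := (hf.d3 (s + y)).comp y ((hasDerivAt_id y).const_add s)
      rwa [mul_one] at this)
    (fun y _ => hf.b3 _)
  simp only [add_zero] at h
  exact h

lemma taylor1 (hf : CB3 C f f1 f2 f3) (s x : ℝ) : |f1 (s + x) - f1 s - f2 s * x| ≤ C * |x| ^ 2 := by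
  have hC := C_nonneg hf
  have h := mvt (g := fun y => f1 (s + y) - f1 s - f2 s * y) (g' := fun y => f2 (s + y) - f2 s)
    (M := C * |x|) (x := x)
    (fun y => by
      have h1 := (hf.d2 (s + y)).comp y ((hasDerivAt_id y).const_add s)
      have h2 := (h1.sub_const (f1 s)).sub ((hasDerivAt_id y).const_mul (f2 s))
      rw [mul_one, mul_one] at h2
      exact h2)
    (fun y hy => (lip2 hf s y).trans (mul_le_mul_of_nonneg_left hy hC))
  simp only [add_zero, mul_zero, sub_self, sub_zero] at h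
  calc _ ≤ C * |x| * |x| := h
    _ = _ := by ring

lemma taylor2 (hf : CB3 C f f1 f2 f3) (s x : ℝ) :
    |f (s + x) - f s - f1 s * x - f2 s * (x ^ 2 / 2)| ≤ C * |x| ^ 3 := by
  have hC := C_nonneg hf
  have h := mvt (g := fun y => f (s + y) - f s - f1 s * y - f2 s * (y ^ 2 / 2))
    (g' := fun y => f1 (s + y) - f1 s - f2 s * y) (M := C * |x| ^ 2) (x := x)
    (fun y => by
      have h1 := (hf.d1 (s + y)).comp y ((hasDerivAt_id y).const_add s)
      have h2 := (h1.sub_const (f s)).sub ((hasDerivAt_id y).const_mul (f1 s))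
      have h3 := h2.sub (((hasDerivAt_pow 2 y).div_const 2).const_mul (f2 s))
      have e : f1 (s + y) * 1 - f1 s * 1 - f2 s * (((2 : ℕ) : ℝ) * y ^ (2 - 1) / 2)
          = f1 (s + y) - f1 s - f2 s * y := by
        norm_num
      rw [e] at h3
      exact h3)
    (fun y hy => (taylor1 hf s y).trans (mul_le_mul_of_nonneg_left
      (pow_le_pow_left₀ (abs_nonneg _) hy 2) hC))
  simp only [add_zero, mul_zero, sub_self, sub_zero, ne_eq, OfNat.ofNat_ne_zero, not_false_eq_true,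
    zero_pow, zero_div] at h
  calc _ ≤ C * |x| ^ 2 * |x| := h
    _ = _ := by ring

lemma sqrt_facts {δ : ℝ} (h0 : 0 ≤ δ) (h1 : δ ≤ 1) :
    0 ≤ 1 - √(1 - δ) ∧ 1 - √(1 - δ) ≤ δ ∧ |1 - √(1 - δ) - δ / 2| ≤ δ ^ 2 / 2 := by
  set q := √(1 - δ) with hq
  have hq0 : 0 ≤ q := Real.sqrt_nonneg _
  have hq2 : q ^ 2 = 1 - δ := Real.sq_sqrt (by linarith)
  have hq1 : q ≤ 1 := by nlinarith only [h0, hq2]
  have hd : δ = (1 - q) * (1 + q) := by linarith only [hq2]
  refine ⟨by linarith only [hq1], by nlinarith only [hq2, hq0, hq1], ?_⟩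
  have e : 1 - q - δ / 2 = (1 - q) ^ 2 / 2 := by rw [hd]; ring
  rw [e, abs_of_nonneg (by (clear * -; positivity))]
  have h5 : 1 - q ≤ δ := by nlinarith only [hq2, h0, hq0]
  have h6 : (1 - q) ^ 2 ≤ δ ^ 2 := pow_le_pow_left₀ (by linarith only [hq1]) h5 2
  linarith only [h6]

/-- first-order bounds -/
lemma bd_a (hf : CB3 C f f1 f2 f3) {δ : ℝ} (h0 : 0 ≤ δ) (h1 : δ ≤ 1) (s h : ℝ) :
    |f (√(1 - δ) * s + √δ * h) - f s| ≤ C * √δ * (1 + |s| + |h|) := by
  have hC := C_nonneg hf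
  obtain ⟨g1, g2, -⟩ := sqrt_facts h0 h1
  have hr0 : 0 ≤ √δ := Real.sqrt_nonneg _
  have hr2 : √δ ^ 2 = δ := Real.sq_sqrt h0
  have hr1 : √δ ≤ 1 := by nlinarith only [h1, hr2]
  have hδr : δ ≤ √δ := by linarith only [mul_nonneg (sub_nonneg.2 hr0) (sub_nonneg.2 hr1), mul_eq_zero_of_left (sub_eq_zero.2 hr2) (1 - (√δ)), mul_eq_zero_of_left (sub_eq_zero.2 hr2) (√δ - (0))]
  have e : √(1 - δ) * s + √δ * h = s + (√δ * h - (1 - √(1 - δ)) * s) := by ring
  rw [e]
  refine (lip hf s _).trans ?_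
  rw [mul_assoc]
  refine mul_le_mul_of_nonneg_left ?_ hC
  calc |√δ * h - (1 - √(1 - δ)) * s| ≤ |√δ * h| + |(1 - √(1 - δ)) * s| := abs_sub _ _
    _ = √δ * |h| + (1 - √(1 - δ)) * |s| := by
        rw [abs_mul, abs_mul, abs_of_nonneg hr0, abs_of_nonneg g1]
    _ ≤ √δ * |h| + √δ * |s| := by
        have : (1 - √(1 - δ)) * |s| ≤ √δ * |s| :=
          mul_le_mul_of_nonneg_right (g2.trans hδr) (abs_nonneg _)
        linarith only [this]
    _ ≤ √δ * (1 + |s| + |h|) := by linarith only [hr0]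

lemma bd_b (hf : CB3 C f f1 f2 f3) {δ : ℝ} (h0 : 0 ≤ δ) (h1 : δ ≤ 1) (s h : ℝ) :
    |linE δ f f1 f2 s h - f s| ≤ C * √δ * (1 + |s| + |h|) := by
  have hC := C_nonneg hf
  have hr0 : 0 ≤ √δ := Real.sqrt_nonneg _
  have hr2 : √δ ^ 2 = δ := Real.sq_sqrt h0
  have hr1 : √δ ≤ 1 := by nlinarith only [h1, hr2]
  have hδr : δ ≤ √δ := by linarith only [mul_nonneg (sub_nonneg.2 hr0) (sub_nonneg.2 hr1), mul_eq_zero_of_left (sub_eq_zero.2 hr2) (1 - (√δ)), mul_eq_zero_of_left (sub_eq_zero.2 hr2) (√δ - (0))]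
  have e : linE δ f f1 f2 s h - f s = √δ * f1 s * h + δ / 2 * (f2 s - s * f1 s) := by
    unfold linE; ring
  rw [e]
  have e1 : |√δ * f1 s * h| ≤ √δ * (C * |h|) := by
    rw [abs_mul, abs_mul, abs_of_nonneg hr0, mul_assoc]
    exact mul_le_mul_of_nonneg_left (mul_le_mul_of_nonneg_right (hf.b1 s) (abs_nonneg _)) hr0
  have e2 : |δ / 2 * (f2 s - s * f1 s)| ≤ √δ * (C * (1 + |s|)) := by
    rw [abs_mul, abs_of_nonneg (by (clear * - h0; positivity) : 0 ≤ δ / 2)]
    have e3 : |f2 s - s * f1 s| ≤ C * (1 + |s|) := by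
      refine (abs_sub _ _).trans ?_
      rw [abs_mul]
      have := mul_le_mul_of_nonneg_left (hf.b1 s) (abs_nonneg s)
      linarith only [this, hf.b2 s]
    exact mul_le_mul (by linarith only [hr0, hδr]) e3 (abs_nonneg _) hr0
  refine (abs_add_le _ _).trans ?_
  linarith only [e1, e2]

/-- second-order bound -/
lemma bd_r (hf : CB3 C f f1 f2 f3) {δ : ℝ} (h0 : 0 ≤ δ) (h1 : δ ≤ 1) (s h : ℝ) :
    |f (√(1 - δ) * s + √δ * h) - linE δ f f1 f2 s h - δ / 2 * (f2 s * (h ^ 2 - 1))|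
      ≤ C * √δ ^ 3 * (1 + |s| + |h|) ^ 3 := by
  have hC := C_nonneg hf
  obtain ⟨g1, g2, g3⟩ := sqrt_facts h0 h1
  set r := √δ with hr
  have hr0 : 0 ≤ r := Real.sqrt_nonneg _
  have hr2 : r ^ 2 = δ := Real.sq_sqrt h0
  have hr1 : r ≤ 1 := by nlinarith only [h1, hr2]
  set k := 1 - √(1 - δ) with hk
  set x := r * h - k * s with hx
  have e0 : √(1 - δ) * s + r * h = s + x := by rw [hx, hk]; ring
  rw [e0]
  have ht := taylor2 hf s x
  have e1 : f (s + x) - linE δ f f1 f2 s h - δ / 2 * (f2 s * (h ^ 2 - 1))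
      = (f (s + x) - f s - f1 s * x - f2 s * (x ^ 2 / 2))
        + f1 s * (s * (δ / 2 - k)) + f2 s / 2 * (x ^ 2 - r ^ 2 * h ^ 2) := by
    unfold linE
    rw [← hr, hr2, hx]
    ring
  rw [e1]
  have hs := abs_nonneg s
  have hh := abs_nonneg h
  have hkr : k ≤ r ^ 2 := by rw [hr2]; exact g2
  have hks : k * |s| ≤ r * |s| :=
    mul_le_mul_of_nonneg_right (hkr.trans (by linarith only [mul_nonneg (sub_nonneg.2 hr0) (sub_nonneg.2 hr1)])) hs
  have hxb : |x| ≤ r * (|s| + |h|) := by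
    calc |x| ≤ |r * h| + |k * s| := abs_sub _ _
      _ = r * |h| + k * |s| := by rw [abs_mul, abs_mul, abs_of_nonneg hr0, abs_of_nonneg g1]
      _ ≤ r * (|s| + |h|) := by linarith only [hks]
  have b1 : C * |x| ^ 3 ≤ C * r ^ 3 * (|s| + |h|) ^ 3 := by
    have := pow_le_pow_left₀ (abs_nonneg x) hxb 3
    rw [mul_pow] at this
    calc C * |x| ^ 3 ≤ C * (r ^ 3 * (|s| + |h|) ^ 3) := mul_le_mul_of_nonneg_left this hC
      _ = _ := by ring
  have hr43 : r ^ 4 ≤ r ^ 3 := by
    have : r ^ 3 * r ≤ r ^ 3 * 1 := mul_le_mul_of_nonneg_left hr1 (by (clear * -; positivity))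
    calc r ^ 4 = r ^ 3 * r := by ring
      _ ≤ r ^ 3 := by linarith only [this]
  have b2 : |f1 s * (s * (δ / 2 - k))| ≤ C * r ^ 3 * |s| := by
    rw [abs_mul, abs_mul]
    have h5 : |δ / 2 - k| ≤ r ^ 3 := by
      rw [abs_sub_comm]
      refine g3.trans ?_
      rw [← hr2]
      calc (r ^ 2) ^ 2 / 2 = r ^ 4 / 2 := by ring
        _ ≤ r ^ 3 := by linarith only [hr43, pow_nonneg hr0 3]
    calc |f1 s| * (|s| * |δ / 2 - k|) ≤ C * (|s| * r ^ 3) :=
          mul_le_mul (hf.b1 s) (mul_le_mul_of_nonneg_left h5 hs) (by (clear * -; positivity)) hC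
      _ = _ := by ring
  have b3 : |f2 s / 2 * (x ^ 2 - r ^ 2 * h ^ 2)| ≤ C * r ^ 3 * (|s| * (2 * |h| + |s|) / 2) := by
    rw [abs_mul, abs_div, abs_of_pos (by norm_num : (0 : ℝ) < 2)]
    have e5 : x ^ 2 - r ^ 2 * h ^ 2 = -(k * s) * (2 * (r * h) - k * s) := by rw [hx]; ring
    rw [e5, abs_mul, abs_neg, abs_mul, abs_of_nonneg g1]
    have h6 : |2 * (r * h) - k * s| ≤ r * (2 * |h| + |s|) := by
      calc |2 * (r * h) - k * s| ≤ |2 * (r * h)| + |k * s| := abs_sub _ _
        _ = 2 * (r * |h|) + k * |s| := by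
            rw [abs_mul, abs_mul, abs_mul, abs_of_nonneg hr0, abs_of_nonneg g1,
              abs_of_pos (by norm_num : (0 : ℝ) < 2)]
        _ ≤ r * (2 * |h| + |s|) := by linarith only [hks]
    have h7 : k * |s| ≤ r ^ 2 * |s| := mul_le_mul_of_nonneg_right hkr hs
    have h8 : k * |s| * |2 * (r * h) - k * s| ≤ r ^ 2 * |s| * (r * (2 * |h| + |s|)) :=
      mul_le_mul h7 h6 (abs_nonneg _) (by (clear * -; positivity))
    have h9 : |f2 s| / 2 ≤ C / 2 := by linarith only [hf.b2 s]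
    calc |f2 s| / 2 * (k * |s| * |2 * (r * h) - k * s|)
        ≤ C / 2 * (r ^ 2 * |s| * (r * (2 * |h| + |s|))) :=
          mul_le_mul h9 h8 (by (clear * - g1; positivity)) (by (clear * - hC; positivity))
      _ = _ := by ring
  refine (abs_add_le _ _).trans ?_
  refine (add_le_add_left (abs_add_le _ _) _).trans ?_
  have hCr : 0 ≤ C * r ^ 3 := by (clear * - hC; positivity)
  have key : (|s| + |h|) ^ 3 + |s| + |s| * (2 * |h| + |s|) / 2 ≤ (1 + |s| + |h|) ^ 3 := by
    linarith only [hs, hh, mul_nonneg hs hh, sq_nonneg (|s|), sq_nonneg (|h|)]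
  calc _ ≤ C * r ^ 3 * (|s| + |h|) ^ 3 + C * r ^ 3 * |s|
        + C * r ^ 3 * (|s| * (2 * |h| + |s|) / 2) := by linarith only [ht, b1, b2, b3]
    _ = C * r ^ 3 * ((|s| + |h|) ^ 3 + |s| + |s| * (2 * |h| + |s|) / 2) := by ring
    _ ≤ _ := mul_le_mul_of_nonneg_left key hCr

/-- comparison of exponentials -/
lemma exp_sub_le {a b M : ℝ} (ha : |a| ≤ M) (hb : |b| ≤ M) :
    |Real.exp a - Real.exp b| ≤ |a - b| * Real.exp M := by
  have h := Convex.norm_image_sub_le_of_norm_hasDerivWithin_le (f := Real.exp)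
    (f' := Real.exp) (C := Real.exp M) (s := Metric.closedBall (0 : ℝ) M) (x := b) (y := a)
    (fun y _ => (Real.hasDerivAt_exp y).hasDerivWithinAt)
    (fun y hy => by
      rw [mem_closedBall_zero_iff, Real.norm_eq_abs] at hy
      rw [Real.norm_eq_abs, Real.abs_exp]
      exact Real.exp_le_exp.2 ((le_abs_self y).trans hy))
    (convex_closedBall _ _) (by rwa [mem_closedBall_zero_iff, Real.norm_eq_abs])
    (by rwa [mem_closedBall_zero_iff, Real.norm_eq_abs])
  rw [Real.norm_eq_abs, Real.norm_eq_abs] at h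
  linarith only [h]

lemma exp_sub_sub_le {a b M : ℝ} (ha : |a| ≤ M) (hb : |b| ≤ M) :
    |Real.exp a - Real.exp b - (a - b)| ≤ |a - b| * (M * Real.exp M) := by
  have h := Convex.norm_image_sub_le_of_norm_hasDerivWithin_le (f := fun x => Real.exp x - x)
    (f' := fun x => Real.exp x - 1) (C := M * Real.exp M) (s := Metric.closedBall (0 : ℝ) M)
    (x := b) (y := a)
    (fun y _ => ((Real.hasDerivAt_exp y).sub (hasDerivAt_id y)).hasDerivWithinAt)
    (fun y hy => by
      rw [mem_closedBall_zero_iff, Real.norm_eq_abs] at hy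
      rw [Real.norm_eq_abs]
      have h1 := exp_sub_le (a := y) (b := 0) (M := M) hy (by
        rw [abs_zero]; exact (abs_nonneg y).trans hy)
      rw [Real.exp_zero, sub_zero] at h1
      exact h1.trans (mul_le_mul_of_nonneg_right hy (Real.exp_pos _).le))
    (convex_closedBall _ _) (by rwa [mem_closedBall_zero_iff, Real.norm_eq_abs])
    (by rwa [mem_closedBall_zero_iff, Real.norm_eq_abs])
  rw [Real.norm_eq_abs, Real.norm_eq_abs] at h
  have e : Real.exp a - Real.exp b - (a - b) = Real.exp a - a - (Real.exp b - b) := by ring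
  rw [e]
  linarith only [h]

/-- All the bounds for one point. -/
structure Bds (r Q F X Y m : ℝ) : Prop where
  x : |Real.exp X - Real.exp F| ≤ r * Q
  y : |Real.exp Y - Real.exp F| ≤ r * Q
  xy : |Real.exp X - Real.exp Y| ≤ r ^ 2 * Q
  xym : |Real.exp X - Real.exp Y - Real.exp F * m| ≤ r ^ 3 * Q
  nx : Real.exp (-X) ≤ Q
  ny : Real.exp (-Y) ≤ Q
  nf : Real.exp (-F) ≤ Q

lemma closeE {C T F : ℝ} (hC : 0 ≤ C) (hT : 1 ≤ T) (hF : F ≤ C) {q x : ℝ} (hq : 0 ≤ q)
    (hx : x ≤ q * ((2 * C ^ 2 + 4 * C + 1) * T ^ 4 * Real.exp (C * T))) :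
    Real.exp F * x ≤ q * Real.exp (cc C * T) := by
  have hT0 : 0 ≤ T := by linarith only [hT]
  have hp : 0 ≤ q * ((2 * C ^ 2 + 4 * C + 1) * T ^ 4 * Real.exp (C * T)) := by positivity
  calc Real.exp F * x
      ≤ Real.exp F * (q * ((2 * C ^ 2 + 4 * C + 1) * T ^ 4 * Real.exp (C * T))) :=
        mul_le_mul_of_nonneg_left hx (Real.exp_pos _).le
    _ ≤ Real.exp C * (q * ((2 * C ^ 2 + 4 * C + 1) * T ^ 4 * Real.exp (C * T))) :=
        mul_le_mul_of_nonneg_right (Real.exp_le_exp.2 hF) hp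
    _ = q * (Real.exp C * ((2 * C ^ 2 + 4 * C + 1) * T ^ 4 * Real.exp (C * T))) := by ring
    _ ≤ q * Real.exp (cc C * T) := mul_le_mul_of_nonneg_left (absorb hC hT) hq

lemma exp_split (F z : ℝ) : Real.exp z = Real.exp F * Real.exp (z - F) := by
  rw [← Real.exp_add]
  congr 1
  ring

lemma firstE {C T r F z : ℝ} (hC : 0 ≤ C) (hT : 1 ≤ T) (hr0 : 0 ≤ r) (hr1 : r ≤ 1) (hF : F ≤ C)
    (hz : |z - F| ≤ C * r * T) : |Real.exp z - Real.exp F| ≤ r * Real.exp (cc C * T) := by
  have hT0 : 0 ≤ T := by linarith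
  have hCT : C * r * T ≤ C * T := by
    have : C * r * T ≤ C * 1 * T := by (clear * - hr1 hC hT; gcongr)
    linarith only [this]
  have e1 := exp_sub_le (a := z - F) (b := 0) (M := C * T) (hz.trans hCT)
    (by rw [abs_zero]; positivity)
  rw [Real.exp_zero, sub_zero] at e1
  have e2 : Real.exp z - Real.exp F = Real.exp F * (Real.exp (z - F) - 1) := by
    rw [exp_split F z]; ring
  rw [e2, abs_mul, abs_of_pos (Real.exp_pos _)]
  refine closeE hC hT hF hr0 (e1.trans ?_)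
  have hE0 : 0 < Real.exp (C * T) := Real.exp_pos _
  have hT14 : T ≤ T ^ 4 := by
    have := pow_le_pow_right₀ hT (by norm_num : 1 ≤ 4)
    rwa [pow_one] at this
  have hCC : C ≤ 2 * C ^ 2 + 4 * C + 1 := by nlinarith only [hC]
  have e3 : C * T ≤ (2 * C ^ 2 + 4 * C + 1) * T ^ 4 :=
    mul_le_mul hCC hT14 hT0 (by (clear * - hC; positivity))
  calc |z - F| * Real.exp (C * T) ≤ C * r * T * Real.exp (C * T) :=
        mul_le_mul_of_nonneg_right hz hE0.le
    _ = r * (C * T * Real.exp (C * T)) := by ring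
    _ ≤ r * ((2 * C ^ 2 + 4 * C + 1) * T ^ 4 * Real.exp (C * T)) :=
        mul_le_mul_of_nonneg_left (mul_le_mul_of_nonneg_right e3 hE0.le) hr0

lemma secondE {C T r F X Y : ℝ} (hC : 0 ≤ C) (hT : 1 ≤ T) (hr1 : r ≤ 1)
    (hF : F ≤ C) (ha : |X - F| ≤ C * r * T) (hb : |Y - F| ≤ C * r * T)
    (hxy : |X - Y| ≤ 2 * C * r ^ 2 * T ^ 3) :
    |Real.exp X - Real.exp Y| ≤ r ^ 2 * Real.exp (cc C * T) := by
  have hT0 : 0 ≤ T := by linarith only [hT]
  have hCT : C * r * T ≤ C * T := by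
    have : C * r * T ≤ C * 1 * T := by (clear * - hr1 hC hT; gcongr)
    linarith only [this]
  have e1 := exp_sub_le (a := X - F) (b := Y - F) (M := C * T) (ha.trans hCT) (hb.trans hCT)
  rw [sub_sub_sub_cancel_right] at e1
  have e2 : Real.exp X - Real.exp Y = Real.exp F * (Real.exp (X - F) - Real.exp (Y - F)) := by
    rw [exp_split F X, exp_split F Y]; ring
  rw [e2, abs_mul, abs_of_pos (Real.exp_pos _)]
  refine closeE hC hT hF (by (clear * -; positivity)) (e1.trans ?_)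
  have hE0 : 0 < Real.exp (C * T) := Real.exp_pos _
  have hT34 : T ^ 3 ≤ T ^ 4 := pow_le_pow_right₀ hT (by norm_num)
  have hCC : 2 * C ≤ 2 * C ^ 2 + 4 * C + 1 := by nlinarith only [hC]
  have e3 : 2 * C * T ^ 3 ≤ (2 * C ^ 2 + 4 * C + 1) * T ^ 4 :=
    mul_le_mul hCC hT34 (by positivity) (by (clear * - hC; positivity))
  calc |X - Y| * Real.exp (C * T) ≤ 2 * C * r ^ 2 * T ^ 3 * Real.exp (C * T) :=
        mul_le_mul_of_nonneg_right hxy hE0.le
    _ = r ^ 2 * (2 * C * T ^ 3 * Real.exp (C * T)) := by ring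
    _ ≤ r ^ 2 * ((2 * C ^ 2 + 4 * C + 1) * T ^ 4 * Real.exp (C * T)) :=
        mul_le_mul_of_nonneg_left (mul_le_mul_of_nonneg_right e3 hE0.le) (by (clear * -; positivity))

lemma thirdE {C T r F X Y m : ℝ} (hC : 0 ≤ C) (hT : 1 ≤ T) (hr0 : 0 ≤ r) (hr1 : r ≤ 1)
    (hF : F ≤ C) (ha : |X - F| ≤ C * r * T) (hb : |Y - F| ≤ C * r * T)
    (hxy : |X - Y| ≤ 2 * C * r ^ 2 * T ^ 3) (hm : |X - Y - m| ≤ C * r ^ 3 * T ^ 3) :
    |Real.exp X - Real.exp Y - Real.exp F * m| ≤ r ^ 3 * Real.exp (cc C * T) := by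
  have hT0 : 0 ≤ T := by linarith only [hT]
  have hCT : C * r * T ≤ C * T := by
    have : C * r * T ≤ C * 1 * T := by (clear * - hr1 hC hT; gcongr)
    linarith only [this]
  have e1 := exp_sub_sub_le (a := X - F) (b := Y - F) (M := C * r * T) ha hb
  rw [sub_sub_sub_cancel_right] at e1
  have e2 : Real.exp X - Real.exp Y - Real.exp F * m
      = Real.exp F * (Real.exp (X - F) - Real.exp (Y - F) - m) := by
    rw [exp_split F X, exp_split F Y]; ring
  rw [e2, abs_mul, abs_of_pos (Real.exp_pos _)]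
  refine closeE hC hT hF (by (clear * - hr0; positivity)) ?_
  have e3 : Real.exp (X - F) - Real.exp (Y - F) - m
      = (Real.exp (X - F) - Real.exp (Y - F) - (X - Y)) + (X - Y - m) := by ring
  rw [e3]
  have hE0 : 0 < Real.exp (C * T) := Real.exp_pos _
  have hE1 : 1 ≤ Real.exp (C * T) := Real.one_le_exp (by (clear * - hC hT; positivity))
  have e4 : Real.exp (C * r * T) ≤ Real.exp (C * T) := Real.exp_le_exp.2 hCT
  have e5 : |X - Y| * (C * r * T * Real.exp (C * r * T))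
      ≤ 2 * C * r ^ 2 * T ^ 3 * (C * r * T * Real.exp (C * T)) :=
    mul_le_mul hxy (mul_le_mul_of_nonneg_left e4 (by (clear * - hC hr0 hT; positivity))) (by (clear * - hC hr0 hT; positivity))
      (by (clear * - hC hT; positivity))
  have hT34 : T ^ 3 ≤ T ^ 4 := pow_le_pow_right₀ hT (by norm_num)
  have q1 : C ≤ 4 * C + 1 := by linarith only [hC]
  have e7 : C * T ^ 3 ≤ (4 * C + 1) * T ^ 4 := mul_le_mul q1 hT34 (by positivity) (by (clear * - hC; positivity))
  have e8 : C * T ^ 3 * 1 ≤ (4 * C + 1) * T ^ 4 * Real.exp (C * T) :=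
    mul_le_mul e7 hE1 (by norm_num) (by (clear * - hC hT; positivity))
  have e6 : C * r ^ 3 * T ^ 3 ≤ r ^ 3 * ((4 * C + 1) * T ^ 4 * Real.exp (C * T)) := by
    calc C * r ^ 3 * T ^ 3 = r ^ 3 * (C * T ^ 3 * 1) := by ring
      _ ≤ _ := mul_le_mul_of_nonneg_left e8 (by (clear * - hr0; positivity))
  refine (abs_add_le _ _).trans ?_
  calc _ ≤ 2 * C * r ^ 2 * T ^ 3 * (C * r * T * Real.exp (C * T))
        + r ^ 3 * ((4 * C + 1) * T ^ 4 * Real.exp (C * T)) :=
        add_le_add (e1.trans e5) (hm.trans e6)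
    _ = _ := by ring

lemma negE {C T z : ℝ} (hC : 0 ≤ C) (hT : 1 ≤ T) (hz : -z ≤ C + C * T) :
    Real.exp (-z) ≤ Real.exp (cc C * T) := by
  have hT0 : 0 ≤ T := by linarith only [hT]
  refine Real.exp_le_exp.2 (hz.trans ?_)
  have h1 : 2 * C ≤ cc C := by unfold cc; nlinarith only []
  have h2 : C ≤ C * T := le_mul_of_one_le_right hC hT
  calc C + C * T ≤ 2 * C * T := by linarith only [h2]
    _ ≤ cc C * T := mul_le_mul_of_nonneg_right h1 hT0

lemma bd_m (hf : CB3 C f f1 f2 f3) {δ : ℝ} (h0 : 0 ≤ δ) (s h : ℝ) :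
    |δ / 2 * (f2 s * (h ^ 2 - 1))| ≤ C * √δ ^ 2 * (1 + |s| + |h|) ^ 3 := by
  have hC := C_nonneg hf
  have hr2 : √δ ^ 2 = δ := Real.sq_sqrt h0
  have hs := abs_nonneg s
  have hh := abs_nonneg h
  have hT1 : 1 ≤ 1 + |s| + |h| := by linarith only [hs, hh]
  rw [abs_mul, abs_mul, abs_of_nonneg (by positivity : 0 ≤ δ / 2), hr2]
  have h5 : |h ^ 2 - 1| ≤ (1 + |s| + |h|) ^ 3 := by
    have e1 : |h ^ 2 - 1| ≤ h ^ 2 + 1 := by
      rw [abs_le]
      constructor <;> linarith only [sq_nonneg h]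
    have e2 : h ^ 2 = |h| ^ 2 := (sq_abs h).symm
    have e3 : |h| ^ 2 + 1 ≤ (1 + |s| + |h|) ^ 2 := by linarith only [mul_nonneg (sub_nonneg.2 hs) (sub_nonneg.2 hh), mul_nonneg (sub_nonneg.2 hs) (sub_nonneg.2 hs), hh, hs]
    have e4 : (1 + |s| + |h|) ^ 2 ≤ (1 + |s| + |h|) ^ 3 := pow_le_pow_right₀ hT1 (by norm_num)
    linarith only [e1, e2, e3, e4]
  have h6 : |f2 s| * |h ^ 2 - 1| ≤ C * (1 + |s| + |h|) ^ 3 :=
    mul_le_mul (hf.b2 s) h5 (abs_nonneg _) hC
  calc δ / 2 * (|f2 s| * |h ^ 2 - 1|) ≤ δ * (C * (1 + |s| + |h|) ^ 3) :=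
        mul_le_mul (by linarith only [h0]) h6 (by (clear * -; positivity)) h0
    _ = _ := by ring

theorem bds (hf : CB3 C f f1 f2 f3) {δ : ℝ} (h0 : 0 ≤ δ) (h1 : δ ≤ 1) (s h : ℝ) :
    Bds (√δ) (Real.exp (cc C * (1 + |s| + |h|))) (f s) (f (√(1 - δ) * s + √δ * h))
      (linE δ f f1 f2 s h) (δ / 2 * (f2 s * (h ^ 2 - 1))) := by
  have hC := C_nonneg hf
  have ha := bd_a hf h0 h1 s h
  have hb := bd_b hf h0 h1 s h
  have hr := bd_r hf h0 h1 s h
  have hm := bd_m hf h0 s h
  have hs := abs_nonneg s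
  have hh := abs_nonneg h
  have hT1 : 1 ≤ 1 + |s| + |h| := by linarith only [hs, hh]
  have hT0 : 0 ≤ 1 + |s| + |h| := by linarith only [hs, hh]
  have hr0 : 0 ≤ √δ := Real.sqrt_nonneg _
  have hr2 : √δ ^ 2 = δ := Real.sq_sqrt h0
  have hr1 : √δ ≤ 1 := by nlinarith only [h1, hr2]
  have hxy : |f (√(1 - δ) * s + √δ * h) - linE δ f f1 f2 s h|
      ≤ 2 * C * √δ ^ 2 * (1 + |s| + |h|) ^ 3 := by
    have e1 : f (√(1 - δ) * s + √δ * h) - linE δ f f1 f2 s h
        = (f (√(1 - δ) * s + √δ * h) - linE δ f f1 f2 s h - δ / 2 * (f2 s * (h ^ 2 - 1)))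
          + δ / 2 * (f2 s * (h ^ 2 - 1)) := by ring
    have e3 : √δ ^ 3 ≤ √δ ^ 2 := pow_le_pow_of_le_one hr0 hr1 (by norm_num)
    have e2 : C * √δ ^ 3 * (1 + |s| + |h|) ^ 3 ≤ C * √δ ^ 2 * (1 + |s| + |h|) ^ 3 :=
      mul_le_mul_of_nonneg_right (mul_le_mul_of_nonneg_left e3 hC) (by (clear * -; positivity))
    rw [e1]
    refine (abs_add_le _ _).trans ?_
    linarith only [hr, hm, e2]
  have hfs := abs_le.1 (hf.b0 s)
  have hCT : C * √δ * (1 + |s| + |h|) ≤ C * (1 + |s| + |h|) := by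
    have : C * √δ ≤ C := mul_le_of_le_one_right hC hr1
    exact mul_le_mul_of_nonneg_right this hT0
  refine ⟨firstE hC hT1 hr0 hr1 hfs.2 ha, firstE hC hT1 hr0 hr1 hfs.2 hb,
    secondE hC hT1 hr1 hfs.2 ha hb hxy, thirdE hC hT1 hr0 hr1 hfs.2 ha hb hxy hr,
    negE hC hT1 ?_, negE hC hT1 ?_, negE hC hT1 ?_⟩
  · have := (abs_le.1 (hf.b0 (√(1 - δ) * s + √δ * h))).1
    have : 0 ≤ C * (1 + |s| + |h|) := by (clear * - hC; positivity)
    (clear h0 h1 ha hb hr hm hs hh hT1 hT0 hr0 hr2 hr1 hxy hfs hCT; linarith)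
  · have := (abs_le.1 hb).1
    linarith only [hfs, hCT, this]
  · have : 0 ≤ C * (1 + |s| + |h|) := by (clear * - hC; positivity)
    linarith only [hfs, this]

lemma inv_sum_le {Y : Type} [Fintype Y] {p x : Y → ℝ} (hp : ∀ y, 0 ≤ p y) (hp1 : ∑ y, p y = 1)
    (hx : ∀ y, 0 < x y) {A : ℝ} (hA : A = ∑ y, p y * x y) (hA0 : 0 < A) :
    A⁻¹ ≤ ∑ y, p y * (x y)⁻¹ := by
  have h1 : ∀ y, p y * (2 * A⁻¹ - x y * (A⁻¹) ^ 2) ≤ p y * (x y)⁻¹ := by
    intro y
    refine mul_le_mul_of_nonneg_left ?_ (hp y)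
    have h2 : 0 ≤ (x y)⁻¹ * (1 - x y * A⁻¹) ^ 2 := mul_nonneg (inv_nonneg.2 (hx y).le) (sq_nonneg _)
    have h3 : (x y)⁻¹ * (1 - x y * A⁻¹) ^ 2 = (x y)⁻¹ - 2 * A⁻¹ + x y * (A⁻¹) ^ 2 := by
      have := (hx y).ne'
      field_simp
      ring
    linarith only [h3, h2]
  have h2 : ∑ y, p y * (2 * A⁻¹ - x y * (A⁻¹) ^ 2) = A⁻¹ := by
    have e : ∀ y, p y * (2 * A⁻¹ - x y * (A⁻¹) ^ 2) = 2 * A⁻¹ * p y - (A⁻¹) ^ 2 * (p y * x y) := by
      intro y; ring
    simp_rw [e]
    rw [Finset.sum_sub_distrib, ← Finset.mul_sum, ← Finset.mul_sum, hp1, ← hA]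
    field_simp
    ring
  rw [← h2]
  exact Finset.sum_le_sum fun y _ => h1 y

/-- the deterministic estimate -/
theorem det_bound {Y : Type} [Fintype Y] {p : Y → ℝ} (hp : ∀ y, 0 ≤ p y) (hp1 : ∑ y, p y = 1)
    {r : ℝ} (hr : 0 ≤ r) {Q F X Z m : Y → ℝ} (hQ : ∀ y, 1 ≤ Q y)
    (hB : ∀ y, Bds r (Q y) (F y) (X y) (Z y) (m y)) :
    |Real.log (∑ y, p y * Real.exp (X y)) - Real.log (∑ y, p y * Real.exp (Z y))
        - (∑ y, p y * (Real.exp (F y) * m y)) / ∑ y, p y * Real.exp (F y)|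
      ≤ 2 * r ^ 3 * ∑ y, p y * Q y ^ 4 := by
  set A := ∑ y, p y * Real.exp (X y) with hA
  set B := ∑ y, p y * Real.exp (Z y) with hBdef
  set A0 := ∑ y, p y * Real.exp (F y) with hA0def
  set M := ∑ y, p y * (Real.exp (F y) * m y) with hM
  set q := ∑ y, p y * Q y with hq
  have hpos : ∀ g : Y → ℝ, 0 < ∑ y, p y * Real.exp (g y) := by
    intro g
    by_contra hcon
    have h1 : ∀ y ∈ (univ : Finset Y), 0 ≤ p y * Real.exp (g y) :=
      fun y _ => mul_nonneg (hp y) (Real.exp_pos _).le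
    have h2 := le_antisymm (not_lt.1 hcon) (Finset.sum_nonneg h1)
    have h3 := (Finset.sum_eq_zero_iff_of_nonneg h1).1 h2
    have h4 : ∀ y, p y = 0 := by
      intro y
      rcases mul_eq_zero.1 (h3 y (mem_univ y)) with h | h
      · exact h
      · exact absurd h (Real.exp_pos _).ne'
    rw [Finset.sum_eq_zero (fun y _ => h4 y)] at hp1
    exact zero_ne_one hp1
  have hAp : 0 < A := hpos X
  have hBp : 0 < B := hpos Z
  have hA0p : 0 < A0 := hpos F
  have hinv : ∀ g : Y → ℝ, (∀ y, Real.exp (-g y) ≤ Q y) → (∑ y, p y * Real.exp (g y))⁻¹ ≤ q := by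
    intro g hg
    refine (inv_sum_le hp hp1 (fun y => Real.exp_pos (g y)) rfl (hpos g)).trans ?_
    refine Finset.sum_le_sum fun y _ => mul_le_mul_of_nonneg_left ?_ (hp y)
    rw [← Real.exp_neg]
    exact hg y
  have hdiff : ∀ (g g' : Y → ℝ) (k : ℕ), (∀ y, |g y - g' y| ≤ r ^ k * Q y) →
      |∑ y, p y * g y - ∑ y, p y * g' y| ≤ r ^ k * q := by
    intro g g' k hg
    rw [← Finset.sum_sub_distrib, hq, Finset.mul_sum]
    refine (Finset.abs_sum_le_sum_abs _ _).trans (Finset.sum_le_sum fun y _ => ?_)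
    rw [← mul_sub, abs_mul, abs_of_nonneg (hp y)]
    calc p y * |g y - g' y| ≤ p y * (r ^ k * Q y) := mul_le_mul_of_nonneg_left (hg y) (hp y)
      _ = _ := by ring
  have d1 : |A - A0| ≤ r ^ 1 * q := hdiff _ _ 1 fun y => by rw [pow_one]; exact (hB y).x
  have d2 : |B - A0| ≤ r ^ 1 * q := hdiff _ _ 1 fun y => by rw [pow_one]; exact (hB y).y
  have d3 : |A - B| ≤ r ^ 2 * q := hdiff _ _ 2 fun y => (hB y).xy
  have d4 : |A - B - M| ≤ r ^ 3 * q := by
    have e1 : A - B = ∑ y, p y * (Real.exp (X y) - Real.exp (Z y)) := by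
      rw [hA, hBdef, ← Finset.sum_sub_distrib]
      exact Finset.sum_congr rfl fun y _ => by ring
    rw [e1]
    exact hdiff _ _ 3 fun y => (hB y).xym
  rw [pow_one] at d1 d2
  have i1 : A⁻¹ ≤ q := hinv X fun y => (hB y).nx
  have i2 : B⁻¹ ≤ q := hinv Z fun y => (hB y).ny
  have i3 : A0⁻¹ ≤ q := hinv F fun y => (hB y).nf
  have hq1 : 1 ≤ q := by
    rw [← hp1, hq]
    exact Finset.sum_le_sum fun y _ => le_mul_of_one_le_right (hp y) (hQ y)
  have hq0 : 0 ≤ q := by linarith only [hq1]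
  have key : ∀ D, 0 < D → D⁻¹ ≤ q → |D - A0| ≤ r * q →
      |(A - B) * D⁻¹ - (A - B) * A0⁻¹| ≤ r ^ 3 * q ^ 4 := by
    intro D hD h1 h2
    have e : (A - B) * D⁻¹ - (A - B) * A0⁻¹ = (A - B) * (A0 - D) * (D⁻¹ * A0⁻¹) := by
      (clear * - hA0p hD; field_simp)
    rw [e, abs_mul, abs_mul, abs_of_pos (by (clear * - hD hA0p; positivity) : 0 < D⁻¹ * A0⁻¹), abs_sub_comm A0 D]
    have e2 : |A - B| * |D - A0| ≤ r ^ 2 * q * (r * q) :=
      mul_le_mul d3 h2 (abs_nonneg _) (by (clear * - hq1; positivity))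
    have e3 : D⁻¹ * A0⁻¹ ≤ q * q := mul_le_mul h1 i3 (by (clear * - hA0p; positivity)) hq0
    calc _ ≤ r ^ 2 * q * (r * q) * (q * q) := mul_le_mul e2 e3 (by (clear * - hD hA0p; positivity)) (by (clear * - hq1 hr; positivity))
      _ = _ := by ring
  have l1 : Real.log A - Real.log B ≤ (A - B) * B⁻¹ := by
    rw [← Real.log_div hAp.ne' hBp.ne']
    have := Real.log_le_sub_one_of_pos (div_pos hAp hBp)
    have e : A / B - 1 = (A - B) * B⁻¹ := by (clear * - hBp; field_simp)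
    linarith only [e, this]
  have l2 : (A - B) * A⁻¹ ≤ Real.log A - Real.log B := by
    have h1 := Real.log_le_sub_one_of_pos (div_pos hBp hAp)
    rw [Real.log_div hBp.ne' hAp.ne'] at h1
    have e : B / A - 1 = -((A - B) * A⁻¹) := by field_simp; ring
    (clear * - h1 e; linarith)
  have k1 := abs_le.1 (key B hBp i2 d2)
  have k2 := abs_le.1 (key A hAp i1 d1)
  have k3 : |Real.log A - Real.log B - (A - B) * A0⁻¹| ≤ r ^ 3 * q ^ 4 := by
    rw [abs_le]
    constructor <;> linarith only [l1, k1.2, l2, k2.1]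
  have k4 : |(A - B) * A0⁻¹ - M / A0| ≤ r ^ 3 * q ^ 4 := by
    have e : (A - B) * A0⁻¹ - M / A0 = (A - B - M) * A0⁻¹ := by
      rw [div_eq_mul_inv]; ring
    rw [e, abs_mul, abs_of_pos (by (clear * - hA0p; positivity) : 0 < A0⁻¹)]
    calc |A - B - M| * A0⁻¹ ≤ r ^ 3 * q * q := mul_le_mul d4 i3 (by (clear * - hA0p; positivity)) (by (clear * - hr hq1; positivity))
      _ = r ^ 3 * q ^ 2 := by ring
      _ ≤ r ^ 3 * q ^ 4 := by
          have : q ^ 2 ≤ q ^ 4 := pow_le_pow_right₀ hq1 (by norm_num)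
          (clear * - this hr; gcongr)
  have hq4 : q ^ 4 ≤ ∑ y, p y * Q y ^ 4 :=
    Real.pow_arith_mean_le_arith_mean_pow univ p Q (fun y _ => hp y) hp1
      (fun y _ => by linarith only [hQ y]) 4
  have e : Real.log A - Real.log B - M / A0
      = (Real.log A - Real.log B - (A - B) * A0⁻¹) + ((A - B) * A0⁻¹ - M / A0) := by ring
  rw [e]
  refine (abs_add_le _ _).trans ?_
  calc _ ≤ r ^ 3 * q ^ 4 + r ^ 3 * q ^ 4 := add_le_add k3 k4
    _ = 2 * r ^ 3 * q ^ 4 := by ring
    _ ≤ _ := by (clear * - hq4 hr; gcongr)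

end Lin

end Vale.Agent.P157.Par
end

section

open MeasureTheory ProbabilityTheory Filter Topology

namespace Vale.Agent.P157.Par

open Vale.Agent.P367.GT (gM)

/-- The sign of a spin. -/
def sgn (b : Bool) : ℝ := if b then 1 else -1

lemma sgn_sq (b : Bool) : sgn b ^ 2 = 1 := by cases b <;> simp only [sgn, Bool.false_eq_true, ↓reduceIte, even_two, Even.neg_pow, one_pow]

/-- The normalized configuration, in dimension `N + 1`. -/
noncomputable def cubeφ (N : ℕ) (x : Fin (N + 1) → Bool) : EuclideanSpace ℝ (Fin (N + 1)) :=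
  WithLp.toLp 2 fun i => sgn (x i) / √((N : ℝ) + 1)

lemma cubeφ_sq (N : ℕ) (x : Fin (N + 1) → Bool) (i : Fin (N + 1)) :
    cubeφ N x i ^ 2 = 1 / ((N : ℝ) + 1) := by
  have h : cubeφ N x i = sgn (x i) / √((N : ℝ) + 1) := rfl
  rw [h, div_pow, sgn_sq, Real.sq_sqrt (by (clear * -; positivity))]

lemma norm_cubeφ (N : ℕ) (x : Fin (N + 1) → Bool) : ‖cubeφ N x‖ = 1 := by
  rw [EuclideanSpace.norm_eq, Real.sqrt_eq_one]
  have h : ∀ i, ‖cubeφ N x i‖ ^ 2 = 1 / ((N : ℝ) + 1) := fun i => by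
    rw [Real.norm_eq_abs, sq_abs, cubeφ_sq]
  simp_rw [h]
  rw [Finset.sum_const, Finset.card_univ, Fintype.card_fin, nsmul_eq_mul]
  push_cast
  field_simp

/-- The field of the pattern `g` at the configuration `x`. -/
noncomputable def cubeS {N : ℕ} (g : Fin (N + 1) → ℝ) (x : Fin (N + 1) → Bool) : ℝ :=
  ∑ i, g i * cubeφ N x i

/-- The perceptron on the cube `{-1,1}^(N+1)` with `M` patterns. -/
noncomputable def cubeBase (f : ℝ → ℝ) (hf : Measurable f) (C : ℝ) (hC : ∀ x, |f x| ≤ C)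
    (N M : ℕ) : Base :=
  patBase (gM (Fin (N + 1))) M (X := Fin (N + 1) → Bool)
    (fun ω x => ∑ a, f (cubeS (ω a) x))
    (fun x => Finset.measurable_sum _ fun a _ => hf.comp (by unfold cubeS; fun_prop))
    (M * C) (fun ω x => by
      refine (Finset.abs_sum_le_sum_abs _ _).trans ((Finset.sum_le_sum fun a _ => hC _).trans ?_)
      rw [Finset.sum_const, Finset.card_univ, Fintype.card_fin, nsmul_eq_mul])
    (cubeφ N) (norm_cubeφ N)

/-- The free energy increment for one more pattern: `E log ⟨exp f(S)⟩`, the field `S` being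
independent of the system. -/
noncomputable def Sys.dM (S : Sys) (f : ℝ → ℝ) : ℝ :=
  ∫ z : S.Ω × (Fin S.d → ℝ), Real.log (∑ x, S.w z.1 x * Real.exp (f (∑ i, z.2 i * S.φ x i)))
    ∂(S.P.prod (gM (Fin S.d)))

/-- The order `δ` term of the linearized energy. -/
noncomputable def cavB {M : ℕ} (δ : ℝ) (f1 f2 : ℝ → ℝ) (S : Fin M → ℝ) : ℝ :=
  ∑ a, δ / 2 * (f2 (S a) - S a * f1 (S a))

/-- The order `√δ` term of the linearized energy. -/
noncomputable def cavY {M : ℕ} (δ : ℝ) (f1 : ℝ → ℝ) (S H : Fin M → ℝ) : ℝ :=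
  ∑ a, √δ * f1 (S a) * H a

/-- The cavity form of the free energy increment for one more spin, for the perceptron on
`{-1,1}^(N+1)` with `M` patterns; here `δ = 1/(N+2)`. -/
noncomputable def cubeDN (f f1 f2 : ℝ → ℝ) (hf : Measurable f) (C : ℝ) (hC : ∀ x, |f x| ≤ C)
    (N M P : ℕ) (s : ℝ) (u : Fin P → ℝ) : ℝ :=
  (∫ z : ((Fin M → Fin (N + 1) → ℝ) × (GI P (N + 1) → ℝ)) × (Fin M → ℝ),
      Real.log (∑ x, ((cubeBase f hf C hC N M).sys P s u).w z.1 x *
        (Real.exp (cavB (1 / ((N : ℝ) + 2)) f1 f2 fun a => cubeS (z.1.1 a) x) *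
        Real.cosh (cavY (1 / ((N : ℝ) + 2)) f1 (fun a => cubeS (z.1.1 a) x) z.2)))
      ∂(((cubeBase f hf C hC N M).sys P s u).P.prod (gM (Fin M)))) -
  ∫ z : ((Fin M → Fin (N + 1) → ℝ) × (GI P (N + 1) → ℝ)) × (Fin M → Fin (N + 1) → ℝ),
      Real.log (∑ x, ((cubeBase f hf C hC N M).sys P s u).w z.1 x *
        Real.exp (cavB (1 / ((N : ℝ) + 2)) f1 f2 (fun a => cubeS (z.1.1 a) x) +
          cavY (1 / ((N : ℝ) + 2)) f1 (fun a => cubeS (z.1.1 a) x) fun a => cubeS (z.2 a) x))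
      ∂(((cubeBase f hf C hC N M).sys P s u).P.prod (Measure.pi fun _ => gM (Fin (N + 1))))

end Vale.Agent.P157.Par
end

section

open MeasureTheory ProbabilityTheory Filter Topology Finset

namespace Vale.Agent.P157.Par

open Vale.Agent.P367.GT (gM)

namespace Lin

lemma law_lin {J K : Type} [Fintype K] [DecidableEq K] (φ : J → K → ℝ) (y : J)
    (h : ∑ i, φ y i ^ 2 = 1) : (gM K).map (fun ξ => lin φ ξ y) = gaussianReal 0 1 := by
  have hm : Measurable fun ξ : K → ℝ => lin φ ξ y := by unfold lin; fun_prop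
  have : IsProbabilityMeasure ((gM K).map fun ξ => lin φ ξ y) :=
    Measure.isProbabilityMeasure_map hm.aemeasurable
  apply Measure.ext_of_charFun
  ext t
  rw [charFun_apply_real, charFun_gaussianReal, integral_map hm.aemeasurable
    (Measurable.aestronglyMeasurable (by fun_prop))]
  have h1 := char_lin (J := Unit) (K := K) (fun _ => φ y) (fun _ => t)
  simp only [univ_unique, sum_singleton, PUnit.default_eq_unit] at h1
  have e : gram (fun _ : Unit => φ y) (fun _ : Unit => φ y) () () = 1 := by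
    rw [← h]
    exact Finset.sum_congr rfl fun c _ => (sq _).symm
  rw [e] at h1
  have h2 : ∀ ξ : K → ℝ, Complex.exp ((t : ℂ) * (lin φ ξ y : ℝ) * Complex.I)
      = Complex.exp ((lin (fun _ : Unit => φ y) ξ () * t : ℝ) * Complex.I) := by
    intro ξ
    congr 1
    push_cast
    have : lin (fun _ : Unit => φ y) ξ () = lin φ ξ y := rfl
    rw [this]
    ring
  simp_rw [h2]
  rw [h1]
  congr 1
  push_cast
  ring

section logsum
variable {Y : Type} [Fintype Y] [Nonempty Y]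

lemma sum_pos' {w : Y → ℝ} (hw : ∀ y, 0 < w y) : 0 < ∑ y, w y :=
  Finset.sum_pos (fun y _ => hw y) univ_nonempty

lemma logsum_bound {w : Y → ℝ} (hw : ∀ y, 0 < w y) (E : Y → ℝ) :
    |Real.log (∑ y, w y * Real.exp (E y))| ≤ |Real.log (∑ y, w y)| + ∑ y, |E y| := by
  have hW := sum_pos' hw
  set M := ∑ y, |E y| with hM
  have hEy : ∀ y, |E y| ≤ M := fun y => Finset.single_le_sum (f := fun y => |E y|)
    (fun y _ => abs_nonneg _) (mem_univ y)
  have h1 : (∑ y, w y) * Real.exp (-M) ≤ ∑ y, w y * Real.exp (E y) := by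
    rw [Finset.sum_mul]
    refine Finset.sum_le_sum fun y _ => mul_le_mul_of_nonneg_left (Real.exp_le_exp.2 ?_) (hw y).le
    linarith only [neg_abs_le (E y), hEy y]
  have h2 : ∑ y, w y * Real.exp (E y) ≤ (∑ y, w y) * Real.exp M := by
    rw [Finset.sum_mul]
    refine Finset.sum_le_sum fun y _ => mul_le_mul_of_nonneg_left (Real.exp_le_exp.2 ?_) (hw y).le
    linarith only [le_abs_self (E y), hEy y]
  have hS : 0 < ∑ y, w y * Real.exp (E y) := sum_pos' fun y => mul_pos (hw y) (Real.exp_pos _)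
  have l1 := Real.log_le_log (by (clear * - hW; positivity)) h1
  have l2 := Real.log_le_log hS h2
  rw [Real.log_mul hW.ne' (Real.exp_pos _).ne', Real.log_exp] at l1 l2
  rw [abs_le]
  constructor
  · linarith only [l1, neg_abs_le (Real.log (∑ y, w y))]
  · linarith only [l2, le_abs_self (Real.log (∑ y, w y))]

lemma integrable_logsum {Ω : Type} [MeasurableSpace Ω] {μ : Measure Ω} [IsFiniteMeasure μ]
    {w : Y → ℝ} (hw : ∀ y, 0 < w y) {E : Ω → Y → ℝ}
    (hE : ∀ y, Integrable (fun ω => E ω y) μ) :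
    Integrable (fun ω => Real.log (∑ y, w y * Real.exp (E ω y))) μ := by
  refine Integrable.mono' (g := fun ω => |Real.log (∑ y, w y)| + ∑ y, |E ω y|)
    ((integrable_const _).add (integrable_finsetSum _ fun y _ => (hE y).abs)) ?_
    (Filter.Eventually.of_forall fun ω => logsum_bound hw (E ω))
  refine (Real.measurable_log.comp_aemeasurable ?_).aestronglyMeasurable
  exact Finset.aemeasurable_fun_sum _ fun y _ =>
    (Real.measurable_exp.comp_aemeasurable (hE y).aestronglyMeasurable.aemeasurable).const_mul _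

/-- replacing the energies one at a time -/
theorem replace_many {Ω : Type} [MeasurableSpace Ω] (μ : Measure Ω) [IsProbabilityMeasure μ]
    {x z : Ω → Y → ℝ} (hx : ∀ y, Integrable (fun g => x g y) μ)
    (hz : ∀ y, Integrable (fun g => z g y) μ) {ε : ℝ}
    (h : ∀ w : Y → ℝ, (∀ y, 0 < w y) → |(∫ g, Real.log (∑ y, w y * Real.exp (x g y)) ∂μ)
      - ∫ g, Real.log (∑ y, w y * Real.exp (z g y)) ∂μ| ≤ ε) (M : ℕ) :
    ∀ w : Y → ℝ, (∀ y, 0 < w y) →
      |(∫ g : Fin M → Ω, Real.log (∑ y, w y * Real.exp (∑ a, x (g a) y))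
          ∂(Measure.pi fun _ => μ))
        - ∫ g : Fin M → Ω, Real.log (∑ y, w y * Real.exp (∑ a, z (g a) y))
          ∂(Measure.pi fun _ => μ)| ≤ M * ε := by
  induction M with
  | zero =>
    intro w _
    simp
  | succ M ih =>
    intro w hw
    have hev : ∀ (u : Ω → Y → ℝ), (∀ y, Integrable (fun g => u g y) μ) → ∀ (y : Y) (a : Fin M),
        Integrable (fun g : Fin M → Ω => u (g a) y) (Measure.pi fun _ => μ) := fun u hu y a =>
      integrable_comp_eval (μ := fun _ : Fin M => μ) (i := a) (f := fun g => u g y) (hu y)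
    have hint : ∀ (u v : Ω → Y → ℝ), (∀ y, Integrable (fun g => u g y) μ) →
        (∀ y, Integrable (fun g => v g y) μ) →
        Integrable (fun q : Ω × (Fin M → Ω) => Real.log (∑ y, w y *
          Real.exp (u q.1 y + ∑ a, v (q.2 a) y))) (μ.prod (Measure.pi fun _ => μ)) := by
      intro u v hu hv
      refine integrable_logsum hw fun y => ?_
      exact ((hu y).comp_fst _).add
        (integrable_finsetSum _ fun a _ => (hev v hv y a).comp_snd _)
    have hsplit : ∀ (u : Ω → Y → ℝ), (∀ y, Integrable (fun g => u g y) μ) →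
        ∫ g : Fin (M + 1) → Ω, Real.log (∑ y, w y * Real.exp (∑ a, u (g a) y))
          ∂(Measure.pi fun _ => μ)
        = ∫ q : Ω × (Fin M → Ω), Real.log (∑ y, w y *
          Real.exp (u q.1 y + ∑ a, u (q.2 a) y)) ∂(μ.prod (Measure.pi fun _ => μ)) := by
      intro u _
      have hp := measurePreserving_piFinSuccAbove (fun _ : Fin (M + 1) => μ) 0
      rw [← hp.integral_comp (MeasurableEquiv.measurableEmbedding _)]
      congr 1
      funext g
      congr 1
      refine Finset.sum_congr rfl fun y _ => ?_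
      congr 2
      rw [Fin.sum_univ_succ]
      rfl
    rw [hsplit x hx, hsplit z hz]
    have i1 := hint x x hx hx
    have i2 := hint x z hx hz
    have i3 := hint z z hz hz
    have s1 : |(∫ q, Real.log (∑ y, w y * Real.exp (x q.1 y + ∑ a, x (q.2 a) y))
          ∂(μ.prod (Measure.pi fun _ : Fin M => μ)))
        - ∫ q, Real.log (∑ y, w y * Real.exp (x q.1 y + ∑ a, z (q.2 a) y))
          ∂(μ.prod (Measure.pi fun _ : Fin M => μ))| ≤ M * ε := by
      rw [integral_prod _ i1, integral_prod _ i2, ← integral_sub i1.integral_prod_left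
        i2.integral_prod_left]
      have hb : ∀ g0 : Ω, ‖(∫ g : Fin M → Ω, Real.log (∑ y, w y *
            Real.exp (x g0 y + ∑ a, x (g a) y)) ∂(Measure.pi fun _ => μ))
          - ∫ g : Fin M → Ω, Real.log (∑ y, w y *
            Real.exp (x g0 y + ∑ a, z (g a) y)) ∂(Measure.pi fun _ => μ)‖ ≤ M * ε := by
        intro g0
        have := ih (fun y => w y * Real.exp (x g0 y)) fun y => mul_pos (hw y) (Real.exp_pos _)
        simp_rw [mul_assoc, ← Real.exp_add] at this
        exact this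
      have := norm_integral_le_of_norm_le_const (μ := μ) (Filter.Eventually.of_forall hb)
      simpa only [ge_iff_le, Real.norm_eq_abs, probReal_univ, mul_one] using this
    have s2 : |(∫ q, Real.log (∑ y, w y * Real.exp (x q.1 y + ∑ a, z (q.2 a) y))
          ∂(μ.prod (Measure.pi fun _ : Fin M => μ)))
        - ∫ q, Real.log (∑ y, w y * Real.exp (z q.1 y + ∑ a, z (q.2 a) y))
          ∂(μ.prod (Measure.pi fun _ : Fin M => μ))| ≤ ε := by
      rw [integral_prod_symm _ i2, integral_prod_symm _ i3, ← integral_sub i2.integral_prod_right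
        i3.integral_prod_right]
      have hb : ∀ g : Fin M → Ω, ‖(∫ g0 : Ω, Real.log (∑ y, w y *
            Real.exp (x g0 y + ∑ a, z (g a) y)) ∂μ)
          - ∫ g0 : Ω, Real.log (∑ y, w y *
            Real.exp (z g0 y + ∑ a, z (g a) y)) ∂μ‖ ≤ ε := by
        intro g
        have := h (fun y => w y * Real.exp (∑ a, z (g a) y))
          fun y => mul_pos (hw y) (Real.exp_pos _)
        simp_rw [mul_assoc, ← Real.exp_add] at this
        simp_rw [add_comm (x _ _), add_comm (z _ _)]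
        exact this
      have := norm_integral_le_of_norm_le_const (μ := Measure.pi fun _ : Fin M => μ)
        (Filter.Eventually.of_forall hb)
      simpa only [ge_iff_le, Real.norm_eq_abs, probReal_univ, mul_one] using this
    have e := abs_sub_le (∫ q, Real.log (∑ y, w y * Real.exp (x q.1 y + ∑ a, x (q.2 a) y))
          ∂(μ.prod (Measure.pi fun _ : Fin M => μ)))
        (∫ q, Real.log (∑ y, w y * Real.exp (x q.1 y + ∑ a, z (q.2 a) y))
          ∂(μ.prod (Measure.pi fun _ : Fin M => μ)))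
        (∫ q, Real.log (∑ y, w y * Real.exp (z q.1 y + ∑ a, z (q.2 a) y))
          ∂(μ.prod (Measure.pi fun _ : Fin M => μ)))
    push_cast
    linarith

end logsum

lemma integral_sq_sub_one : ∫ x, (x ^ 2 - 1) ∂(gaussianReal 0 1) = 0 := by
  have h1 : Integrable (fun x : ℝ => x ^ 2) (gaussianReal 0 1) := by
    have := (memLp_id_gaussianReal (μ := 0) (v := 1) 2).integrable_sq
    exact this
  rw [integral_sub h1 (integrable_const _)]
  have h2 : ∫ x : ℝ, x ^ 2 ∂(gaussianReal 0 1) = 1 := by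
    have h3 := variance_eq_sub (μ := gaussianReal 0 1) (X := id)
      (memLp_id_gaussianReal (μ := 0) (v := 1) 2)
    rw [variance_id_gaussianReal] at h3
    simp only [id_eq, Pi.pow_apply, integral_id_gaussianReal] at h3
    simpa only [ne_eq, OfNat.ofNat_ne_zero, not_false_eq_true, zero_pow, sub_zero, NNReal.coe_one] using h3.symm
  rw [h2]
  simp

section one
variable {C : ℝ} {f f1 f2 f3 : ℝ → ℝ}

/-- the error integral -/
noncomputable def DD (C : ℝ) : ℝ :=
  ∫ q : ℝ × ℝ, Real.exp (cc C * (1 + |q.1| + |q.2|)) ^ 4 ∂((gaussianReal 0 1).prod (gaussianReal 0 1))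

lemma integrable_exp_abs (t : ℝ) :
    Integrable (fun x : ℝ => Real.exp (t * |x|)) (gaussianReal 0 1) :=
  integrable_exp_mul_abs (X := id) (integrable_exp_mul_gaussianReal t)
    (integrable_exp_mul_gaussianReal (-t))

lemma integrable_DD (C : ℝ) : Integrable (fun q : ℝ × ℝ =>
    Real.exp (cc C * (1 + |q.1| + |q.2|)) ^ 4) ((gaussianReal 0 1).prod (gaussianReal 0 1)) := by
  have h := (((integrable_exp_abs (4 * cc C)).mul_prod (integrable_exp_abs (4 * cc C))).const_mul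
    (Real.exp (4 * cc C)))
  refine h.congr (Filter.Eventually.of_forall fun q => ?_)
  simp only
  rw [← Real.exp_nat_mul, ← Real.exp_add, ← Real.exp_add]
  congr 1
  push_cast
  ring

variable {K K' Y : Type} [Fintype K] [Fintype K'] [DecidableEq K] [DecidableEq K']

lemma law_pair {φ : Y → K → ℝ} {ψ : Y → K' → ℝ} (hφ : ∀ y, ∑ i, φ y i ^ 2 = 1)
    (hψ : ∀ y, ∑ i, ψ y i ^ 2 = 1) (y : Y) :
    ((gM K).prod (gM K')).map (fun g => (lin φ g.1 y, lin ψ g.2 y))
      = (gaussianReal 0 1).prod (gaussianReal 0 1) := by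
  have m1 : Measurable fun ξ : K → ℝ => lin φ ξ y := by unfold lin; fun_prop
  have m2 : Measurable fun ξ : K' → ℝ => lin ψ ξ y := by unfold lin; fun_prop
  have h := Measure.map_prod_map (gM K) (gM K') m1 m2
  rw [law_lin φ y (hφ y), law_lin ψ y (hψ y)] at h
  rw [h]
  rfl

lemma continuous_f (hf : CB3 C f f1 f2 f3) : Continuous f :=
  continuous_iff_continuousAt.2 fun x => (hf.d1 x).continuousAt

lemma continuous_f1 (hf : CB3 C f f1 f2 f3) : Continuous f1 :=
  continuous_iff_continuousAt.2 fun x => (hf.d2 x).continuousAt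

lemma continuous_f2 (hf : CB3 C f f1 f2 f3) : Continuous f2 :=
  continuous_iff_continuousAt.2 fun x => (hf.d3 x).continuousAt

omit [DecidableEq K] in
lemma measurable_lin' (φ : Y → K → ℝ) (y : Y) : Measurable fun ξ : K → ℝ => lin φ ξ y := by
  unfold lin; fun_prop

lemma integrable_pair {φ : Y → K → ℝ} {ψ : Y → K' → ℝ} (hφ : ∀ y, ∑ i, φ y i ^ 2 = 1)
    (hψ : ∀ y, ∑ i, ψ y i ^ 2 = 1) (y : Y) {G : ℝ × ℝ → ℝ} (hG : Measurable G)
    (hi : Integrable G ((gaussianReal 0 1).prod (gaussianReal 0 1))) :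
    Integrable (fun g : (K → ℝ) × (K' → ℝ) => G (lin φ g.1 y, lin ψ g.2 y))
      ((gM K).prod (gM K')) := by
  rw [← law_pair hφ hψ y] at hi
  exact (integrable_map_measure hG.aestronglyMeasurable
    (((measurable_lin' φ y).comp measurable_fst).prodMk
      ((measurable_lin' ψ y).comp measurable_snd)).aemeasurable).1 hi

lemma integral_pair {φ : Y → K → ℝ} {ψ : Y → K' → ℝ} (hφ : ∀ y, ∑ i, φ y i ^ 2 = 1)
    (hψ : ∀ y, ∑ i, ψ y i ^ 2 = 1) (y : Y) {G : ℝ × ℝ → ℝ} (hG : Measurable G) :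
    ∫ g : (K → ℝ) × (K' → ℝ), G (lin φ g.1 y, lin ψ g.2 y) ∂((gM K).prod (gM K'))
      = ∫ q, G q ∂((gaussianReal 0 1).prod (gaussianReal 0 1)) := by
  rw [← law_pair hφ hψ y]
  exact (integral_map (((measurable_lin' φ y).comp measurable_fst).prodMk
      ((measurable_lin' ψ y).comp measurable_snd)).aemeasurable hG.aestronglyMeasurable).symm

omit [DecidableEq K] [DecidableEq K'] in
lemma measurable_xE (hf : CB3 C f f1 f2 f3) (δ : ℝ) (φ : Y → K → ℝ) (ψ : Y → K' → ℝ) (y : Y) :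
    Measurable fun g : (K → ℝ) × (K' → ℝ) => f (√(1 - δ) * lin φ g.1 y + √δ * lin ψ g.2 y) :=
  (continuous_f hf).measurable.comp
    ((((measurable_lin' φ y).comp measurable_fst).const_mul _).add
      (((measurable_lin' ψ y).comp measurable_snd).const_mul _))

lemma integrable_xE (hf : CB3 C f f1 f2 f3) (δ : ℝ) (φ : Y → K → ℝ) (ψ : Y → K' → ℝ) (y : Y) :
    Integrable (fun g : (K → ℝ) × (K' → ℝ) =>
      f (√(1 - δ) * lin φ g.1 y + √δ * lin ψ g.2 y)) ((gM K).prod (gM K')) :=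
  Integrable.mono' (integrable_const C) (measurable_xE hf δ φ ψ y).aestronglyMeasurable
    (Filter.Eventually.of_forall fun _ => hf.b0 _)

lemma integrable_zE (hf : CB3 C f f1 f2 f3) {δ : ℝ} (h0 : 0 ≤ δ) (h1 : δ ≤ 1)
    {φ : Y → K → ℝ} {ψ : Y → K' → ℝ} (hφ : ∀ y, ∑ i, φ y i ^ 2 = 1)
    (hψ : ∀ y, ∑ i, ψ y i ^ 2 = 1) (y : Y) :
    Integrable (fun g : (K → ℝ) × (K' → ℝ) => linE δ f f1 f2 (lin φ g.1 y) (lin ψ g.2 y))
      ((gM K).prod (gM K')) := by
  have m0 := (continuous_f hf).measurable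
  have m1 := (continuous_f1 hf).measurable
  have m2 := (continuous_f2 hf).measurable
  have hG : Measurable fun q : ℝ × ℝ => linE δ f f1 f2 q.1 q.2 := by
    unfold linE
    (clear * - m0 m1 m2; fun_prop)
  refine integrable_pair hφ hψ y (G := fun q => linE δ f f1 f2 q.1 q.2) hG ?_
  have hi : Integrable (fun x : ℝ => |x|) (gaussianReal 0 1) :=
    ((memLp_id_gaussianReal (μ := 0) (v := 1) 1).integrable le_rfl).abs
  have hb : Integrable (fun q : ℝ × ℝ => C + C * √δ * (1 + |q.1| + |q.2|))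
      ((gaussianReal 0 1).prod (gaussianReal 0 1)) :=
    (integrable_const _).add ((((integrable_const _).add (hi.comp_fst _)).add
      (hi.comp_snd _)).const_mul _)
  refine Integrable.mono' hb hG.aestronglyMeasurable (Filter.Eventually.of_forall fun q => ?_)
  have e1 := bd_b hf h0 h1 q.1 q.2
  have e2 := hf.b0 q.1
  rw [Real.norm_eq_abs]
  have e3 : linE δ f f1 f2 q.1 q.2 = (linE δ f f1 f2 q.1 q.2 - f q.1) + f q.1 := by ring
  rw [e3]
  refine (abs_add_le _ _).trans ?_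
  linarith

end one

end Lin

open Lin in
/-- One pattern. -/
theorem lin_one {C : ℝ} {f f1 f2 f3 : ℝ → ℝ} (hf : CB3 C f f1 f2 f3) :
    ∃ D : ℝ, ∀ (K K' Y : Type) [Fintype K] [Fintype K'] [Fintype Y] [DecidableEq K]
      [DecidableEq K'] (w : Y → ℝ) (φ : Y → K → ℝ) (ψ : Y → K' → ℝ), (∀ y, 0 < w y) →
      Nonempty Y → (∀ y, ∑ i, φ y i ^ 2 = 1) → (∀ y, ∑ i, ψ y i ^ 2 = 1) →
      ∀ δ : ℝ, 0 ≤ δ → δ ≤ 1 →
      |(∫ g : (K → ℝ) × (K' → ℝ), Real.log (∑ y, w y * Real.exp (f (√(1 - δ) * lin φ g.1 y +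
          √δ * lin ψ g.2 y))) ∂((gM K).prod (gM K'))) -
        ∫ g : (K → ℝ) × (K' → ℝ), Real.log (∑ y, w y * Real.exp (linE δ f f1 f2 (lin φ g.1 y)
          (lin ψ g.2 y))) ∂((gM K).prod (gM K'))| ≤ D * (δ * √δ) := by
  refine ⟨2 * DD C, ?_⟩
  intro K K' Y _ _ _ _ _ w φ ψ hw hY hφ hψ δ h0 h1
  have hC := C_nonneg hf
  set W := ∑ y, w y with hW
  have hW0 : 0 < W := sum_pos' hw
  set p : Y → ℝ := fun y => w y / W with hp
  have hp0 : ∀ y, 0 < p y := fun y => div_pos (hw y) hW0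
  have hp1 : ∑ y, p y = 1 := by
    rw [hp, ← Finset.sum_div, div_self hW0.ne']
  set X : (K → ℝ) × (K' → ℝ) → Y → ℝ := fun g y =>
    f (√(1 - δ) * lin φ g.1 y + √δ * lin ψ g.2 y) with hX
  set Z : (K → ℝ) × (K' → ℝ) → Y → ℝ := fun g y =>
    linE δ f f1 f2 (lin φ g.1 y) (lin ψ g.2 y) with hZ
  set Qf : (K → ℝ) × (K' → ℝ) → Y → ℝ := fun g y =>
    Real.exp (cc C * (1 + |lin φ g.1 y| + |lin ψ g.2 y|)) with hQf
  set B : (K → ℝ) → ℝ := fun s => ∑ y, p y * Real.exp (f (lin φ s y)) with hB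
  set Mn : (K → ℝ) × (K' → ℝ) → ℝ := fun g => (∑ y, p y * (Real.exp (f (lin φ g.1 y)) *
    (δ / 2 * (f2 (lin φ g.1 y) * ((lin ψ g.2 y) ^ 2 - 1))))) / B g.1 with hMn
  have hcc : 0 ≤ cc C := by unfold cc; (clear * - hC; positivity)
  -- the pointwise bound
  have hpt : ∀ g, |Real.log (∑ y, w y * Real.exp (X g y)) - Real.log (∑ y, w y * Real.exp (Z g y))
      - Mn g| ≤ 2 * √δ ^ 3 * ∑ y, p y * Qf g y ^ 4 := by
    intro g
    have hd := det_bound (p := p) (fun y => (hp0 y).le) hp1 (r := √δ) (Real.sqrt_nonneg _)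
      (Q := Qf g) (F := fun y => f (lin φ g.1 y)) (X := X g) (Z := Z g)
      (m := fun y => δ / 2 * (f2 (lin φ g.1 y) * ((lin ψ g.2 y) ^ 2 - 1)))
      (fun y => Real.one_le_exp (by (clear * - hcc; positivity)))
      (fun y => bds hf h0 h1 (lin φ g.1 y) (lin ψ g.2 y))
    have hlog : ∀ E : Y → ℝ, Real.log (∑ y, w y * Real.exp (E y))
        = Real.log W + Real.log (∑ y, p y * Real.exp (E y)) := by
      intro E
      have hpos : 0 < ∑ y, p y * Real.exp (E y) :=
        sum_pos' fun y => mul_pos (hp0 y) (Real.exp_pos _)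
      rw [← Real.log_mul hW0.ne' hpos.ne', Finset.mul_sum]
      congr 1
      refine Finset.sum_congr rfl fun y _ => ?_
      rw [hp]
      (clear * - hW0; field_simp)
    rw [hlog, hlog]
    have e : Real.log W + Real.log (∑ y, p y * Real.exp (X g y))
        - (Real.log W + Real.log (∑ y, p y * Real.exp (Z g y))) - Mn g
        = Real.log (∑ y, p y * Real.exp (X g y)) - Real.log (∑ y, p y * Real.exp (Z g y))
          - Mn g := by ring
    rw [e]
    exact hd
  -- integrability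
  have hiX := integrable_logsum (μ := (gM K).prod (gM K')) hw (E := X)
    (fun y => integrable_xE hf δ φ ψ y)
  have hiZ := integrable_logsum (μ := (gM K).prod (gM K')) hw (E := Z)
    (fun y => integrable_zE hf h0 h1 hφ hψ y)
  have hmQ : Measurable fun q : ℝ × ℝ => Real.exp (cc C * (1 + |q.1| + |q.2|)) ^ 4 := by fun_prop
  have hiQ : ∀ y, Integrable (fun g => p y * Qf g y ^ 4) ((gM K).prod (gM K')) := fun y =>
    (integrable_pair hφ hψ y (G := fun q => Real.exp (cc C * (1 + |q.1| + |q.2|)) ^ 4) hmQ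
      (integrable_DD C)).const_mul _
  have hQint : ∀ y, ∫ g, p y * Qf g y ^ 4 ∂((gM K).prod (gM K')) = p y * DD C := by
    intro y
    rw [integral_const_mul]
    congr 1
    exact integral_pair hφ hψ y (G := fun q => Real.exp (cc C * (1 + |q.1| + |q.2|)) ^ 4) hmQ
  -- the main term
  have hBm : Measurable B := Finset.measurable_sum _ fun y _ =>
    (Real.measurable_exp.comp ((continuous_f hf).measurable.comp (measurable_lin' φ y))).const_mul _
  have hBpos : ∀ s, 0 < B s := fun s => sum_pos' fun y => mul_pos (hp0 y) (Real.exp_pos _)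
  have hBlow : ∀ s, Real.exp (-C) ≤ B s := by
    intro s
    calc Real.exp (-C) = ∑ y, p y * Real.exp (-C) := by rw [← Finset.sum_mul, hp1, one_mul]
      _ ≤ B s := Finset.sum_le_sum fun y _ => mul_le_mul_of_nonneg_left
          (Real.exp_le_exp.2 (abs_le.1 (hf.b0 _)).1) (hp0 y).le
  set u : Y → (K → ℝ) → ℝ := fun y s => p y * (Real.exp (f (lin φ s y)) *
    (δ / 2 * f2 (lin φ s y))) / B s with hu
  have hum : ∀ y, Measurable (u y) := by
    intro y
    have m0 := (continuous_f hf).measurable.comp (measurable_lin' φ y)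
    have m2 := (continuous_f2 hf).measurable.comp (measurable_lin' φ y)
    exact (((Real.measurable_exp.comp m0).mul (m2.const_mul _)).const_mul _).div hBm
  have hub : ∀ y s, |u y s| ≤ p y * (Real.exp C * (δ / 2 * C)) * Real.exp C := by
    intro y s
    have hp0' := (hp0 y).le
    have e1 : (B s)⁻¹ ≤ Real.exp C := by
      rw [← neg_neg C, Real.exp_neg (-C)]
      exact inv_anti₀ (Real.exp_pos _) (hBlow s)
    rw [hu]
    simp only
    rw [div_eq_mul_inv, abs_mul, abs_mul, abs_mul, abs_mul, abs_of_pos (hp0 y),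
      Real.abs_exp, abs_of_nonneg (by (clear * - h0; positivity) : 0 ≤ δ / 2), abs_of_pos (inv_pos.2 (hBpos s))]
    have e2 := Real.exp_le_exp.2 (abs_le.1 (hf.b0 (lin φ s y))).2
    have e3 := hf.b2 (lin φ s y)
    have hi0 := (inv_pos.2 (hBpos s)).le
    (clear * - e2 e3 h0 hp0' e1 hi0 hC; gcongr)
  have hui : ∀ y, Integrable (u y) (gM K) := fun y =>
    Integrable.mono' (integrable_const _) (hum y).aestronglyMeasurable
      (Filter.Eventually.of_forall fun s => hub y s)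
  have hvi : ∀ y, Integrable (fun t : K' → ℝ => (lin ψ t y) ^ 2 - 1) (gM K') := by
    intro y
    have h1 : Integrable (fun x : ℝ => x ^ 2 - 1) (gaussianReal 0 1) :=
      ((memLp_id_gaussianReal (μ := 0) (v := 1) 2).integrable_sq).sub (integrable_const _)
    rw [← law_lin ψ y (hψ y)] at h1
    exact (integrable_map_measure (by fun_prop) (measurable_lin' ψ y).aemeasurable).1 h1
  have hv0 : ∀ y, ∫ t : K' → ℝ, ((lin ψ t y) ^ 2 - 1) ∂(gM K') = 0 := by
    intro y
    have h1 := integral_sq_sub_one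
    rw [← law_lin ψ y (hψ y), integral_map (measurable_lin' ψ y).aemeasurable
      (by fun_prop)] at h1
    exact h1
  have hMe : ∀ g, Mn g = ∑ y, u y g.1 * ((lin ψ g.2 y) ^ 2 - 1) := by
    intro g
    rw [hMn]
    simp only
    rw [Finset.sum_div]
    refine Finset.sum_congr rfl fun y _ => ?_
    rw [hu]
    simp only
    ring
  have hMi : Integrable Mn ((gM K).prod (gM K')) := by
    have : Mn = fun g => ∑ y, u y g.1 * ((lin ψ g.2 y) ^ 2 - 1) := funext hMe
    rw [this]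
    exact integrable_finsetSum _ fun y _ => (hui y).mul_prod (hvi y)
  have hM0 : ∫ g, Mn g ∂((gM K).prod (gM K')) = 0 := by
    have : Mn = fun g => ∑ y, u y g.1 * ((lin ψ g.2 y) ^ 2 - 1) := funext hMe
    rw [this, integral_finsetSum _ fun y _ => (hui y).mul_prod (hvi y)]
    refine Finset.sum_eq_zero fun y _ => ?_
    rw [integral_prod_mul (u y) (fun t : K' → ℝ => (lin ψ t y) ^ 2 - 1), hv0 y, mul_zero]
  -- conclusion
  have hr3 : √δ ^ 3 = δ * √δ := by
    calc √δ ^ 3 = √δ ^ 2 * √δ := by ring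
      _ = δ * √δ := by rw [Real.sq_sqrt h0]
  rw [← integral_sub hiX hiZ]
  have e1 : ∫ g, (Real.log (∑ y, w y * Real.exp (X g y)) - Real.log (∑ y, w y * Real.exp (Z g y)))
        ∂((gM K).prod (gM K'))
      = ∫ g, (Real.log (∑ y, w y * Real.exp (X g y)) - Real.log (∑ y, w y * Real.exp (Z g y))
        - Mn g) ∂((gM K).prod (gM K')) := by
    have e2 := integral_sub (hiX.sub hiZ) hMi
    rw [hM0, sub_zero] at e2
    exact e2.symm
  rw [e1, ← Real.norm_eq_abs]
  refine (norm_integral_le_of_norm_le (g := fun g => 2 * √δ ^ 3 * ∑ y, p y * Qf g y ^ 4) ?_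
    (Filter.Eventually.of_forall fun g => hpt g)).trans ?_
  · exact (integrable_finsetSum _ fun y _ => hiQ y).const_mul _
  · rw [integral_const_mul, integral_finsetSum _ fun y _ => hiQ y]
    simp_rw [hQint]
    rw [← Finset.sum_mul, hp1, one_mul, hr3]
    apply le_of_eq
    ring

open Lin in
/-- Many patterns (Lindeberg). -/
theorem lin_many {C : ℝ} {f f1 f2 f3 : ℝ → ℝ} (hf : CB3 C f f1 f2 f3) :
    ∃ D : ℝ, ∀ (M : ℕ) (K K' Y : Type) [Fintype K] [Fintype K'] [Fintype Y] [DecidableEq K]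
      [DecidableEq K'] (w : Y → ℝ) (φ : Y → K → ℝ) (ψ : Y → K' → ℝ), (∀ y, 0 < w y) →
      Nonempty Y → (∀ y, ∑ i, φ y i ^ 2 = 1) → (∀ y, ∑ i, ψ y i ^ 2 = 1) →
      ∀ δ : ℝ, 0 ≤ δ → δ ≤ 1 →
      |(∫ g : Fin M → (K → ℝ) × (K' → ℝ), Real.log (∑ y, w y * Real.exp (∑ a,
          f (√(1 - δ) * lin φ (g a).1 y + √δ * lin ψ (g a).2 y)))
          ∂(Measure.pi fun _ => (gM K).prod (gM K'))) -
        ∫ g : Fin M → (K → ℝ) × (K' → ℝ), Real.log (∑ y, w y * Real.exp (∑ a,
          linE δ f f1 f2 (lin φ (g a).1 y) (lin ψ (g a).2 y)))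
          ∂(Measure.pi fun _ => (gM K).prod (gM K'))| ≤ D * (M * (δ * √δ)) := by
  obtain ⟨D, hD⟩ := lin_one hf
  refine ⟨D, ?_⟩
  intro M K K' Y _ _ _ _ _ w φ ψ hw hY hφ hψ δ h0 h1
  have h := replace_many ((gM K).prod (gM K'))
    (x := fun g y => f (√(1 - δ) * lin φ g.1 y + √δ * lin ψ g.2 y))
    (z := fun g y => linE δ f f1 f2 (lin φ g.1 y) (lin ψ g.2 y))
    (fun y => integrable_xE hf δ φ ψ y) (fun y => integrable_zE hf h0 h1 hφ hψ y)
    (ε := D * (δ * √δ)) (fun w' hw' => hD K K' Y w' φ ψ hw' hY hφ hψ δ h0 h1) M w hw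
  calc _ ≤ (M : ℝ) * (D * (δ * √δ)) := h
    _ = _ := by ring

end Vale.Agent.P157.Par
end

section

/-! General lemmas on Gaussian perturbations of log-partition functions. -/

open MeasureTheory ProbabilityTheory Filter Topology

namespace Vale.Agent.P157.Par

open Vale.Agent.P367.GT (gM)

set_option linter.unusedSectionVars false

namespace Cube

section gen

variable {Y K K' K'' : Type} [Fintype Y] [Nonempty Y] [Fintype K] [Fintype K'] [Fintype K'']
  [DecidableEq Y] [DecidableEq K] [DecidableEq K'] [DecidableEq K'']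

lemma integrable_lin (U : Y → K → ℝ) (y : Y) : Integrable (fun ξ : K → ℝ => lin U ξ y) (gM K) := by
  unfold lin
  exact integrable_finsetSum _ fun c _ => (integrable_coord_gM c).const_mul _

lemma integral_lin (U : Y → K → ℝ) (y : Y) : ∫ ξ, lin U ξ y ∂(gM K) = 0 := by
  unfold lin
  rw [integral_finsetSum _ fun c _ => (integrable_coord_gM c).const_mul _]
  refine Finset.sum_eq_zero fun c _ => ?_
  rw [integral_const_mul]
  have h := integral_comp_eval (μ := fun _ : K => gaussianReal 0 1) (i := c) (f := fun x : ℝ => x)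
    (by fun_prop)
  have h2 : ∫ ξ : K → ℝ, ξ c ∂(gM K) = 0 := by
    rw [show (∫ ξ : K → ℝ, ξ c ∂(gM K)) = ∫ x, x ∂(gaussianReal 0 1) from h,
      integral_id_gaussianReal]
  rw [h2, mul_zero]

lemma integral_exp_lin (U : Y → K → ℝ) (y : Y) :
    ∫ ξ, Real.exp (lin U ξ y) ∂(gM K) = Real.exp ((∑ c, U y c ^ 2) / 2) := by
  have e1 : ∀ ξ : K → ℝ, Real.exp (lin U ξ y) = ∏ c, Real.exp (U y c * ξ c) := by
    intro ξ
    unfold lin
    rw [Real.exp_sum]
  simp_rw [e1]
  rw [integral_fintype_prod_eq_prod (μ := fun _ : K => gaussianReal 0 1)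
    (f := fun c (x : ℝ) => Real.exp (U y c * x))]
  have e2 : ∀ t : ℝ, ∫ x : ℝ, Real.exp (t * x) ∂(gaussianReal 0 1) = Real.exp (t ^ 2 / 2) := by
    intro t
    have h := mgf_gaussianReal (X := id) (p := gaussianReal 0 1) (μ := 0) (v := 1)
      (by simp) t
    unfold mgf at h
    simp only [id_eq] at h
    rw [h]
    congr 1
    push_cast
    ring
  simp_rw [e2]
  rw [← Real.exp_sum, Finset.sum_div]

lemma integrable_exp_lin (U : Y → K → ℝ) (y : Y) :
    Integrable (fun ξ => Real.exp (lin U ξ y)) (gM K) := by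
  by_contra h
  have h1 := integral_exp_lin U y
  rw [integral_undef h] at h1
  exact (Real.exp_pos _).ne h1

/-- Jensen, both sides. -/
lemma jensen {w : Y → ℝ} (hw : ∀ y, 0 < w y) (U : Y → K → ℝ) {B : ℝ}
    (hB : ∀ y, ∑ c, U y c ^ 2 ≤ B) :
    Real.log (∑ y, w y) ≤ ∫ ξ, Real.log (∑ y, w y * Real.exp (lin U ξ y)) ∂(gM K) ∧
    ∫ ξ, Real.log (∑ y, w y * Real.exp (lin U ξ y)) ∂(gM K) ≤ Real.log (∑ y, w y) + B / 2 := by
  have hW := Lin.sum_pos' hw
  have hi : Integrable (fun ξ => Real.log (∑ y, w y * Real.exp (lin U ξ y))) (gM K) :=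
    Lin.integrable_logsum hw fun y => integrable_lin U y
  constructor
  · have h1 : ∀ ξ, Real.log (∑ y, w y) + (∑ y, w y * lin U ξ y) / (∑ y, w y) ≤
        Real.log (∑ y, w y * Real.exp (lin U ξ y)) := by
      intro ξ
      set W := ∑ y, w y with hWd
      set m := (∑ y, w y * lin U ξ y) / W with hm
      have h2 : W ≤ ∑ y, w y * Real.exp (lin U ξ y - m) := by
        have h3 : ∑ y, w y * (lin U ξ y - m + 1) ≤ ∑ y, w y * Real.exp (lin U ξ y - m) :=
          Finset.sum_le_sum fun y _ => mul_le_mul_of_nonneg_left (Real.add_one_le_exp _) (hw y).le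
        have h4 : ∑ y, w y * (lin U ξ y - m + 1) = W := by
          have : ∀ y, w y * (lin U ξ y - m + 1) = w y * lin U ξ y - w y * m + w y := fun y => by
            ring
          simp_rw [this]
          rw [Finset.sum_add_distrib, Finset.sum_sub_distrib, ← Finset.sum_mul, ← hWd, hm]
          field_simp
          ring
        rwa [h4] at h3
      have h5 : ∑ y, w y * Real.exp (lin U ξ y - m) =
          (∑ y, w y * Real.exp (lin U ξ y)) * Real.exp (-m) := by
        rw [Finset.sum_mul]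
        refine Finset.sum_congr rfl fun y _ => ?_
        rw [mul_assoc, ← Real.exp_add]
        rfl
      rw [h5] at h2
      have hS : 0 < ∑ y, w y * Real.exp (lin U ξ y) :=
        Lin.sum_pos' fun y => mul_pos (hw y) (Real.exp_pos _)
      have h6 := Real.log_le_log hW h2
      rw [Real.log_mul hS.ne' (Real.exp_pos _).ne', Real.log_exp] at h6
      linarith only [h6]
    have hi2 : Integrable (fun ξ => (∑ y, w y * lin U ξ y) / (∑ y, w y)) (gM K) :=
      (integrable_finsetSum _ fun y _ => (integrable_lin U y).const_mul _).div_const _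
    have h7 := integral_mono ((integrable_const (Real.log (∑ y, w y))).add hi2) hi h1
    simp only [Pi.add_apply] at h7
    rw [integral_add (integrable_const _) hi2, integral_div,
      integral_finsetSum _ fun y _ => (integrable_lin U y).const_mul _] at h7
    simp_rw [integral_const_mul, integral_lin, mul_zero] at h7
    simpa only [ge_iff_le, integral_const, probReal_univ, smul_eq_mul, one_mul, Finset.sum_const_zero, zero_div,     add_zero] using h7
  · set T := (∑ y, w y) * Real.exp (B / 2) with hT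
    have hT0 : 0 < T := by positivity
    have h1 : ∀ ξ, Real.log (∑ y, w y * Real.exp (lin U ξ y)) ≤
        Real.log T + ((∑ y, w y * Real.exp (lin U ξ y)) / T - 1) := by
      intro ξ
      have hS : 0 < ∑ y, w y * Real.exp (lin U ξ y) :=
        Lin.sum_pos' fun y => mul_pos (hw y) (Real.exp_pos _)
      have h2 := Real.log_le_sub_one_of_pos (div_pos hS hT0)
      rw [Real.log_div hS.ne' hT0.ne'] at h2
      linarith only [h2]
    have hi1 : Integrable (fun ξ => ∑ y, w y * Real.exp (lin U ξ y)) (gM K) :=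
      integrable_finsetSum _ fun y _ => (integrable_exp_lin U y).const_mul _
    have hi2 : Integrable (fun ξ => (∑ y, w y * Real.exp (lin U ξ y)) / T - 1) (gM K) :=
      (hi1.div_const _).sub (integrable_const _)
    have h3 := integral_mono hi ((integrable_const (Real.log T)).add hi2) h1
    simp only [Pi.add_apply] at h3
    rw [integral_add (integrable_const _) hi2, integral_sub (hi1.div_const _) (integrable_const _),
      integral_div, integral_finsetSum _ fun y _ => (integrable_exp_lin U y).const_mul _] at h3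
    simp_rw [integral_const_mul, integral_exp_lin] at h3
    have h4 : (∑ y, w y * Real.exp ((∑ c, U y c ^ 2) / 2)) / T ≤ 1 := by
      rw [div_le_one hT0, hT, Finset.sum_mul]
      refine Finset.sum_le_sum fun y _ => mul_le_mul_of_nonneg_left ?_ (hw y).le
      exact Real.exp_le_exp.2 (by linarith only [hB y])
    have h5 : Real.log T = Real.log (∑ y, w y) + B / 2 := by
      rw [hT, Real.log_mul hW.ne' (Real.exp_pos _).ne', Real.log_exp]
    simp only [integral_const, probReal_univ, smul_eq_mul, one_mul] at h3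
    linarith

/-- Integration over a sum of index sets. -/
lemma integral_sum_index (U : Y → K → ℝ) (V : Y → K' → ℝ) (F : (Y → ℝ) → ℝ) :
    ∫ ζ, F (lin (fun y => Sum.elim (U y) (V y)) ζ) ∂(gM (K ⊕ K')) =
      ∫ q, F (fun y => lin U q.1 y + lin V q.2 y) ∂((gM K).prod (gM K')) := by
  have mp := measurePreserving_sumPiEquivProdPi (X := fun _ : K ⊕ K' => ℝ)
    (fun _ : K ⊕ K' => gaussianReal 0 1)
  have e1 : ∀ ζ : K ⊕ K' → ℝ, F (lin (fun y => Sum.elim (U y) (V y)) ζ) =
      (fun q : (K → ℝ) × (K' → ℝ) => F (fun y => lin U q.1 y + lin V q.2 y))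
        (MeasurableEquiv.sumPiEquivProdPi (fun _ : K ⊕ K' => ℝ) ζ) := by
    intro ζ
    simp only
    congr 1
    funext y
    simp only [lin, Fintype.sum_sum_type, Sum.elim_inl, Sum.elim_inr]
    rfl
  simp_rw [e1]
  exact mp.integral_comp' (g := fun q : (K → ℝ) × (K' → ℝ) =>
    F (fun y => lin U q.1 y + lin V q.2 y))

lemma gram_elim (U : Y → K → ℝ) (V : Y → K' → ℝ) (a b : Y) :
    gram (fun y => Sum.elim (U y) (V y)) (fun y => Sum.elim (U y) (V y)) a b =
      gram U U a b + gram V V a b := by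
  simp only [gram, Fintype.sum_sum_type, Sum.elim_inl, Sum.elim_inr]

/-- A process whose covariance is larger than the one of `U` by the one of `V`. -/
lemma add_cov {w : Y → ℝ} (hw : ∀ y, 0 < w y) {U : Y → K → ℝ} {V : Y → K' → ℝ}
    {T : Y → K'' → ℝ} (hT : ∀ a b, gram T T a b = gram U U a b + gram V V a b) {B : ℝ}
    (hB : ∀ y, ∑ c, V y c ^ 2 ≤ B) :
    ∫ ξ, Real.log (∑ y, w y * Real.exp (lin U ξ y)) ∂(gM K) ≤
      ∫ ξ, Real.log (∑ y, w y * Real.exp (lin T ξ y)) ∂(gM K'') ∧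
    ∫ ξ, Real.log (∑ y, w y * Real.exp (lin T ξ y)) ∂(gM K'') ≤
      ∫ ξ, Real.log (∑ y, w y * Real.exp (lin U ξ y)) ∂(gM K) + B / 2 := by
  have hF : Measurable fun z : Y → ℝ => Real.log (∑ y, w y * Real.exp (z y)) := by (clear * -; fun_prop)
  have h1 := integral_lin_congr (U := T) (V := fun y => Sum.elim (U y) (V y))
    (fun a b => by rw [hT, gram_elim]) hF
  have h2 := integral_sum_index U V (fun z => Real.log (∑ y, w y * Real.exp (z y)))
  have hi : Integrable (fun q : (K → ℝ) × (K' → ℝ) => Real.log (∑ y, w y *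
      Real.exp (lin U q.1 y + lin V q.2 y))) ((gM K).prod (gM K')) :=
    Lin.integrable_logsum hw fun y => ((integrable_lin U y).comp_fst _).add
      ((integrable_lin V y).comp_snd _)
  rw [h2, integral_prod _ hi] at h1
  have hJ : ∀ ξ : K → ℝ, Real.log (∑ y, w y * Real.exp (lin U ξ y)) ≤
      ∫ η, Real.log (∑ y, w y * Real.exp (lin U ξ y + lin V η y)) ∂(gM K') ∧
      ∫ η, Real.log (∑ y, w y * Real.exp (lin U ξ y + lin V η y)) ∂(gM K') ≤
      Real.log (∑ y, w y * Real.exp (lin U ξ y)) + B / 2 := by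
    intro ξ
    have h := jensen (w := fun y => w y * Real.exp (lin U ξ y))
      (fun y => mul_pos (hw y) (Real.exp_pos _)) V hB
    simp_rw [mul_assoc, ← Real.exp_add] at h
    exact h
  have hiU : Integrable (fun ξ => Real.log (∑ y, w y * Real.exp (lin U ξ y))) (gM K) :=
    Lin.integrable_logsum hw fun y => integrable_lin U y
  have hi1 := hi.integral_prod_left
  constructor
  · rw [h1]
    exact integral_mono hiU hi1 fun ξ => (hJ ξ).1
  · rw [h1]
    have h3 := integral_mono hi1 (hiU.add (integrable_const (B / 2))) fun ξ => (hJ ξ).2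
    simp only [Pi.add_apply] at h3
    rw [integral_add hiU (integrable_const _)] at h3
    simpa only [ge_iff_le, integral_const, probReal_univ, smul_eq_mul, one_mul] using h3

/-- Comparison of two processes whose covariances both exceed the one of `U` by little. -/
lemma compare_cov {K3 K4 : Type} [Fintype K3] [DecidableEq K3] [Fintype K4] [DecidableEq K4]
    {w : Y → ℝ} (hw : ∀ y, 0 < w y) {U : Y → K → ℝ} {V : Y → K' → ℝ} {V' : Y → K'' → ℝ}
    {T : Y → K3 → ℝ} {T' : Y → K4 → ℝ}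
    (hT : ∀ a b, gram T T a b = gram U U a b + gram V V a b)
    (hT' : ∀ a b, gram T' T' a b = gram U U a b + gram V' V' a b) {B : ℝ}
    (hB : ∀ y, ∑ c, V y c ^ 2 ≤ B) (hB' : ∀ y, ∑ c, V' y c ^ 2 ≤ B) :
    |∫ ξ, Real.log (∑ y, w y * Real.exp (lin T ξ y)) ∂(gM K3) -
      ∫ ξ, Real.log (∑ y, w y * Real.exp (lin T' ξ y)) ∂(gM K4)| ≤ B / 2 := by
  have h1 := add_cov hw hT hB
  have h2 := add_cov hw hT' hB'
  rw [abs_le]
  constructor <;> linarith [h1.1, h1.2, h2.1, h2.2]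

end gen

section law

variable {Y : Type} [Fintype Y]

/-- Patterns whose fields have the same law give the same integrals. -/
lemma pi_law {Ω₁ Ω₂ : Type} [MeasurableSpace Ω₁] [MeasurableSpace Ω₂] {μ₁ : Measure Ω₁}
    {μ₂ : Measure Ω₂} [IsProbabilityMeasure μ₁] [IsProbabilityMeasure μ₂] {T₁ : Ω₁ → Y → ℝ}
    {T₂ : Ω₂ → Y → ℝ} (h₁ : Measurable T₁) (h₂ : Measurable T₂) (h : μ₁.map T₁ = μ₂.map T₂)
    (M : ℕ) {F : (Fin M → Y → ℝ) → ℝ} (hF : Measurable F) :
    ∫ g : Fin M → Ω₁, F (fun a => T₁ (g a)) ∂(Measure.pi fun _ => μ₁) =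
      ∫ g : Fin M → Ω₂, F (fun a => T₂ (g a)) ∂(Measure.pi fun _ => μ₂) := by
  have e₁ : IsProbabilityMeasure (μ₁.map T₁) := Measure.isProbabilityMeasure_map h₁.aemeasurable
  have e₂ : IsProbabilityMeasure (μ₂.map T₂) := Measure.isProbabilityMeasure_map h₂.aemeasurable
  have p₁ := Measure.pi_map_pi (μ := fun _ : Fin M => μ₁) (f := fun _ => T₁)
    (fun _ => h₁.aemeasurable)
  have p₂ := Measure.pi_map_pi (μ := fun _ : Fin M => μ₂) (f := fun _ => T₂)
    (fun _ => h₂.aemeasurable)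
  have m₁ : Measurable fun g : Fin M → Ω₁ => fun a => T₁ (g a) := by fun_prop
  have m₂ : Measurable fun g : Fin M → Ω₂ => fun a => T₂ (g a) := by fun_prop
  have i₁ := integral_map (μ := Measure.pi fun _ : Fin M => μ₁) m₁.aemeasurable
    (f := F) hF.aestronglyMeasurable
  have i₂ := integral_map (μ := Measure.pi fun _ : Fin M => μ₂) m₂.aemeasurable
    (f := F) hF.aestronglyMeasurable
  rw [← i₁, ← i₂]
  congr 1
  rw [p₁, p₂, h]

end law

end Cube

end Vale.Agent.P157.Par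
end

section

/-! One more pattern, and the cost of the perturbation. -/

open MeasureTheory ProbabilityTheory Filter Topology
open scoped RealInnerProductSpace

namespace Vale.Agent.P157.Par

open Vale.Agent.P367.GT (gM)

set_option linter.unusedSectionVars false

namespace Cube

/-- The coefficients of the perturbation. -/
noncomputable def cf (N : ℕ) {P : ℕ} (s : ℝ) (u : Fin P → ℝ) (x : Fin (N + 1) → Bool)
    (e : GI P (N + 1)) : ℝ :=
  s * u e.1 * (1 / 2) ^ ((e.1 : ℕ) + 1) * ∏ r, cubeφ N x (e.2 r)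

lemma sum_cubeφ (N : ℕ) (x y : Fin (N + 1) → Bool) :
    ∑ i, cubeφ N x i * cubeφ N y i = ⟪cubeφ N x, cubeφ N y⟫ := by
  rw [PiLp.inner_apply]
  exact Finset.sum_congr rfl fun i _ => by simp [mul_comm]

lemma sum_cubeφ_sq (N : ℕ) (x : Fin (N + 1) → Bool) : ∑ i, cubeφ N x i ^ 2 = 1 := by
  have h := sum_cubeφ N x x
  rw [real_inner_self_eq_norm_sq, norm_cubeφ] at h
  simp_rw [sq]
  rw [h]
  norm_num

/-- The covariance of the perturbation. -/
lemma gram_cf (N : ℕ) {P : ℕ} (s : ℝ) (u : Fin P → ℝ) (x y : Fin (N + 1) → Bool) :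
    gram (cf N s u) (cf N s u) x y =
      ∑ p : Fin P, (s * u p * (1 / 2) ^ ((p : ℕ) + 1)) ^ 2 *
        (∑ i, cubeφ N x i * cubeφ N y i) ^ ((p : ℕ) + 1) := by
  unfold gram cf
  rw [Fintype.sum_sigma]
  refine Finset.sum_congr rfl fun p _ => ?_
  rw [Fintype.sum_pow, Finset.mul_sum]
  refine Finset.sum_congr rfl fun k _ => ?_
  rw [Finset.prod_mul_distrib]
  simp only
  ring

lemma sum_cf_sq (N : ℕ) {P : ℕ} (s : ℝ) (u : Fin P → ℝ) (x : Fin (N + 1) → Bool) :
    ∑ e, cf N s u x e ^ 2 = ∑ p : Fin P, (s * u p * (1 / 2) ^ ((p : ℕ) + 1)) ^ 2 := by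
  have h := gram_cf N s u x x
  unfold gram at h
  simp_rw [← sq] at h
  rw [h]
  refine Finset.sum_congr rfl fun p _ => ?_
  rw [sum_cubeφ_sq, one_pow, mul_one]

lemma geo (P : ℕ) : ∑ p : Fin P, ((1 : ℝ) / 4) ^ ((p : ℕ) + 1) ≤ 1 / 3 := by
  rw [Fin.sum_univ_eq_sum_range (fun p => ((1 : ℝ) / 4) ^ (p + 1))]
  have h : ∀ n : ℕ, ∑ p ∈ Finset.range n, ((1 : ℝ) / 4) ^ (p + 1) =
      (1 - (1 / 4) ^ n) / 3 := by
    intro n
    induction n with
    | zero => simp only [Finset.range_zero, one_div, inv_pow, Finset.sum_empty, pow_zero, sub_self, zero_div]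
    | succ n ih => rw [Finset.sum_range_succ, ih]; ring
  rw [h]
  have : (0 : ℝ) ≤ (1 / 4) ^ P := by positivity
  linarith only [this]

lemma coef_sq_le {P : ℕ} {s : ℝ} {u : Fin P → ℝ} (hu : ∀ q, 0 ≤ u q ∧ u q ≤ 2) (p : Fin P) :
    (s * u p * (1 / 2) ^ ((p : ℕ) + 1)) ^ 2 ≤ 4 * s ^ 2 * (1 / 4) ^ ((p : ℕ) + 1) := by
  have h1 : u p ^ 2 ≤ 4 := by nlinarith [(hu p).1, (hu p).2]
  have h2 : ((1 : ℝ) / 2) ^ ((p : ℕ) + 1) * (1 / 2) ^ ((p : ℕ) + 1) = (1 / 4) ^ ((p : ℕ) + 1) := by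
    rw [← mul_pow]; norm_num
  have h3 : (0 : ℝ) ≤ (1 / 4) ^ ((p : ℕ) + 1) := by positivity
  calc (s * u p * (1 / 2) ^ ((p : ℕ) + 1)) ^ 2
      = u p ^ 2 * (s ^ 2 * ((1 / 2) ^ ((p : ℕ) + 1) * (1 / 2) ^ ((p : ℕ) + 1))) := by ring
    _ ≤ 4 * (s ^ 2 * ((1 / 2) ^ ((p : ℕ) + 1) * (1 / 2) ^ ((p : ℕ) + 1))) := by
        refine mul_le_mul_of_nonneg_right h1 ?_
        rw [h2]; (clear * -; positivity)
    _ = _ := by rw [h2]; ring

lemma sum_cf_sq_le (N : ℕ) {P : ℕ} {s : ℝ} {u : Fin P → ℝ} (hu : ∀ q, 0 ≤ u q ∧ u q ≤ 2)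
    (x : Fin (N + 1) → Bool) : ∑ e, cf N s u x e ^ 2 ≤ 2 * s ^ 2 := by
  rw [sum_cf_sq]
  refine (Finset.sum_le_sum fun p _ => coef_sq_le hu p).trans ?_
  rw [← Finset.mul_sum]
  nlinarith only [geo P]

/-- The law of the patterns. -/
noncomputable abbrev pm (M N : ℕ) : Measure (Fin M → Fin (N + 1) → ℝ) :=
  Measure.pi fun _ => gM (Fin (N + 1))

/-- The energy. -/
noncomputable def EE (f : ℝ → ℝ) {N M P : ℕ} (s : ℝ) (u : Fin P → ℝ)
    (ω : Fin M → Fin (N + 1) → ℝ) (g : GI P (N + 1) → ℝ) (y : Fin (N + 1) → Bool) : ℝ :=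
  ∑ a, f (cubeS (ω a) y) + lin (cf N s u) g y

section base

variable {f : ℝ → ℝ} (hf : Measurable f) (C : ℝ) (hC : ∀ x, |f x| ≤ C) (N M : ℕ) {P : ℕ} (s : ℝ)
  (u : Fin P → ℝ)

lemma gen_eq_cf (ω : Fin M → Fin (N + 1) → ℝ) (g : GI P (N + 1) → ℝ) (y : Fin (N + 1) → Bool) :
    gen ((cubeBase f hf C hC N M).H ω) ((cubeBase f hf C hC N M).coef P s u) g y =
      EE f s u ω g y := by
  unfold gen EE lin
  congr 1
  exact Finset.sum_congr rfl fun e _ => mul_comm _ _

lemma elz_eq : (cubeBase f hf C hC N M).elz s u =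
    ∫ z : (Fin M → Fin (N + 1) → ℝ) × (GI P (N + 1) → ℝ),
      Real.log (∑ y, Real.exp (EE f s u z.1 z.2 y)) ∂((pm M N).prod (gM (GI P (N + 1)))) :=
  integral_congr_ae (Filter.Eventually.of_forall fun z =>
    congrArg Real.log (Finset.sum_congr rfl fun y _ =>
      congrArg Real.exp (gen_eq_cf hf C hC N M s u z.1 z.2 y)))

lemma w_eq (z : (Fin M → Fin (N + 1) → ℝ) × (GI P (N + 1) → ℝ)) (y : Fin (N + 1) → Bool) :
    ((cubeBase f hf C hC N M).sys P s u).w z y =
      Real.exp (EE f s u z.1 z.2 y) / ∑ y', Real.exp (EE f s u z.1 z.2 y') := by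
  have h1 : ((cubeBase f hf C hC N M).sys P s u).w z y =
      Real.exp (gen ((cubeBase f hf C hC N M).H z.1) ((cubeBase f hf C hC N M).coef P s u) z.2 y) /
        ∑ y' : Fin (N + 1) → Bool, Real.exp (gen ((cubeBase f hf C hC N M).H z.1)
          ((cubeBase f hf C hC N M).coef P s u) z.2 y') := rfl
  rw [h1]
  have h2 := gen_eq_cf hf C hC N M s u z.1 z.2
  simp_rw [h2]

include hf hC in
lemma integrable_fS {Ω : Type} [MeasurableSpace Ω] {μ : Measure Ω} [IsFiniteMeasure μ]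
    {g : Ω → Fin (N + 1) → ℝ} (hg : Measurable g) (y : Fin (N + 1) → Bool) :
    Integrable (fun ω => f (cubeS (g ω) y)) μ := by
  refine Integrable.mono' (integrable_const C) ?_ (Filter.Eventually.of_forall fun _ => hC _)
  exact (hf.comp (by unfold cubeS; fun_prop)).aestronglyMeasurable

include hf hC in
lemma integrable_EE (y : Fin (N + 1) → Bool) : Integrable
    (fun z : (Fin M → Fin (N + 1) → ℝ) × (GI P (N + 1) → ℝ) => EE f s u z.1 z.2 y)
    ((pm M N).prod (gM (GI P (N + 1)))) := by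
  unfold EE
  refine Integrable.add ?_ ((integrable_lin (cf N s u) y).comp_snd _)
  exact integrable_finsetSum _ fun a _ => integrable_fS hf C hC N (by fun_prop) y

/-- log-sum-exp of integrable energies is integrable -/
lemma integrable_lse {Ω Y : Type} [MeasurableSpace Ω] [Fintype Y] [Nonempty Y] {μ : Measure Ω}
    [IsFiniteMeasure μ] {E : Ω → Y → ℝ} (hE : ∀ y, Integrable (fun ω => E ω y) μ) :
    Integrable (fun ω => Real.log (∑ y, Real.exp (E ω y))) μ := by
  have h := Lin.integrable_logsum (w := fun _ : Y => 1) (fun _ => one_pos) hE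
  simpa only [one_mul] using h

lemma log_ratio {Y : Type} [Fintype Y] [Nonempty Y] (E A : Y → ℝ) (hA : ∀ y, 0 < A y) :
    Real.log (∑ y, Real.exp (E y) * A y) = Real.log (∑ y, Real.exp (E y)) +
      Real.log (∑ y, Real.exp (E y) / (∑ y', Real.exp (E y')) * A y) := by
  have h1 : 0 < ∑ y, Real.exp (E y) := Lin.sum_pos' fun y => Real.exp_pos _
  have h2 : 0 < ∑ y, Real.exp (E y) / (∑ y', Real.exp (E y')) * A y :=
    Lin.sum_pos' fun y => mul_pos (div_pos (Real.exp_pos _) h1) (hA y)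
  rw [← Real.log_mul h1.ne' h2.ne', Finset.mul_sum]
  congr 1
  refine Finset.sum_congr rfl fun y _ => ?_
  (clear hA h1 h2; field_simp)

include hC in
lemma elz_pert' (hu : ∀ q, 0 ≤ u q ∧ u q ≤ 2) :
    |(cubeBase f hf C hC N M).elz s u -
      ∫ ω, Real.log (∑ y, Real.exp (∑ a, f (cubeS (ω a) y))) ∂(pm M N)| ≤ s ^ 2 := by
  rw [elz_eq]
  have hint : Integrable (fun z : (Fin M → Fin (N + 1) → ℝ) × (GI P (N + 1) → ℝ) =>
      Real.log (∑ y, Real.exp (EE f s u z.1 z.2 y))) ((pm M N).prod (gM (GI P (N + 1)))) :=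
    integrable_lse (integrable_EE hf C hC N M s u)
  rw [integral_prod _ hint]
  have hJ : ∀ ω : Fin M → Fin (N + 1) → ℝ,
      Real.log (∑ y, Real.exp (∑ a, f (cubeS (ω a) y))) ≤
        ∫ g, Real.log (∑ y, Real.exp (EE f s u ω g y)) ∂(gM (GI P (N + 1))) ∧
      ∫ g, Real.log (∑ y, Real.exp (EE f s u ω g y)) ∂(gM (GI P (N + 1))) ≤
        Real.log (∑ y, Real.exp (∑ a, f (cubeS (ω a) y))) + (2 * s ^ 2) / 2 := by
    intro ω
    unfold EE
    simp_rw [Real.exp_add]
    exact jensen (fun y => Real.exp_pos _) (cf N s u) fun y => sum_cf_sq_le N hu y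
  have hi1 : Integrable (fun ω : Fin M → Fin (N + 1) → ℝ =>
      Real.log (∑ y, Real.exp (∑ a, f (cubeS (ω a) y)))) (pm M N) :=
    integrable_lse fun y => integrable_finsetSum _ fun a _ =>
      integrable_fS hf C hC N (by fun_prop) y
  have hi2 := hint.integral_prod_left
  simp only at hi2 ⊢
  rw [← integral_sub hi2 hi1, ← Real.norm_eq_abs]
  have hb : ∀ ω : Fin M → Fin (N + 1) → ℝ,
      ‖∫ g, Real.log (∑ y, Real.exp (EE f s u ω g y)) ∂(gM (GI P (N + 1))) -
      Real.log (∑ y, Real.exp (∑ a, f (cubeS (ω a) y)))‖ ≤ s ^ 2 := by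
    intro ω
    rw [Real.norm_eq_abs, abs_le]
    have := hJ ω
    constructor <;> linarith
  have := norm_integral_le_of_norm_le_const (μ := pm M N) (Filter.Eventually.of_forall hb)
  simpa only [Real.norm_eq_abs, ge_iff_le, probReal_univ, mul_one] using this

lemma log_sum_cube (g : Fin M → Fin (N + 1) → ℝ) :
    ((N : ℝ) + 1) * pressure (cube (N + 1)) f g =
      Real.log (∑ y, Real.exp (∑ a, f (cubeS (g a) y))) - (N + 1) * Real.log 2 := by
  unfold pressure
  rw [integral_cube]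
  have e1 : ∀ (a : Fin M) (σ : Fin (N + 1) → Bool),
      (∑ i, g a i * spin σ i) / √((N + 1 : ℕ) : ℝ) = cubeS (g a) σ := by
    intro a σ
    unfold cubeS
    rw [Finset.sum_div]
    refine Finset.sum_congr rfl fun i _ => ?_
    have : cubeφ N σ i = sgn (σ i) / √((N : ℝ) + 1) := rfl
    rw [this]
    have h2 : spin σ i = sgn (σ i) := rfl
    rw [h2]
    push_cast
    ring
  simp_rw [e1]
  have hS : 0 < ∑ y : Fin (N + 1) → Bool, Real.exp (∑ a, f (cubeS (g a) y)) :=
    Lin.sum_pos' fun y => Real.exp_pos _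
  have h2 : Real.log (1 / 2) = -Real.log 2 := by rw [one_div, Real.log_inv]
  rw [Real.log_mul (by positivity) hS.ne', Real.log_pow, h2]
  push_cast
  field_simp
  ring

end base

end Cube

open Vale.Agent.P157.Par.Cube

/-- The cost of the perturbation. -/
theorem elz_pert {f : ℝ → ℝ} (hf : Measurable f) (C : ℝ) (hC : ∀ x, |f x| ≤ C)
    (N M P : ℕ) (s : ℝ) (u : Fin P → ℝ) (_hs : 0 ≤ s) (hu : ∀ q, 0 ≤ u q ∧ u q ≤ 2) :
    |(cubeBase f hf C hC N M).elz s u - (N + 1) * Real.log 2 -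
      ∫ g, ((N : ℝ) + 1) * pressure (cube (N + 1)) f g ∂(patterns M (N + 1))| ≤ s ^ 2 := by
  have h := elz_pert' hf C hC N M s u hu
  have e : ∫ g, ((N : ℝ) + 1) * pressure (cube (N + 1)) f g ∂(patterns M (N + 1)) =
      (∫ ω, Real.log (∑ y, Real.exp (∑ a, f (cubeS (ω a) y))) ∂(pm M N)) -
        (N + 1) * Real.log 2 := by
    simp_rw [log_sum_cube]
    change ∫ g : Fin M → Fin (N + 1) → ℝ, _ ∂(pm M N) = _
    have hi1 : Integrable (fun ω : Fin M → Fin (N + 1) → ℝ =>
        Real.log (∑ y, Real.exp (∑ a, f (cubeS (ω a) y)))) (pm M N) :=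
      integrable_lse fun y => integrable_finsetSum _ fun a _ =>
        integrable_fS hf C hC N (by fun_prop) y
    rw [integral_sub hi1 (integrable_const _)]
    simp only [integral_const, probReal_univ, smul_eq_mul, one_mul]
  rw [e]
  convert h using 2
  ring

/-- One more pattern. -/
theorem pattern_increment {f : ℝ → ℝ} (hf : Measurable f) (C : ℝ) (hC : ∀ x, |f x| ≤ C)
    (N M P : ℕ) (s : ℝ) (u : Fin P → ℝ) :
    (cubeBase f hf C hC N (M + 1)).elz s u - (cubeBase f hf C hC N M).elz s u =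
      ((cubeBase f hf C hC N M).sys P s u).dM f := by
  set μ := gM (Fin (N + 1)) with hμ
  set ν := gM (GI P (N + 1)) with hν
  -- the rearrangement of the variables
  have mp1 : MeasurePreserving (fun z : (Fin (M + 1) → Fin (N + 1) → ℝ) × (GI P (N + 1) → ℝ) =>
      ((MeasurableEquiv.piFinSuccAbove (fun _ => Fin (N + 1) → ℝ) 0 z.1, z.2) :
        ((Fin (N + 1) → ℝ) × (Fin M → Fin (N + 1) → ℝ)) × (GI P (N + 1) → ℝ)))
      ((pm (M + 1) N).prod ν) ((μ.prod (pm M N)).prod ν) :=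
    (measurePreserving_piFinSuccAbove (fun _ : Fin (M + 1) => μ) 0).prod (MeasurePreserving.id ν)
  have mp2 := measurePreserving_prodAssoc μ (pm M N) ν
  have mp3 := Measure.measurePreserving_swap (μ := μ) (ν := (pm M N).prod ν)
  have mp := mp3.comp (mp2.comp mp1)
  have hF : Integrable (fun z : ((Fin M → Fin (N + 1) → ℝ) × (GI P (N + 1) → ℝ)) ×
      (Fin (N + 1) → ℝ) => Real.log (∑ y, Real.exp (EE f s u z.1.1 z.1.2 y + f (cubeS z.2 y))))
      (((pm M N).prod ν).prod μ) := by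
    refine integrable_lse fun y => ?_
    refine Integrable.add ((integrable_EE hf C hC N M s u y).comp_fst _) ?_
    exact integrable_fS hf C hC N (by fun_prop) y
  have e1 : (cubeBase f hf C hC N (M + 1)).elz s u = ∫ z, Real.log (∑ y, Real.exp
        (EE f s u z.1.1 z.1.2 y + f (cubeS z.2 y))) ∂(((pm M N).prod ν).prod μ) := by
    rw [← mp.map_eq, integral_map mp.measurable.aemeasurable
      (by rw [mp.map_eq]; exact hF.aestronglyMeasurable), elz_eq]
    refine integral_congr_ae (Filter.Eventually.of_forall fun z => ?_)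
    change Real.log (∑ y, Real.exp (EE f s u z.1 z.2 y)) =
      Real.log (∑ y : Fin (N + 1) → Bool, Real.exp (EE f s u (fun i => z.1 i.succ) z.2 y +
        f (cubeS (z.1 0) y)))
    congr 1
    refine Finset.sum_congr rfl fun y _ => ?_
    congr 1
    unfold EE
    rw [Fin.sum_univ_succ]
    ring
  have hlz : Integrable (fun z : (Fin M → Fin (N + 1) → ℝ) × (GI P (N + 1) → ℝ) =>
      Real.log (∑ y, Real.exp (EE f s u z.1 z.2 y))) ((pm M N).prod ν) :=
    integrable_lse (integrable_EE hf C hC N M s u)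
  have e2 : (cubeBase f hf C hC N M).elz s u = ∫ z : ((Fin M → Fin (N + 1) → ℝ) ×
      (GI P (N + 1) → ℝ)) × (Fin (N + 1) → ℝ),
      Real.log (∑ y, Real.exp (EE f s u z.1.1 z.1.2 y)) ∂(((pm M N).prod ν).prod μ) := by
    rw [integral_fun_fst (μ := (pm M N).prod ν) (ν := μ)
      (fun z => Real.log (∑ y, Real.exp (EE f s u z.1 z.2 y))), elz_eq]
    simp only [probReal_univ, hν, smul_eq_mul, one_mul]
  rw [e1, e2, ← integral_sub hF (hlz.comp_fst _)]
  change _ = ∫ z : ((Fin M → Fin (N + 1) → ℝ) × (GI P (N + 1) → ℝ)) × (Fin (N + 1) → ℝ),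
    Real.log (∑ x : Fin (N + 1) → Bool, ((cubeBase f hf C hC N M).sys P s u).w z.1 x *
      Real.exp (f (cubeS z.2 x))) ∂(((pm M N).prod ν).prod μ)
  refine integral_congr_ae (Filter.Eventually.of_forall fun z => ?_)
  have h := log_ratio (EE f s u z.1.1 z.1.2) (fun y => Real.exp (f (cubeS z.2 y)))
    fun y => Real.exp_pos _
  simp only [w_eq]
  simp_rw [← Real.exp_add] at h
  rw [h]
  ring

end Vale.Agent.P157.Par
end

section

/-! Tools for the increment of one spin. -/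

open MeasureTheory ProbabilityTheory Filter Topology
open scoped RealInnerProductSpace

namespace Vale.Agent.P157.Par

open Vale.Agent.P367.GT (gM)

set_option linter.unusedSectionVars false

namespace Cube

/-- The first spins. -/
def ini {N : ℕ} (y : Fin (N + 2) → Bool) : Fin (N + 1) → Bool := fun i => y i.castSucc

/-- The last spin. -/
def las {N : ℕ} (y : Fin (N + 2) → Bool) : Bool := y (Fin.last (N + 1))

lemma sum_ini_las {N : ℕ} (F : (Fin (N + 1) → Bool) → Bool → ℝ) :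
    ∑ y : Fin (N + 2) → Bool, F (ini y) (las y) = ∑ x, (F x true + F x false) := by
  rw [← (Fin.snocEquiv (fun _ : Fin (N + 2) => Bool)).sum_comp, Fintype.sum_prod_type_right]
  refine Finset.sum_congr rfl fun x _ => ?_
  rw [Fintype.sum_bool]
  have h : ∀ b, F (ini ((Fin.snocEquiv (fun _ : Fin (N + 2) => Bool)) (b, x)))
      (las ((Fin.snocEquiv (fun _ : Fin (N + 2) => Bool)) (b, x))) = F x b := by
    intro b
    have h1 : ini ((Fin.snocEquiv (fun _ : Fin (N + 2) => Bool)) (b, x)) = x := by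
      funext i
      simp only [ini, Fin.snocEquiv, Equiv.coe_fn_mk, Fin.snoc_castSucc]
    have h2 : las ((Fin.snocEquiv (fun _ : Fin (N + 2) => Bool)) (b, x)) = b := by
      simp [las, Fin.snocEquiv]
    rw [h1, h2]
  rw [h, h]

lemma cubeφ_castSucc {N : ℕ} (y : Fin (N + 2) → Bool) (i : Fin (N + 1)) :
    cubeφ (N + 1) y i.castSucc = √(1 - 1 / ((N : ℝ) + 2)) * cubeφ N (ini y) i := by
  have h1 : cubeφ (N + 1) y i.castSucc = sgn (y i.castSucc) / √(((N + 1 : ℕ) : ℝ) + 1) := rfl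
  have h2 : cubeφ N (ini y) i = sgn (y i.castSucc) / √((N : ℝ) + 1) := rfl
  have e1 : (((N + 1 : ℕ) : ℝ) + 1) = (N : ℝ) + 2 := by push_cast; ring
  have e2 : (1 : ℝ) - 1 / ((N : ℝ) + 2) = ((N : ℝ) + 1) / ((N : ℝ) + 2) := by
    field_simp; ring
  rw [h1, h2, e1, e2, Real.sqrt_div (by positivity)]
  have h3 : 0 < √((N : ℝ) + 1) := Real.sqrt_pos.2 (by positivity)
  field_simp

lemma cubeφ_last {N : ℕ} (y : Fin (N + 2) → Bool) :
    cubeφ (N + 1) y (Fin.last (N + 1)) = √(1 / ((N : ℝ) + 2)) * sgn (las y) := by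
  have h1 : cubeφ (N + 1) y (Fin.last (N + 1)) =
      sgn (las y) / √(((N + 1 : ℕ) : ℝ) + 1) := rfl
  have e1 : (((N + 1 : ℕ) : ℝ) + 1) = (N : ℝ) + 2 := by push_cast; ring
  rw [h1, e1, Real.sqrt_div (by positivity), Real.sqrt_one]
  ring

lemma dl_pos (N : ℕ) : (0 : ℝ) < 1 / ((N : ℝ) + 2) := by positivity

lemma dl_le (N : ℕ) : (1 : ℝ) / ((N : ℝ) + 2) ≤ 1 := by
  rw [div_le_one (by positivity)]
  have : (0 : ℝ) ≤ N := Nat.cast_nonneg N
  linarith

/-- the sum over the good monomials -/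
lemma good_sum {N P : ℕ} (s : ℝ) (u : Fin P → ℝ) (a b : Fin (N + 2) → Bool) :
    ∑ e : GI P (N + 2), (if ∀ r, e.2 r ≠ Fin.last (N + 1) then cf (N + 1) s u a e *
        cf (N + 1) s u b e else 0) =
      ∑ p : Fin P, (s * u p * (1 / 2) ^ ((p : ℕ) + 1)) ^ 2 *
        ((1 - 1 / ((N : ℝ) + 2)) * ∑ i, cubeφ N (ini a) i * cubeφ N (ini b) i) ^ ((p : ℕ) + 1) := by
  rw [Fintype.sum_sigma]
  refine Finset.sum_congr rfl fun p _ => ?_
  set m : Fin (N + 2) → ℝ := fun i => if i = Fin.last (N + 1) then 0 else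
    cubeφ (N + 1) a i * cubeφ (N + 1) b i with hm
  have h1 : ∀ k : Fin ((p : ℕ) + 1) → Fin (N + 2),
      (if ∀ r, k r ≠ Fin.last (N + 1) then cf (N + 1) s u a ⟨p, k⟩ * cf (N + 1) s u b ⟨p, k⟩
        else 0) = (s * u p * (1 / 2) ^ ((p : ℕ) + 1)) ^ 2 * ∏ r, m (k r) := by
    intro k
    split_ifs with h
    · have : ∏ r, m (k r) = (∏ r, cubeφ (N + 1) a (k r)) * ∏ r, cubeφ (N + 1) b (k r) := by
        rw [← Finset.prod_mul_distrib]
        refine Finset.prod_congr rfl fun r _ => ?_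
        rw [hm]
        simp only [if_neg (h r)]
      rw [this]
      unfold cf
      ring
    · push Not at h
      obtain ⟨r, hr⟩ := h
      have : ∏ r, m (k r) = 0 := Finset.prod_eq_zero (Finset.mem_univ r) (by rw [hm]; simp [hr])
      rw [this, mul_zero]
  simp only
  rw [Finset.sum_congr rfl fun k _ => h1 k, ← Finset.mul_sum, ← Fintype.sum_pow]
  congr 2
  rw [Fin.sum_univ_castSucc, hm]
  simp only [if_true, add_zero]
  rw [Finset.mul_sum]
  refine Finset.sum_congr rfl fun i _ => ?_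
  rw [if_neg (Fin.castSucc_ne_last i), cubeφ_castSucc, cubeφ_castSucc]
  have h2 : √(1 - 1 / ((N : ℝ) + 2)) * √(1 - 1 / ((N : ℝ) + 2)) = 1 - 1 / ((N : ℝ) + 2) :=
    Real.mul_self_sqrt (by linarith only [dl_le N])
  linear_combination (cubeφ N (ini a) i * cubeφ N (ini b) i) * h2

lemma pow_le_bd {δ : ℝ} (_h0 : 0 ≤ δ) (h1 : δ ≤ 1) (n : ℕ) : 1 - (1 - δ) ^ n ≤ n * δ := by
  have h := one_add_mul_le_pow (a := -δ) (by linarith only [h1]) n
  rw [← sub_eq_add_neg] at h
  linarith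

lemma bd_sum {P : ℕ} {s δ : ℝ} {u : Fin P → ℝ} (hu : ∀ q, 0 ≤ u q ∧ u q ≤ 2) (h0 : 0 ≤ δ)
    (h1 : δ ≤ 1) :
    ∑ p : Fin P, (s * u p * (1 / 2) ^ ((p : ℕ) + 1)) ^ 2 * (1 - (1 - δ) ^ ((p : ℕ) + 1)) ≤
      4 * s ^ 2 * δ := by
  have h2 : ∀ p : Fin P, (s * u p * (1 / 2) ^ ((p : ℕ) + 1)) ^ 2 *
      (1 - (1 - δ) ^ ((p : ℕ) + 1)) ≤ 4 * s ^ 2 * δ * (1 / 2) ^ ((p : ℕ) + 1) := by
    intro p
    have e1 := coef_sq_le (s := s) hu p
    have e2 := pow_le_bd h0 h1 ((p : ℕ) + 1)
    have e3 : 0 ≤ 1 - (1 - δ) ^ ((p : ℕ) + 1) := by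
      have := pow_le_one₀ (n := (p : ℕ) + 1) (by linarith only [h1] : 0 ≤ 1 - δ) (by linarith only [h0])
      linarith only [this]
    have e4 : (((p : ℕ) + 1 : ℕ) : ℝ) ≤ 2 ^ ((p : ℕ) + 1) := by
      exact_mod_cast (Nat.lt_two_pow_self (n := (p : ℕ) + 1)).le
    have e5 : ((1 : ℝ) / 4) ^ ((p : ℕ) + 1) * 2 ^ ((p : ℕ) + 1) = (1 / 2) ^ ((p : ℕ) + 1) := by
      rw [← mul_pow]; (clear * -; norm_num)
    calc _ ≤ 4 * s ^ 2 * (1 / 4) ^ ((p : ℕ) + 1) * (1 - (1 - δ) ^ ((p : ℕ) + 1)) :=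
          mul_le_mul_of_nonneg_right e1 e3
      _ ≤ 4 * s ^ 2 * (1 / 4) ^ ((p : ℕ) + 1) * ((((p : ℕ) + 1 : ℕ) : ℝ) * δ) :=
          mul_le_mul_of_nonneg_left e2 (by (clear * -; positivity))
      _ ≤ 4 * s ^ 2 * (1 / 4) ^ ((p : ℕ) + 1) * (2 ^ ((p : ℕ) + 1) * δ) := by (clear * - e4 h0; gcongr)
      _ = _ := by rw [← e5]; ring
  refine (Finset.sum_le_sum fun p _ => h2 p).trans ?_
  rw [← Finset.mul_sum]
  have h3 : ∑ p : Fin P, ((1 : ℝ) / 2) ^ ((p : ℕ) + 1) ≤ 1 := by
    rw [Fin.sum_univ_eq_sum_range (fun p => ((1 : ℝ) / 2) ^ (p + 1))]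
    have h : ∀ n : ℕ, ∑ p ∈ Finset.range n, ((1 : ℝ) / 2) ^ (p + 1) = 1 - (1 / 2) ^ n := by
      intro n
      induction n with
      | zero => simp only [Finset.range_zero, one_div, inv_pow, Finset.sum_empty, pow_zero, sub_self]
      | succ n ih => rw [Finset.sum_range_succ, ih]; ring
    rw [h]
    have : (0 : ℝ) ≤ (1 / 2) ^ P := by positivity
    linarith only [this]
  calc _ ≤ 4 * s ^ 2 * δ * 1 := mul_le_mul_of_nonneg_left h3 (by (clear * - h0; positivity))
    _ = _ := by ring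

/-- Replacing the perturbation. -/
lemma stepA {N P : ℕ} (s : ℝ) {u : Fin P → ℝ} (hu : ∀ q, 0 ≤ u q ∧ u q ≤ 2)
    {w : (Fin (N + 2) → Bool) → ℝ} (hw : ∀ y, 0 < w y) :
    |∫ ξ, Real.log (∑ y, w y * Real.exp (lin (cf (N + 1) s u) ξ y)) ∂(gM (GI P (N + 2))) -
      ∫ ξ, Real.log (∑ y, w y * Real.exp (lin (cf N s u) ξ (ini y))) ∂(gM (GI P (N + 1)))| ≤
      2 * (s ^ 2 * (1 / ((N : ℝ) + 2))) := by
  set δ : ℝ := 1 / ((N : ℝ) + 2) with hδ
  have h0 : 0 ≤ δ := (dl_pos N).le
  have h1 : δ ≤ 1 := dl_le N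
  set U : (Fin (N + 2) → Bool) → GI P (N + 1) → ℝ := fun y e =>
    √((1 - δ) ^ ((e.1 : ℕ) + 1)) * cf N s u (ini y) e with hU
  set V : (Fin (N + 2) → Bool) → GI P (N + 2) → ℝ := fun y e =>
    if ∀ r, e.2 r ≠ Fin.last (N + 1) then 0 else cf (N + 1) s u y e with hV
  set V' : (Fin (N + 2) → Bool) → GI P (N + 1) → ℝ := fun y e =>
    √(1 - (1 - δ) ^ ((e.1 : ℕ) + 1)) * cf N s u (ini y) e with hV'
  have hp0 : ∀ n : ℕ, 0 ≤ (1 - δ) ^ n := fun n => pow_nonneg (by linarith only [h1]) n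
  have hp1 : ∀ n : ℕ, 0 ≤ 1 - (1 - δ) ^ n := fun n => by
    have := pow_le_one₀ (n := n) (by linarith only [h1] : 0 ≤ 1 - δ) (by linarith only [h0])
    linarith only [this]
  have gU : ∀ a b, gram U U a b = ∑ p : Fin P, (s * u p * (1 / 2) ^ ((p : ℕ) + 1)) ^ 2 *
      ((1 - δ) * ∑ i, cubeφ N (ini a) i * cubeφ N (ini b) i) ^ ((p : ℕ) + 1) := by
    intro a b
    unfold gram
    rw [Fintype.sum_sigma]
    refine Finset.sum_congr rfl fun p _ => ?_
    rw [mul_pow (1 - δ), Fintype.sum_pow]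
    have e1 : ∀ k : Fin ((p : ℕ) + 1) → Fin (N + 1), U a ⟨p, k⟩ * U b ⟨p, k⟩ =
        (s * u p * (1 / 2) ^ ((p : ℕ) + 1)) ^ 2 * ((1 - δ) ^ ((p : ℕ) + 1) *
        ∏ r, (cubeφ N (ini a) (k r) * cubeφ N (ini b) (k r))) := by
      intro k
      have e2 : √((1 - δ) ^ ((p : ℕ) + 1)) * √((1 - δ) ^ ((p : ℕ) + 1)) =
        (1 - δ) ^ ((p : ℕ) + 1) := Real.mul_self_sqrt (hp0 _)
      rw [Finset.prod_mul_distrib, hU]
      unfold cf
      simp only
      linear_combination ((s * u p * (1 / 2) ^ ((p : ℕ) + 1)) ^ 2 *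
        ((∏ r, cubeφ N (ini a) (k r)) * ∏ r, cubeφ N (ini b) (k r))) * e2
    simp only at e1
    rw [Finset.sum_congr rfl fun k _ => e1 k, ← Finset.mul_sum, ← Finset.mul_sum]
  have gT : ∀ a b, gram (cf (N + 1) s u) (cf (N + 1) s u) a b = gram U U a b + gram V V a b := by
    intro a b
    rw [gU, ← good_sum]
    unfold gram
    rw [← Finset.sum_add_distrib]
    refine Finset.sum_congr rfl fun e _ => ?_
    simp only [hV]
    split_ifs <;> ring
  have gT' : ∀ a b, gram (fun y => cf N s u (ini y)) (fun y => cf N s u (ini y)) a b =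
      gram U U a b + gram V' V' a b := by
    intro a b
    unfold gram
    rw [← Finset.sum_add_distrib]
    refine Finset.sum_congr rfl fun e _ => ?_
    have e2 : √((1 - δ) ^ ((e.1 : ℕ) + 1)) * √((1 - δ) ^ ((e.1 : ℕ) + 1)) =
      (1 - δ) ^ ((e.1 : ℕ) + 1) := Real.mul_self_sqrt (hp0 _)
    have e3 : √(1 - (1 - δ) ^ ((e.1 : ℕ) + 1)) * √(1 - (1 - δ) ^ ((e.1 : ℕ) + 1)) =
      1 - (1 - δ) ^ ((e.1 : ℕ) + 1) := Real.mul_self_sqrt (hp1 _)
    simp only [hU, hV']
    linear_combination (-(cf N s u (ini a) e * cf N s u (ini b) e)) * e2 -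
      (cf N s u (ini a) e * cf N s u (ini b) e) * e3
  have bU : ∀ y, gram U U y y = ∑ p : Fin P, (s * u p * (1 / 2) ^ ((p : ℕ) + 1)) ^ 2 *
      (1 - δ) ^ ((p : ℕ) + 1) := by
    intro y
    rw [gU]
    refine Finset.sum_congr rfl fun p _ => ?_
    have e1 := sum_cubeφ_sq N (ini y)
    simp_rw [sq] at e1
    rw [e1, mul_one]
  have bd := bd_sum (s := s) hu h0 h1
  have bV : ∀ y, ∑ c, V y c ^ 2 ≤ 4 * s ^ 2 * δ := by
    intro y
    have e1 := gT y y
    have e2 : gram V V y y = ∑ c, V y c ^ 2 := by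
      unfold gram; simp_rw [sq]
    have e3 : gram (cf (N + 1) s u) (cf (N + 1) s u) y y = ∑ c, cf (N + 1) s u y c ^ 2 := by
      unfold gram; simp_rw [sq]
    rw [e3, sum_cf_sq, e2, bU] at e1
    have e4 : ∑ c, V y c ^ 2 = ∑ p : Fin P, (s * u p * (1 / 2) ^ ((p : ℕ) + 1)) ^ 2 *
        (1 - (1 - δ) ^ ((p : ℕ) + 1)) := by
      simp_rw [mul_sub, mul_one]
      rw [Finset.sum_sub_distrib]
      linarith only [e1]
    rw [e4]
    exact bd
  have bV' : ∀ y, ∑ c, V' y c ^ 2 ≤ 4 * s ^ 2 * δ := by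
    intro y
    have e1 := gT' y y
    have e2 : gram V' V' y y = ∑ c, V' y c ^ 2 := by
      unfold gram; simp_rw [sq]
    have e3 : gram (fun y => cf N s u (ini y)) (fun y => cf N s u (ini y)) y y =
        ∑ c, cf N s u (ini y) c ^ 2 := by
      unfold gram; simp_rw [sq]
    rw [e3, sum_cf_sq, e2, bU] at e1
    have e4 : ∑ c, V' y c ^ 2 = ∑ p : Fin P, (s * u p * (1 / 2) ^ ((p : ℕ) + 1)) ^ 2 *
        (1 - (1 - δ) ^ ((p : ℕ) + 1)) := by
      simp_rw [mul_sub, mul_one]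
      rw [Finset.sum_sub_distrib]
      linarith only [e1]
    rw [e4]
    exact bd
  have h := compare_cov hw gT gT' bV bV'
  have e5 : 4 * s ^ 2 * δ / 2 = 2 * (s ^ 2 * δ) := by ring
  rw [e5] at h
  exact h

section law

variable {Y K K' K'' : Type} [Fintype Y] [Nonempty Y] [Fintype K] [Fintype K'] [Fintype K'']
  [DecidableEq Y] [DecidableEq K] [DecidableEq K'] [DecidableEq K'']

lemma measurable_lin_fun (U : Y → K → ℝ) : Measurable fun ξ : K → ℝ => lin U ξ := by
  unfold lin; fun_prop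

lemma map_lin_eq {U : Y → K → ℝ} {V : Y → K' → ℝ} (hG : ∀ a b, gram U U a b = gram V V a b) :
    (gM K).map (fun ξ => lin U ξ) = (gM K').map (fun ξ => lin V ξ) := by
  have h := map_lin_congr hG
  have h2 := congrArg (fun m : Measure (EuclideanSpace ℝ Y) => m.map WithLp.ofLp) h
  simp only at h2
  rw [Measure.map_map (WithLp.measurable_ofLp 2 _) (by unfold lin; fun_prop),
    Measure.map_map (WithLp.measurable_ofLp 2 _) (by unfold lin; fun_prop)] at h2
  exact h2

/-- The law of a mixture of two independent fields. -/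
lemma law_mix {φ : Y → K → ℝ} {ψ : Y → K' → ℝ} {T : Y → K'' → ℝ} (a b : ℝ)
    (h : ∀ y y', gram T T y y' = a ^ 2 * gram φ φ y y' + b ^ 2 * gram ψ ψ y y') :
    (gM K'').map (fun ξ => lin T ξ) = ((gM K).prod (gM K')).map
      (fun q y => a * lin φ q.1 y + b * lin ψ q.2 y) := by
  set U : Y → K ⊕ K' → ℝ := fun y => Sum.elim (fun c => a * φ y c) (fun c => b * ψ y c) with hU
  have h1 : ∀ y y', gram T T y y' = gram U U y y' := by
    intro y y'
    rw [h, hU, gram_elim]
    unfold gram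
    rw [Finset.mul_sum, Finset.mul_sum]
    congr 1 <;> exact Finset.sum_congr rfl fun c _ => by ring
  rw [map_lin_eq h1]
  have mp := measurePreserving_sumPiEquivProdPi (X := fun _ : K ⊕ K' => ℝ)
    (fun _ : K ⊕ K' => gaussianReal 0 1)
  have h2 : (fun ξ : K ⊕ K' → ℝ => lin U ξ) =
      (fun (q : (K → ℝ) × (K' → ℝ)) y => a * lin φ q.1 y + b * lin ψ q.2 y) ∘
        (MeasurableEquiv.sumPiEquivProdPi (fun _ : K ⊕ K' => ℝ)) := by
    funext ξ y
    simp only [lin, hU, Fintype.sum_sum_type, Sum.elim_inl, Sum.elim_inr, Function.comp,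
      Finset.mul_sum]
    congr 1
    · exact Finset.sum_congr rfl fun c _ => by rw [mul_assoc]; rfl
    · exact Finset.sum_congr rfl fun c _ => by rw [mul_assoc]; rfl
  rw [h2, ← Measure.map_map (by unfold lin; fun_prop) mp.measurable, mp.map_eq]

end law

/-- Rearrangement of the variables. -/
lemma rearr {A B B' G : Type} [MeasurableSpace A] [MeasurableSpace B] [MeasurableSpace B']
    [MeasurableSpace G] {α : Measure A} {β : Measure B} {β' : Measure B'} {γ : Measure G}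
    [IsProbabilityMeasure α] [IsProbabilityMeasure β] [IsProbabilityMeasure β']
    [IsProbabilityMeasure γ] {h : B → B'} (hh : MeasurePreserving h β β') (M : ℕ)
    {F : ((Fin M → A) × G) × (Fin M → B') → ℝ}
    (hF : Integrable F (((Measure.pi fun _ : Fin M => α).prod γ).prod
      (Measure.pi fun _ : Fin M => β'))) :
    Integrable (fun g => ∫ q : Fin M → A × B, F ((fun a => (q a).1, g), fun a => h (q a).2)
      ∂(Measure.pi fun _ => α.prod β)) γ ∧
    ∫ z, F z ∂(((Measure.pi fun _ : Fin M => α).prod γ).prod (Measure.pi fun _ : Fin M => β')) =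
      ∫ g, ∫ q : Fin M → A × B, F ((fun a => (q a).1, g), fun a => h (q a).2)
        ∂(Measure.pi fun _ => α.prod β) ∂γ := by
  have m1 : MeasurePreserving (fun p : G × (Fin M → A × B) =>
      (p.1, (((fun a => (p.2 a).1), (fun a => (p.2 a).2)) : (Fin M → A) × (Fin M → B))))
      (γ.prod (Measure.pi fun _ => α.prod β))
      (γ.prod ((Measure.pi fun _ : Fin M => α).prod (Measure.pi fun _ : Fin M => β))) :=
    (MeasurePreserving.id γ).prod
      (measurePreserving_arrowProdEquivProdArrow A B (Fin M) (fun _ => α) (fun _ => β))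
  have m2 : MeasurePreserving (fun p : G × ((Fin M → A) × (Fin M → B)) => ((p.1, p.2.1), p.2.2))
      (γ.prod ((Measure.pi fun _ : Fin M => α).prod (Measure.pi fun _ : Fin M => β)))
      ((γ.prod (Measure.pi fun _ : Fin M => α)).prod (Measure.pi fun _ : Fin M => β)) :=
    (measurePreserving_prodAssoc γ (Measure.pi fun _ : Fin M => α)
      (Measure.pi fun _ : Fin M => β)).symm
  have m3 : MeasurePreserving (fun p : (G × (Fin M → A)) × (Fin M → B) =>
      ((p.1.2, p.1.1), fun a => h (p.2 a)))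
      ((γ.prod (Measure.pi fun _ : Fin M => α)).prod (Measure.pi fun _ : Fin M => β))
      (((Measure.pi fun _ : Fin M => α).prod γ).prod (Measure.pi fun _ : Fin M => β')) :=
    (Measure.measurePreserving_swap (μ := γ) (ν := Measure.pi fun _ : Fin M => α)).prod
      (measurePreserving_pi (fun _ : Fin M => β) (fun _ : Fin M => β') (fun _ => hh))
  have m := m3.comp (m2.comp m1)
  have hF' : Integrable (fun p : G × (Fin M → A × B) =>
      F ((fun a => (p.2 a).1, p.1), fun a => h (p.2 a).2))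
      (γ.prod (Measure.pi fun _ => α.prod β)) := m.integrable_comp_of_integrable hF
  refine ⟨hF'.integral_prod_left, ?_⟩
  rw [← m.map_eq, integral_map m.measurable.aemeasurable
    (by rw [m.map_eq]; exact hF.aestronglyMeasurable)]
  exact integral_prod _ hF'

end Cube

end Vale.Agent.P157.Par
end

section

/-! One more spin, one more pattern. Main results: `pattern_increment` (file ParCube1),
`elz_pert` (file ParCube1) and `spin_increment` (this file). -/

open MeasureTheory ProbabilityTheory Filter Topology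
open scoped RealInnerProductSpace

namespace Vale.Agent.P157.Par

open Vale.Agent.P367.GT (gM)

set_option linter.unusedSectionVars false

namespace Cube

lemma log_cosh_nonneg (t : ℝ) : 0 ≤ Real.log (Real.cosh t) := Real.log_nonneg (Real.one_le_cosh t)

lemma log_cosh_le (t : ℝ) : Real.log (Real.cosh t) ≤ |t| := by
  have h : Real.cosh t ≤ Real.exp |t| := by
    rw [Real.cosh_eq]
    have h1 := Real.exp_le_exp.2 (le_abs_self t)
    have h2 := Real.exp_le_exp.2 (neg_le_abs t)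
    linarith only [h1, h2]
  calc Real.log (Real.cosh t) ≤ Real.log (Real.exp |t|) :=
        Real.log_le_log (Real.cosh_pos t) h
    _ = |t| := Real.log_exp _

lemma cubeS_eq_lin {N : ℕ} (g : Fin (N + 1) → ℝ) (y : Fin (N + 1) → Bool) :
    lin (fun (y : Fin (N + 1) → Bool) i => cubeφ N y i) g y = cubeS g y := by
  unfold lin cubeS
  exact Finset.sum_congr rfl fun i _ => mul_comm _ _

lemma measurable_cubeS {Ω : Type} [MeasurableSpace Ω] {N : ℕ} {g : Ω → Fin (N + 1) → ℝ}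
    (hg : Measurable g) (y : Fin (N + 1) → Bool) : Measurable fun ω => cubeS (g ω) y := by
  unfold cubeS; fun_prop

lemma integrable_cubeS (M N : ℕ) (a : Fin M) (y : Fin (N + 1) → Bool) :
    Integrable (fun ω : Fin M → Fin (N + 1) → ℝ => cubeS (ω a) y) (pm M N) := by
  refine integrable_comp_eval (μ := fun _ : Fin M => gM (Fin (N + 1))) (i := a)
    (f := fun g => cubeS g y) ?_
  unfold cubeS
  exact integrable_finsetSum _ fun i _ => (integrable_coord_gM i).mul_const _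

/-- The factor of the new spin. -/
noncomputable def A1 (δ : ℝ) (f1 f2 : ℝ → ℝ) {M N : ℕ} (ω : Fin M → Fin (N + 1) → ℝ)
    (η : Fin M → ℝ) (x : Fin (N + 1) → Bool) : ℝ :=
  Real.exp (cavB δ f1 f2 fun a => cubeS (ω a) x) *
    Real.cosh (cavY δ f1 (fun a => cubeS (ω a) x) η)

/-- The factor of the rescaling. -/
noncomputable def A2 (δ : ℝ) (f1 f2 : ℝ → ℝ) {M N : ℕ} (ω H : Fin M → Fin (N + 1) → ℝ)
    (x : Fin (N + 1) → Bool) : ℝ :=
  Real.exp (cavB δ f1 f2 (fun a => cubeS (ω a) x) +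
    cavY δ f1 (fun a => cubeS (ω a) x) fun a => cubeS (H a) x)

lemma A1_pos (δ : ℝ) (f1 f2 : ℝ → ℝ) {M N : ℕ} (ω : Fin M → Fin (N + 1) → ℝ)
    (η : Fin M → ℝ) (x : Fin (N + 1) → Bool) : 0 < A1 δ f1 f2 ω η x :=
  mul_pos (Real.exp_pos _) (Real.cosh_pos _)

lemma A2_pos (δ : ℝ) (f1 f2 : ℝ → ℝ) {M N : ℕ} (ω H : Fin M → Fin (N + 1) → ℝ)
    (x : Fin (N + 1) → Bool) : 0 < A2 δ f1 f2 ω H x := Real.exp_pos _

section main

variable {f f1 f2 f3 : ℝ → ℝ} {C : ℝ}

lemma integrable_cavB (hf : CB3 C f f1 f2 f3) (δ : ℝ) (M N : ℕ) (x : Fin (N + 1) → Bool) :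
    Integrable (fun ω : Fin M → Fin (N + 1) → ℝ => cavB δ f1 f2 fun a => cubeS (ω a) x)
      (pm M N) := by
  have m1 := (Lin.continuous_f1 hf).measurable
  have m2 := (Lin.continuous_f2 hf).measurable
  unfold cavB
  refine integrable_finsetSum _ fun a _ => Integrable.const_mul ?_ _
  refine Integrable.sub ?_ ?_
  · exact Integrable.mono' (integrable_const C) (m2.comp (measurable_cubeS (by fun_prop) x)).aestronglyMeasurable
      (Filter.Eventually.of_forall fun _ => hf.b2 _)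
  · exact integrable_mul_bdd (integrable_cubeS M N a x)
      (m1.comp (measurable_cubeS (by fun_prop) x)) C fun _ => hf.b1 _

lemma integrable_cavY (hf : CB3 C f f1 f2 f3) (δ : ℝ) {M N : ℕ} {G H : Type} [MeasurableSpace G]
    [MeasurableSpace H] (ν : Measure G) [IsProbabilityMeasure ν] {μ : Measure H}
    [IsProbabilityMeasure μ] {h : H → Fin M → ℝ} (hh : ∀ a, Integrable (fun z => h z a) μ)
    (x : Fin (N + 1) → Bool) :
    Integrable (fun z : ((Fin M → Fin (N + 1) → ℝ) × G) × H =>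
      cavY δ f1 (fun a => cubeS (z.1.1 a) x) (h z.2)) (((pm M N).prod ν).prod μ) := by
  have m1 := (Lin.continuous_f1 hf).measurable
  unfold cavY
  refine integrable_finsetSum _ fun a _ => ?_
  have h1 : Integrable (fun z : ((Fin M → Fin (N + 1) → ℝ) × G) × H => h z.2 a)
      (((pm M N).prod ν).prod μ) := (hh a).comp_snd _
  have h2 := (integrable_mul_bdd h1 (f := fun z => f1 (cubeS (z.1.1 a) x))
    (m1.comp (measurable_cubeS (g := fun z : ((Fin M → Fin (N + 1) → ℝ) × G) × H => z.1.1 a)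
      (by fun_prop) x)) C fun _ => hf.b1 _).const_mul √δ
  refine h2.congr (Filter.Eventually.of_forall fun z => ?_)
  simp only
  ring

lemma lse_A1 (δ : ℝ) {M N P : ℕ} (s : ℝ) (u : Fin P → ℝ) (ω : Fin M → Fin (N + 1) → ℝ)
    (g : GI P (N + 1) → ℝ) (η : Fin M → ℝ) :
    Real.log (∑ x, Real.exp (EE f s u ω g x) * A1 δ f1 f2 ω η x) =
      Real.log (∑ x, Real.exp (EE f s u ω g x + (cavB δ f1 f2 (fun a => cubeS (ω a) x) +
        Real.log (Real.cosh (cavY δ f1 (fun a => cubeS (ω a) x) η))))) := by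
  congr 1
  refine Finset.sum_congr rfl fun x _ => ?_
  unfold A1
  rw [Real.exp_add, Real.exp_add, Real.exp_log (Real.cosh_pos _)]

lemma lse_A2 (δ : ℝ) {M N P : ℕ} (s : ℝ) (u : Fin P → ℝ) (ω H : Fin M → Fin (N + 1) → ℝ)
    (g : GI P (N + 1) → ℝ) :
    Real.log (∑ x, Real.exp (EE f s u ω g x) * A2 δ f1 f2 ω H x) =
      Real.log (∑ x, Real.exp (EE f s u ω g x + (cavB δ f1 f2 (fun a => cubeS (ω a) x) +
        cavY δ f1 (fun a => cubeS (ω a) x) fun a => cubeS (H a) x))) := by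
  congr 1
  refine Finset.sum_congr rfl fun x _ => ?_
  unfold A2
  rw [← Real.exp_add]

lemma integrable_F1 (hf : CB3 C f f1 f2 f3) (hfm : Measurable f) (δ : ℝ) (M N : ℕ) {P : ℕ}
    (s : ℝ) (u : Fin P → ℝ) :
    Integrable (fun z : ((Fin M → Fin (N + 1) → ℝ) × (GI P (N + 1) → ℝ)) × (Fin M → ℝ) =>
      Real.log (∑ x, Real.exp (EE f s u z.1.1 z.1.2 x) * A1 δ f1 f2 z.1.1 z.2 x))
      (((pm M N).prod (gM (GI P (N + 1)))).prod (gM (Fin M))) := by
  simp_rw [lse_A1]
  refine integrable_lse fun x => ?_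
  refine ((integrable_EE hfm C hf.b0 N M s u x).comp_fst _).add ?_
  refine (((integrable_cavB hf δ M N x).comp_fst _).comp_fst _).add ?_
  have h := integrable_cavY hf δ (N := N) (gM (GI P (N + 1))) (μ := gM (Fin M)) (h := fun η => η)
    (fun a => integrable_coord_gM a) x
  refine Integrable.mono' h.abs ?_ (Filter.Eventually.of_forall fun z => ?_)
  · have : Measurable fun t : ℝ => Real.log (Real.cosh t) :=
      Real.measurable_log.comp Real.measurable_cosh
    exact (this.comp_aemeasurable h.aestronglyMeasurable.aemeasurable).aestronglyMeasurable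
  · rw [Real.norm_eq_abs, abs_of_nonneg (log_cosh_nonneg _)]
    exact log_cosh_le _

lemma integrable_F2 (hf : CB3 C f f1 f2 f3) (hfm : Measurable f) (δ : ℝ) (M N : ℕ) {P : ℕ}
    (s : ℝ) (u : Fin P → ℝ) :
    Integrable (fun z : ((Fin M → Fin (N + 1) → ℝ) × (GI P (N + 1) → ℝ)) ×
        (Fin M → Fin (N + 1) → ℝ) =>
      Real.log (∑ x, Real.exp (EE f s u z.1.1 z.1.2 x) * A2 δ f1 f2 z.1.1 z.2 x))
      (((pm M N).prod (gM (GI P (N + 1)))).prod (pm M N)) := by
  simp_rw [lse_A2]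
  refine integrable_lse fun x => ?_
  refine ((integrable_EE hfm C hf.b0 N M s u x).comp_fst _).add ?_
  refine (((integrable_cavB hf δ M N x).comp_fst _).comp_fst _).add ?_
  exact integrable_cavY hf δ (N := N) (gM (GI P (N + 1))) (μ := pm M N)
    (h := fun H a => cubeS (H a) x) (fun a => integrable_cubeS M N a x) x

/-- splitting off the free energy -/
lemma int_split (hfm : Measurable f) (hC : ∀ x, |f x| ≤ C) (M N : ℕ) {P : ℕ}
    (s : ℝ) (u : Fin P → ℝ) {H : Type} [MeasurableSpace H] {μ : Measure H}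
    [IsProbabilityMeasure μ]
    {A : (Fin M → Fin (N + 1) → ℝ) → H → (Fin (N + 1) → Bool) → ℝ} (hA : ∀ ω η x, 0 < A ω η x)
    (hi : Integrable (fun z : ((Fin M → Fin (N + 1) → ℝ) × (GI P (N + 1) → ℝ)) × H =>
      Real.log (∑ x, Real.exp (EE f s u z.1.1 z.1.2 x) * A z.1.1 z.2 x))
      (((pm M N).prod (gM (GI P (N + 1)))).prod μ)) :
    ∫ z : ((Fin M → Fin (N + 1) → ℝ) × (GI P (N + 1) → ℝ)) × H,
      Real.log (∑ x, Real.exp (EE f s u z.1.1 z.1.2 x) * A z.1.1 z.2 x)
        ∂(((pm M N).prod (gM (GI P (N + 1)))).prod μ) =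
      (cubeBase f hfm C hC N M).elz s u +
      ∫ z : ((Fin M → Fin (N + 1) → ℝ) × (GI P (N + 1) → ℝ)) × H,
        Real.log (∑ x : Fin (N + 1) → Bool, ((cubeBase f hfm C hC N M).sys P s u).w z.1 x *
          A z.1.1 z.2 x) ∂(((pm M N).prod (gM (GI P (N + 1)))).prod μ) := by
  have hlz : Integrable (fun z : (Fin M → Fin (N + 1) → ℝ) × (GI P (N + 1) → ℝ) =>
      Real.log (∑ y, Real.exp (EE f s u z.1 z.2 y))) ((pm M N).prod (gM (GI P (N + 1)))) :=
    integrable_lse (integrable_EE hfm C hC N M s u)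
  have e2 : (cubeBase f hfm C hC N M).elz s u = ∫ z : ((Fin M → Fin (N + 1) → ℝ) ×
      (GI P (N + 1) → ℝ)) × H, Real.log (∑ y, Real.exp (EE f s u z.1.1 z.1.2 y))
      ∂(((pm M N).prod (gM (GI P (N + 1)))).prod μ) := by
    rw [integral_fun_fst (μ := (pm M N).prod (gM (GI P (N + 1)))) (ν := μ)
      (fun z => Real.log (∑ y, Real.exp (EE f s u z.1 z.2 y))), elz_eq]
    simp
  rw [e2]
  have hp : ∀ z : ((Fin M → Fin (N + 1) → ℝ) × (GI P (N + 1) → ℝ)) × H,
      Real.log (∑ x : Fin (N + 1) → Bool, ((cubeBase f hfm C hC N M).sys P s u).w z.1 x *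
          A z.1.1 z.2 x) =
      Real.log (∑ x, Real.exp (EE f s u z.1.1 z.1.2 x) * A z.1.1 z.2 x) -
        Real.log (∑ y, Real.exp (EE f s u z.1.1 z.1.2 y)) := by
    intro z
    rw [log_ratio (EE f s u z.1.1 z.1.2) (A z.1.1 z.2) (hA _ _)]
    simp only [w_eq]
    ring
  simp_rw [hp]
  rw [integral_sub hi (hlz.comp_fst _)]
  ring

/-- the linearized energy of one pattern, with the new spin -/
lemma sum_linE (δ : ℝ) {M N : ℕ} (ω : Fin M → Fin (N + 1) → ℝ) (x : Fin (N + 1) → Bool)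
    (h : Fin M → ℝ) :
    ∑ a, linE δ f f1 f2 (cubeS (ω a) x) (h a) = ∑ a, f (cubeS (ω a) x) +
      (cavB δ f1 f2 (fun a => cubeS (ω a) x) + cavY δ f1 (fun a => cubeS (ω a) x) h) := by
  unfold linE cavB cavY
  rw [← Finset.sum_add_distrib, ← Finset.sum_add_distrib]
  refine Finset.sum_congr rfl fun a _ => ?_
  ring

lemma cavY_sgn (δ : ℝ) {M N : ℕ} (ω : Fin M → Fin (N + 1) → ℝ) (x : Fin (N + 1) → Bool)
    (h : Fin M → ℝ) (t : ℝ) : cavY δ f1 (fun a => cubeS (ω a) x) (fun a => t * h a) =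
      t * cavY δ f1 (fun a => cubeS (ω a) x) h := by
  unfold cavY
  rw [Finset.mul_sum]
  exact Finset.sum_congr rfl fun a _ => by ring

/-- summation over the new spin -/
lemma sum_new (δ : ℝ) {M N P : ℕ} (s : ℝ) (u : Fin P → ℝ) (ω : Fin M → Fin (N + 1) → ℝ)
    (g : GI P (N + 1) → ℝ) (η : Fin M → ℝ) :
    Real.log (∑ y : Fin (N + 2) → Bool, Real.exp (lin (cf N s u) g (ini y)) * Real.exp (∑ a,
      linE δ f f1 f2 (cubeS (ω a) (ini y)) (sgn (las y) * η a))) =
    Real.log 2 + Real.log (∑ x, Real.exp (EE f s u ω g x) * A1 δ f1 f2 ω η x) := by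
  have h1 := sum_ini_las (N := N) (fun x b => Real.exp (lin (cf N s u) g x) * Real.exp (∑ a,
      linE δ f f1 f2 (cubeS (ω a) x) (sgn b * η a)))
  rw [h1]
  have hp : 0 < ∑ x, Real.exp (EE f s u ω g x) * A1 δ f1 f2 ω η x :=
    Lin.sum_pos' fun x => mul_pos (Real.exp_pos _) (A1_pos _ _ _ _ _ _)
  rw [← Real.log_mul (by norm_num) hp.ne', Finset.mul_sum]
  congr 1
  refine Finset.sum_congr rfl fun x _ => ?_
  have e1 : ∀ b, ∑ a, linE δ f f1 f2 (cubeS (ω a) x) (sgn b * η a) = ∑ a, f (cubeS (ω a) x) +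
      (cavB δ f1 f2 (fun a => cubeS (ω a) x) +
        sgn b * cavY δ f1 (fun a => cubeS (ω a) x) η) := by
    intro b
    rw [sum_linE δ ω x (fun a => sgn b * η a), cavY_sgn]
  rw [e1, e1]
  unfold A1 EE
  rw [Real.cosh_eq]
  simp only [sgn, if_true, Bool.false_eq_true, if_false, one_mul, neg_mul]
  simp only [Real.exp_add]
  ring

end main

end Cube

open Vale.Agent.P157.Par.Cube

/-- One more spin. -/
theorem spin_increment {f f1 f2 f3 : ℝ → ℝ} {C : ℝ} (hf : CB3 C f f1 f2 f3)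
    (hfm : Measurable f) :
    ∃ D : ℝ, 0 ≤ D ∧ ∀ (N M P : ℕ) (s : ℝ) (u : Fin P → ℝ), 0 ≤ s → (∀ q, 0 ≤ u q ∧ u q ≤ 2) →
      |(cubeBase f hfm C hf.b0 (N + 1) M).elz s u - (cubeBase f hfm C hf.b0 N M).elz s u -
        Real.log 2 - cubeDN f f1 f2 hfm C hf.b0 N M P s u| ≤
      D * (M * (1 / ((N : ℝ) + 2) * √(1 / ((N : ℝ) + 2))) + s ^ 2 / ((N : ℝ) + 1)) := by
  obtain ⟨D, hD⟩ := lin_many hf
  refine ⟨2 * |D| + 2, by (clear * -; positivity), ?_⟩
  intro N M P s u _ hu
  set δ : ℝ := 1 / ((N : ℝ) + 2) with hδ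
  have h0 : 0 ≤ δ := (dl_pos N).le
  have h1 : δ ≤ 1 := dl_le N
  set ν := gM (GI P (N + 1)) with hν
  set ε : ℝ := |D| * (M * (δ * √δ)) with hε
  have hε0 : D * (M * (δ * √δ)) ≤ ε := by
    refine mul_le_mul_of_nonneg_right (le_abs_self D) (by (clear * -; positivity))
  have sq1 : √(1 - δ) ^ 2 = 1 - δ := Real.sq_sqrt (by linarith only [h1])
  have sq2 : √δ ^ 2 = δ := Real.sq_sqrt h0
  -- the two terms of cubeDN
  set T1 := ∫ z : ((Fin M → Fin (N + 1) → ℝ) × (GI P (N + 1) → ℝ)) × (Fin M → ℝ),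
      Real.log (∑ x : Fin (N + 1) → Bool, ((cubeBase f hfm C hf.b0 N M).sys P s u).w z.1 x *
        A1 δ f1 f2 z.1.1 z.2 x) ∂(((pm M N).prod ν).prod (gM (Fin M))) with hT1
  set T2 := ∫ z : ((Fin M → Fin (N + 1) → ℝ) × (GI P (N + 1) → ℝ)) × (Fin M → Fin (N + 1) → ℝ),
      Real.log (∑ x : Fin (N + 1) → Bool, ((cubeBase f hfm C hf.b0 N M).sys P s u).w z.1 x *
        A2 δ f1 f2 z.1.1 z.2 x) ∂(((pm M N).prod ν).prod (pm M N)) with hT2
  have hDN : cubeDN f f1 f2 hfm C hf.b0 N M P s u = T1 - T2 := rfl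
  have hi1 := integrable_F1 hf hfm δ M N s u
  have hi2 := integrable_F2 hf hfm δ M N s u
  have s1 := int_split hfm hf.b0 M N s u (H := Fin M → ℝ) (μ := gM (Fin M))
    (A := fun ω η x => A1 δ f1 f2 ω η x) (fun ω η x => A1_pos δ f1 f2 ω η x) hi1
  have s2 := int_split hfm hf.b0 M N s u (H := Fin M → Fin (N + 1) → ℝ) (μ := pm M N)
    (A := fun ω η x => A2 δ f1 f2 ω η x) (fun ω η x => A2_pos δ f1 f2 ω η x) hi2
  rw [← hT1] at s1
  rw [← hT2] at s2
  -- rearrangements
  have ev : MeasurePreserving (fun η : Unit → ℝ => η ()) (gM Unit) (gaussianReal 0 1) :=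
    measurePreserving_eval (fun _ : Unit => gaussianReal 0 1) ()
  have r1 := rearr (α := gM (Fin (N + 1))) (γ := ν) ev M hi1
  have r2 := rearr (α := gM (Fin (N + 1))) (γ := ν) (MeasurePreserving.id (gM (Fin (N + 1)))) M hi2
  obtain ⟨i1, r1⟩ := r1
  obtain ⟨i2, r2⟩ := r2
  rw [r1] at s1
  rw [r2] at s2
  simp only [id_eq] at i2 s2
  set I1 : (GI P (N + 1) → ℝ) → ℝ := fun g =>
    ∫ q : Fin M → (Fin (N + 1) → ℝ) × (Unit → ℝ), Real.log (∑ x, Real.exp (EE f s u
      (fun a => (q a).1) g x) * A1 δ f1 f2 (fun a => (q a).1) (fun a => (q a).2 ()) x)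
      ∂(Measure.pi fun _ => (gM (Fin (N + 1))).prod (gM Unit)) with hI1
  set I2 : (GI P (N + 1) → ℝ) → ℝ := fun g =>
    ∫ q : Fin M → (Fin (N + 1) → ℝ) × (Fin (N + 1) → ℝ), Real.log (∑ x, Real.exp (EE f s u
      (fun a => (q a).1) g x) * A2 δ f1 f2 (fun a => (q a).1) (fun a => (q a).2) x)
      ∂(Measure.pi fun _ => (gM (Fin (N + 1))).prod (gM (Fin (N + 1)))) with hI2
  -- the two unperturbed integrals
  have hiJ1 : Integrable (fun z : (Fin M → Fin (N + 2) → ℝ) × (GI P (N + 1) → ℝ) =>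
      Real.log (∑ y : Fin (N + 2) → Bool, Real.exp (lin (cf N s u) z.2 (ini y) +
        ∑ a, f (cubeS (z.1 a) y)))) ((pm M (N + 1)).prod ν) := by
    refine integrable_lse fun y => ?_
    refine ((integrable_lin (cf N s u) (ini y)).comp_snd _).add ?_
    exact integrable_finsetSum _ fun a _ => integrable_fS hfm C hf.b0 (N + 1) (by fun_prop) y
  set J1 : (GI P (N + 1) → ℝ) → ℝ := fun g =>
    ∫ ω : Fin M → Fin (N + 2) → ℝ, Real.log (∑ y : Fin (N + 2) → Bool,
      Real.exp (lin (cf N s u) g (ini y) + ∑ a, f (cubeS (ω a) y))) ∂(pm M (N + 1)) with hJ1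
  have hiJ2 : Integrable (fun z : (Fin M → Fin (N + 1) → ℝ) × (GI P (N + 1) → ℝ) =>
      Real.log (∑ y, Real.exp (EE f s u z.1 z.2 y))) ((pm M N).prod ν) :=
    integrable_lse (integrable_EE hfm C hf.b0 N M s u)
  set J2 : (GI P (N + 1) → ℝ) → ℝ := fun g =>
    ∫ ω : Fin M → Fin (N + 1) → ℝ, Real.log (∑ y, Real.exp (EE f s u ω g y)) ∂(pm M N) with hJ2
  have eJ2 : (cubeBase f hfm C hf.b0 N M).elz s u = ∫ g, J2 g ∂ν := by
    rw [elz_eq, integral_prod_symm _ hiJ2]
  -- comparison of the new system with J1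
  have c1 : |(cubeBase f hfm C hf.b0 (N + 1) M).elz s u - ∫ g, J1 g ∂ν| ≤ 2 * (s ^ 2 * δ) := by
    have hiE : Integrable (fun z : (Fin M → Fin (N + 2) → ℝ) × (GI P (N + 2) → ℝ) =>
        Real.log (∑ y, Real.exp (EE f s u z.1 z.2 y)))
        ((pm M (N + 1)).prod (gM (GI P (N + 2)))) :=
      integrable_lse (integrable_EE hfm C hf.b0 (N + 1) M s u)
    have e1 : ∫ g, J1 g ∂ν = ∫ ω : Fin M → Fin (N + 2) → ℝ, ∫ g,
        Real.log (∑ y : Fin (N + 2) → Bool, Real.exp (lin (cf N s u) g (ini y) +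
        ∑ a, f (cubeS (ω a) y))) ∂ν ∂(pm M (N + 1)) := by
      rw [hJ1, ← integral_prod_symm _ hiJ1, integral_prod _ hiJ1]
    rw [elz_eq, e1]
    change |∫ z : (Fin M → Fin (N + 2) → ℝ) × (GI P (N + 2) → ℝ),
      Real.log (∑ y, Real.exp (EE f s u z.1 z.2 y)) ∂((pm M (N + 1)).prod (gM (GI P (N + 2)))) -
      _| ≤ _
    rw [integral_prod _ hiE]
    have j1 := hiE.integral_prod_left
    have j2 := hiJ1.integral_prod_left
    simp only at j1 j2 ⊢
    rw [← integral_sub j1 j2, ← Real.norm_eq_abs]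
    have hb : ∀ ω : Fin M → Fin (N + 2) → ℝ,
        ‖∫ g, Real.log (∑ y, Real.exp (EE f s u ω g y)) ∂(gM (GI P (N + 2))) -
        ∫ g, Real.log (∑ y : Fin (N + 2) → Bool, Real.exp (lin (cf N s u) g (ini y) +
        ∑ a, f (cubeS (ω a) y))) ∂ν‖ ≤ 2 * (s ^ 2 * δ) := by
      intro ω
      have h := stepA (N := N) s hu (w := fun y => Real.exp (∑ a, f (cubeS (ω a) y)))
        fun y => Real.exp_pos _
      rw [Real.norm_eq_abs]
      unfold EE
      simp_rw [add_comm (lin (cf N s u) _ (ini _)), Real.exp_add]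
      exact h
    have := norm_integral_le_of_norm_le_const (μ := pm M (N + 1)) (Filter.Eventually.of_forall hb)
    simpa only [Real.norm_eq_abs, ge_iff_le, probReal_univ, mul_one] using this
  -- linearization, new spin
  have c2 : ∀ g, |J1 g - (Real.log 2 + I1 g)| ≤ ε := by
    intro g
    set φ : (Fin (N + 2) → Bool) → Fin (N + 1) → ℝ := fun y i => cubeφ N (ini y) i with hφ
    set ψ : (Fin (N + 2) → Bool) → Unit → ℝ := fun y _ => sgn (las y) with hψ
    have eφ : ∀ (ξ : Fin (N + 1) → ℝ) y, lin φ ξ y = cubeS ξ (ini y) := fun ξ y =>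
      cubeS_eq_lin ξ (ini y)
    have eψ : ∀ (η : Unit → ℝ) y, lin ψ η y = sgn (las y) * η () := by
      intro η y
      simp [lin, hψ]
    have hh := hD M (Fin (N + 1)) Unit (Fin (N + 2) → Bool)
      (fun y => Real.exp (lin (cf N s u) g (ini y))) φ ψ (fun y => Real.exp_pos _) inferInstance
      (fun y => sum_cubeφ_sq N (ini y)) (fun y => by simp only [Finset.univ_unique, PUnit.default_eq_unit, hψ, sgn_sq, Finset.sum_const, Finset.card_singleton, one_smul]) δ h0 h1
    have law : (gM (Fin (N + 2))).map (fun ξ => lin (fun y i => cubeφ (N + 1) y i) ξ) =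
        ((gM (Fin (N + 1))).prod (gM Unit)).map
          (fun q y => √(1 - δ) * lin φ q.1 y + √δ * lin ψ q.2 y) := by
      refine law_mix √(1 - δ) √δ fun y y' => ?_
      rw [sq1, sq2]
      unfold gram
      rw [Fin.sum_univ_castSucc, Finset.mul_sum]
      congr 1
      · refine Finset.sum_congr rfl fun i _ => ?_
        simp only
        rw [cubeφ_castSucc, cubeφ_castSucc, ← hδ]
        have h2 : √(1 - δ) * √(1 - δ) = 1 - δ := Real.mul_self_sqrt (by linarith only [h1])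
        simp only [hφ]
        linear_combination (cubeφ N (ini y) i * cubeφ N (ini y') i) * h2
      · simp only
        rw [cubeφ_last, cubeφ_last, ← hδ]
        have h2 : √δ * √δ = δ := Real.mul_self_sqrt h0
        simp only [hψ, Finset.univ_unique, Finset.sum_singleton]
        linear_combination (sgn (las y) * sgn (las y')) * h2
    have hF : Measurable fun Z : Fin M → (Fin (N + 2) → Bool) → ℝ => Real.log (∑ y,
        Real.exp (lin (cf N s u) g (ini y)) * Real.exp (∑ a, f (Z a y))) := by fun_prop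
    have hl := pi_law (measurable_lin_fun _) (by unfold lin; fun_prop) law M hF
    simp only at hl
    rw [← hl] at hh
    have e1 : J1 g = ∫ ω : Fin M → Fin (N + 2) → ℝ, Real.log (∑ y : Fin (N + 2) → Bool,
        Real.exp (lin (cf N s u) g (ini y)) * Real.exp (∑ a,
          f (lin (fun (y : Fin (N + 2) → Bool) i => cubeφ (N + 1) y i) (ω a) y)))
        ∂(pm M (N + 1)) := by
      simp only [hJ1, Real.exp_add, cubeS_eq_lin]
    rw [← e1] at hh
    have e2 : ∫ q : Fin M → (Fin (N + 1) → ℝ) × (Unit → ℝ), Real.log (∑ y,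
        Real.exp (lin (cf N s u) g (ini y)) * Real.exp (∑ a, linE δ f f1 f2
          (lin φ (q a).1 y) (lin ψ (q a).2 y)))
        ∂(Measure.pi fun _ => (gM (Fin (N + 1))).prod (gM Unit)) = Real.log 2 + I1 g := by
      simp_rw [eφ, eψ]
      have e3 : ∀ q : Fin M → (Fin (N + 1) → ℝ) × (Unit → ℝ), Real.log (∑ y : Fin (N + 2) → Bool,
          Real.exp (lin (cf N s u) g (ini y)) * Real.exp (∑ a, linE δ f f1 f2
          (cubeS (q a).1 (ini y)) (sgn (las y) * (q a).2 ()))) =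
          Real.log 2 + Real.log (∑ x, Real.exp (EE f s u (fun a => (q a).1) g x) *
            A1 δ f1 f2 (fun a => (q a).1) (fun a => (q a).2 ()) x) := fun q =>
        sum_new δ s u (fun a => (q a).1) g (fun a => (q a).2 ())
      simp_rw [e3]
      by_cases hint : Integrable (fun q : Fin M → (Fin (N + 1) → ℝ) × (Unit → ℝ) =>
        Real.log (∑ x, Real.exp (EE f s u (fun a => (q a).1) g x) *
            A1 δ f1 f2 (fun a => (q a).1) (fun a => (q a).2 ()) x))
        (Measure.pi fun _ => (gM (Fin (N + 1))).prod (gM Unit))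
      · rw [integral_add (integrable_const _) hint]
        simp only [integral_const, probReal_univ, smul_eq_mul, one_mul, hI1]
      · exfalso
        apply hint
        simp_rw [lse_A1]
        refine integrable_lse fun x => ?_
        have m0 := hfm
        have m1 := (Lin.continuous_f1 hf).measurable
        have m2 := (Lin.continuous_f2 hf).measurable
        have k1 : ∀ a : Fin M, Integrable (fun q : Fin M → (Fin (N + 1) → ℝ) × (Unit → ℝ) =>
            cubeS (q a).1 x) (Measure.pi fun _ => (gM (Fin (N + 1))).prod (gM Unit)) := by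
          intro a
          refine integrable_comp_eval (μ := fun _ : Fin M => (gM (Fin (N + 1))).prod (gM Unit))
            (i := a) (f := fun g => cubeS g.1 x) ?_
          refine Integrable.comp_fst (f := fun g : Fin (N + 1) → ℝ => cubeS g x) ?_ _
          unfold cubeS
          exact integrable_finsetSum _ fun i _ => (integrable_coord_gM i).mul_const _
        have k2 : ∀ a : Fin M, Integrable (fun q : Fin M → (Fin (N + 1) → ℝ) × (Unit → ℝ) =>
            (q a).2 ()) (Measure.pi fun _ => (gM (Fin (N + 1))).prod (gM Unit)) := by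
          intro a
          refine integrable_comp_eval (μ := fun _ : Fin M => (gM (Fin (N + 1))).prod (gM Unit))
            (i := a) (f := fun g => g.2 ()) ?_
          exact Integrable.comp_snd (f := fun g : Unit → ℝ => g ()) (integrable_coord_gM ()) _
        have k3 : ∀ {h : ℝ → ℝ}, Measurable h → (∀ t, |h t| ≤ C) → ∀ a : Fin M,
            Integrable (fun q : Fin M → (Fin (N + 1) → ℝ) × (Unit → ℝ) => h (cubeS (q a).1 x))
              (Measure.pi fun _ => (gM (Fin (N + 1))).prod (gM Unit)) := by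
          intro h hm hb a
          exact Integrable.mono' (integrable_const C)
            (hm.comp (measurable_cubeS (by fun_prop) x)).aestronglyMeasurable
            (Filter.Eventually.of_forall fun _ => hb _)
        have k4 : Integrable (fun q : Fin M → (Fin (N + 1) → ℝ) × (Unit → ℝ) =>
            cavY δ f1 (fun a => cubeS (q a).1 x) (fun a => (q a).2 ()))
            (Measure.pi fun _ => (gM (Fin (N + 1))).prod (gM Unit)) := by
          unfold cavY
          refine integrable_finsetSum _ fun a _ => ?_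
          have h2 := (integrable_mul_bdd (k2 a) (f := fun q => f1 (cubeS (q a).1 x))
            (m1.comp (measurable_cubeS
              (g := fun q : Fin M → (Fin (N + 1) → ℝ) × (Unit → ℝ) => (q a).1)
              (by fun_prop) x)) C fun _ => hf.b1 _).const_mul √δ
          refine h2.congr (Filter.Eventually.of_forall fun z => ?_)
          simp only
          ring
        unfold EE
        refine Integrable.add (Integrable.add (integrable_finsetSum _ fun a _ => k3 m0 hf.b0 a)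
          (integrable_const _)) (Integrable.add ?_ ?_)
        · unfold cavB
          refine integrable_finsetSum _ fun a _ => Integrable.const_mul ?_ _
          refine (k3 m2 hf.b2 a).sub ?_
          exact integrable_mul_bdd (k1 a) (m1.comp (measurable_cubeS (by fun_prop) x)) C
            fun _ => hf.b1 _
        · refine Integrable.mono' k4.abs ?_ (Filter.Eventually.of_forall fun z => ?_)
          · have : Measurable fun t : ℝ => Real.log (Real.cosh t) :=
              Real.measurable_log.comp Real.measurable_cosh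
            exact (this.comp_aemeasurable
              k4.aestronglyMeasurable.aemeasurable).aestronglyMeasurable
          · rw [Real.norm_eq_abs, abs_of_nonneg (log_cosh_nonneg _)]
            exact log_cosh_le _
    rw [e2] at hh
    exact hh.trans hε0
  -- linearization, rescaling
  have c3 : ∀ g, |J2 g - I2 g| ≤ ε := by
    intro g
    set φ : (Fin (N + 1) → Bool) → Fin (N + 1) → ℝ := fun y i => cubeφ N y i with hφ
    have eφ : ∀ (ξ : Fin (N + 1) → ℝ) y, lin φ ξ y = cubeS ξ y := fun ξ y => cubeS_eq_lin ξ y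
    have hh := hD M (Fin (N + 1)) (Fin (N + 1)) (Fin (N + 1) → Bool)
      (fun y => Real.exp (lin (cf N s u) g y)) φ φ (fun y => Real.exp_pos _) inferInstance
      (fun y => sum_cubeφ_sq N y) (fun y => sum_cubeφ_sq N y) δ h0 h1
    have law : (gM (Fin (N + 1))).map (fun ξ => lin φ ξ) =
        ((gM (Fin (N + 1))).prod (gM (Fin (N + 1)))).map
          (fun q y => √(1 - δ) * lin φ q.1 y + √δ * lin φ q.2 y) := by
      refine law_mix √(1 - δ) √δ fun y y' => ?_
      rw [sq1, sq2]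
      ring
    have hF : Measurable fun Z : Fin M → (Fin (N + 1) → Bool) → ℝ => Real.log (∑ y,
        Real.exp (lin (cf N s u) g y) * Real.exp (∑ a, f (Z a y))) := by fun_prop
    have hl := pi_law (measurable_lin_fun _) (by unfold lin; fun_prop) law M hF
    simp only at hl
    rw [← hl] at hh
    have e1 : J2 g = ∫ ω : Fin M → Fin (N + 1) → ℝ, Real.log (∑ y : Fin (N + 1) → Bool,
        Real.exp (lin (cf N s u) g y) * Real.exp (∑ a, f (lin φ (ω a) y))) ∂(pm M N) := by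
      simp only [hJ2, EE, Real.exp_add, eφ]
      simp_rw [mul_comm (Real.exp (∑ a, _))]
    rw [← e1] at hh
    have e2 : ∫ q : Fin M → (Fin (N + 1) → ℝ) × (Fin (N + 1) → ℝ), Real.log (∑ y,
        Real.exp (lin (cf N s u) g y) * Real.exp (∑ a, linE δ f f1 f2
          (lin φ (q a).1 y) (lin φ (q a).2 y)))
        ∂(Measure.pi fun _ => (gM (Fin (N + 1))).prod (gM (Fin (N + 1)))) = I2 g := by
      simp_rw [eφ]
      rw [hI2]
      refine integral_congr_ae (Filter.Eventually.of_forall fun q => ?_)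
      simp only
      congr 1
      refine Finset.sum_congr rfl fun y _ => ?_
      have h3 := sum_linE (f := f) (f1 := f1) (f2 := f2) δ (fun a => (q a).1) y
        (fun a => cubeS (q a).2 y)
      rw [h3]
      unfold EE A2
      simp only [Real.exp_add]
      ring
    rw [e2] at hh
    exact hh.trans hε0
  -- conclusion
  have iJ1 : Integrable J1 ν := hiJ1.integral_prod_right
  have iJ2 : Integrable J2 ν := hiJ2.integral_prod_right
  have d2 : |∫ g, J1 g ∂ν - (Real.log 2 + ∫ g, I1 g ∂ν)| ≤ ε := by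
    have e1 : ∫ g, J1 g ∂ν - (Real.log 2 + ∫ g, I1 g ∂ν) =
        ∫ g, (J1 g - (Real.log 2 + I1 g)) ∂ν := by
      have i3 : Integrable (fun g => Real.log 2 + I1 g) ν := (integrable_const _).add i1
      rw [integral_sub iJ1 i3, integral_add (integrable_const _) i1]
      simp only [integral_const, probReal_univ, smul_eq_mul, one_mul]
    rw [e1, ← Real.norm_eq_abs]
    have hb : ∀ g, ‖J1 g - (Real.log 2 + I1 g)‖ ≤ ε := fun g => by
      rw [Real.norm_eq_abs]; exact c2 g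
    have := norm_integral_le_of_norm_le_const (μ := ν) (Filter.Eventually.of_forall hb)
    simpa only [Real.norm_eq_abs, ge_iff_le, probReal_univ, mul_one] using this
  have d3 : |∫ g, J2 g ∂ν - ∫ g, I2 g ∂ν| ≤ ε := by
    rw [← integral_sub iJ2 i2, ← Real.norm_eq_abs]
    have hb : ∀ g, ‖J2 g - I2 g‖ ≤ ε := fun g => by
      rw [Real.norm_eq_abs]; exact c3 g
    have := norm_integral_le_of_norm_le_const (μ := ν) (Filter.Eventually.of_forall hb)
    simpa only [Real.norm_eq_abs, ge_iff_le, probReal_univ, mul_one] using this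
  rw [hDN]
  have f1' : |(cubeBase f hfm C hf.b0 (N + 1) M).elz s u -
      (cubeBase f hfm C hf.b0 N M).elz s u - Real.log 2 - (T1 - T2)| ≤
      2 * (s ^ 2 * δ) + ε + ε := by
    rw [eJ2] at s1 s2 ⊢
    rw [abs_le] at c1 d2 d3 ⊢
    constructor <;> linarith only [s2, s1, c1.1, d2.1, d3.2, c1.2, d2.2, d3.1]
  refine f1'.trans ?_
  have hδ2 : s ^ 2 * δ ≤ s ^ 2 / ((N : ℝ) + 1) := by
    rw [hδ, mul_one_div]
    exact div_le_div_of_nonneg_left (sq_nonneg s) (by (clear * -; positivity)) (by linarith only [])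
  have hq : 0 ≤ s ^ 2 / ((N : ℝ) + 1) := by (clear * -; positivity)
  have hr : 0 ≤ (M : ℝ) * (δ * √δ) := by (clear * -; positivity)
  rw [hε]
  linarith only [hδ2, hr, hq, abs_nonneg D, mul_nonneg (abs_nonneg D) hq, mul_nonneg (abs_nonneg D) hr]

end Vale.Agent.P157.Par
end

section

/-! A lower bound for the cavity form of the spin increment. -/

open MeasureTheory ProbabilityTheory Filter Topology

namespace Vale.Agent.P157.Par

open Vale.Agent.P367.GT (gM)

set_option linter.unusedSectionVars false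

section Abstract

variable {X : Type} [Fintype X] [Nonempty X]

lemma logw_pos {w : X → ℝ} (hw : ∀ x, 0 ≤ w x) (hw1 : ∑ x, w x = 1) (E : X → ℝ) :
    0 < ∑ x, w x * Real.exp (E x) := by
  obtain ⟨x, -, hx⟩ : ∃ x ∈ Finset.univ, 0 < w x := by
    by_contra hcon
    push Not at hcon
    have : ∑ x, w x ≤ 0 := Finset.sum_nonpos fun x hx => hcon x hx
    linarith
  exact lt_of_lt_of_le (mul_pos hx (Real.exp_pos (E x)))
    (Finset.single_le_sum (f := fun x => w x * Real.exp (E x))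
      (fun y _ => mul_nonneg (hw y) (Real.exp_pos _).le) (Finset.mem_univ x))

lemma logw_bound {w : X → ℝ} (hw : ∀ x, 0 ≤ w x) (hw1 : ∑ x, w x = 1) (E : X → ℝ) :
    |Real.log (∑ x, w x * Real.exp (E x))| ≤ ∑ x, |E x| := by
  set M := ∑ y, |E y| with hM
  have hEy : ∀ y, |E y| ≤ M := fun y => Finset.single_le_sum (f := fun y => |E y|)
    (fun y _ => abs_nonneg _) (Finset.mem_univ y)
  have h1 : Real.exp (-M) ≤ ∑ y, w y * Real.exp (E y) := by
    rw [← one_mul (Real.exp (-M)), ← hw1, Finset.sum_mul]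
    refine Finset.sum_le_sum fun y _ => mul_le_mul_of_nonneg_left (Real.exp_le_exp.2 ?_) (hw y)
    linarith only [neg_abs_le (E y), hEy y]
  have h2 : ∑ y, w y * Real.exp (E y) ≤ Real.exp M := by
    rw [← one_mul (Real.exp M), ← hw1, Finset.sum_mul]
    refine Finset.sum_le_sum fun y _ => mul_le_mul_of_nonneg_left (Real.exp_le_exp.2 ?_) (hw y)
    linarith only [le_abs_self (E y), hEy y]
  have l1 := Real.log_le_log (Real.exp_pos _) h1
  have l2 := Real.log_le_log (logw_pos hw hw1 E) h2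
  rw [Real.log_exp] at l1 l2
  rw [abs_le]
  constructor <;> linarith

variable {Ω Λ : Type} [MeasurableSpace Ω] [MeasurableSpace Λ] {P : Measure Ω}
  [IsProbabilityMeasure P] {ρ : Measure Λ} [IsProbabilityMeasure ρ]

lemma integrable_logw {w : Ω → X → ℝ} (hwm : ∀ x, Measurable fun ω => w ω x)
    (hw : ∀ ω x, 0 ≤ w ω x) (hw1 : ∀ ω, ∑ x, w ω x = 1) {E : Ω → X → ℝ}
    (hE : ∀ x, Integrable (fun ω => E ω x) P) :
    Integrable (fun ω => Real.log (∑ x, w ω x * Real.exp (E ω x))) P := by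
  refine Integrable.mono' (g := fun ω => ∑ x, |E ω x|)
    (integrable_finsetSum _ fun y _ => (hE y).abs) ?_
    (Filter.Eventually.of_forall fun ω => logw_bound (hw ω) (hw1 ω) (E ω))
  refine (Real.measurable_log.comp_aemeasurable ?_).aestronglyMeasurable
  exact Finset.aemeasurable_fun_sum _ fun y _ => ((hwm y).aemeasurable).mul
    (Real.measurable_exp.comp_aemeasurable (hE y).aestronglyMeasurable.aemeasurable)

lemma sel_log_cosh_nonneg (y : ℝ) : 0 ≤ Real.log (Real.cosh y) :=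
  Real.log_nonneg (Real.one_le_cosh y)

lemma sel_cosh_le_exp_abs (y : ℝ) : Real.cosh y ≤ Real.exp |y| := by
  rw [Real.cosh_eq]
  have h1 : Real.exp y ≤ Real.exp |y| := Real.exp_le_exp.2 (le_abs_self y)
  have h2 : Real.exp (-y) ≤ Real.exp |y| := Real.exp_le_exp.2 (neg_le_abs y)
  linarith

lemma sel_log_cosh_le (y : ℝ) : Real.log (Real.cosh y) ≤ |y| := by
  have h := Real.log_le_log (Real.cosh_pos y) (sel_cosh_le_exp_abs y)
  rwa [Real.log_exp] at h

/-- The cosine hyperbolic only increases the free energy. -/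
lemma cav_first {w : Ω → X → ℝ} (hwm : ∀ x, Measurable fun ω => w ω x)
    (hw : ∀ ω x, 0 ≤ w ω x) (hw1 : ∀ ω, ∑ x, w ω x = 1) {B : Ω → X → ℝ}
    (hB : ∀ x, Integrable (fun ω => B ω x) P) {Y : Ω × Λ → X → ℝ}
    (hY : ∀ x, Integrable (fun z => Y z x) (P.prod ρ)) :
    ∫ ω, Real.log (∑ x, w ω x * Real.exp (B ω x)) ∂P ≤
      ∫ z : Ω × Λ, Real.log (∑ x, w z.1 x * (Real.exp (B z.1 x) * Real.cosh (Y z x)))
        ∂(P.prod ρ) := by
  have e1 : ∫ ω, Real.log (∑ x, w ω x * Real.exp (B ω x)) ∂P =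
      ∫ z : Ω × Λ, Real.log (∑ x, w z.1 x * Real.exp (B z.1 x)) ∂(P.prod ρ) := by
    rw [integral_fun_fst (fun ω => Real.log (∑ x, w ω x * Real.exp (B ω x)))]
    simp only [probReal_univ, smul_eq_mul, one_mul]
  have e2 : ∀ z : Ω × Λ, ∑ x, w z.1 x * (Real.exp (B z.1 x) * Real.cosh (Y z x)) =
      ∑ x, w z.1 x * Real.exp (B z.1 x + Real.log (Real.cosh (Y z x))) := fun z =>
    Finset.sum_congr rfl fun x _ => by
      rw [Real.exp_add, Real.exp_log (Real.cosh_pos _)]
  have hB' : ∀ x, Integrable (fun z : Ω × Λ => B z.1 x) (P.prod ρ) := fun x =>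
    (hB x).comp_fst ρ
  have hL : ∀ x, Integrable (fun z : Ω × Λ => Real.log (Real.cosh (Y z x))) (P.prod ρ) := by
    intro x
    refine Integrable.mono' (hY x).abs ?_ (Filter.Eventually.of_forall fun z => ?_)
    · exact (Real.measurable_log.comp_aemeasurable (Real.measurable_cosh.comp_aemeasurable
        (hY x).aestronglyMeasurable.aemeasurable)).aestronglyMeasurable
    · rw [Real.norm_eq_abs, abs_of_nonneg (sel_log_cosh_nonneg _)]
      exact sel_log_cosh_le _
  rw [e1]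
  simp only [e2]
  refine integral_mono (integrable_logw (fun x => (hwm x).comp measurable_fst)
    (fun z x => hw z.1 x) (fun z => hw1 z.1) hB')
    (integrable_logw (fun x => (hwm x).comp measurable_fst)
    (fun z x => hw z.1 x) (fun z => hw1 z.1) fun x => (hB' x).add (hL x)) fun z => ?_
  refine Real.log_le_log (logw_pos (hw z.1) (hw1 z.1) _) ?_
  refine Finset.sum_le_sum fun x _ => mul_le_mul_of_nonneg_left (Real.exp_le_exp.2 ?_) (hw _ _)
  linarith only [sel_log_cosh_nonneg (Y z x)]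

/-- An independent field with bounded exponential moments increases the free energy by at
most `K`. -/
lemma cav_second {w : Ω → X → ℝ} (hwm : ∀ x, Measurable fun ω => w ω x)
    (hw : ∀ ω x, 0 ≤ w ω x) (hw1 : ∀ ω, ∑ x, w ω x = 1) {B : Ω → X → ℝ}
    (hB : ∀ x, Integrable (fun ω => B ω x) P) {Y : Ω × Λ → X → ℝ}
    (hY : ∀ x, Integrable (fun z => Y z x) (P.prod ρ)) {K : ℝ}
    (hYω : ∀ ω x, Integrable (fun l => Y (ω, l) x) ρ)
    (hE : ∀ ω x, Integrable (fun l => Real.exp (Y (ω, l) x)) ρ)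
    (hK : ∀ ω x, ∫ l, Real.exp (Y (ω, l) x) ∂ρ ≤ 1 + K) :
    ∫ z : Ω × Λ, Real.log (∑ x, w z.1 x * Real.exp (B z.1 x + Y z x)) ∂(P.prod ρ) ≤
      ∫ ω, Real.log (∑ x, w ω x * Real.exp (B ω x)) ∂P + K := by
  have hB' : ∀ x, Integrable (fun z : Ω × Λ => B z.1 x) (P.prod ρ) := fun x =>
    (hB x).comp_fst ρ
  have hI : Integrable (fun z : Ω × Λ => Real.log (∑ x, w z.1 x * Real.exp (B z.1 x + Y z x)))
      (P.prod ρ) := integrable_logw (fun x => (hwm x).comp measurable_fst)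
    (fun z x => hw z.1 x) (fun z => hw1 z.1) fun x => (hB' x).add (hY x)
  rw [integral_prod _ hI]
  have hJ : Integrable (fun ω => Real.log (∑ x, w ω x * Real.exp (B ω x))) P :=
    integrable_logw hwm hw hw1 hB
  have e1 : ∫ ω, Real.log (∑ x, w ω x * Real.exp (B ω x)) ∂P + K =
      ∫ ω, (Real.log (∑ x, w ω x * Real.exp (B ω x)) + K) ∂P := by
    rw [integral_add hJ (integrable_const _)]
    simp only [integral_const, probReal_univ, smul_eq_mul, one_mul]
  rw [e1]
  refine integral_mono hI.integral_prod_left (hJ.add (integrable_const _)) fun ω => ?_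
  -- fixed `ω`
  simp only
  set Z := ∑ x, w ω x * Real.exp (B ω x) with hZ
  have hZ0 : 0 < Z := logw_pos (hw ω) (hw1 ω) _
  have pt : ∀ l, Real.log (∑ x, w ω x * Real.exp (B ω x + Y (ω, l) x)) ≤
      Real.log Z + (∑ x, w ω x * Real.exp (B ω x) / Z * Real.exp (Y (ω, l) x) - 1) := by
    intro l
    set T := ∑ x, w ω x * Real.exp (B ω x + Y (ω, l) x) with hT
    have hT0 : 0 < T := logw_pos (hw ω) (hw1 ω) _
    have h1 := Real.log_le_sub_one_of_pos (show 0 < T / Z by (clear * - hT0 hZ0; positivity))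
    rw [Real.log_div hT0.ne' hZ0.ne'] at h1
    have h2 : T / Z = ∑ x, w ω x * Real.exp (B ω x) / Z * Real.exp (Y (ω, l) x) := by
      rw [hT, Finset.sum_div]
      exact Finset.sum_congr rfl fun x _ => by rw [Real.exp_add]; ring
    linarith only [h2, h1]
  have hi1 : Integrable (fun l => Real.log (∑ x, w ω x * Real.exp (B ω x + Y (ω, l) x))) ρ :=
    integrable_logw (w := fun _ => w ω) (fun x => measurable_const) (fun _ => hw ω)
      (fun _ => hw1 ω) fun x => (integrable_const _).add (hYω ω x)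
  have hi3 : Integrable (fun l => ∑ x, w ω x * Real.exp (B ω x) / Z * Real.exp (Y (ω, l) x))
      ρ := integrable_finsetSum _ fun x _ => (hE ω x).const_mul _
  have hi4 : Integrable (fun l => ∑ x, w ω x * Real.exp (B ω x) / Z *
      Real.exp (Y (ω, l) x) - 1) ρ := hi3.sub (integrable_const _)
  have hi2 : Integrable (fun l => Real.log Z +
      (∑ x, w ω x * Real.exp (B ω x) / Z * Real.exp (Y (ω, l) x) - 1)) ρ :=
    (integrable_const _).add hi4
  refine (integral_mono hi1 hi2 pt).trans ?_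
  have e2 : ∫ l, (Real.log Z + (∑ x, w ω x * Real.exp (B ω x) / Z *
      Real.exp (Y (ω, l) x) - 1)) ∂ρ = Real.log Z + (∑ x, w ω x * Real.exp (B ω x) / Z *
      ∫ l, Real.exp (Y (ω, l) x) ∂ρ - 1) := by
    rw [integral_add (integrable_const _) hi4, integral_sub hi3 (integrable_const _),
      integral_finsetSum _ fun x _ => (hE ω x).const_mul _]
    simp only [integral_const_mul, integral_const, probReal_univ, one_smul]
  rw [e2]
  have h3 : ∑ x, w ω x * Real.exp (B ω x) / Z * ∫ l, Real.exp (Y (ω, l) x) ∂ρ ≤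
      ∑ x, w ω x * Real.exp (B ω x) / Z * (1 + K) :=
    Finset.sum_le_sum fun x _ => mul_le_mul_of_nonneg_left (hK ω x)
      (div_nonneg (mul_nonneg (hw _ _) (Real.exp_pos _).le) hZ0.le)
  have h4 : ∑ x, w ω x * Real.exp (B ω x) / Z * (1 + K) = 1 + K := by
    rw [← Finset.sum_mul, ← Finset.sum_div, ← hZ, div_self hZ0.ne', one_mul]
  linarith only [h3, h4]

end Abstract

/-- Exponential moments of a Gaussian linear form. -/
lemma exp_lin_gM {ι : Type} [Fintype ι] (v : ι → ℝ) :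
    Integrable (fun h : ι → ℝ => Real.exp (∑ i, v i * h i)) (gM ι) ∧
      ∫ h, Real.exp (∑ i, v i * h i) ∂(gM ι) = Real.exp ((∑ i, v i ^ 2) / 2) := by
  have e : (fun h : ι → ℝ => Real.exp (∑ i, v i * h i)) =
      fun h => ∏ i, (fun (i : ι) (y : ℝ) => Real.exp (v i * y)) i (h i) := by
    funext h
    rw [Real.exp_sum]
  rw [e]
  refine ⟨Integrable.fintype_prod (f := fun (i : ι) (y : ℝ) => Real.exp (v i * y))
    fun i => integrable_exp_mul_gaussianReal (v i), ?_⟩
  have h1 := integral_fintype_prod_eq_prod (𝕜 := ℝ) (μ := fun _ : ι => gaussianReal 0 1)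
    (fun (i : ι) (y : ℝ) => Real.exp (v i * y))
  have h2 : ∀ i, ∫ y, Real.exp (v i * y) ∂(gaussianReal 0 1) = Real.exp (v i ^ 2 / 2) := by
    intro i
    have h3 := mgf_gaussianReal (p := gaussianReal 0 1) (X := fun y => y) (μ := 0) (v := 1)
      (by simp) (v i)
    rw [mgf] at h3
    rw [h3]
    simp
  rw [h1]
  simp only [h2]
  rw [← Real.exp_sum, Finset.sum_div]

/-- Exponential moments of a family of Gaussian linear forms. -/
lemma exp_lin_pi {M d : ℕ} (v : Fin M → Fin d → ℝ) :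
    Integrable (fun h : Fin M → Fin d → ℝ => Real.exp (∑ a, ∑ i, v a i * h a i))
      (Measure.pi fun _ => gM (Fin d)) ∧
      ∫ h : Fin M → Fin d → ℝ, Real.exp (∑ a, ∑ i, v a i * h a i)
        ∂(Measure.pi fun _ => gM (Fin d)) = Real.exp ((∑ a, ∑ i, v a i ^ 2) / 2) := by
  have e : (fun h : Fin M → Fin d → ℝ => Real.exp (∑ a, ∑ i, v a i * h a i)) =
      fun h => ∏ a, (fun (a : Fin M) (y : Fin d → ℝ) => Real.exp (∑ i, v a i * y i)) a (h a) := by
    funext h
    rw [Real.exp_sum]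
  rw [e]
  refine ⟨Integrable.fintype_prod
    (f := fun (a : Fin M) (y : Fin d → ℝ) => Real.exp (∑ i, v a i * y i))
    fun a => (exp_lin_gM (v a)).1, ?_⟩
  have h1 := integral_fintype_prod_eq_prod (𝕜 := ℝ) (μ := fun _ : Fin M => gM (Fin d))
    (fun (a : Fin M) (y : Fin d → ℝ) => Real.exp (∑ i, v a i * y i))
  rw [h1]
  simp only [(exp_lin_gM _).2]
  rw [← Real.exp_sum, Finset.sum_div]

section Cube

lemma sel_integrable_coord {ι : Type} [Fintype ι] (e : ι) :
    Integrable (fun J : ι → ℝ => J e) (gM ι) :=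
  integrable_comp_eval (μ := fun _ : ι => gaussianReal 0 1) (i := e) (f := fun x => x)
    ((memLp_id_gaussianReal 1).integrable le_rfl)

variable {N M : ℕ}

lemma sel_measurable_cubeS (x : Fin (N + 1) → Bool) :
    Measurable fun g : Fin (N + 1) → ℝ => cubeS g x := by
  unfold cubeS
  fun_prop

lemma sel_integrable_cubeS_one (x : Fin (N + 1) → Bool) :
    Integrable (fun g : Fin (N + 1) → ℝ => cubeS g x) (gM (Fin (N + 1))) := by
  unfold cubeS
  exact integrable_finsetSum _ fun i _ =>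
    (sel_integrable_coord (ι := Fin (N + 1)) i).mul_const _

lemma sel_integrable_cubeS (x : Fin (N + 1) → Bool) (a : Fin M) :
    Integrable (fun g : Fin M → Fin (N + 1) → ℝ => cubeS (g a) x)
      (Measure.pi fun _ => gM (Fin (N + 1))) :=
  integrable_comp_eval (μ := fun _ : Fin M => gM (Fin (N + 1))) (i := a)
    (f := fun g => cubeS g x) (sel_integrable_cubeS_one x)

lemma cavY_eq (δ : ℝ) (f1 : ℝ → ℝ) (S : Fin M → ℝ) (h : Fin M → Fin (N + 1) → ℝ)
    (x : Fin (N + 1) → Bool) :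
    cavY δ f1 S (fun a => cubeS (h a) x) =
      ∑ a, ∑ i, (√δ * f1 (S a) * cubeφ N x i) * h a i := by
  unfold cavY cubeS
  refine Finset.sum_congr rfl fun a _ => ?_
  rw [Finset.mul_sum]
  exact Finset.sum_congr rfl fun i _ => by ring

lemma sum_cubeφ_sq (x : Fin (N + 1) → Bool) : ∑ i, cubeφ N x i ^ 2 = 1 := by
  simp only [cubeφ_sq]
  rw [Finset.sum_const, Finset.card_univ, Fintype.card_fin, nsmul_eq_mul]
  push_cast
  field_simp

/-- The cavity form of the spin increment is bounded below. -/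
theorem cubeDN_ge {f f1 f2 f3 : ℝ → ℝ} {C : ℝ} (hf : CB3 C f f1 f2 f3) (hfm : Measurable f)
    (N M P : ℕ) (s : ℝ) (u : Fin P → ℝ) :
    -(Real.exp (M * (1 / ((N : ℝ) + 2)) * C ^ 2 / 2) - 1) ≤
      cubeDN f f1 f2 hfm C hf.b0 N M P s u := by
  set δ : ℝ := 1 / ((N : ℝ) + 2) with hδ
  have hδ0 : 0 ≤ δ := by (clear * -; positivity)
  have hC0 : 0 ≤ C := (abs_nonneg _).trans (hf.b0 0)
  have hf1c : Continuous f1 := continuous_iff_continuousAt.2 fun x => (hf.d2 x).continuousAt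
  have hf2c : Continuous f2 := continuous_iff_continuousAt.2 fun x => (hf.d3 x).continuousAt
  have hf1m := hf1c.measurable
  have hf2m := hf2c.measurable
  set S := (cubeBase f hfm C hf.b0 N M).sys P s u with hS
  let PP : Measure ((Fin M → Fin (N + 1) → ℝ) × (GI P (N + 1) → ℝ)) :=
    (Measure.pi fun _ : Fin M => gM (Fin (N + 1))).prod (gM (GI P (N + 1)))
  let w : ((Fin M → Fin (N + 1) → ℝ) × (GI P (N + 1) → ℝ)) → (Fin (N + 1) → Bool) → ℝ :=
    fun ω x => S.w ω x
  have hwm : ∀ x, Measurable fun ω => w ω x := fun x => S.hw x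
  have hw0 : ∀ ω x, 0 ≤ w ω x := fun ω x => S.w0 ω x
  have hw1 : ∀ ω, ∑ x, w ω x = 1 := fun ω => S.w1 ω
  have hS1 : ∀ (x : Fin (N + 1) → Bool) (a : Fin M), Integrable
      (fun ω : (Fin M → Fin (N + 1) → ℝ) × (GI P (N + 1) → ℝ) => cubeS (ω.1 a) x) PP :=
    fun x a => (sel_integrable_cubeS x a).comp_fst _
  have hSm : ∀ (x : Fin (N + 1) → Bool) (a : Fin M), Measurable
      (fun ω : (Fin M → Fin (N + 1) → ℝ) × (GI P (N + 1) → ℝ) => cubeS (ω.1 a) x) :=
    fun x a => (sel_measurable_cubeS x).comp ((measurable_pi_apply a).comp measurable_fst)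
  have hB : ∀ x, Integrable (fun ω : (Fin M → Fin (N + 1) → ℝ) × (GI P (N + 1) → ℝ) =>
      cavB δ f1 f2 fun a => cubeS (ω.1 a) x) PP := by
    intro x
    unfold cavB
    refine integrable_finsetSum _ fun a _ => ?_
    refine Integrable.const_mul ?_ _
    refine Integrable.sub ?_ ?_
    · exact Integrable.mono' (g := fun _ => C) (integrable_const _)
        (hf2m.comp (hSm x a)).aestronglyMeasurable
        (Filter.Eventually.of_forall fun ω => by rw [Real.norm_eq_abs]; exact hf.b2 _)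
    · refine Integrable.mono' (g := fun ω => |cubeS (ω.1 a) x| * C) ((hS1 x a).abs.mul_const C)
        ((hSm x a).mul (hf1m.comp (hSm x a))).aestronglyMeasurable
        (Filter.Eventually.of_forall fun ω => ?_)
      rw [Real.norm_eq_abs, abs_mul]
      exact mul_le_mul_of_nonneg_left (hf.b1 _) (abs_nonneg _)
  -- first term
  have hY1 : ∀ x, Integrable (fun z : ((Fin M → Fin (N + 1) → ℝ) × (GI P (N + 1) → ℝ)) ×
      (Fin M → ℝ) => cavY δ f1 (fun a => cubeS (z.1.1 a) x) z.2) (PP.prod (gM (Fin M))) := by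
    intro x
    unfold cavY
    refine integrable_finsetSum _ fun a _ => ?_
    have hi : Integrable (fun z : ((Fin M → Fin (N + 1) → ℝ) × (GI P (N + 1) → ℝ)) ×
        (Fin M → ℝ) => z.2 a) (PP.prod (gM (Fin M))) :=
      (sel_integrable_coord (ι := Fin M) a).comp_snd _
    refine Integrable.mono' (g := fun z => √δ * C * |z.2 a|) (hi.abs.const_mul _)
      (((measurable_const.mul (hf1m.comp ((hSm x a).comp measurable_fst))).mul
        ((measurable_pi_apply a).comp measurable_snd)).aestronglyMeasurable)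
      (Filter.Eventually.of_forall fun z => ?_)
    rw [Real.norm_eq_abs, abs_mul, abs_mul, abs_of_nonneg (Real.sqrt_nonneg _)]
    exact mul_le_mul_of_nonneg_right (mul_le_mul_of_nonneg_left (hf.b1 _)
      (Real.sqrt_nonneg _)) (abs_nonneg _)
  have h1 := cav_first (P := PP) (ρ := gM (Fin M)) hwm hw0 hw1
    (B := fun ω x => cavB δ f1 f2 fun a => cubeS (ω.1 a) x) hB
    (Y := fun z x => cavY δ f1 (fun a => cubeS (z.1.1 a) x) z.2) hY1
  -- second term
  have hi2 : ∀ (x : Fin (N + 1) → Bool) (a : Fin M), Integrable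
      (fun z : ((Fin M → Fin (N + 1) → ℝ) × (GI P (N + 1) → ℝ)) ×
        (Fin M → Fin (N + 1) → ℝ) => cubeS (z.2 a) x)
      (PP.prod (Measure.pi fun _ : Fin M => gM (Fin (N + 1)))) :=
    fun x a => (sel_integrable_cubeS x a).comp_snd _
  have hY2 : ∀ x, Integrable (fun z : ((Fin M → Fin (N + 1) → ℝ) × (GI P (N + 1) → ℝ)) ×
      (Fin M → Fin (N + 1) → ℝ) =>
        cavY δ f1 (fun a => cubeS (z.1.1 a) x) (fun a => cubeS (z.2 a) x))
      (PP.prod (Measure.pi fun _ : Fin M => gM (Fin (N + 1)))) := by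
    intro x
    unfold cavY
    refine integrable_finsetSum _ fun a _ => ?_
    refine Integrable.mono' (g := fun z => √δ * C * |cubeS (z.2 a) x|)
      ((hi2 x a).abs.const_mul _)
      (((measurable_const.mul (hf1m.comp ((hSm x a).comp measurable_fst))).mul
        ((sel_measurable_cubeS x).comp
          ((measurable_pi_apply a).comp measurable_snd))).aestronglyMeasurable)
      (Filter.Eventually.of_forall fun z => ?_)
    rw [Real.norm_eq_abs, abs_mul, abs_mul, abs_of_nonneg (Real.sqrt_nonneg _)]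
    exact mul_le_mul_of_nonneg_right (mul_le_mul_of_nonneg_left (hf.b1 _)
      (Real.sqrt_nonneg _)) (abs_nonneg _)
  have h2 := cav_second (P := PP) (ρ := Measure.pi fun _ : Fin M => gM (Fin (N + 1)))
    hwm hw0 hw1 (B := fun ω x => cavB δ f1 f2 fun a => cubeS (ω.1 a) x) hB
    (Y := fun z x => cavY δ f1 (fun a => cubeS (z.1.1 a) x) (fun a => cubeS (z.2 a) x)) hY2
    (K := Real.exp (M * δ * C ^ 2 / 2) - 1) (fun ω x => by
      simp only [cavY_eq]
      exact integrable_finsetSum _ fun a _ => integrable_finsetSum _ fun i _ =>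
        (integrable_comp_eval (μ := fun _ : Fin M => gM (Fin (N + 1))) (i := a)
          (f := fun g => g i) (sel_integrable_coord (ι := Fin (N + 1)) i)).const_mul _)
    (fun ω x => by
      simp only [cavY_eq]
      exact (exp_lin_pi _).1)
    (fun ω x => by
      simp only [cavY_eq]
      rw [(exp_lin_pi _).2]
      have e : ∑ a : Fin M, ∑ i, (√δ * f1 (cubeS (ω.1 a) x) * cubeφ N x i) ^ 2 =
          ∑ a : Fin M, δ * f1 (cubeS (ω.1 a) x) ^ 2 := by
        refine Finset.sum_congr rfl fun a _ => ?_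
        have : ∀ i, (√δ * f1 (cubeS (ω.1 a) x) * cubeφ N x i) ^ 2 =
            δ * f1 (cubeS (ω.1 a) x) ^ 2 * cubeφ N x i ^ 2 := fun i => by
          rw [mul_pow, mul_pow, Real.sq_sqrt hδ0]
        simp only [this]
        rw [← Finset.mul_sum, sum_cubeφ_sq, mul_one]
      rw [e]
      have e2 : ∑ a : Fin M, δ * f1 (cubeS (ω.1 a) x) ^ 2 ≤ ∑ _a : Fin M, δ * C ^ 2 :=
        Finset.sum_le_sum fun a _ => mul_le_mul_of_nonneg_left
          (sq_le_sq' (by (clear * - hf; linarith [(abs_le.1 (hf.b1 (cubeS (ω.1 a) x))).1]))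
            (abs_le.1 (hf.b1 (cubeS (ω.1 a) x))).2) hδ0
      rw [Finset.sum_const, Finset.card_univ, Fintype.card_fin, nsmul_eq_mul] at e2
      have e3 := Real.exp_le_exp.2 (show (∑ a : Fin M, δ * f1 (cubeS (ω.1 a) x) ^ 2) / 2 ≤
        M * δ * C ^ 2 / 2 by linarith only [e2])
      linarith)
  have h3 : cubeDN f f1 f2 hfm C hf.b0 N M P s u =
      (∫ z : ((Fin M → Fin (N + 1) → ℝ) × (GI P (N + 1) → ℝ)) × (Fin M → ℝ),
        Real.log (∑ x, w z.1 x * (Real.exp (cavB δ f1 f2 fun a => cubeS (z.1.1 a) x) *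
          Real.cosh (cavY δ f1 (fun a => cubeS (z.1.1 a) x) z.2))) ∂(PP.prod (gM (Fin M)))) -
      ∫ z : ((Fin M → Fin (N + 1) → ℝ) × (GI P (N + 1) → ℝ)) × (Fin M → Fin (N + 1) → ℝ),
        Real.log (∑ x, w z.1 x * Real.exp ((cavB δ f1 f2 fun a => cubeS (z.1.1 a) x) +
          cavY δ f1 (fun a => cubeS (z.1.1 a) x) fun a => cubeS (z.2 a) x))
        ∂(PP.prod (Measure.pi fun _ : Fin M => gM (Fin (N + 1)))) := rfl
  rw [h3]
  linarith only [h1, h2]

end Cube

end Vale.Agent.P157.Par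
end

section

open MeasureTheory ProbabilityTheory Complex
open scoped RealInnerProductSpace

namespace Vale.Agent.P157.Exist

variable {E : Type*} [NormedAddCommGroup E] [InnerProductSpace ℝ E] [FiniteDimensional ℝ E]
  [MeasurableSpace E] [BorelSpace E]
variable {E₁ : Type*} [NormedAddCommGroup E₁] [InnerProductSpace ℝ E₁] [FiniteDimensional ℝ E₁]
  [MeasurableSpace E₁] [BorelSpace E₁]
variable {E₂ : Type*} [NormedAddCommGroup E₂] [InnerProductSpace ℝ E₂] [FiniteDimensional ℝ E₂]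
  [MeasurableSpace E₂] [BorelSpace E₂]
variable {X : Type*} [MeasurableSpace X]
variable {ν : Measure ℝ} [IsFiniteMeasure ν] {ω : ℝ → ℂ} {v : ℝ → ℝ}

end Vale.Agent.P157.Exist
end
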