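import Vale.Agent.P157.Bdl.B2
import Vale.Agent.P157.ParDefs
attribute [-instance] ProperSMul.toContinuousSMul IsTopologicalTorsor.toContinuousSMul IdemSemiring.toCanonicallyOrderedAdd IdemSemiring.toMulLeftMono IdemSemiring.toMulRightMono AddQuantale.instAddLeftMono AddQuantale.instAddRightMono Quantale.instMulLeftMono Quantale.instMulRightMono FiniteDimensional.rclike_to_real IsScalarTower.complexToReal FiniteDimensional.complexToReal

set_option linter.all false

section

open MeasureTheory ProbabilityTheory Filter Topology Finset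

namespace Vale.Agent.P157.Par

set_option linter.unusedSectionVars false

open Vale.Agent.P367.GT (gM stein_pi)

/-- Bounded measurable functions. -/
structure BM (f : ℝ → ℝ) : Prop where
  meas : Measurable f
  bdd : ∃ C, ∀ x, |f x| ≤ C

lemma BM.const (c : ℝ) : BM fun _ => c := ⟨measurable_const, |c|, fun _ => le_rfl⟩

lemma BM.mul {f g : ℝ → ℝ} (hf : BM f) (hg : BM g) : BM fun x => f x * g x := by
  obtain ⟨C, hC⟩ := hf.bdd
  obtain ⟨D, hD⟩ := hg.bdd
  refine ⟨hf.meas.mul hg.meas, C * D, fun x => ?_⟩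
  rw [abs_mul]
  exact mul_le_mul (hC x) (hD x) (abs_nonneg _) ((abs_nonneg _).trans (hC x))

lemma BM.add {f g : ℝ → ℝ} (hf : BM f) (hg : BM g) : BM fun x => f x + g x := by
  obtain ⟨C, hC⟩ := hf.bdd
  obtain ⟨D, hD⟩ := hg.bdd
  exact ⟨hf.meas.add hg.meas, C + D, fun x => (abs_add_le _ _).trans (add_le_add (hC x) (hD x))⟩

lemma BM.neg {f : ℝ → ℝ} (hf : BM f) : BM fun x => -f x := by
  obtain ⟨C, hC⟩ := hf.bdd
  exact ⟨hf.meas.neg, C, fun x => by rw [abs_neg]; exact hC x⟩

section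

variable {J K : Type} [Fintype J] [DecidableEq J] [Fintype K] [DecidableEq K]

lemma BM.update {f : J → ℝ → ℝ} (hf : ∀ a, BM (f a)) {a : J} {g : ℝ → ℝ} (hg : BM g) :
    ∀ b, BM (Function.update f a g b) := by
  intro b
  by_cases hb : b = a
  · subst hb; simpa using hg
  · simpa [Function.update_of_ne hb] using hf b

lemma exists_bound {f : J → ℝ → ℝ} (hf : ∀ a, BM (f a)) : ∃ C, 0 ≤ C ∧ ∀ a x, |f a x| ≤ C := by
  choose C hC using fun a => (hf a).bdd
  refine ⟨∑ a, |C a|, Finset.sum_nonneg fun _ _ => abs_nonneg _, fun a x => ?_⟩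
  exact ((hC a x).trans (le_abs_self _)).trans
    (Finset.single_le_sum (f := fun a => |C a|) (fun _ _ => abs_nonneg _) (Finset.mem_univ a))

lemma gE_integrable (U : J → K → ℝ) {f : J → ℝ → ℝ} (hf : ∀ a, BM (f a)) :
    Integrable (fun ξ : K → ℝ => ∏ a, f a (lin U ξ a)) (gM K) := by
  obtain ⟨C, -, hC⟩ := exists_bound hf
  exact integrable_prod_lin (fun a => (hf a).meas) hC _

lemma gE_update_add (U : J → K → ℝ) {f : J → ℝ → ℝ} (hf : ∀ a, BM (f a)) (a : J)
    {g h : ℝ → ℝ} (hg : BM g) (hh : BM h) :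
    gE U (Function.update f a fun x => g x + h x) =
      gE U (Function.update f a g) + gE U (Function.update f a h) := by
  unfold gE
  rw [← integral_add (gE_integrable U (BM.update hf hg)) (gE_integrable U (BM.update hf hh))]
  congr 1
  funext ξ
  rw [prod_update, prod_update, prod_update]
  ring

lemma gE_update_smul (U : J → K → ℝ) (f : J → ℝ → ℝ) (a : J) (g : ℝ → ℝ) (c : ℝ) :
    gE U (Function.update f a fun x => c * g x) = c * gE U (Function.update f a g) := by
  unfold gE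
  rw [← integral_const_mul]
  congr 1
  funext ξ
  rw [prod_update, prod_update]
  ring

end

lemma fam_update {δ ι : Type} [DecidableEq δ] [DecidableEq ι] (A : δ → ℝ → ℝ) (v g : ℝ → ℝ)
    (i : δ) : (fam (Function.update A i g) v : δ ⊕ ι → ℝ → ℝ) =
      Function.update (fam A v) (Sum.inl i) g := by
  funext x
  rcases x with j | j
  · by_cases h : j = i
    · subst h; simp [fam]
    · rw [Function.update_of_ne (by simpa using h)]
      simp [fam, Function.update_of_ne h]
  · rw [Function.update_of_ne (by simp)]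
    rfl

lemma ext_update {δ : Type} [DecidableEq δ] (g G : ℝ → ℝ) (A : δ → ℝ → ℝ) (i : δ) :
    ext g (Function.update A i G) = Function.update (ext g A) (some i) G := by
  funext x
  rcases x with _ | j
  · rw [Function.update_of_ne (by simp)]
    rfl
  · by_cases h : j = i
    · subst h; simp [ext]
    · rw [Function.update_of_ne (by simpa using h)]
      simp [ext, Function.update_of_ne h]

lemma ext_eq_update {δ : Type} [DecidableEq δ] (g G : ℝ → ℝ) (A : δ → ℝ → ℝ) :
    ext g A = Function.update (ext G A) none g := by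
  funext x
  rcases x with _ | j
  · simp [ext]
  · rw [Function.update_of_ne (by simp)]
    rfl

namespace Arr

variable {k : ℕ} {w : Fin (k + 1) → ℝ} {δ : Type} [Fintype δ] [DecidableEq δ]

lemma BM_fam {ι : Type} {A : δ → ℝ → ℝ} {v : ℝ → ℝ} (hA : ∀ i, BM (A i)) (hv : BM v) :
    ∀ a : δ ⊕ ι, BM (fam A v a) := by
  rintro (i | j)
  · exact hA i
  · exact hv

lemma BM_ext {A : δ → ℝ → ℝ} {g : ℝ → ℝ} (hA : ∀ i, BM (A i)) (hg : BM g) :
    ∀ a : Option δ, BM (ext g A a) := by
  rintro (_ | i)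
  · exact hg
  · exact hA i

lemma T_update_add (𝓐 : Arr k w δ) (c : Fin (k + 1) → ℝ) (χ : LM k δ → ℝ)
    {A : δ → ℝ → ℝ} {v : ℝ → ℝ} (hA : ∀ i, BM (A i)) (hv : BM v) (i : δ) {g h : ℝ → ℝ}
    (hg : BM g) (hh : BM h) (ι : Type) [Fintype ι] [DecidableEq ι] :
    𝓐.T c χ (Function.update A i fun x => g x + h x) v ι =
      𝓐.T c χ (Function.update A i g) v ι + 𝓐.T c χ (Function.update A i h) v ι := by
  unfold T
  rw [← map_add]
  congr 1
  funext L
  rw [Pi.add_apply, fam_update, fam_update, fam_update,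
    gE_update_add _ (BM_fam hA hv) _ hg hh]
  ring

lemma T_update_smul (𝓐 : Arr k w δ) (c : Fin (k + 1) → ℝ) (χ : LM k δ → ℝ)
    (A : δ → ℝ → ℝ) (v : ℝ → ℝ) (i : δ) (g : ℝ → ℝ) (r : ℝ)
    (ι : Type) [Fintype ι] [DecidableEq ι] :
    𝓐.T c χ (Function.update A i fun x => r * g x) v ι =
      r * 𝓐.T c χ (Function.update A i g) v ι := by
  unfold T
  rw [← smul_eq_mul, ← map_smul]
  congr 1
  funext L
  rw [Pi.smul_apply, fam_update, fam_update, gE_update_smul, smul_eq_mul]
  ring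

/-- The identity for `n` other replicas. -/
lemma T_gg_fin (𝓐 : Arr k w δ) {c : Fin (k + 1) → ℝ} (hc : ∀ l, 0 ≤ c l) (χ : LM k δ → ℝ)
    {A : δ → ℝ → ℝ} {v : ℝ → ℝ} (hA : ∀ i, Measurable (A i)) (hv : Measurable v)
    (l : Fin (k + 1)) (i : δ) (n : ℕ) :
    ((Fintype.card δ : ℝ) + n) *
      𝓐.mark.T c (fun L => lift χ L * lk l (some i) none L) (ext (fun _ => 1) A) v (Fin n) =
      (up w l - 1) * 𝓐.T c χ A v (Fin n) +
        ∑ j, 𝓐.T c (fun L => χ L * lk l i j L) A v (Fin n) +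
        n * 𝓐.mark.T c (fun L => lift χ L * lk l (some i) none L) (ext v A) v (Fin (n - 1)) := by
  have h := 𝓐.T_gg hc χ hA hv l i (Fin n)
  have h2 : ∑ j : Fin n, 𝓐.E (Fin n) (fun L => χ (res L) * gE (UL c L) (fam A v) *
      if l ≤ L (Sum.inl i) (Sum.inr j) then 1 else 0) =
      n * 𝓐.mark.T c (fun L => lift χ L * lk l (some i) none L) (ext v A) v (Fin (n - 1)) := by
    rcases n with _ | n
    · simp only [univ_eq_empty, mul_ite, mul_one, mul_zero, sum_empty, CharP.cast_eq_zero, Nat.zero_sub_one, zero_mul]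
    · have h3 : ∀ j : Fin (n + 1), 𝓐.E (Fin (n + 1)) (fun L => χ (res L) *
          gE (UL c L) (fam A v) * if l ≤ L (Sum.inl i) (Sum.inr j) then 1 else 0) =
          𝓐.mark.T c (fun L => lift χ L * lk l (some i) none L) (ext v A) v (Fin n) := by
        intro j
        have h4 := 𝓐.E_mark hc (fun L => lift χ L * lk l (some i) none L) hA hv hv n j
        rw [← h4]
        congr 1
        funext L
        have h5 : (Function.update (fam A v) (Sum.inr j) v : δ ⊕ Fin (n + 1) → ℝ → ℝ) =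
            fam A v := by
          apply Function.update_eq_self_iff.2
          rfl
        rw [h5, mul_right_comm]
        rfl
      simp_rw [h3]
      rw [Finset.sum_const, Finset.card_univ, Fintype.card_fin, nsmul_eq_mul]
      rfl
  rw [h2] at h
  rw [Fintype.card_fin] at h
  rw [h]
  ring

/-- Resummation over the other replicas, `card δ = e + 1`. -/
noncomputable def Q (𝓐 : Arr k w δ) (e : ℕ) (c : Fin (k + 1) → ℝ) (χ : LM k δ → ℝ)
    (A : δ → ℝ → ℝ) (v : ℝ → ℝ) : ℝ :=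
  ∑' n : ℕ, ((n + e).choose e : ℝ) * 𝓐.T c χ A v (Fin n)

lemma C_nonneg (𝓐 : Arr k w δ) : 0 ≤ 𝓐.C := by
  have h := 𝓐.bound Empty (fun _ => 0) 1 (fun _ => by simp only [abs_zero, zero_le_one])
  rw [mul_one] at h
  exact (abs_nonneg _).trans h

lemma exists_abs_bound (χ : LM k δ → ℝ) : ∃ X, 0 ≤ X ∧ ∀ L, |χ L| ≤ X := by
  refine ⟨∑ L, |χ L|, Finset.sum_nonneg fun _ _ => abs_nonneg _, fun L => ?_⟩
  exact Finset.single_le_sum (f := fun L => |χ L|) (fun _ _ => abs_nonneg _) (Finset.mem_univ L)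

lemma T_geom (𝓐 : Arr k w δ) (c : Fin (k + 1) → ℝ) (χ : LM k δ → ℝ) {A : δ → ℝ → ℝ}
    {v : ℝ → ℝ} (hA : ∀ i, BM (A i)) {a : ℝ} (hv : ∀ x, |v x| ≤ a) :
    ∃ M, 0 ≤ M ∧ ∀ n : ℕ, |𝓐.T c χ A v (Fin n)| ≤ M * a ^ n := by
  obtain ⟨X, hX0, hX⟩ := exists_abs_bound χ
  obtain ⟨B, hB0, hB⟩ := exists_bound hA
  refine ⟨𝓐.C * (X * B ^ Fintype.card δ), by have := 𝓐.C_nonneg; (clear * - this hX0 hB0; positivity), fun n => ?_⟩
  have h := 𝓐.T_bound (c := c) hX (B := fun _ => B) hB hv (Fin n)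
  rw [Finset.prod_const, Finset.card_univ, Fintype.card_fin] at h
  refine h.trans (le_of_eq ?_)
  ring

lemma Q_summable (𝓐 : Arr k w δ) (e : ℕ) (c : Fin (k + 1) → ℝ) (χ : LM k δ → ℝ)
    {A : δ → ℝ → ℝ} {v : ℝ → ℝ} (hA : ∀ i, BM (A i)) {a : ℝ} (ha0 : 0 ≤ a) (ha : a < 1)
    (hv : ∀ x, |v x| ≤ a) :
    Summable fun n : ℕ => ((n + e).choose e : ℝ) * 𝓐.T c χ A v (Fin n) := by
  obtain ⟨M, hM0, hM⟩ := 𝓐.T_geom c χ hA hv
  have h1 : Summable fun n : ℕ => ((n + e).choose e : ℝ) * a ^ n :=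
    summable_choose_mul_geometric_of_norm_lt_one e (by rwa [Real.norm_eq_abs, abs_of_nonneg ha0])
  refine Summable.of_norm_bounded (h1.mul_left M) fun n => ?_
  rw [norm_mul, Real.norm_eq_abs, Real.norm_eq_abs, abs_of_nonneg (by positivity)]
  calc _ ≤ ((n + e).choose e : ℝ) * (M * a ^ n) :=
        mul_le_mul_of_nonneg_left (hM n) (by (clear * -; positivity))
    _ = _ := by ring

lemma choose_id1 (n e : ℕ) : ((n + e).choose e : ℝ) * ((e + 1 : ℕ) + n) =
    (e + 1 : ℕ) * ((n + (e + 1)).choose (e + 1) : ℝ) := by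
  have h := Nat.add_one_mul_choose_eq (n + e) e
  have h2 : ((n + e + 1 : ℕ) : ℝ) * ((n + e).choose e : ℝ) =
      ((n + e + 1).choose (e + 1) : ℝ) * ((e + 1 : ℕ) : ℝ) := by exact_mod_cast h
  rw [show n + (e + 1) = n + e + 1 from rfl]
  push_cast at h2 ⊢
  linarith only [h2]

lemma choose_id2 (n e : ℕ) : ((n + 1 + e).choose e : ℝ) * ((n + 1 : ℕ) : ℝ) =
    (e + 1 : ℕ) * ((n + (e + 1)).choose (e + 1) : ℝ) := by
  have h := Nat.choose_succ_right_eq (n + 1 + e) e
  have h2 : n + 1 + e - e = n + 1 := by omega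
  rw [h2] at h
  have h3 : n + (e + 1) = n + 1 + e := by omega
  rw [h3]
  have h4 : ((n + 1 + e).choose (e + 1) : ℝ) * ((e + 1 : ℕ) : ℝ) =
      ((n + 1 + e).choose e : ℝ) * ((n + 1 : ℕ) : ℝ) := by exact_mod_cast h
  linarith only [h4]

/-- The resummed identity. -/
theorem Q_gg (𝓐 : Arr k w δ) {e : ℕ} (he : Fintype.card δ = e + 1) {c : Fin (k + 1) → ℝ}
    (hc : ∀ l, 0 ≤ c l) (χ : LM k δ → ℝ) {A : δ → ℝ → ℝ} {v : ℝ → ℝ} (hA : ∀ i, BM (A i))
    (hvm : Measurable v) {a : ℝ} (ha0 : 0 ≤ a) (ha : a < 1) (hv : ∀ x, |v x| ≤ a)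
    (l : Fin (k + 1)) (i : δ) :
    ((e + 1 : ℕ) : ℝ) *
      𝓐.mark.Q (e + 1) c (fun L => lift χ L * lk l (some i) none L) (ext (fun _ => 1) A) v =
      (up w l - 1) * 𝓐.Q e c χ A v + ∑ j, 𝓐.Q e c (fun L => χ L * lk l i j L) A v +
      ((e + 1 : ℕ) : ℝ) *
        𝓐.mark.Q (e + 1) c (fun L => lift χ L * lk l (some i) none L) (ext v A) v := by
  have hvb : BM v := ⟨hvm, a, hv⟩
  set P1 : ℕ → ℝ := fun n =>
    𝓐.mark.T c (fun L => lift χ L * lk l (some i) none L) (ext (fun _ => 1) A) v (Fin n) with hP1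
  set Pv : ℕ → ℝ := fun n =>
    𝓐.mark.T c (fun L => lift χ L * lk l (some i) none L) (ext v A) v (Fin n) with hPv
  have s1 := 𝓐.mark.Q_summable (e + 1) c (fun L => lift χ L * lk l (some i) none L)
    (BM_ext hA (BM.const 1)) ha0 ha hv
  have s2 := 𝓐.mark.Q_summable (e + 1) c (fun L => lift χ L * lk l (some i) none L)
    (BM_ext hA hvb) ha0 ha hv
  have s3 := 𝓐.Q_summable e c χ hA ha0 ha hv
  have s4 := fun j => 𝓐.Q_summable e c (fun L => χ L * lk l i j L) hA ha0 ha hv
  have hterm : ∀ n : ℕ, ((e + 1 : ℕ) : ℝ) * (((n + (e + 1)).choose (e + 1) : ℝ) * P1 n) =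
      (up w l - 1) * (((n + e).choose e : ℝ) * 𝓐.T c χ A v (Fin n)) +
      ∑ j, ((n + e).choose e : ℝ) * 𝓐.T c (fun L => χ L * lk l i j L) A v (Fin n) +
      ((n + e).choose e : ℝ) * n * Pv (n - 1) := by
    intro n
    have h := 𝓐.T_gg_fin hc χ (fun i => (hA i).meas) hvm l i n
    rw [he] at h
    rw [← mul_assoc, ← choose_id1 n e, mul_assoc, h, ← Finset.mul_sum]
    ring
  have hshift : ∀ n : ℕ, ((n + 1 + e).choose e : ℝ) * (n + 1 : ℕ) * Pv (n + 1 - 1) =
      ((e + 1 : ℕ) : ℝ) * (((n + (e + 1)).choose (e + 1) : ℝ) * Pv n) := by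
    intro n
    rw [choose_id2, Nat.add_sub_cancel]
    ring
  have s5 : Summable fun n : ℕ => ((n + e).choose e : ℝ) * n * Pv (n - 1) := by
    rw [← summable_nat_add_iff 1]
    refine (s2.mul_left ((e + 1 : ℕ) : ℝ)).congr fun n => ?_
    rw [hshift n]
  have e5 : ∑' n : ℕ, ((n + e).choose e : ℝ) * n * Pv (n - 1) =
      ((e + 1 : ℕ) : ℝ) * 𝓐.mark.Q (e + 1) c (fun L => lift χ L * lk l (some i) none L)
        (ext v A) v := by
    rw [s5.tsum_eq_zero_add]
    simp only [Nat.cast_zero, mul_zero, zero_mul, zero_add]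
    rw [Q, ← tsum_mul_left]
    apply tsum_congr
    intro n
    exact hshift n
  calc ((e + 1 : ℕ) : ℝ) *
      𝓐.mark.Q (e + 1) c (fun L => lift χ L * lk l (some i) none L) (ext (fun _ => 1) A) v
      = ∑' n : ℕ, ((e + 1 : ℕ) : ℝ) * (((n + (e + 1)).choose (e + 1) : ℝ) * P1 n) := by
        rw [Q, ← tsum_mul_left]
    _ = ∑' n : ℕ, ((up w l - 1) * (((n + e).choose e : ℝ) * 𝓐.T c χ A v (Fin n)) +
      ∑ j, ((n + e).choose e : ℝ) * 𝓐.T c (fun L => χ L * lk l i j L) A v (Fin n) +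
      ((n + e).choose e : ℝ) * n * Pv (n - 1)) := tsum_congr hterm
    _ = _ := by
        rw [((s3.mul_left (up w l - 1)).add (summable_sum fun j _ => s4 j)).tsum_add s5,
          (s3.mul_left (up w l - 1)).tsum_add (summable_sum fun j _ => s4 j), tsum_mul_left,
          Summable.tsum_finsetSum fun j _ => s4 j, e5]
        rfl

lemma Q_update_add (𝓐 : Arr k w δ) (e : ℕ) (c : Fin (k + 1) → ℝ) (χ : LM k δ → ℝ)
    {A : δ → ℝ → ℝ} {v : ℝ → ℝ} (hA : ∀ i, BM (A i)) (hvm : Measurable v) {a : ℝ}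
    (ha0 : 0 ≤ a) (ha : a < 1) (hv : ∀ x, |v x| ≤ a) (i : δ) {g h : ℝ → ℝ}
    (hg : BM g) (hh : BM h) :
    𝓐.Q e c χ (Function.update A i fun x => g x + h x) v =
      𝓐.Q e c χ (Function.update A i g) v + 𝓐.Q e c χ (Function.update A i h) v := by
  unfold Q
  rw [← (𝓐.Q_summable e c χ (BM.update hA hg) ha0 ha hv).tsum_add
    (𝓐.Q_summable e c χ (BM.update hA hh) ha0 ha hv)]
  apply tsum_congr
  intro n
  rw [𝓐.T_update_add c χ hA ⟨hvm, a, hv⟩ i hg hh]
  ring

lemma Q_update_smul (𝓐 : Arr k w δ) (e : ℕ) (c : Fin (k + 1) → ℝ) (χ : LM k δ → ℝ)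
    (A : δ → ℝ → ℝ) (v : ℝ → ℝ) (i : δ) (g : ℝ → ℝ) (r : ℝ) :
    𝓐.Q e c χ (Function.update A i fun x => r * g x) v =
      r * 𝓐.Q e c χ (Function.update A i g) v := by
  unfold Q
  rw [← tsum_mul_left]
  apply tsum_congr
  intro n
  rw [𝓐.T_update_smul c χ A v i g]
  ring

/-- On a link, a function can be moved from the new index to the old one. -/
lemma T_move (𝓐 : Arr k w δ) {c : Fin (k + 1) → ℝ} {l : Fin (k + 1)}
    (hcl : ∀ l', l < l' → c l' = 0) (χ : LM k δ → ℝ) (A : δ → ℝ → ℝ) (v : ℝ → ℝ) {i j : δ}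
    (hij : i ≠ j) (g : ℝ → ℝ) (ι : Type) [Fintype ι] [DecidableEq ι] :
    𝓐.T c (fun L => χ L * lk l i j L) (Function.update A j g) v ι =
      𝓐.T c (fun L => χ L * lk l i j L)
        (Function.update (Function.update A i fun x => A i x * g x) j fun _ => 1) v ι := by
  unfold T
  apply 𝓐.congr_ultra
  intro L hL
  by_cases h : l ≤ L (Sum.inl i) (Sum.inl j)
  · congr 1
    rw [fam_update, fam_update, fam_update]
    exact gE_move (by simpa using hij) (UL_eq_of_link hcl hL h) (fam A v) g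
  · have : lk l i j (res L) = 0 := by
      unfold lk res
      rw [if_neg h]
    simp [this]

lemma Q_move (𝓐 : Arr k w δ) (e : ℕ) {c : Fin (k + 1) → ℝ} {l : Fin (k + 1)}
    (hcl : ∀ l', l < l' → c l' = 0) (χ : LM k δ → ℝ) (A : δ → ℝ → ℝ) (v : ℝ → ℝ) {i j : δ}
    (hij : i ≠ j) (g : ℝ → ℝ) :
    𝓐.Q e c (fun L => χ L * lk l i j L) (Function.update A j g) v =
      𝓐.Q e c (fun L => χ L * lk l i j L)
        (Function.update (Function.update A i fun x => A i x * g x) j fun _ => 1) v := by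
  unfold Q
  apply tsum_congr
  intro n
  rw [𝓐.T_move hcl χ A v hij g]

/-- Stability: the resummed Ghirlanda-Guerra identity in its final form. -/
theorem Q_stab (𝓐 : Arr k w δ) {e : ℕ} (he : Fintype.card δ = e + 1) {c : Fin (k + 1) → ℝ}
    (hc : ∀ l, 0 ≤ c l) {l : Fin (k + 1)} (hcl : ∀ l', l < l' → c l' = 0) (χ : LM k δ → ℝ)
    {A : δ → ℝ → ℝ} {v : ℝ → ℝ} (hA : ∀ i, BM (A i))
    (hvm : Measurable v) {a : ℝ} (ha0 : 0 ≤ a) (ha : a < 1) (hv : ∀ x, |v x| ≤ a) (i : δ)
    {G H : ℝ → ℝ} (hG : BM G) (hH : BM H) :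
    ((e + 1 : ℕ) : ℝ) *
      𝓐.mark.Q (e + 1) c (fun L => lift χ L * lk l (some i) none L)
        (ext (fun x => H x * (1 - v x)) (Function.update A i G)) v =
      (up w l - 1) * 𝓐.Q e c χ (Function.update A i fun x => G x * H x) v +
      ∑ j, 𝓐.Q e c (fun L => χ L * lk l i j L)
        (Function.update A i fun x => G x * H x) v := by
  have hvb : BM v := ⟨hvm, a, hv⟩
  have hGH := hG.mul hH
  have hAG : ∀ j, BM (Function.update A i G j) := BM.update hA hG
  have hAGH : ∀ j, BM (Function.update A i (fun x => G x * H x) j) := BM.update hA hGH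
  have h1 := 𝓐.Q_gg he hc χ hAGH hvm ha0 ha hv l i
  have hne : (some i : Option δ) ≠ none := by simp
  -- move everything to the index `i`
  have m1 : ∀ g : ℝ → ℝ, 𝓐.mark.Q (e + 1) c (fun L => lift χ L * lk l (some i) none L)
      (ext g (Function.update A i G)) v =
      𝓐.mark.Q (e + 1) c (fun L => lift χ L * lk l (some i) none L)
      (ext (fun _ => 1) (Function.update A i fun x => G x * g x)) v := by
    intro g
    rw [ext_eq_update g (fun _ => 1), 𝓐.mark.Q_move (e + 1) hcl _ _ _ hne]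
    congr 1
    rw [ext_eq_update (fun _ => 1) (fun _ => 1) (Function.update A i fun x => G x * g x)]
    congr 1
    rw [ext_update, ext_update, Function.update_idem]
    congr 1
    funext x
    simp
  have m2 : 𝓐.mark.Q (e + 1) c (fun L => lift χ L * lk l (some i) none L)
      (ext v (Function.update A i fun x => G x * H x)) v =
      𝓐.mark.Q (e + 1) c (fun L => lift χ L * lk l (some i) none L)
      (ext (fun _ => 1) (Function.update A i fun x => G x * H x * v x)) v := by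
    rw [ext_eq_update v (fun _ => 1), 𝓐.mark.Q_move (e + 1) hcl _ _ _ hne]
    congr 1
    rw [ext_eq_update (fun _ => 1) (fun _ => 1) (Function.update A i fun x => G x * H x * v x)]
    congr 1
    rw [ext_update, ext_update, Function.update_idem]
    congr 1
    funext x
    simp
  have m3 : 𝓐.mark.Q (e + 1) c (fun L => lift χ L * lk l (some i) none L)
      (ext (fun _ => 1) (Function.update A i fun x => G x * (H x * (1 - v x)))) v =
      𝓐.mark.Q (e + 1) c (fun L => lift χ L * lk l (some i) none L)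
        (ext (fun _ => 1) (Function.update A i fun x => G x * H x)) v -
      𝓐.mark.Q (e + 1) c (fun L => lift χ L * lk l (some i) none L)
        (ext (fun _ => 1) (Function.update A i fun x => G x * H x * v x)) v := by
    have hb1 : BM fun x => G x * H x := hGH
    have hb2 : BM fun x => -1 * (G x * H x * v x) := (BM.const (-1)).mul (hGH.mul hvb)
    have h2 : (fun x => G x * (H x * (1 - v x))) =
        fun x => (G x * H x) + (-1 * (G x * H x * v x)) := by
      funext x; ring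
    rw [h2, ext_update, 𝓐.mark.Q_update_add (e + 1) c _ (BM_ext hA (BM.const 1)) hvm ha0 ha hv
      (some i) hb1 hb2, 𝓐.mark.Q_update_smul, ext_update, ext_update]
    ring
  rw [m1, m3]
  rw [m2] at h1
  linarith only [h1]

end Arr

end Vale.Agent.P157.Par
end

section

open MeasureTheory ProbabilityTheory Filter Topology Finset

namespace Vale.Agent.P157.Par

set_option linter.unusedSectionVars false

open Vale.Agent.P367.GT (gM stein_pi)

variable {k : ℕ} {J : Type} [Fintype J] [DecidableEq J]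

/-- The derivative of the coefficients of the Gaussian family in the variance of the level `l`. -/
noncomputable def UL' (l : Fin (k + 1)) (t : ℝ) (L : LM k J) : J → Fin (k + 1) × (J → Bool) → ℝ :=
  fun a p => if p.2 = cl L p.1 a ∧ p.1 = l then 1 / (2 * √t) else 0

lemma UL_hasDerivAt (c : Fin (k + 1) → ℝ) (l : Fin (k + 1)) (L : LM k J) {t : ℝ} (ht : 0 < t)
    (a : J) (p : Fin (k + 1) × (J → Bool)) :
    HasDerivAt (fun s => UL (Function.update c l s) L a p) (UL' l t L a p) t := by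
  unfold UL UL'
  by_cases h : p.2 = cl L p.1 a
  · by_cases h' : p.1 = l
    · simp only [h, h', and_self, if_true, Function.update_self]
      exact Real.hasDerivAt_sqrt ht.ne'
    · simp only [h, h', and_false, if_true, if_false, Function.update_of_ne h']
      exact hasDerivAt_const _ _
  · simp only [h, false_and, if_false]
    exact hasDerivAt_const _ _

lemma gram_UL' (c : Fin (k + 1) → ℝ) (l : Fin (k + 1)) {L : LM k J} (hL : Ultra L) {t : ℝ}
    (ht : 0 < t) (a b : J) :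
    gram (UL' l t L) (UL (Function.update c l t) L) a b = 1 / 2 * if l ≤ L a b then 1 else 0 := by
  unfold gram
  rw [Fintype.sum_prod_type]
  have h1 : ∀ l' : Fin (k + 1), ∑ s : J → Bool,
      UL' l t L a (l', s) * UL (Function.update c l t) L b (l', s) =
      if l' = l then (1 / 2 * if l ≤ L a b then 1 else 0) else 0 := by
    intro l'
    by_cases h : l' = l
    · subst h
      have h2 : ∀ s : J → Bool, UL' l' t L a (l', s) * UL (Function.update c l' t) L b (l', s) =
          if s = cl L l' a then (1 / 2 * if l' ≤ L a b then 1 else 0) else 0 := by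
        intro s
        simp only [UL', UL, Function.update_self, and_true]
        by_cases hs : s = cl L l' a
        · subst hs
          simp only [if_true, cl_eq_iff hL]
          have := Real.sqrt_pos.2 ht
          split_ifs
          · field_simp
          · simp only [one_div, mul_inv_rev, mul_zero]
        · simp [hs]
      simp_rw [h2]
      rw [Finset.sum_ite_eq' Finset.univ (cl L l' a)]
      simp only [mem_univ, ↓reduceIte, one_div, mul_ite, mul_one, mul_zero]
    · simp only [UL', h, and_false, if_false, zero_mul, Finset.sum_const_zero]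
  simp_rw [h1]
  rw [Finset.sum_ite_eq' Finset.univ l]
  simp only [mem_univ, ↓reduceIte, one_div, mul_ite, mul_one, mul_zero]

/-- Time derivative plus half of the second space derivative. -/
noncomputable def LL (ht hxx : ℝ → ℝ → ℝ) (t x : ℝ) : ℝ := ht t x + 1 / 2 * hxx t x

/-- The derivative of the product functional in the variance of the level `l`. -/
theorem gE_UL_hasDerivAt {c : Fin (k + 1) → ℝ} (l : Fin (k + 1)) {σ C : ℝ}
    {h ht hx hxx : J → ℝ → ℝ → ℝ}
    (hn : ∀ a, Nice (Set.Ioo 0 σ) C (h a) (ht a) (hx a) (hxx a)) {L : LM k J}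
    {t : ℝ} (htσ : t ∈ Set.Ioo 0 σ) :
    HasDerivAt (fun s => gE (UL (Function.update c l s) L) (fun a => h a s))
      (∑ a, gE (UL (Function.update c l t) L) (Function.update (fun a => h a t) a (ht a t)) +
        ∑ a, ∑ b, gram (UL' l t L) (UL (Function.update c l t) L) a b *
          gE (UL (Function.update c l t) L)
            (D2 (fun a => h a t) (fun a => hx a t) (fun a => hxx a t) a b)) t := by
  apply hasDerivAt_gE isOpen_Ioo hn (U' := fun s => UL' l s L) _ htσ
    (B := 1 / (2 * √(t / 2)))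
  · filter_upwards [Ioi_mem_nhds (by linarith [htσ.1] : t / 2 < t)] with s hs a p
    have hs' : t / 2 < s := hs
    have h0 : 0 < t / 2 := by linarith only [htσ.1]
    have h1 : √(t / 2) ≤ √s := Real.sqrt_le_sqrt hs'.le
    have h2 : 0 < √(t / 2) := Real.sqrt_pos.2 h0
    unfold UL'
    split_ifs
    · rw [abs_of_nonneg (by (clear * -; positivity))]
      apply div_le_div_of_nonneg_left (by norm_num) (by positivity)
      linarith only [h1]
    · rw [abs_zero]; positivity
  · intro s hs a p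
    exact UL_hasDerivAt c l L hs.1 a p

/-- The derivative on an ultrametric matrix. -/
lemma deriv_formula (c : Fin (k + 1) → ℝ) (l : Fin (k + 1)) {C : ℝ} {σ : ℝ}
    {h ht hx hxx : J → ℝ → ℝ → ℝ}
    (hn : ∀ a, Nice (Set.Ioo 0 σ) C (h a) (ht a) (hx a) (hxx a)) {L : LM k J} (hL : Ultra L)
    {t : ℝ} (htσ : t ∈ Set.Ioo 0 σ) :
    (∑ a, gE (UL (Function.update c l t) L) (Function.update (fun a => h a t) a (ht a t)) +
        ∑ a, ∑ b, gram (UL' l t L) (UL (Function.update c l t) L) a b *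
          gE (UL (Function.update c l t) L)
            (D2 (fun a => h a t) (fun a => hx a t) (fun a => hxx a t) a b)) =
      ∑ a, gE (UL (Function.update c l t) L)
        (Function.update (fun a => h a t) a (LL (ht a) (hxx a) t)) +
      1 / 2 * ∑ a, ∑ b, (if a = b then 0 else
        (if l ≤ L a b then 1 else 0) * gE (UL (Function.update c l t) L)
          (Function.update (Function.update (fun a => h a t) a (hx a t)) b (hx b t))) := by
  have hbm : ∀ a, BM (h a t) := fun a => ⟨(hn a).m0 t htσ, C, (hn a).b0 t htσ⟩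
  have hbt : ∀ a, BM (ht a t) := fun a => ⟨(hn a).mt t htσ, C, (hn a).bt t htσ⟩
  have hb2 : ∀ a, BM (hxx a t) := fun a => ⟨(hn a).m2 t htσ, C, (hn a).b2 t htσ⟩
  have e1 : ∀ a, gE (UL (Function.update c l t) L)
      (Function.update (fun a => h a t) a (LL (ht a) (hxx a) t)) =
      gE (UL (Function.update c l t) L) (Function.update (fun a => h a t) a (ht a t)) +
      1 / 2 * gE (UL (Function.update c l t) L)
        (Function.update (fun a => h a t) a (hxx a t)) := by
    intro a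
    have h2 : LL (ht a) (hxx a) t = fun x => ht a t x + (1 / 2 * hxx a t x) := rfl
    rw [h2, gE_update_add _ hbm a (hbt a) ((BM.const (1 / 2)).mul (hb2 a)), gE_update_smul]
  simp_rw [e1]
  rw [Finset.sum_add_distrib, add_assoc]
  congr 1
  rw [Finset.mul_sum, ← Finset.sum_add_distrib]
  apply Finset.sum_congr rfl
  intro a _
  simp_rw [gram_UL' c l hL htσ.1]
  rw [Finset.mul_sum, ← Finset.add_sum_erase _ _ (Finset.mem_univ a),
    ← Finset.add_sum_erase (a := a) (s := univ) (f := fun b => 1 / 2 * (if a = b then 0 else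
        (if l ≤ L a b then (1:ℝ) else 0) * gE (UL (Function.update c l t) L)
          (Function.update (Function.update (fun a => h a t) a (hx a t)) b (hx b t))))
      (Finset.mem_univ a)]
  have h3 : l ≤ L a a := by rw [hL.diag]; exact Fin.le_last l
  simp only [h3, if_true, mul_one, D2, mul_zero, zero_add]
  congr 1
  apply Finset.sum_congr rfl
  intro b hb
  have hab : a ≠ b := (Finset.ne_of_mem_erase hb).symm
  simp only [if_neg hab]
  ring

namespace Arr

variable {w : Fin (k + 1) → ℝ} {δ : Type} [Fintype δ] [DecidableEq δ]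

lemma E_hasDerivAt (𝓐 : Arr k w δ) {ι : Type} [Fintype ι] [DecidableEq ι]
    {A : ℝ → LM k (δ ⊕ ι) → ℝ} {A' : LM k (δ ⊕ ι) → ℝ} {t : ℝ}
    (h : ∀ L, HasDerivAt (fun s => A s L) (A' L) t) :
    HasDerivAt (fun s => 𝓐.E ι (A s)) (𝓐.E ι A') t := by
  have h1 : HasDerivAt A A' t := hasDerivAt_pi.2 h
  exact (LinearMap.toContinuousLinearMap (𝓐.E ι)).hasFDerivAt.comp_hasDerivAt t h1

lemma E_continuousOn (𝓐 : Arr k w δ) {ι : Type} [Fintype ι] [DecidableEq ι]
    {A : ℝ → LM k (δ ⊕ ι) → ℝ} {S : Set ℝ}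
    (h : ∀ L, ContinuousOn (fun s => A s L) S) : ContinuousOn (fun s => 𝓐.E ι (A s)) S := by
  have h1 : ContinuousOn A S := continuousOn_pi.2 h
  exact (LinearMap.toContinuousLinearMap (𝓐.E ι)).continuous.comp_continuousOn h1

end Arr

end Vale.Agent.P157.Par
end

section

open MeasureTheory ProbabilityTheory Filter Topology Finset

namespace Vale.Agent.P157.Par

set_option linter.unusedSectionVars false

open Vale.Agent.P367.GT (gM stein_pi)

lemma alg_split {δ ι : Type} [Fintype δ] [DecidableEq δ] [Fintype ι] [DecidableEq ι]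
    (x : ℝ) (D : δ ⊕ ι → ℝ) (P : δ ⊕ ι → δ ⊕ ι → ℝ)
    (hP : ∀ i j, P (Sum.inr j) (Sum.inl i) = P (Sum.inl i) (Sum.inr j)) :
    x * (∑ a, D a + 1 / 2 * ∑ a, ∑ b, (if a = b then 0 else P a b)) =
      ∑ i : δ, x * D (Sum.inl i) +
      1 / 2 * ∑ i : δ, ∑ i' : δ, (if i = i' then 0 else x * P (Sum.inl i) (Sum.inl i')) +
      ∑ j : ι, (x * D (Sum.inr j) + ∑ i : δ, x * P (Sum.inl i) (Sum.inr j) +
        1 / 2 * ∑ j' : ι, (if j = j' then 0 else x * P (Sum.inr j) (Sum.inr j'))) := by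
  simp only [Fintype.sum_sum_type, Sum.inl.injEq, reduceCtorEq, if_false, hP, Sum.inr.injEq]
  have e1 : ∑ i : δ, ∑ i' : δ, (if i = i' then 0 else x * P (Sum.inl i) (Sum.inl i')) =
      x * ∑ i : δ, ∑ i' : δ, (if i = i' then 0 else P (Sum.inl i) (Sum.inl i')) := by
    simp only [Finset.mul_sum, mul_ite, mul_zero]
  have e2 : ∑ i : ι, ∑ i' : ι, (if i = i' then 0 else x * P (Sum.inr i) (Sum.inr i')) =
      x * ∑ i : ι, ∑ i' : ι, (if i = i' then 0 else P (Sum.inr i) (Sum.inr i')) := by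
    simp only [Finset.mul_sum, mul_ite, mul_zero]
  have e4 : ∑ j : ι, ∑ i : δ, P (Sum.inl i) (Sum.inr j) =
      ∑ i : δ, ∑ j : ι, P (Sum.inl i) (Sum.inr j) := Finset.sum_comm
  simp only [Finset.sum_add_distrib, ← Finset.mul_sum, e1, e2, e4]
  ring

namespace Arr

variable {k : ℕ} {w : Fin (k + 1) → ℝ} {δ : Type} [Fintype δ] [DecidableEq δ]

/-- The index `j` becomes special. -/
def tau {n : ℕ} (j : Fin (n + 1)) : δ ⊕ Fin (n + 1) → Option δ ⊕ Fin n :=
  fun x => tr' (Sum.map id (finSuccEquiv' j) x)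

lemma E_mark_gen (𝓐 : Arr k w δ) (n : ℕ) (j : Fin (n + 1)) (B : LM k (δ ⊕ Fin (n + 1)) → ℝ) :
    𝓐.E (Fin (n + 1)) B = 𝓐.mark.E (Fin n) fun L => B fun a b => L (tau j a) (tau j b) := by
  have h1 : 𝓐.mark.E (Fin n) (fun L => B fun a b => L (tau j a) (tau j b)) =
      𝓐.E (Option (Fin n)) fun L => B fun a b => L (tr (tau j a)) (tr (tau j b)) := rfl
  rw [h1]
  have h2 : ∀ x : δ ⊕ Fin (n + 1), tr (tau j x) = Sum.map id (finSuccEquiv' j) x := by
    intro x
    exact (trE (δ := δ) (ι := Fin n)).right_inv _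
  simp_rw [h2]
  rw [← 𝓐.reindex (Fin (n + 1)) (Option (Fin n)) (finSuccEquiv' j)]
  congr 1
  funext L
  congr 1
  funext a b
  have h3 : ∀ x : δ ⊕ Fin (n + 1), Sum.map id (finSuccEquiv' j).symm
      (Sum.map id (finSuccEquiv' j) x) = x := by
    rintro (i | i) <;> simp
  show L a b = L (Sum.map id (finSuccEquiv' j).symm (Sum.map id (finSuccEquiv' j) a))
    (Sum.map id (finSuccEquiv' j).symm (Sum.map id (finSuccEquiv' j) b))
  rw [h3, h3]

/-- The equivalence underlying `tau`. -/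
def tauE {n : ℕ} (j : Fin (n + 1)) : δ ⊕ Fin (n + 1) ≃ Option δ ⊕ Fin n :=
  (Equiv.sumCongr (Equiv.refl δ) (finSuccEquiv' j)).trans (trE (δ := δ) (ι := Fin n)).symm

lemma tauE_apply {n : ℕ} (j : Fin (n + 1)) (x : δ ⊕ Fin (n + 1)) :
    tauE j x = tau j x := by
  rcases x with i | i <;> rfl

lemma tau_inl {n : ℕ} (j : Fin (n + 1)) (i : δ) :
    tau j (Sum.inl i) = (Sum.inl (some i) : Option δ ⊕ Fin n) := rfl

lemma tau_self {n : ℕ} (j : Fin (n + 1)) :
    tau j (Sum.inr j) = (Sum.inl none : Option δ ⊕ Fin n) := by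
  simp [tau, tr']

lemma tau_succAbove {n : ℕ} (j : Fin (n + 1)) (m : Fin n) :
    tau j (Sum.inr (j.succAbove m)) = (Sum.inr m : Option δ ⊕ Fin n) := by
  simp [tau, tr']

/-- Marking one of two other indices. -/
lemma E_mark_pair (𝓐 : Arr k w δ) {c : Fin (k + 1) → ℝ} (hc : ∀ l, 0 ≤ c l)
    (χ : LM k δ → ℝ) {A : δ → ℝ → ℝ} {g v : ℝ → ℝ} (hA : ∀ i, Measurable (A i))
    (hg : Measurable g) (hv : Measurable v) (l : Fin (k + 1)) (n : ℕ) (j : Fin (n + 2))
    (m : Fin (n + 1)) :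
    𝓐.E (Fin (n + 2)) (fun L => χ (res L) *
      ((if l ≤ L (Sum.inr j) (Sum.inr (j.succAbove m)) then 1 else 0) *
        gE (UL c L) (Function.update (Function.update (fam A v) (Sum.inr j) g)
          (Sum.inr (j.succAbove m)) g))) =
      𝓐.mark.mark.T c (fun L => lift (lift χ) L * lk l (some none) none L)
        (ext g (ext g A)) v (Fin n) := by
  rw [E_mark_gen 𝓐 (n + 1) j]
  rw [← 𝓐.mark.E_mark hc (fun L => lift (lift χ) L * lk l (some none) none L)
    (A := ext g A) (g := g) (v := v) (by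
      rintro (_ | i)
      · exact hg
      · exact hA i) hg hv n m]
  apply 𝓐.mark.congr_ultra
  intro L hL
  have h1 : (if l ≤ L (tau j (Sum.inr j)) (tau j (Sum.inr (j.succAbove m))) then (1:ℝ) else 0) =
      if l ≤ L (Sum.inl none) (Sum.inr m) then 1 else 0 := by
    rw [tau_self, tau_succAbove]
  have hF : ∀ x : Option δ ⊕ Fin (n + 1), Measurable
      (Function.update (fam (ext g A) v) (Sum.inr m) g x) := by
    intro x
    by_cases hx : x = Sum.inr m
    · subst hx; simpa using hg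
    · rw [Function.update_of_ne hx]
      rcases x with (_ | i) | i
      · exact hg
      · exact hA i
      · exact hv
  have h2 : gE (UL c fun a b => L (tau j a) (tau j b))
      (Function.update (Function.update (fam A v) (Sum.inr j) g) (Sum.inr (j.succAbove m)) g) =
      gE (UL c L) (Function.update (fam (ext g A) v) (Sum.inr m) g) := by
    have h3 := gE_UL_equiv hc hL (tauE j) hF
    rw [← h3]
    simp only [tauE_apply]
    congr 1
    funext x
    rcases x with i | i
    · rw [Function.update_of_ne (by simp), Function.update_of_ne (by simp), tau_inl,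
        Function.update_of_ne (by simp)]
      rfl
    · by_cases h : i = j
      · subst h
        rw [Function.update_of_ne (by simp),
          Function.update_self, tau_self, Function.update_of_ne (by simp)]
        rfl
      · obtain ⟨m', rfl⟩ := Fin.exists_succAbove_eq h
        by_cases h' : m' = m
        · subst h'
          rw [Function.update_self, tau_succAbove, Function.update_self]
        · rw [Function.update_of_ne (by simpa using h'), Function.update_of_ne (by simp),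
            tau_succAbove, Function.update_of_ne (by simpa using h')]
          rfl
  show χ (res fun a b => L (tau j a) (tau j b)) *
      ((if l ≤ L (tau j (Sum.inr j)) (tau j (Sum.inr (j.succAbove m))) then (1:ℝ) else 0) *
        gE (UL c fun a b => L (tau j a) (tau j b)) _) = _
  rw [h1, h2, ← mul_assoc]
  rfl

/-- Time dependent families. -/
def famT {ι : Type} (A : δ → ℝ → ℝ → ℝ) (v : ℝ → ℝ → ℝ) : δ ⊕ ι → ℝ → ℝ → ℝ :=
  Sum.elim A fun _ => v

lemma famT_apply {ι : Type} (A : δ → ℝ → ℝ → ℝ) (v : ℝ → ℝ → ℝ) (t : ℝ) :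
    (fun a : δ ⊕ ι => famT A v a t) = fam (fun i => A i t) (v t) := by
  funext a
  rcases a with i | i <;> rfl

/-- The derivative of the functional in the variance of a level. -/
noncomputable def dT (𝓐 : Arr k w δ) (l : Fin (k + 1)) (c : Fin (k + 1) → ℝ)
    (χ : LM k δ → ℝ) (A LA Ax : δ → ℝ → ℝ) (v Lv vx : ℝ → ℝ) (n : ℕ) : ℝ :=
  ∑ i, 𝓐.T c χ (Function.update A i (LA i)) v (Fin n) +
  1 / 2 * ∑ i, ∑ i', (if i = i' then 0 else 𝓐.T c (fun L => χ L * lk l i i' L)
    (Function.update (Function.update A i (Ax i)) i' (Ax i')) v (Fin n)) +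
  n * (𝓐.mark.T c (lift χ) (ext Lv A) v (Fin (n - 1)) +
    ∑ i, 𝓐.mark.T c (fun L => lift χ L * lk l (some i) none L)
      (ext vx (Function.update A i (Ax i))) v (Fin (n - 1)) +
    1 / 2 * ((n - 1 : ℕ) * 𝓐.mark.mark.T c (fun L => lift (lift χ) L * lk l (some none) none L)
      (ext vx (ext vx A)) v (Fin (n - 2))))

lemma E_inl (𝓐 : Arr k w δ) (c : Fin (k + 1) → ℝ) (χ : LM k δ → ℝ) (A : δ → ℝ → ℝ)
    (v : ℝ → ℝ) (i : δ) (g : ℝ → ℝ) (n : ℕ) :
    𝓐.E (Fin n) (fun L => χ (res L) *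
      gE (UL c L) (Function.update (fam A v) (Sum.inl i) g)) =
      𝓐.T c χ (Function.update A i g) v (Fin n) := by
  unfold T
  rw [fam_update]

lemma E_inl_inl (𝓐 : Arr k w δ) (c : Fin (k + 1) → ℝ) (χ : LM k δ → ℝ) (A : δ → ℝ → ℝ)
    (v : ℝ → ℝ) (i i' : δ) (g g' : ℝ → ℝ) (l : Fin (k + 1)) (n : ℕ) :
    𝓐.E (Fin n) (fun L => χ (res L) * ((if l ≤ L (Sum.inl i) (Sum.inl i') then 1 else 0) *
      gE (UL c L) (Function.update (Function.update (fam A v) (Sum.inl i) g)
        (Sum.inl i') g'))) =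
      𝓐.T c (fun L => χ L * lk l i i' L)
        (Function.update (Function.update A i g) i' g') v (Fin n) := by
  unfold T
  rw [fam_update, fam_update]
  congr 1
  funext L
  rw [← mul_assoc]
  rfl

lemma E_inr (𝓐 : Arr k w δ) {c : Fin (k + 1) → ℝ} (hc : ∀ l, 0 ≤ c l) (χ : LM k δ → ℝ)
    {A : δ → ℝ → ℝ} {g v : ℝ → ℝ} (hA : ∀ i, Measurable (A i))
    (hg : Measurable g) (hv : Measurable v) (n : ℕ) (j : Fin (n + 1)) :
    𝓐.E (Fin (n + 1)) (fun L => χ (res L) *
      gE (UL c L) (Function.update (fam A v) (Sum.inr j) g)) =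
      𝓐.mark.T c (lift χ) (ext g A) v (Fin n) := by
  rw [← 𝓐.E_mark hc (lift χ) hA hg hv n j]
  rfl

lemma E_inl_inr (𝓐 : Arr k w δ) {c : Fin (k + 1) → ℝ} (hc : ∀ l, 0 ≤ c l) (χ : LM k δ → ℝ)
    {A : δ → ℝ → ℝ} {g' g v : ℝ → ℝ} (hA : ∀ i, Measurable (A i)) (hg' : Measurable g')
    (hg : Measurable g) (hv : Measurable v) (l : Fin (k + 1)) (n : ℕ) (i : δ)
    (j : Fin (n + 1)) :
    𝓐.E (Fin (n + 1)) (fun L => χ (res L) *
      ((if l ≤ L (Sum.inl i) (Sum.inr j) then 1 else 0) *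
      gE (UL c L) (Function.update (Function.update (fam A v) (Sum.inl i) g') (Sum.inr j) g))) =
      𝓐.mark.T c (fun L => lift χ L * lk l (some i) none L)
        (ext g (Function.update A i g')) v (Fin n) := by
  have hA' : ∀ i', Measurable (Function.update A i g' i') := by
    intro i'
    by_cases h : i' = i
    · subst h; simpa using hg'
    · rw [Function.update_of_ne h]; exact hA i'
  rw [← 𝓐.E_mark hc (fun L => lift χ L * lk l (some i) none L) hA' hg hv n j]
  rw [fam_update]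
  congr 1
  funext L
  rw [← mul_assoc]
  rfl

theorem T_hasDerivAt (𝓐 : Arr k w δ) {c : Fin (k + 1) → ℝ} (hc : ∀ l, 0 ≤ c l)
    (l : Fin (k + 1)) (χ : LM k δ → ℝ) {σ C : ℝ} {A At Ax Axx : δ → ℝ → ℝ → ℝ}
    {v vt vx vxx : ℝ → ℝ → ℝ}
    (hA : ∀ i, Nice (Set.Ioo 0 σ) C (A i) (At i) (Ax i) (Axx i))
    (hv : Nice (Set.Ioo 0 σ) C v vt vx vxx) {t : ℝ} (ht : t ∈ Set.Ioo 0 σ) (n : ℕ) :
    HasDerivAt (fun s => 𝓐.T (Function.update c l s) χ (fun i => A i s) (v s) (Fin n))
      (𝓐.dT l (Function.update c l t) χ (fun i => A i t) (fun i => LL (At i) (Axx i) t)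
        (fun i => Ax i t) (v t) (LL vt vxx t) (vx t) n) t := by
  have hct : ∀ l', 0 ≤ Function.update c l t l' := by
    intro l'
    by_cases h : l' = l
    · subst h; rw [Function.update_self]; exact ht.1.le
    · rw [Function.update_of_ne h]; exact hc l'
  have bA : ∀ i, BM (A i t) := fun i => ⟨(hA i).m0 t ht, C, (hA i).b0 t ht⟩
  have bAt : ∀ i, BM (At i t) := fun i => ⟨(hA i).mt t ht, C, (hA i).bt t ht⟩
  have bAx : ∀ i, BM (Ax i t) := fun i => ⟨(hA i).m1 t ht, C, (hA i).b1 t ht⟩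
  have bAxx : ∀ i, BM (Axx i t) := fun i => ⟨(hA i).m2 t ht, C, (hA i).b2 t ht⟩
  have bv : BM (v t) := ⟨hv.m0 t ht, C, hv.b0 t ht⟩
  have bvt : BM (vt t) := ⟨hv.mt t ht, C, hv.bt t ht⟩
  have bvx : BM (vx t) := ⟨hv.m1 t ht, C, hv.b1 t ht⟩
  have bvxx : BM (vxx t) := ⟨hv.m2 t ht, C, hv.b2 t ht⟩
  have bLA : ∀ i, BM (LL (At i) (Axx i) t) := fun i =>
    (bAt i).add ((BM.const (1 / 2)).mul (bAxx i))
  have bLv : BM (LL vt vxx t) := bvt.add ((BM.const (1 / 2)).mul bvxx)
  have hn : ∀ a : δ ⊕ Fin n, Nice (Set.Ioo 0 σ) C (famT A v a) (famT At vt a) (famT Ax vx a)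
      (famT Axx vxx a) := by
    rintro (i | i)
    · exact hA i
    · exact hv
  -- the derivative in terms of level matrices
  have h1 : HasDerivAt (fun s => 𝓐.T (Function.update c l s) χ (fun i => A i s) (v s) (Fin n))
      (𝓐.E (Fin n) fun L => χ (res L) *
        (∑ a, gE (UL (Function.update c l t) L)
          (Function.update (fun a => famT A v a t) a (famT At vt a t)) +
        ∑ a, ∑ b, gram (UL' l t L) (UL (Function.update c l t) L) a b *
          gE (UL (Function.update c l t) L)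
            (D2 (fun a => famT A v a t) (fun a => famT Ax vx a t) (fun a => famT Axx vxx a t) a b)))
      t := by
    unfold T
    apply 𝓐.E_hasDerivAt
    intro L
    have h2 := gE_UL_hasDerivAt (c := c) l hn (L := L) ht
    have h3 : (fun s => gE (UL (Function.update c l s) L) (fun a => famT A v a s)) =
        fun s => gE (UL (Function.update c l s) L) (fam (fun i => A i s) (v s)) := by
      funext s
      rw [famT_apply]
    rw [h3] at h2
    exact h2.const_mul _
  convert h1 using 1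
  set c' := Function.update c l t with hc'
  set F : δ ⊕ Fin n → ℝ → ℝ := fam (fun i => A i t) (v t) with hF
  have hFt : (fun a : δ ⊕ Fin n => famT A v a t) = F := famT_apply A v t
  -- rewrite the integrand on ultrametric matrices
  have h2 : 𝓐.E (Fin n) (fun L => χ (res L) *
        (∑ a, gE (UL c' L)
          (Function.update (fun a => famT A v a t) a (famT At vt a t)) +
        ∑ a, ∑ b, gram (UL' l t L) (UL c' L) a b *
          gE (UL c' L)
            (D2 (fun a => famT A v a t) (fun a => famT Ax vx a t) (fun a => famT Axx vxx a t) a b)))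
      = 𝓐.E (Fin n) (fun L =>
        ∑ i : δ, χ (res L) * gE (UL c' L) (Function.update F (Sum.inl i) (LL (At i) (Axx i) t)) +
        1 / 2 * ∑ i : δ, ∑ i' : δ, (if i = i' then 0 else χ (res L) *
          ((if l ≤ L (Sum.inl i) (Sum.inl i') then 1 else 0) * gE (UL c' L)
            (Function.update (Function.update F (Sum.inl i) (Ax i t)) (Sum.inl i') (Ax i' t)))) +
        ∑ j : Fin n, (χ (res L) * gE (UL c' L) (Function.update F (Sum.inr j) (LL vt vxx t)) +
          ∑ i : δ, χ (res L) * ((if l ≤ L (Sum.inl i) (Sum.inr j) then 1 else 0) *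
            gE (UL c' L) (Function.update (Function.update F (Sum.inl i) (Ax i t))
              (Sum.inr j) (vx t))) +
          1 / 2 * ∑ j' : Fin n, (if j = j' then 0 else χ (res L) *
            ((if l ≤ L (Sum.inr j) (Sum.inr j') then 1 else 0) *
            gE (UL c' L) (Function.update (Function.update F (Sum.inr j) (vx t))
              (Sum.inr j') (vx t)))))) := by
    apply 𝓐.congr_ultra
    intro L hL
    rw [deriv_formula c l hn hL ht, hFt]
    have hsymm : ∀ (i : δ) (j : Fin n),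
        ((if l ≤ L (Sum.inr j) (Sum.inl i) then (1:ℝ) else 0) * gE (UL c' L)
          (Function.update (Function.update F (Sum.inr j) (famT Ax vx (Sum.inr j : δ ⊕ Fin n) t))
            (Sum.inl i) (famT Ax vx (Sum.inl i : δ ⊕ Fin n) t))) =
        ((if l ≤ L (Sum.inl i) (Sum.inr j) then (1:ℝ) else 0) * gE (UL c' L)
          (Function.update (Function.update F (Sum.inl i) (famT Ax vx (Sum.inl i : δ ⊕ Fin n) t))
            (Sum.inr j) (famT Ax vx (Sum.inr j : δ ⊕ Fin n) t))) := by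
      intro i j
      rw [hL.symm (Sum.inr j) (Sum.inl i), Function.update_comm (by simp)]
    exact alg_split (χ (res L)) (fun a => gE (UL c' L)
        (Function.update F a (LL (famT At vt a) (famT Axx vxx a) t)))
      (fun a b => (if l ≤ L a b then 1 else 0) * gE (UL c' L)
          (Function.update (Function.update F a (famT Ax vx a t)) b (famT Ax vx b t))) hsymm
  rw [h2]
  -- linearity
  have h3 : (fun L : LM k (δ ⊕ Fin n) =>
        ∑ i : δ, χ (res L) * gE (UL c' L) (Function.update F (Sum.inl i) (LL (At i) (Axx i) t)) +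
        1 / 2 * ∑ i : δ, ∑ i' : δ, (if i = i' then 0 else χ (res L) *
          ((if l ≤ L (Sum.inl i) (Sum.inl i') then 1 else 0) * gE (UL c' L)
            (Function.update (Function.update F (Sum.inl i) (Ax i t)) (Sum.inl i') (Ax i' t)))) +
        ∑ j : Fin n, (χ (res L) * gE (UL c' L) (Function.update F (Sum.inr j) (LL vt vxx t)) +
          ∑ i : δ, χ (res L) * ((if l ≤ L (Sum.inl i) (Sum.inr j) then 1 else 0) *
            gE (UL c' L) (Function.update (Function.update F (Sum.inl i) (Ax i t))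
              (Sum.inr j) (vx t))) +
          1 / 2 * ∑ j' : Fin n, (if j = j' then 0 else χ (res L) *
            ((if l ≤ L (Sum.inr j) (Sum.inr j') then 1 else 0) *
            gE (UL c' L) (Function.update (Function.update F (Sum.inr j) (vx t))
              (Sum.inr j') (vx t)))))) =
      ∑ i : δ, (fun L : LM k (δ ⊕ Fin n) =>
        χ (res L) * gE (UL c' L) (Function.update F (Sum.inl i) (LL (At i) (Axx i) t))) +
      (1 / 2 : ℝ) • ∑ i : δ, ∑ i' : δ, (if i = i' then 0 else fun L : LM k (δ ⊕ Fin n) =>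
        χ (res L) * ((if l ≤ L (Sum.inl i) (Sum.inl i') then 1 else 0) * gE (UL c' L)
            (Function.update (Function.update F (Sum.inl i) (Ax i t)) (Sum.inl i') (Ax i' t)))) +
      ∑ j : Fin n, ((fun L : LM k (δ ⊕ Fin n) =>
          χ (res L) * gE (UL c' L) (Function.update F (Sum.inr j) (LL vt vxx t))) +
        ∑ i : δ, (fun L : LM k (δ ⊕ Fin n) =>
          χ (res L) * ((if l ≤ L (Sum.inl i) (Sum.inr j) then 1 else 0) *
            gE (UL c' L) (Function.update (Function.update F (Sum.inl i) (Ax i t))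
              (Sum.inr j) (vx t)))) +
        (1 / 2 : ℝ) • ∑ j' : Fin n, (if j = j' then 0 else fun L : LM k (δ ⊕ Fin n) =>
          χ (res L) * ((if l ≤ L (Sum.inr j) (Sum.inr j') then 1 else 0) *
            gE (UL c' L) (Function.update (Function.update F (Sum.inr j) (vx t))
              (Sum.inr j') (vx t))))) := by
    funext L
    simp only [Pi.add_apply, Finset.sum_apply, Pi.smul_apply, smul_eq_mul, ite_apply,
      Pi.zero_apply]
  rw [h3]
  simp only [map_add, map_sum, map_smul, apply_ite (𝓐.E (Fin n)), map_zero, smul_eq_mul]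
  rw [hF]
  simp only [E_inl, E_inl_inl]
  unfold dT
  congr 1
  clear h1 h2 h3 hn hFt hF F
  rcases n with _ | n
  · simp only [CharP.cast_eq_zero, Nat.zero_sub_one, one_div, zero_tsub, Nat.reduceSub, zero_mul, mul_zero, add_zero, univ_eq_empty, ite_mul, one_mul, mul_ite, sum_empty]
  · have hj : ∀ j : Fin (n + 1),
        (𝓐.E (Fin (n + 1)) fun L => χ (res L) * gE (UL c' L)
          (Function.update (fam (fun i => A i t) (v t)) (Sum.inr j) (LL vt vxx t))) +
        ∑ i, (𝓐.E (Fin (n + 1)) fun L => χ (res L) *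
          ((if l ≤ L (Sum.inl i) (Sum.inr j) then 1 else 0) * gE (UL c' L)
            (Function.update (Function.update (fam (fun i => A i t) (v t)) (Sum.inl i) (Ax i t))
              (Sum.inr j) (vx t)))) +
        1 / 2 * ∑ j', (if j = j' then 0 else 𝓐.E (Fin (n + 1)) fun L => χ (res L) *
          ((if l ≤ L (Sum.inr j) (Sum.inr j') then 1 else 0) * gE (UL c' L)
            (Function.update (Function.update (fam (fun i => A i t) (v t)) (Sum.inr j) (vx t))
              (Sum.inr j') (vx t)))) =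
        𝓐.mark.T c' (lift χ) (ext (LL vt vxx t) fun i => A i t) (v t) (Fin n) +
        ∑ i, 𝓐.mark.T c' (fun L => lift χ L * lk l (some i) none L)
          (ext (vx t) (Function.update (fun i => A i t) i (Ax i t))) (v t) (Fin n) +
        1 / 2 * ((n : ℕ) * 𝓐.mark.mark.T c'
          (fun L => lift (lift χ) L * lk l (some none) none L)
          (ext (vx t) (ext (vx t) fun i => A i t)) (v t) (Fin (n - 1))) := by
      intro j
      rw [E_inr 𝓐 hct χ (fun i => (bA i).meas) bLv.meas bv.meas n j]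
      have e1 : ∀ i, (𝓐.E (Fin (n + 1)) fun L => χ (res L) *
          ((if l ≤ L (Sum.inl i) (Sum.inr j) then 1 else 0) * gE (UL c' L)
            (Function.update (Function.update (fam (fun i => A i t) (v t)) (Sum.inl i) (Ax i t))
              (Sum.inr j) (vx t)))) =
          𝓐.mark.T c' (fun L => lift χ L * lk l (some i) none L)
          (ext (vx t) (Function.update (fun i => A i t) i (Ax i t))) (v t) (Fin n) := fun i =>
        E_inl_inr 𝓐 hct χ (fun i => (bA i).meas) (bAx i).meas bvx.meas bv.meas l n i j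
      simp_rw [e1]
      congr 2
      rw [Fin.sum_univ_succAbove _ j]
      simp only [if_true, zero_add]
      rcases n with _ | n
      · simp only [univ_eq_empty, Nat.reduceAdd, Fin.ne_succAbove, ↓reduceIte, ite_mul, one_mul, zero_mul, mul_ite, mul_zero, sum_empty, CharP.cast_eq_zero, Nat.zero_sub_one]
      · have e2 : ∀ m : Fin (n + 1), (if j = j.succAbove m then 0 else
            𝓐.E (Fin (n + 1 + 1)) fun L => χ (res L) *
              ((if l ≤ L (Sum.inr j) (Sum.inr (j.succAbove m)) then 1 else 0) * gE (UL c' L)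
              (Function.update (Function.update (fam (fun i => A i t) (v t)) (Sum.inr j) (vx t))
                (Sum.inr (j.succAbove m)) (vx t)))) =
            𝓐.mark.mark.T c' (fun L => lift (lift χ) L * lk l (some none) none L)
              (ext (vx t) (ext (vx t) fun i => A i t)) (v t) (Fin n) := by
          intro m
          rw [if_neg (Fin.succAbove_ne j m).symm]
          exact E_mark_pair 𝓐 hct χ (fun i => (bA i).meas) bvx.meas bv.meas l n j m
        simp_rw [e2]
        rw [Finset.sum_const, Finset.card_univ, Fintype.card_fin, nsmul_eq_mul]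
        rfl
    simp_rw [hj]
    rw [Finset.sum_const, Finset.card_univ, Fintype.card_fin, nsmul_eq_mul]
    rfl

end Arr

end Vale.Agent.P157.Par
end

section

open MeasureTheory ProbabilityTheory Filter Topology Finset

namespace Vale.Agent.P157.Par

set_option linter.unusedSectionVars false

namespace Arr

variable {k : ℕ} {w : Fin (k + 1) → ℝ} {δ : Type} [Fintype δ] [DecidableEq δ]

lemma T_le (𝓐 : Arr k w δ) (c : Fin (k + 1) → ℝ) {χ : LM k δ → ℝ} {X : ℝ}
    (hχ : ∀ L, |χ L| ≤ X) {A : δ → ℝ → ℝ} {v : ℝ → ℝ} {C a : ℝ} (hA : ∀ i x, |A i x| ≤ C)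
    (hv : ∀ x, |v x| ≤ a) (n : ℕ) :
    |𝓐.T c χ A v (Fin n)| ≤ 𝓐.C * X * C ^ Fintype.card δ * a ^ n := by
  have h := 𝓐.T_bound (c := c) hχ (B := fun _ => C) hA hv (Fin n)
  rw [Finset.prod_const, Finset.card_univ, Fintype.card_fin] at h
  refine h.trans (le_of_eq ?_)
  ring

lemma abs_lk_le (l : Fin (k + 1)) (i j : δ) {χ : LM k δ → ℝ} {X : ℝ}
    (hχ : ∀ L, |χ L| ≤ X) (L : LM k δ) : |χ L * lk l i j L| ≤ X := by
  rw [abs_mul]
  have h1 : |lk l i j L| ≤ 1 := by
    unfold lk
    split_ifs <;> simp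
  have h0 := hχ L
  linarith only [mul_nonneg (sub_nonneg.2 h1) (sub_nonneg.2 (abs_nonneg (χ L))), h0]

lemma abs_lift_le {χ : LM k δ → ℝ} {X : ℝ} (hχ : ∀ L, |χ L| ≤ X) (L : LM k (Option δ)) :
    |lift χ L| ≤ X := hχ _

lemma update_le {A : δ → ℝ → ℝ} {C : ℝ} (hA : ∀ i x, |A i x| ≤ C) {i : δ} {g : ℝ → ℝ}
    (hg : ∀ x, |g x| ≤ C) : ∀ j x, |Function.update A i g j x| ≤ C := by
  intro j x
  by_cases h : j = i
  · subst h; simpa only [Function.update_self] using hg x
  · rw [Function.update_of_ne h]; exact hA j x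

lemma ext_le {A : δ → ℝ → ℝ} {C : ℝ} (hA : ∀ i x, |A i x| ≤ C) {g : ℝ → ℝ}
    (hg : ∀ x, |g x| ≤ C) : ∀ j x, |ext g A j x| ≤ C := by
  rintro (_ | i) x
  · exact hg x
  · exact hA i x

lemma pow_pred_le {a : ℝ} (ha0 : 0 < a) (ha : a ≤ 1) (n : ℕ) : a ^ (n - 1) ≤ a ^ n / a := by
  rw [le_div_iff₀ ha0]
  rcases n with _ | n
  · simpa only [zero_tsub, pow_zero, one_mul] using ha
  · simp only [add_tsub_cancel_right, pow_succ, Std.le_refl]

lemma dT_aux {d n : ℝ} (hd : 0 ≤ d) (hn : 0 ≤ n) :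
    d + 1 / 2 * d ^ 2 + n * (1 + d) + 1 / 2 * n ^ 2 ≤ (d + 1) ^ 2 * (n + 1) ^ 2 := by
  have h : (d + 1) ^ 2 * (n + 1) ^ 2 - (d + 1 / 2 * d ^ 2 + n * (1 + d) + 1 / 2 * n ^ 2) =
      d ^ 2 * n ^ 2 + 2 * d ^ 2 * n + d ^ 2 / 2 + 2 * d * n ^ 2 + 3 * d * n + d + n ^ 2 / 2 + n +
        1 := by ring
  have h2 : 0 ≤ d ^ 2 * n ^ 2 + 2 * d ^ 2 * n + d ^ 2 / 2 + 2 * d * n ^ 2 + 3 * d * n + d +
      n ^ 2 / 2 + n + 1 := by (clear * - hn hd; positivity)
  linarith only [h2]

lemma dT_le (𝓐 : Arr k w δ) (l : Fin (k + 1)) (c : Fin (k + 1) → ℝ) {χ : LM k δ → ℝ} {X : ℝ}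
    (hχ : ∀ L, |χ L| ≤ X) {A LA Ax : δ → ℝ → ℝ} {v Lv vx : ℝ → ℝ} {C a : ℝ} (hC : 1 ≤ C)
    (hA : ∀ i x, |A i x| ≤ C) (hLA : ∀ i x, |LA i x| ≤ C) (hAx : ∀ i x, |Ax i x| ≤ C)
    (hv : ∀ x, |v x| ≤ a) (hLv : ∀ x, |Lv x| ≤ C) (hvx : ∀ x, |vx x| ≤ C)
    (ha0 : 0 < a) (ha : a ≤ 1) (n : ℕ) :
    |𝓐.dT l c χ A LA Ax v Lv vx n| ≤
      𝓐.C * X * C ^ (Fintype.card δ + 2) * (Fintype.card δ + 1) ^ 2 / a ^ 2 *
        ((n + 1) ^ 2 * a ^ n) := by
  have hX0 : 0 ≤ X := (abs_nonneg _).trans (hχ fun _ _ => 0)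
  have hC0 := 𝓐.C_nonneg
  set d := Fintype.card δ with hd
  set K := 𝓐.C * X * C ^ (d + 2) with hK
  have hK0 : 0 ≤ K := by (clear * - hC0 hX0 hC; positivity)
  have hle1 : 𝓐.C * X * C ^ d ≤ K := by
    rw [hK]
    gcongr
    omega
  have hle2 : 𝓐.C * X * C ^ (d + 1) ≤ K := by
    rw [hK]
    gcongr
    omega
  have hp1 := pow_pred_le ha0 ha n
  have hp2 : a ^ (n - 2) ≤ a ^ n / a ^ 2 := by
    have h1 := pow_pred_le ha0 ha (n - 1)
    have h2 : n - 1 - 1 = n - 2 := by omega
    rw [h2] at h1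
    refine h1.trans ?_
    rw [pow_two, ← div_div]
    (clear * - hp1 ha0; gcongr)
  have t1 : ∀ i, |𝓐.T c χ (Function.update A i (LA i)) v (Fin n)| ≤ K * a ^ n := fun i =>
    (𝓐.T_le c hχ (update_le hA (hLA i)) hv n).trans
      (mul_le_mul_of_nonneg_right hle1 (by positivity))
  have t2 : ∀ i i', |(if i = i' then 0 else 𝓐.T c (fun L => χ L * lk l i i' L)
      (Function.update (Function.update A i (Ax i)) i' (Ax i')) v (Fin n))| ≤ K * a ^ n := by
    intro i i'
    split_ifs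
    · rw [abs_zero]; (clear * - hC0 hX0 hC ha0; positivity)
    · exact (𝓐.T_le c (abs_lk_le l i i' hχ) (update_le (update_le hA (hAx i)) (hAx i')) hv n).trans
        (mul_le_mul_of_nonneg_right hle1 (by (clear * - ha0; positivity)))
  have t3 : |𝓐.mark.T c (lift χ) (ext Lv A) v (Fin (n - 1))| ≤ K * (a ^ n / a) := by
    have h := 𝓐.mark.T_le c (abs_lift_le hχ) (ext_le hA hLv) hv (n - 1)
    rw [Fintype.card_option] at h
    exact h.trans (mul_le_mul hle2 hp1 (by positivity) hK0)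
  have t4 : ∀ i, |𝓐.mark.T c (fun L => lift χ L * lk l (some i) none L)
      (ext vx (Function.update A i (Ax i))) v (Fin (n - 1))| ≤ K * (a ^ n / a) := by
    intro i
    have h := 𝓐.mark.T_le c (abs_lk_le l (some i) none (abs_lift_le hχ))
      (ext_le (update_le (i := i) hA (hAx i)) hvx) hv (n - 1)
    rw [Fintype.card_option] at h
    exact h.trans (mul_le_mul hle2 hp1 (by positivity) hK0)
  have t5 : |𝓐.mark.mark.T c (fun L => lift (lift χ) L * lk l (some none) none L)
      (ext vx (ext vx A)) v (Fin (n - 2))| ≤ K * (a ^ n / a ^ 2) := by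
    have h := 𝓐.mark.mark.T_le c (abs_lk_le l (some none) none (abs_lift_le (abs_lift_le hχ)))
      (ext_le (ext_le hA hvx) hvx) hv (n - 2)
    rw [Fintype.card_option, Fintype.card_option] at h
    exact h.trans (mul_le_mul_of_nonneg_left hp2 hK0)
  have s1 : |∑ i, 𝓐.T c χ (Function.update A i (LA i)) v (Fin n)| ≤ d * (K * a ^ n) := by
    refine (Finset.abs_sum_le_sum_abs _ _).trans ((Finset.sum_le_sum fun i _ => t1 i).trans ?_)
    rw [Finset.sum_const, Finset.card_univ, nsmul_eq_mul]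
  have s2 : |∑ i, ∑ i', (if i = i' then 0 else 𝓐.T c (fun L => χ L * lk l i i' L)
      (Function.update (Function.update A i (Ax i)) i' (Ax i')) v (Fin n))| ≤
      d * (d * (K * a ^ n)) := by
    refine (Finset.abs_sum_le_sum_abs _ _).trans ((Finset.sum_le_sum fun i _ =>
      (Finset.abs_sum_le_sum_abs _ _).trans (Finset.sum_le_sum fun i' _ => t2 i i')).trans ?_)
    rw [Finset.sum_const, Finset.sum_const, Finset.card_univ, nsmul_eq_mul, nsmul_eq_mul]
  have s4 : |∑ i, 𝓐.mark.T c (fun L => lift χ L * lk l (some i) none L)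
      (ext vx (Function.update A i (Ax i))) v (Fin (n - 1))| ≤ d * (K * (a ^ n / a)) := by
    refine (Finset.abs_sum_le_sum_abs _ _).trans ((Finset.sum_le_sum fun i _ => t4 i).trans ?_)
    rw [Finset.sum_const, Finset.card_univ, nsmul_eq_mul]
  have hn1 : ((n - 1 : ℕ) : ℝ) ≤ n := by exact_mod_cast Nat.sub_le n 1
  have hsq : ∀ x y z : ℝ, |x + y + z| ≤ |x| + |y| + |z| := fun x y z => abs_add_three x y z
  unfold dT
  refine (hsq _ _ _).trans ?_
  rw [abs_mul, abs_mul (n : ℝ), Nat.abs_cast]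
  have s5 : |1 / 2 * ((n - 1 : ℕ) * 𝓐.mark.mark.T c
      (fun L => lift (lift χ) L * lk l (some none) none L)
      (ext vx (ext vx A)) v (Fin (n - 2)))| ≤ 1 / 2 * (n * (K * (a ^ n / a ^ 2))) := by
    rw [abs_mul, abs_mul, Nat.abs_cast, abs_of_pos (by norm_num : (0:ℝ) < 1 / 2)]
    have h0 : 0 ≤ K * (a ^ n / a ^ 2) := by (clear * - hC0 hX0 hC ha0; positivity)
    (clear * - hn1 t5; gcongr)
  have s6 := hsq (𝓐.mark.T c (lift χ) (ext Lv A) v (Fin (n - 1)))
    (∑ i, 𝓐.mark.T c (fun L => lift χ L * lk l (some i) none L)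
      (ext vx (Function.update A i (Ax i))) v (Fin (n - 1)))
    (1 / 2 * ((n - 1 : ℕ) * 𝓐.mark.mark.T c (fun L => lift (lift χ) L * lk l (some none) none L)
      (ext vx (ext vx A)) v (Fin (n - 2))))
  have hn0 : (0 : ℝ) ≤ n := Nat.cast_nonneg n
  have hd0 : (0 : ℝ) ≤ d := Nat.cast_nonneg d
  have s7 : (n : ℝ) * |𝓐.mark.T c (lift χ) (ext Lv A) v (Fin (n - 1)) +
    ∑ i, 𝓐.mark.T c (fun L => lift χ L * lk l (some i) none L)
      (ext vx (Function.update A i (Ax i))) v (Fin (n - 1)) +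
    1 / 2 * ((n - 1 : ℕ) * 𝓐.mark.mark.T c (fun L => lift (lift χ) L * lk l (some none) none L)
      (ext vx (ext vx A)) v (Fin (n - 2)))| ≤ n * (K * (a ^ n / a) + d * (K * (a ^ n / a)) +
        1 / 2 * (n * (K * (a ^ n / a ^ 2)))) := by
    apply mul_le_mul_of_nonneg_left _ hn0
    linarith only [t3, s4, s5, s6]
  have hq : a ^ n ≤ a ^ n / a ^ 2 := by
    rw [le_div_iff₀ (by positivity)]
    exact mul_le_of_le_one_right (pow_nonneg ha0.le n) (pow_le_one₀ ha0.le ha)
  have hq' : a ^ n / a ≤ a ^ n / a ^ 2 := by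
    rw [pow_two, ← div_div]
    rw [le_div_iff₀ ha0]
    exact mul_le_of_le_one_right (div_nonneg (pow_nonneg ha0.le n) ha0.le) ha
  set q := a ^ n / a ^ 2 with hqdef
  have hq0 : 0 ≤ q := by positivity
  have e1 : K * a ^ n ≤ K * q := mul_le_mul_of_nonneg_left hq hK0
  have e2 : K * (a ^ n / a) ≤ K * q := mul_le_mul_of_nonneg_left hq' hK0
  set Kq := K * q with hKq
  have hKq0 : 0 ≤ Kq := by (clear * - hC0 hX0 hC ha0; positivity)
  have final : K * (d + 1) ^ 2 / a ^ 2 * ((n + 1) ^ 2 * a ^ n) = Kq * ((d + 1) ^ 2 * (n + 1) ^ 2) := by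
    rw [hKq, hqdef]
    (clear * - ha0; field_simp)
  rw [final, abs_of_pos (by norm_num : (0:ℝ) < 1 / 2)]
  calc _ ≤ d * Kq + 1 / 2 * (d * (d * Kq)) + n * (Kq + d * Kq + 1 / 2 * (n * Kq)) := by
        refine add_le_add (add_le_add (s1.trans ?_) ?_) (s7.trans ?_)
        · (clear * - e1; gcongr)
        · have : d * (d * (K * a ^ n)) ≤ d * (d * Kq) := by (clear * - e1; gcongr)
          linarith only [s2, this]
        · (clear * - e2; gcongr)
    _ = Kq * (d + 1 / 2 * d ^ 2 + n * (1 + d) + 1 / 2 * n ^ 2) := by ring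
    _ ≤ Kq * ((d + 1) ^ 2 * (n + 1) ^ 2) := by
        exact mul_le_mul_of_nonneg_left (dT_aux hd0 hn0) hKq0

lemma choose_bound (e n : ℕ) : ((n + e).choose e : ℝ) * ((n : ℝ) + 1) ^ 2 ≤
    ((e + 2) * (e + 1) : ℕ) * ((n + (e + 2)).choose (e + 2) : ℝ) := by
  have h1 := choose_id1 n e
  have h2 := choose_id1 n (e + 1)
  have h3 : (0 : ℝ) ≤ ((n + e).choose e : ℝ) := Nat.cast_nonneg _
  have h4 : ((n : ℝ) + 1) ^ 2 ≤ ((e + 1 : ℕ) + n) * ((e + 1 + 1 : ℕ) + n) := by
    push_cast
    nlinarith only []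
  calc ((n + e).choose e : ℝ) * ((n : ℝ) + 1) ^ 2
      ≤ ((n + e).choose e : ℝ) * (((e + 1 : ℕ) + n) * ((e + 1 + 1 : ℕ) + n)) := by gcongr
    _ = (((n + e).choose e : ℝ) * ((e + 1 : ℕ) + n)) * ((e + 1 + 1 : ℕ) + n) := by ring
    _ = (e + 1 : ℕ) * (((n + (e + 1)).choose (e + 1) : ℝ) * ((e + 1 + 1 : ℕ) + n)) := by
        rw [h1]; ring
    _ = _ := by
        rw [h2]
        push_cast
        ring

lemma summable_dT_bound (e : ℕ) {a : ℝ} (ha0 : 0 ≤ a) (ha : a < 1) (M : ℝ) :
    Summable fun n : ℕ => ((n + e).choose e : ℝ) * (M * (((n : ℝ) + 1) ^ 2 * a ^ n)) := by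
  have h1 : Summable fun n : ℕ => ((n + (e + 2)).choose (e + 2) : ℝ) * a ^ n :=
    summable_choose_mul_geometric_of_norm_lt_one (e + 2)
      (by rwa [Real.norm_eq_abs, abs_of_nonneg ha0])
  refine Summable.of_norm_bounded (h1.mul_left (|M| * ((e + 2) * (e + 1) : ℕ))) fun n => ?_
  rw [norm_mul, norm_mul, norm_mul, Real.norm_eq_abs, Real.norm_eq_abs, Real.norm_eq_abs,
    Real.norm_eq_abs, abs_of_nonneg (by (clear * -; positivity)), abs_of_nonneg (by positivity : (0:ℝ) ≤ ((n : ℝ) + 1) ^ 2),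
    abs_of_nonneg (by positivity : (0:ℝ) ≤ a ^ n)]
  calc _ = |M| * ((((n + e).choose e : ℝ) * ((n : ℝ) + 1) ^ 2) * a ^ n) := by ring
    _ ≤ |M| * ((((e + 2) * (e + 1) : ℕ) * ((n + (e + 2)).choose (e + 2) : ℝ)) * a ^ n) :=
        mul_le_mul_of_nonneg_left (mul_le_mul_of_nonneg_right (choose_bound e n) (by positivity))
          (abs_nonneg _)
    _ = _ := by ring

/-- The derivative of the resummed functional. -/
theorem Q_hasDerivAt (𝓐 : Arr k w δ) (e : ℕ) {c : Fin (k + 1) → ℝ}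
    (hc : ∀ l, 0 ≤ c l) (l : Fin (k + 1)) (χ : LM k δ → ℝ) {σ C a : ℝ}
    {A At Ax Axx : δ → ℝ → ℝ → ℝ} {v vt vx vxx : ℝ → ℝ → ℝ}
    (hA : ∀ i, Nice (Set.Ioo 0 σ) C (A i) (At i) (Ax i) (Axx i))
    (hv : Nice (Set.Ioo 0 σ) C v vt vx vxx) (ha0 : 0 ≤ a) (ha : a < 1)
    (hva : ∀ t ∈ Set.Ioo 0 σ, ∀ x, |v t x| ≤ a) {t : ℝ} (ht : t ∈ Set.Ioo 0 σ) :
    HasDerivAt (fun s => 𝓐.Q e (Function.update c l s) χ (fun i => A i s) (v s))
      (∑' n : ℕ, ((n + e).choose e : ℝ) * 𝓐.dT l (Function.update c l t) χ (fun i => A i t)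
        (fun i => LL (At i) (Axx i) t) (fun i => Ax i t) (v t) (LL vt vxx t) (vx t) n) t := by
  obtain ⟨X, hX0, hX⟩ := exists_abs_bound χ
  set b := max a (1 / 2) with hb
  have hb0 : 0 < b := lt_of_lt_of_le (by norm_num) (le_max_right _ _)
  have hb1 : b < 1 := max_lt ha (by norm_num)
  set C' := max 1 (2 * |C|) with hC'
  have hC1 : 1 ≤ C' := le_max_left _ _
  have hCC : |C| ≤ C' := (by linarith only [abs_nonneg C] : |C| ≤ 2 * |C|).trans (le_max_right _ _)
  have hCC0 : C ≤ C' := (le_abs_self C).trans hCC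
  have hLL : ∀ {h ht hx hxx : ℝ → ℝ → ℝ}, Nice (Set.Ioo 0 σ) C h ht hx hxx →
      ∀ t ∈ Set.Ioo 0 σ, ∀ x, |LL ht hxx t x| ≤ C' := by
    intro h ht hx hxx hn t ht' x
    unfold LL
    have h1 := hn.bt t ht' x
    have h2 := hn.b2 t ht' x
    have h3 := abs_add_le (ht t x) (1 / 2 * hxx t x)
    rw [abs_mul, abs_of_pos (by norm_num : (0:ℝ) < 1 / 2)] at h3
    have h4 : 2 * |C| ≤ C' := le_max_right _ _
    have h5 := le_abs_self C
    linarith only [abs_nonneg C, h5, h4, h3, h2, h1]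
  apply hasDerivAt_tsum_of_isPreconnected (summable_dT_bound e hb0.le hb1
    (𝓐.C * X * C' ^ (Fintype.card δ + 2) * (Fintype.card δ + 1) ^ 2 / b ^ 2)) isOpen_Ioo
    isPreconnected_Ioo (g := fun n s => ((n + e).choose e : ℝ) *
      𝓐.T (Function.update c l s) χ (fun i => A i s) (v s) (Fin n))
    (g' := fun n t => ((n + e).choose e : ℝ) * 𝓐.dT l (Function.update c l t) χ (fun i => A i t)
        (fun i => LL (At i) (Axx i) t) (fun i => Ax i t) (v t) (LL vt vxx t) (vx t) n)
    (y₀ := t) _ _ ht _ ht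
  · intro n s hs
    exact (𝓐.T_hasDerivAt hc l χ hA hv hs n).const_mul _
  · intro n s hs
    rw [norm_mul, Real.norm_eq_abs, Real.norm_eq_abs, abs_of_nonneg (by (clear * -; positivity))]
    apply mul_le_mul_of_nonneg_left _ (by (clear * -; positivity))
    exact 𝓐.dT_le l _ hX hC1 (fun i x => ((hA i).b0 s hs x).trans hCC0)
      (fun i x => hLL (hA i) s hs x) (fun i x => ((hA i).b1 s hs x).trans hCC0)
      (fun x => (hva s hs x).trans (le_max_left _ _)) (fun x => hLL hv s hs x)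
      (fun x => (hv.b1 s hs x).trans hCC0) hb0 hb1.le n
  · exact 𝓐.Q_summable e _ χ (fun i => ⟨(hA i).m0 t ht, C, (hA i).b0 t ht⟩) ha0 ha (hva t ht)

lemma tsum_shift (e : ℕ) (g : ℕ → ℝ)
    (hs : Summable fun n => ((n + (e + 1)).choose (e + 1) : ℝ) * g n) :
    Summable (fun n => ((n + e).choose e : ℝ) * (n * g (n - 1))) ∧
      ∑' n, ((n + e).choose e : ℝ) * (n * g (n - 1)) =
        ((e + 1 : ℕ) : ℝ) * ∑' n, ((n + (e + 1)).choose (e + 1) : ℝ) * g n := by
  have hshift : ∀ n : ℕ, ((n + 1 + e).choose e : ℝ) * ((n + 1 : ℕ) * g (n + 1 - 1)) =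
      ((e + 1 : ℕ) : ℝ) * (((n + (e + 1)).choose (e + 1) : ℝ) * g n) := by
    intro n
    rw [← mul_assoc, choose_id2, Nat.add_sub_cancel]
    ring
  have s5 : Summable fun n : ℕ => ((n + e).choose e : ℝ) * (n * g (n - 1)) := by
    rw [← summable_nat_add_iff 1]
    refine (hs.mul_left ((e + 1 : ℕ) : ℝ)).congr fun n => ?_
    rw [hshift n]
  refine ⟨s5, ?_⟩
  rw [s5.tsum_eq_zero_add]
  simp only [Nat.cast_zero, zero_mul, mul_zero, zero_add]
  rw [← tsum_mul_left]
  exact tsum_congr hshift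

/-- Resummation of the derivative. -/
theorem tsum_dT (𝓐 : Arr k w δ) (e : ℕ) (l : Fin (k + 1)) (c : Fin (k + 1) → ℝ)
    (χ : LM k δ → ℝ) {A LA Ax : δ → ℝ → ℝ} {v Lv vx : ℝ → ℝ} (hA : ∀ i, BM (A i))
    (hLA : ∀ i, BM (LA i)) (hAx : ∀ i, BM (Ax i)) (hLv : BM Lv) (hvx : BM vx) {a : ℝ}
    (ha0 : 0 ≤ a) (ha : a < 1) (hv : ∀ x, |v x| ≤ a) :
    ∑' n : ℕ, ((n + e).choose e : ℝ) * 𝓐.dT l c χ A LA Ax v Lv vx n =
      ∑ i, 𝓐.Q e c χ (Function.update A i (LA i)) v +
      1 / 2 * ∑ i, ∑ i', (if i = i' then 0 else 𝓐.Q e c (fun L => χ L * lk l i i' L)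
        (Function.update (Function.update A i (Ax i)) i' (Ax i')) v) +
      ((e + 1 : ℕ) : ℝ) * (𝓐.mark.Q (e + 1) c (lift χ) (ext Lv A) v +
        ∑ i, 𝓐.mark.Q (e + 1) c (fun L => lift χ L * lk l (some i) none L)
          (ext vx (Function.update A i (Ax i))) v) +
      1 / 2 * ((e + 1 : ℕ) : ℝ) * (((e + 2 : ℕ) : ℝ) * 𝓐.mark.mark.Q (e + 2) c
        (fun L => lift (lift χ) L * lk l (some none) none L) (ext vx (ext vx A)) v) := by
  have sQ := fun (χ' : LM k δ → ℝ) (B : δ → ℝ → ℝ) (hB : ∀ i, BM (B i)) =>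
    𝓐.Q_summable e c χ' hB ha0 ha hv
  have sQ1 := fun (χ' : LM k (Option δ) → ℝ) (B : Option δ → ℝ → ℝ) (hB : ∀ i, BM (B i)) =>
    𝓐.mark.Q_summable (e + 1) c χ' hB ha0 ha hv
  have sQ2 := 𝓐.mark.mark.Q_summable (e + 2) c
    (fun L => lift (lift χ) L * lk l (some none) none L) (BM_ext (BM_ext hA hvx) hvx) ha0 ha hv
  have q1 := fun i => sQ χ _ (BM.update hA (hLA i) (a := i))
  have q2 : ∀ i i', Summable fun n : ℕ => (if i = i' then 0 else
      ((n + e).choose e : ℝ) * 𝓐.T c (fun L => χ L * lk l i i' L)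
        (Function.update (Function.update A i (Ax i)) i' (Ax i')) v (Fin n)) := by
    intro i i'
    by_cases h : i = i'
    · simp only [h, if_true]; exact summable_zero
    · simp only [h, if_false]
      exact sQ _ _ (BM.update (BM.update hA (hAx i)) (hAx i'))
  have q3 := tsum_shift e _ (sQ1 (lift χ) _ (BM_ext hA hLv))
  have q4 := fun i => tsum_shift e _ (sQ1 (fun L => lift χ L * lk l (some i) none L) _
    (BM_ext (BM.update hA (hAx i) (a := i)) hvx))
  have q5 := tsum_shift (e + 1) _ sQ2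
  have q6 := tsum_shift e _ q5.1
  have hterm : ∀ n : ℕ, ((n + e).choose e : ℝ) * 𝓐.dT l c χ A LA Ax v Lv vx n =
      (((∑ i, ((n + e).choose e : ℝ) * 𝓐.T c χ (Function.update A i (LA i)) v (Fin n)) +
      1 / 2 * ∑ i, ∑ i', (if i = i' then 0 else
        ((n + e).choose e : ℝ) * 𝓐.T c (fun L => χ L * lk l i i' L)
        (Function.update (Function.update A i (Ax i)) i' (Ax i')) v (Fin n))) +
      (((n + e).choose e : ℝ) * (n * 𝓐.mark.T c (lift χ) (ext Lv A) v (Fin (n - 1))) +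
        ∑ i, ((n + e).choose e : ℝ) * (n * 𝓐.mark.T c (fun L => lift χ L * lk l (some i) none L)
      (ext vx (Function.update A i (Ax i))) v (Fin (n - 1))))) +
      1 / 2 * (((n + e).choose e : ℝ) * (n * ((n - 1 : ℕ) * 𝓐.mark.mark.T c
        (fun L => lift (lift χ) L * lk l (some none) none L)
      (ext vx (ext vx A)) v (Fin (n - 1 - 1))))) := by
    intro n
    have e1 : ∑ i, ∑ i', (if i = i' then 0 else
        ((n + e).choose e : ℝ) * 𝓐.T c (fun L => χ L * lk l i i' L)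
        (Function.update (Function.update A i (Ax i)) i' (Ax i')) v (Fin n)) =
        ((n + e).choose e : ℝ) * ∑ i, ∑ i', (if i = i' then 0 else
        𝓐.T c (fun L => χ L * lk l i i' L)
        (Function.update (Function.update A i (Ax i)) i' (Ax i')) v (Fin n)) := by
      simp only [Finset.mul_sum, mul_ite, mul_zero]
    have e2 : n - 1 - 1 = n - 2 := by omega
    rw [e1, ← Finset.mul_sum, e2]
    simp only [← Finset.mul_sum]
    unfold dT
    ring
  simp_rw [hterm]
  have s1 : Summable fun n : ℕ => ∑ i, ((n + e).choose e : ℝ) *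
      𝓐.T c χ (Function.update A i (LA i)) v (Fin n) := summable_sum fun i _ => q1 i
  have s2 : Summable fun n : ℕ => ∑ i, ∑ i', (if i = i' then 0 else
        ((n + e).choose e : ℝ) * 𝓐.T c (fun L => χ L * lk l i i' L)
        (Function.update (Function.update A i (Ax i)) i' (Ax i')) v (Fin n)) :=
    summable_sum fun i _ => summable_sum fun i' _ => q2 i i'
  have s4 : Summable fun n : ℕ => ∑ i, ((n + e).choose e : ℝ) * (n * 𝓐.mark.T c
      (fun L => lift χ L * lk l (some i) none L)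
      (ext vx (Function.update A i (Ax i))) v (Fin (n - 1))) :=
    summable_sum fun i _ => (q4 i).1
  rw [((s1.add (s2.mul_left (1 / 2))).add (q3.1.add s4)).tsum_add (q6.1.mul_left (1 / 2)),
    (s1.add (s2.mul_left (1 / 2))).tsum_add (q3.1.add s4),
    s1.tsum_add (s2.mul_left (1 / 2)), q3.1.tsum_add s4, tsum_mul_left, tsum_mul_left,
    Summable.tsum_finsetSum fun i _ => q1 i,
    Summable.tsum_finsetSum fun i _ => summable_sum fun i' _ => q2 i i',
    Summable.tsum_finsetSum fun i _ => (q4 i).1, q3.2, q6.2, q5.2]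
  have e3 : ∀ i, ∑' n : ℕ, ∑ i', (if i = i' then 0 else
        ((n + e).choose e : ℝ) * 𝓐.T c (fun L => χ L * lk l i i' L)
        (Function.update (Function.update A i (Ax i)) i' (Ax i')) v (Fin n)) =
      ∑ i', (if i = i' then 0 else 𝓐.Q e c (fun L => χ L * lk l i i' L)
        (Function.update (Function.update A i (Ax i)) i' (Ax i')) v) := by
    intro i
    rw [Summable.tsum_finsetSum fun i' _ => q2 i i']
    apply Finset.sum_congr rfl
    intro i' _
    by_cases h : i = i'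
    · simp [h]
    · simp only [h, if_false]
      rfl
  simp_rw [e3]
  have e4 : ∀ i, ∑' n : ℕ, ((n + e).choose e : ℝ) * (n * 𝓐.mark.T c
      (fun L => lift χ L * lk l (some i) none L)
      (ext vx (Function.update A i (Ax i))) v (Fin (n - 1))) =
      ((e + 1 : ℕ) : ℝ) * 𝓐.mark.Q (e + 1) c (fun L => lift χ L * lk l (some i) none L)
          (ext vx (Function.update A i (Ax i))) v := fun i => (q4 i).2
  simp_rw [e4]
  rw [← Finset.mul_sum]
  unfold Q
  rw [show (e + 1 + 1 : ℕ) = e + 2 from rfl]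
  ring

end Arr

end Vale.Agent.P157.Par
end

section

open MeasureTheory ProbabilityTheory Filter Topology Finset

namespace Vale.Agent.P157.Par

set_option linter.unusedSectionVars false

lemma nice_mul {S : Set ℝ} {C : ℝ} {f ft fx fxx g gt gx gxx : ℝ → ℝ → ℝ}
    (hf : Nice S C f ft fx fxx) (hg : Nice S C g gt gx gxx) :
    Nice S (4 * C ^ 2) (fun t x => f t x * g t x) (fun t x => ft t x * g t x + f t x * gt t x)
      (fun t x => fx t x * g t x + f t x * gx t x)
      (fun t x => fxx t x * g t x + 2 * (fx t x * gx t x) + f t x * gxx t x) := by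
  have hmul : ∀ a b : ℝ, |a| ≤ C → |b| ≤ C → |a * b| ≤ C ^ 2 := by
    intro a b ha hb
    rw [abs_mul, sq]
    exact mul_le_mul ha hb (abs_nonneg _) ((abs_nonneg _).trans ha)
  refine ⟨?_, ?_, ?_, ?_, ?_, ?_, ?_, ?_, ?_, ?_, ?_⟩
  · intro t ht; exact (hf.m0 t ht).mul (hg.m0 t ht)
  · intro t ht
    exact ((hf.mt t ht).mul (hg.m0 t ht)).add ((hf.m0 t ht).mul (hg.mt t ht))
  · intro t ht
    exact ((hf.m1 t ht).mul (hg.m0 t ht)).add ((hf.m0 t ht).mul (hg.m1 t ht))
  · intro t ht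
    exact (((hf.m2 t ht).mul (hg.m0 t ht)).add
      (((hf.m1 t ht).mul (hg.m1 t ht)).const_mul 2)).add ((hf.m0 t ht).mul (hg.m2 t ht))
  · intro t ht x
    have := hmul _ _ (hf.b0 t ht x) (hg.b0 t ht x)
    (clear * - this; linarith only [sq_nonneg C, this])
  · intro t ht x
    have h1 := hmul _ _ (hf.bt t ht x) (hg.b0 t ht x)
    have h2 := hmul _ _ (hf.b0 t ht x) (hg.bt t ht x)
    have h3 := abs_add_le (ft t x * g t x) (f t x * gt t x)
    nlinarith only [h1, h2, h3]
  · intro t ht x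
    have h1 := hmul _ _ (hf.b1 t ht x) (hg.b0 t ht x)
    have h2 := hmul _ _ (hf.b0 t ht x) (hg.b1 t ht x)
    have h3 := abs_add_le (fx t x * g t x) (f t x * gx t x)
    nlinarith only [h1, h2, h3]
  · intro t ht x
    have h1 := hmul _ _ (hf.b2 t ht x) (hg.b0 t ht x)
    have h2 := hmul _ _ (hf.b1 t ht x) (hg.b1 t ht x)
    have h4 := hmul _ _ (hf.b0 t ht x) (hg.b2 t ht x)
    have h3 := abs_add_three (fxx t x * g t x) (2 * (fx t x * gx t x)) (f t x * gxx t x)
    rw [abs_mul 2, abs_two] at h3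
    linarith
  · intro t ht x x' hx
    have h1 := (hf.path t ht x x' hx).mul (hg.path t ht x x' hx)
    exact h1.congr_deriv (by ring)
  · intro t ht x
    exact (hf.d1 t ht x).mul (hg.d1 t ht x)
  · intro t ht x
    have h1 := ((hf.d2 t ht x).mul (hg.d1 t ht x)).add ((hf.d1 t ht x).mul (hg.d2 t ht x))
    exact h1.congr_deriv (by ring)

lemma nice_one_sub {S : Set ℝ} {C : ℝ} {g gt gx gxx : ℝ → ℝ → ℝ}
    (hg : Nice S C g gt gx gxx) :
    Nice S (1 + C) (fun t x => 1 - g t x) (fun t x => -gt t x) (fun t x => -gx t x)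
      (fun t x => -gxx t x) := by
  refine ⟨?_, ?_, ?_, ?_, ?_, ?_, ?_, ?_, ?_, ?_, ?_⟩
  · intro t ht; exact measurable_const.sub (hg.m0 t ht)
  · intro t ht; exact (hg.mt t ht).neg
  · intro t ht; exact (hg.m1 t ht).neg
  · intro t ht; exact (hg.m2 t ht).neg
  · intro t ht x
    have h1 := hg.b0 t ht x
    have h2 := abs_sub (1 : ℝ) (g t x)
    rw [abs_one] at h2
    linarith
  · intro t ht x; rw [abs_neg]; linarith only [hg.bt t ht x]
  · intro t ht x; rw [abs_neg]; linarith [hg.b1 t ht x]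
  · intro t ht x; rw [abs_neg]; linarith only [hg.b2 t ht x]
  · intro t ht x x' hx
    have h1 := (hg.path t ht x x' hx).const_sub 1
    exact h1.congr_deriv (by ring)
  · intro t ht x
    exact (hg.d1 t ht x).const_sub 1
  · intro t ht x
    exact (hg.d2 t ht x).neg

lemma Nice.mono {S : Set ℝ} {C C' : ℝ} {g gt gx gxx : ℝ → ℝ → ℝ}
    (hg : Nice S C g gt gx gxx) (h : C ≤ C') : Nice S C' g gt gx gxx :=
  ⟨hg.m0, hg.mt, hg.m1, hg.m2, fun t ht x => (hg.b0 t ht x).trans h,
    fun t ht x => (hg.bt t ht x).trans h, fun t ht x => (hg.b1 t ht x).trans h,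
    fun t ht x => (hg.b2 t ht x).trans h, hg.path, hg.d1, hg.d2⟩

namespace Arr

variable {k : ℕ} {w : Fin (k + 1) → ℝ} {δ : Type} [Fintype δ] [DecidableEq δ]

lemma Q_congr (𝓐 : Arr k w δ) (e : ℕ) (c : Fin (k + 1) → ℝ) {χ χ' : LM k δ → ℝ}
    (h : ∀ L, Ultra L → χ L = χ' L) (A : δ → ℝ → ℝ) (v : ℝ → ℝ) :
    𝓐.Q e c χ A v = 𝓐.Q e c χ' A v := by
  unfold Q T
  apply tsum_congr
  intro n
  congr 1
  apply 𝓐.congr_ultra
  intro L hL
  rw [show χ (res L) = χ' (res L) from h _ (hL.comp _)]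

lemma Q_lk_self (𝓐 : Arr k w δ) (e : ℕ) (c : Fin (k + 1) → ℝ) (χ : LM k δ → ℝ)
    (l : Fin (k + 1)) (i : δ) (A : δ → ℝ → ℝ) (v : ℝ → ℝ) :
    𝓐.Q e c (fun L => χ L * lk l i i L) A v = 𝓐.Q e c χ A v := by
  apply 𝓐.Q_congr
  intro L hL
  unfold lk
  rw [hL.diag, if_pos (Fin.le_last _), mul_one]

lemma Q_lk_symm (𝓐 : Arr k w δ) (e : ℕ) (c : Fin (k + 1) → ℝ) (χ : LM k δ → ℝ)
    (l : Fin (k + 1)) (i j : δ) (A : δ → ℝ → ℝ) (v : ℝ → ℝ) :
    𝓐.Q e c (fun L => χ L * lk l i j L) A v = 𝓐.Q e c (fun L => χ L * lk l j i L) A v := by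
  apply 𝓐.Q_congr
  intro L hL
  unfold lk
  rw [hL.symm i j]

/-- The pair functional: on the link, everything is at the index `i`. -/
noncomputable def qq (𝓐 : Arr k w δ) (e : ℕ) (c : Fin (k + 1) → ℝ) (l : Fin (k + 1))
    (χ : LM k δ → ℝ) (A : δ → ℝ → ℝ) (v : ℝ → ℝ) (i j : δ) (F : ℝ → ℝ) : ℝ :=
  𝓐.Q e c (fun L => χ L * lk l i j L) (Function.update (Function.update A i F) j fun _ => 1) v

variable (𝓐 : Arr k w δ) (e : ℕ) {c : Fin (k + 1) → ℝ} {l : Fin (k + 1)} (χ : LM k δ → ℝ)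
  {A : δ → ℝ → ℝ} {v : ℝ → ℝ}

lemma qq_symm (hcl : ∀ l', l < l' → c l' = 0) {i j : δ} (hij : i ≠ j) (F : ℝ → ℝ) :
    𝓐.qq e c l χ A v i j F = 𝓐.qq e c l χ A v j i F := by
  have h := 𝓐.Q_move e hcl χ (Function.update A i fun _ => 1) v hij F
  have h2 : (fun x => Function.update A i (fun _ => (1 : ℝ)) i x * F x) = F := by
    funext x; simp
  rw [h2, Function.update_idem] at h
  unfold qq
  rw [← h, 𝓐.Q_lk_symm, Function.update_comm hij]

lemma Q_pair (hcl : ∀ l', l < l' → c l' = 0) {i j : δ} (hij : i ≠ j) (F G : ℝ → ℝ) :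
    𝓐.Q e c (fun L => χ L * lk l i j L) (Function.update (Function.update A i F) j G) v =
      𝓐.qq e c l χ A v i j fun x => F x * G x := by
  have h := 𝓐.Q_move e hcl χ (Function.update A i F) v hij G
  rw [h, Function.update_self, Function.update_idem]
  rfl

lemma Q_pair_one (hcl : ∀ l', l < l' → c l' = 0) {i j : δ} (hij : i ≠ j) (F : ℝ → ℝ) :
    𝓐.Q e c (fun L => χ L * lk l i j L) (Function.update A i F) v =
      𝓐.qq e c l χ A v i j fun x => F x * A j x := by
  have h := 𝓐.Q_pair e (A := A) (v := v) χ hcl hij F (A j)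
  rw [← h]
  congr 1
  symm
  rw [Function.update_eq_self_iff]
  rw [Function.update_of_ne hij.symm]

lemma qq_add (hA : ∀ i, BM (A i)) (hvm : Measurable v) {a : ℝ}
    (ha0 : 0 ≤ a) (ha : a < 1) (hv : ∀ x, |v x| ≤ a) {i j : δ} (hij : i ≠ j) {F G : ℝ → ℝ}
    (hF : BM F) (hG : BM G) :
    𝓐.qq e c l χ A v i j (fun x => F x + G x) =
      𝓐.qq e c l χ A v i j F + 𝓐.qq e c l χ A v i j G := by
  unfold qq
  rw [Function.update_comm hij, Function.update_comm hij, Function.update_comm hij]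
  exact 𝓐.Q_update_add e c _ (BM.update hA (BM.const 1)) hvm ha0 ha hv i hF hG

lemma qq_smul {i j : δ} (hij : i ≠ j) (F : ℝ → ℝ) (r : ℝ) :
    𝓐.qq e c l χ A v i j (fun x => r * F x) = r * 𝓐.qq e c l χ A v i j F := by
  unfold qq
  rw [Function.update_comm hij, Function.update_comm hij]
  exact 𝓐.Q_update_smul e c _ _ v i F r

lemma ext_update_none (g G : ℝ → ℝ) (A : δ → ℝ → ℝ) :
    Function.update (ext g A) none G = ext G A := (ext_eq_update G g A).symm

/-- The algebra of the conservation law at a fixed time. -/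
theorem conservation (he : Fintype.card δ = e + 1) (hc : ∀ l, 0 ≤ c l)
    (hcl : ∀ l', l < l' → c l' = 0) {a : ℝ} (ha0 : 0 ≤ a) (ha : a < 1)
    {W Wx : ℝ → ℝ} (hWm : Measurable W) (hW : ∀ x, |1 - W x| ≤ a) (hWx : BM Wx)
    (hA : ∀ i, BM (A i)) {LA Ax : δ → ℝ → ℝ} (hAx : ∀ i, BM (Ax i))
    (p1 : ∀ i x, LA i x = up w l * (Ax i x * (Wx x / W x)) -
      1 / 2 * (up w l * (A i x * (Wx x ^ 2 / W x ^ 2))))
    (p2 : ∀ i j, i ≠ j → (∀ L, Ultra L → χ L * lk l i j L = 0) ∨
      (∀ x, (Ax i x - A i x * (Wx x / W x)) * (Ax j x - A j x * (Wx x / W x)) = 0)) :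
    ∑ i, 𝓐.Q e c χ (Function.update A i (LA i)) (fun x => 1 - W x) +
      1 / 2 * ∑ i, ∑ i', (if i = i' then 0 else 𝓐.Q e c (fun L => χ L * lk l i i' L)
        (Function.update (Function.update A i (Ax i)) i' (Ax i')) (fun x => 1 - W x)) +
      ((e + 1 : ℕ) : ℝ) * (𝓐.mark.Q (e + 1) c (lift χ)
          (ext (fun x => - (1 / 2 * up w l * (Wx x ^ 2 / W x))) A) (fun x => 1 - W x) +
        ∑ i, 𝓐.mark.Q (e + 1) c (fun L => lift χ L * lk l (some i) none L)
          (ext (fun x => -Wx x) (Function.update A i (Ax i))) (fun x => 1 - W x)) +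
      1 / 2 * ((e + 1 : ℕ) : ℝ) * (((e + 2 : ℕ) : ℝ) * 𝓐.mark.mark.Q (e + 2) c
        (fun L => lift (lift χ) L * lk l (some none) none L)
        (ext (fun x => -Wx x) (ext (fun x => -Wx x) A)) (fun x => 1 - W x)) = 0 := by
  classical
  set u := up w l with hu
  set v : ℝ → ℝ := fun x => 1 - W x with hv
  have hW0 : ∀ x, 1 - a ≤ W x := fun x => by linarith only [le_abs_self (1 - W x), hW x]
  have hWpos : ∀ x, 0 < W x := fun x => by linarith only [ha, hW0 x]
  have hWne : ∀ x, W x ≠ 0 := fun x => (hWpos x).ne'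
  have hvm : Measurable v := measurable_const.sub hWm
  have hva : ∀ x, |v x| ≤ a := hW
  have hinv : BM fun x => (W x)⁻¹ := by
    refine ⟨hWm.inv, (1 - a)⁻¹, fun x => ?_⟩
    rw [abs_of_pos (inv_pos.2 (hWpos x))]
    exact inv_anti₀ (by linarith only [ha]) (hW0 x)
  set R : ℝ → ℝ := fun x => Wx x / W x with hR
  have bR : BM R := by
    have := hWx.mul hinv
    exact this
  have bnWx : BM fun x => -Wx x := hWx.neg
  have bnR : BM fun x => -R x := bR.neg
  -- the term with two new indices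
  have hA' : ∀ i, BM (ext (fun x => -Wx x) A i) := BM_ext hA bnWx
  have cardO : Fintype.card (Option δ) = e + 1 + 1 := by rw [Fintype.card_option, he]
  have s1 := 𝓐.mark.Q_stab cardO hc hcl (lift χ) hA' hvm ha0 ha hva none bnWx bnR
  have x1 : (fun x => -R x * (1 - v x)) = fun x => -Wx x := by
    funext x
    simp only [hR, hv]
    have := hWne x
    field_simp
    ring
  have x2 : (fun x => -Wx x * -R x) = fun x => Wx x ^ 2 / W x := by
    funext x
    simp only [hR]
    ring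
  rw [x1, x2, ext_update_none, ext_update_none, Fintype.sum_option, 𝓐.mark.Q_lk_self] at s1
  have b2 : BM fun x => Wx x ^ 2 / W x := by
    have h := hWx.mul bR
    have h2 : (fun x => Wx x ^ 2 / W x) = fun x => Wx x * R x := by
      funext x; simp only [hR]; ring
    rw [h2]; exact h
  set G2 : ℝ → ℝ := fun x => Wx x ^ 2 / W x with hG2
  set q2 : δ → ℝ := fun i => 𝓐.mark.Q (e + 1) c (fun L => lift χ L * lk l (some i) none L)
    (ext G2 A) v with hq2
  have s1' : ((e + 2 : ℕ) : ℝ) * 𝓐.mark.mark.Q (e + 2) c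
        (fun L => lift (lift χ) L * lk l (some none) none L)
        (ext (fun x => -Wx x) (ext (fun x => -Wx x) A)) v =
      u * 𝓐.mark.Q (e + 1) c (lift χ) (ext G2 A) v + ∑ i, q2 i := by
    have h3 : ∀ i, 𝓐.mark.Q (e + 1) c (fun L => lift χ L * lk l none (some i) L)
        (ext G2 A) v = q2 i := fun i => 𝓐.mark.Q_lk_symm _ _ _ _ _ _ _ _
    simp_rw [h3] at s1
    rw [show (e + 1 + 1 : ℕ) = e + 2 from rfl] at s1
    rw [s1]
    ring
  -- the term with one new free index
  have s2 : 𝓐.mark.Q (e + 1) c (lift χ)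
      (ext (fun x => - (1 / 2 * u * (Wx x ^ 2 / W x))) A) v =
      -(1 / 2 * u) * 𝓐.mark.Q (e + 1) c (lift χ) (ext G2 A) v := by
    have h := 𝓐.mark.Q_update_smul (e + 1) c (lift χ) (ext G2 A) v none G2 (-(1 / 2 * u))
    rw [ext_update_none, ext_update_none] at h
    rw [← h]
    congr 2
    funext x
    simp only [hG2]
    ring
  rw [s1', s2]
  -- the terms with one new linked index
  have s3 : ∀ i, ((e + 1 : ℕ) : ℝ) * 𝓐.mark.Q (e + 1) c
      (fun L => lift χ L * lk l (some i) none L)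
      (ext (fun x => -Wx x) (Function.update A i (Ax i))) v =
      (u - 1) * 𝓐.Q e c χ (Function.update A i fun x => Ax i x * -R x) v +
      ∑ j, 𝓐.Q e c (fun L => χ L * lk l i j L)
        (Function.update A i fun x => Ax i x * -R x) v := by
    intro i
    have h := 𝓐.Q_stab he hc hcl χ hA hvm ha0 ha hva i (hAx i) bnR
    rw [x1] at h
    exact h
  have x3 : (fun x => R x ^ 2 * (1 - v x)) = G2 := by
    funext x
    simp only [hR, hv, hG2]
    have := hWne x
    field_simp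
    ring
  have bR2 : BM fun x => R x ^ 2 := by
    have h2 : (fun x => R x ^ 2) = fun x => R x * R x := by funext x; ring
    rw [h2]; exact bR.mul bR
  have s4 : ∀ i, ((e + 1 : ℕ) : ℝ) * q2 i =
      (u - 1) * 𝓐.Q e c χ (Function.update A i fun x => A i x * R x ^ 2) v +
      ∑ j, 𝓐.Q e c (fun L => χ L * lk l i j L)
        (Function.update A i fun x => A i x * R x ^ 2) v := by
    intro i
    have h := 𝓐.Q_stab he hc hcl χ hA hvm ha0 ha hva i (hA i) bR2
    rw [x3, Function.update_eq_self] at h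
    exact h
  -- split the diagonal
  have split : ∀ (i : δ) (B : δ → ℝ → ℝ), ∑ j, 𝓐.Q e c (fun L => χ L * lk l i j L) B v =
      𝓐.Q e c χ B v + ∑ j, (if i = j then 0 else 𝓐.Q e c (fun L => χ L * lk l i j L) B v) := by
    intro i B
    rw [← Finset.add_sum_erase _ _ (Finset.mem_univ i), 𝓐.Q_lk_self,
      ← Finset.add_sum_erase (a := i) (s := univ)
        (f := fun j => if i = j then 0 else 𝓐.Q e c (fun L => χ L * lk l i j L) B v)
        (Finset.mem_univ i)]
    simp only [if_true, zero_add]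
    congr 1
    apply Finset.sum_congr rfl
    intro j hj
    rw [if_neg (Finset.ne_of_mem_erase hj).symm]
  have bAR : ∀ i, BM fun x => Ax i x * -R x := fun i => (hAx i).mul bnR
  have bAR2 : ∀ i, BM fun x => A i x * R x ^ 2 := fun i => (hA i).mul bR2
  -- the single index terms cancel
  have s5 : ∀ i, 𝓐.Q e c χ (Function.update A i (LA i)) v +
      u * 𝓐.Q e c χ (Function.update A i fun x => Ax i x * -R x) v +
      1 / 2 * (u * 𝓐.Q e c χ (Function.update A i fun x => A i x * R x ^ 2) v) = 0 := by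
    intro i
    have h1 : LA i = fun x => -u * (Ax i x * -R x) + -(1 / 2 * u) * (A i x * R x ^ 2) := by
      funext x
      rw [p1 i x]
      simp only [hR]
      rw [div_pow]
      ring
    have b3 : BM fun x => -u * (Ax i x * -R x) := (BM.const (-u)).mul (bAR i)
    have b4 : BM fun x => -(1 / 2 * u) * (A i x * R x ^ 2) := (BM.const _).mul (bAR2 i)
    rw [h1, 𝓐.Q_update_add e c χ hA hvm ha0 ha hva i b3 b4, 𝓐.Q_update_smul,
      𝓐.Q_update_smul]
    ring
  -- pair terms
  have s6 : ∀ i j, i ≠ j →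
      1 / 2 * 𝓐.Q e c (fun L => χ L * lk l i j L)
        (Function.update (Function.update A i (Ax i)) j (Ax j)) v +
      (1 / 2 * 𝓐.qq e c l χ A v i j (fun x => Ax i x * -R x * A j x) +
      1 / 2 * 𝓐.qq e c l χ A v i j (fun x => A i x * (Ax j x * -R x))) +
      1 / 2 * 𝓐.Q e c (fun L => χ L * lk l i j L)
        (Function.update A i fun x => A i x * R x ^ 2) v = 0 := by
    intro i j hij
    rw [𝓐.Q_pair e χ hcl hij, 𝓐.Q_pair_one e χ hcl hij]
    have b5 := (hAx i).mul (hAx j)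
    have b6 := (bAR i).mul (hA j)
    have b7 := (hA i).mul (bAR j)
    have b8 := (bAR2 i).mul (hA j)
    have h1 : 𝓐.qq e c l χ A v i j (fun x => ((Ax i x * Ax j x + Ax i x * -R x * A j x) +
        A i x * (Ax j x * -R x)) + A i x * R x ^ 2 * A j x) = 0 := by
      rcases p2 i j hij with h | h
      · unfold qq
        rw [𝓐.Q_congr e c (χ' := fun _ => 0) h]
        unfold Q T
        have h0 : ∀ n : ℕ, 𝓐.E (Fin n) (fun _ => (0 : ℝ)) = 0 := fun n => map_zero _
        simp only [mul_neg, neg_mul, zero_mul, h0, mul_zero, tsum_zero]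
      · have h2 : (fun x => ((Ax i x * Ax j x + Ax i x * -R x * A j x) +
            A i x * (Ax j x * -R x)) + A i x * R x ^ 2 * A j x) = fun _ => 0 * 1 := by
          funext x
          have := h x
          simp only [hR]
          linear_combination this
        rw [h2, 𝓐.qq_smul e χ hij (fun _ => 1) 0, zero_mul]
    rw [𝓐.qq_add e χ hA hvm ha0 ha hva hij ((b5.add b6).add b7) b8,
      𝓐.qq_add e χ hA hvm ha0 ha hva hij (b5.add b6) b7,
      𝓐.qq_add e χ hA hvm ha0 ha hva hij b5 b6] at h1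
    linarith only [h1]
  -- symmetrization
  have s7 : ∑ i, ∑ j, (if i = j then 0 else 𝓐.Q e c (fun L => χ L * lk l i j L)
      (Function.update A i fun x => Ax i x * -R x) v) =
      ∑ i, ∑ j, (if i = j then 0 else
        (1 / 2 * 𝓐.qq e c l χ A v i j (fun x => Ax i x * -R x * A j x) +
      1 / 2 * 𝓐.qq e c l χ A v i j (fun x => A i x * (Ax j x * -R x)))) := by
    have h1 : ∑ i, ∑ j, (if i = j then 0 else 𝓐.Q e c (fun L => χ L * lk l i j L)
      (Function.update A i fun x => Ax i x * -R x) v) =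
      ∑ i, ∑ j, (if i = j then 0 else 𝓐.qq e c l χ A v i j (fun x => Ax i x * -R x * A j x)) := by
      apply Finset.sum_congr rfl
      intro i _
      apply Finset.sum_congr rfl
      intro j _
      by_cases h : i = j
      · simp [h]
      · simp only [h, if_false]
        exact 𝓐.Q_pair_one e χ hcl h _
    have h2 : ∑ i, ∑ j, (if i = j then 0 else 𝓐.qq e c l χ A v i j
        (fun x => Ax i x * -R x * A j x)) =
        ∑ i, ∑ j, (if i = j then 0 else 𝓐.qq e c l χ A v i j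
        (fun x => A i x * (Ax j x * -R x))) := by
      rw [Finset.sum_comm]
      apply Finset.sum_congr rfl
      intro j _
      apply Finset.sum_congr rfl
      intro i _
      by_cases h : i = j
      · simp [h]
      · have h' : ¬ j = i := fun h' => h h'.symm
        simp only [h, h', if_false]
        rw [𝓐.qq_symm e χ hcl h]
        congr 1
        funext x
        ring
    have h3 : ∑ i, ∑ j, (if i = j then 0 else
        (1 / 2 * 𝓐.qq e c l χ A v i j (fun x => Ax i x * -R x * A j x) +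
      1 / 2 * 𝓐.qq e c l χ A v i j (fun x => A i x * (Ax j x * -R x)))) =
      1 / 2 * ∑ i, ∑ j, (if i = j then 0 else 𝓐.qq e c l χ A v i j
        (fun x => Ax i x * -R x * A j x)) +
      1 / 2 * ∑ i, ∑ j, (if i = j then 0 else 𝓐.qq e c l χ A v i j
        (fun x => A i x * (Ax j x * -R x))) := by
      simp only [mul_sum, mul_ite, mul_zero, ← sum_add_distrib]
      apply Finset.sum_congr rfl
      intro i _
      apply Finset.sum_congr rfl
      intro j _
      by_cases h : i = j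
      · simp [h]
      · simp only [h, ↓reduceIte, one_div, mul_neg, neg_mul]
    rw [h3, ← h2, h1]
    ring
  have s8 : 1 / 2 * ∑ i, ∑ i', (if i = i' then 0 else 𝓐.Q e c (fun L => χ L * lk l i i' L)
        (Function.update (Function.update A i (Ax i)) i' (Ax i')) v) +
      ∑ i, ∑ j, (if i = j then 0 else 𝓐.Q e c (fun L => χ L * lk l i j L)
      (Function.update A i fun x => Ax i x * -R x) v) +
      1 / 2 * ∑ i, ∑ j, (if i = j then 0 else 𝓐.Q e c (fun L => χ L * lk l i j L)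
      (Function.update A i fun x => A i x * R x ^ 2) v) = 0 := by
    rw [s7]
    simp only [Finset.mul_sum, ← Finset.sum_add_distrib]
    apply Finset.sum_eq_zero
    intro i _
    apply Finset.sum_eq_zero
    intro j _
    by_cases h : i = j
    · simp [h]
    · simp only [h, if_false]
      exact s6 i j h
  have s9 : ((e + 1 : ℕ) : ℝ) * ∑ i, 𝓐.mark.Q (e + 1) c
      (fun L => lift χ L * lk l (some i) none L)
      (ext (fun x => -Wx x) (Function.update A i (Ax i))) v =
      ∑ i, u * 𝓐.Q e c χ (Function.update A i fun x => Ax i x * -R x) v +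
      ∑ i, ∑ j, (if i = j then 0 else 𝓐.Q e c (fun L => χ L * lk l i j L)
      (Function.update A i fun x => Ax i x * -R x) v) := by
    rw [Finset.mul_sum, ← Finset.sum_add_distrib]
    apply Finset.sum_congr rfl
    intro i _
    rw [s3 i, split i]
    ring
  have s10 : ((e + 1 : ℕ) : ℝ) * ∑ i, q2 i =
      ∑ i, u * 𝓐.Q e c χ (Function.update A i fun x => A i x * R x ^ 2) v +
      ∑ i, ∑ j, (if i = j then 0 else 𝓐.Q e c (fun L => χ L * lk l i j L)
      (Function.update A i fun x => A i x * R x ^ 2) v) := by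
    rw [Finset.mul_sum, ← Finset.sum_add_distrib]
    apply Finset.sum_congr rfl
    intro i _
    rw [s4 i, split i]
    ring
  have s11 : ∑ i, 𝓐.Q e c χ (Function.update A i (LA i)) v +
      ∑ i, u * 𝓐.Q e c χ (Function.update A i fun x => Ax i x * -R x) v +
      1 / 2 * ∑ i, u * 𝓐.Q e c χ (Function.update A i fun x => A i x * R x ^ 2) v = 0 := by
    rw [Finset.mul_sum, ← Finset.sum_add_distrib, ← Finset.sum_add_distrib]
    exact Finset.sum_eq_zero fun i _ => s5 i
  linear_combination s8 + s9 + 1 / 2 * s10 + s11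

end Arr

end Vale.Agent.P157.Par
end

section

open MeasureTheory ProbabilityTheory Filter Topology Finset

namespace Vale.Agent.P157.Par

/-- Functions with two bounded continuous derivatives. -/
structure CB2 (g g' g'' : ℝ → ℝ) : Prop where
  d1 : ∀ x, HasDerivAt g (g' x) x
  d2 : ∀ x, HasDerivAt g' (g'' x) x
  c2 : Continuous g''
  b0 : ∃ C, ∀ x, |g x| ≤ C
  b1 : ∃ C, ∀ x, |g' x| ≤ C
  b2 : ∃ C, ∀ x, |g'' x| ≤ C

/-- The heat semigroup. -/
noncomputable def heat (s : ℝ) (g : ℝ → ℝ) (x : ℝ) : ℝ :=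
  ∫ z, g (x + √s * z) ∂(gaussianReal 0 1)

/-- A function of time and space which is regular inside and continuous up to the boundary. -/
structure Flow (σ C : ℝ) (h ht hx hxx : ℝ → ℝ → ℝ) : Prop where
  nice : Nice (Set.Ioo 0 σ) C h ht hx hxx
  cont : ContinuousOn (fun p : ℝ × ℝ => h p.1 p.2) (Set.Icc 0 σ ×ˢ Set.univ)
  bdd : ∀ t ∈ Set.Icc 0 σ, ∀ x, |h t x| ≤ C

/-- The flow of the weight: `W_t = (P_{σ-t} W^m)^{1/m}`. -/
noncomputable def flowW (m σ : ℝ) (W : ℝ → ℝ) (t x : ℝ) : ℝ :=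
  (heat (σ - t) (fun y => W y ^ m) x) ^ (1 / m)

/-- The flow of the observable: `h_t = P_{σ-t}(h W^m) / P_{σ-t}(W^m)`. -/
noncomputable def flowh (m σ : ℝ) (W h : ℝ → ℝ) (t x : ℝ) : ℝ :=
  heat (σ - t) (fun y => h y * W y ^ m) x / heat (σ - t) (fun y => W y ^ m) x

end Vale.Agent.P157.Par
end

section

open MeasureTheory ProbabilityTheory Filter Topology Finset

namespace Vale.Agent.P157.Par

open Vale.Agent.P367.GT (stein_one)

/-! ### Functions with two derivatives -/

lemma CB2.cont {g g' g'' : ℝ → ℝ} (h : CB2 g g' g'') : Continuous g :=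
  continuous_iff_continuousAt.mpr fun x => (h.d1 x).continuousAt

lemma CB2.cont1 {g g' g'' : ℝ → ℝ} (h : CB2 g g' g'') : Continuous g' :=
  continuous_iff_continuousAt.mpr fun x => (h.d2 x).continuousAt

/-- A smooth outer function on an interval. -/
structure Outer (A B : ℝ) (F F' F'' : ℝ → ℝ) : Prop where
  d1 : ∀ u ∈ Set.Icc A B, HasDerivAt F (F' u) u
  d2 : ∀ u ∈ Set.Icc A B, HasDerivAt F' (F'' u) u
  c2 : ContinuousOn F'' (Set.Icc A B)
  m0 : Measurable F
  m1 : Measurable F'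
  m2 : Measurable F''

lemma Outer.c0 {A B : ℝ} {F F' F'' : ℝ → ℝ} (h : Outer A B F F' F'') :
    ContinuousOn F (Set.Icc A B) := fun u hu => (h.d1 u hu).continuousAt.continuousWithinAt

lemma Outer.c1 {A B : ℝ} {F F' F'' : ℝ → ℝ} (h : Outer A B F F' F'') :
    ContinuousOn F' (Set.Icc A B) := fun u hu => (h.d2 u hu).continuousAt.continuousWithinAt

lemma Outer.bound {A B : ℝ} {F F' F'' : ℝ → ℝ} (h : Outer A B F F' F'') :
    ∃ D, 0 ≤ D ∧ ∀ u ∈ Set.Icc A B, |F u| ≤ D ∧ |F' u| ≤ D ∧ |F'' u| ≤ D := by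
  obtain ⟨D0, h0⟩ := isCompact_Icc.exists_bound_of_continuousOn h.c0
  obtain ⟨D1, h1⟩ := isCompact_Icc.exists_bound_of_continuousOn h.c1
  obtain ⟨D2, h2⟩ := isCompact_Icc.exists_bound_of_continuousOn h.c2
  refine ⟨|D0| + |D1| + |D2|, by (clear * -; positivity), fun u hu => ?_⟩
  have a0 := (h0 u hu).trans (le_abs_self D0)
  have a1 := (h1 u hu).trans (le_abs_self D1)
  have a2 := (h2 u hu).trans (le_abs_self D2)
  rw [Real.norm_eq_abs] at a0 a1 a2
  have n0 := abs_nonneg D0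
  have n1 := abs_nonneg D1
  have n2 := abs_nonneg D2
  exact ⟨by linarith only [a0, n1, n2], by linarith only [a1, n0, n2], by linarith⟩

lemma outer_rpow {A B : ℝ} (hA : 0 < A) (p : ℝ) :
    Outer A B (fun u => u ^ p) (fun u => p * u ^ (p - 1)) (fun u => p * ((p - 1) * u ^ (p - 1 - 1)))
    where
  d1 u hu := Real.hasDerivAt_rpow_const (Or.inl (hA.trans_le hu.1).ne')
  d2 u hu := (Real.hasDerivAt_rpow_const (Or.inl (hA.trans_le hu.1).ne')).const_mul p
  c2 := by
    refine ContinuousOn.mul continuousOn_const (ContinuousOn.mul continuousOn_const ?_)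
    exact fun u hu => (Real.continuousAt_rpow_const _ _
      (Or.inl (hA.trans_le hu.1).ne')).continuousWithinAt
  m0 := by fun_prop
  m1 := by (clear * -; fun_prop)
  m2 := by fun_prop

lemma outer_inv {A B : ℝ} (hA : 0 < A) :
    Outer A B (fun u => u⁻¹) (fun u => -(u ^ 2)⁻¹) (fun u => 2 * (u ^ 3)⁻¹) where
  d1 u hu := hasDerivAt_inv (hA.trans_le hu.1).ne'
  d2 u hu := by
    have hu0 : u ≠ 0 := (hA.trans_le hu.1).ne'
    have h1 : HasDerivAt (fun u : ℝ => -(u ^ 2)⁻¹) (-(-(((2 : ℕ) : ℝ) * u ^ (2 - 1)) / (u ^ 2) ^ 2)) u :=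
      ((hasDerivAt_pow 2 u).fun_inv (pow_ne_zero 2 hu0)).fun_neg
    refine h1.congr_deriv ?_
    push_cast
    field_simp
  c2 := by
    refine ContinuousOn.mul continuousOn_const (ContinuousOn.inv₀ (by fun_prop) ?_)
    exact fun u hu => pow_ne_zero 3 (hA.trans_le hu.1).ne'
  m0 := by fun_prop
  m1 := by fun_prop
  m2 := by fun_prop

lemma CB2.outer {A B : ℝ} {F F' F'' g g' g'' : ℝ → ℝ} (h : CB2 g g' g'')
    (hmem : ∀ x, g x ∈ Set.Icc A B) (hF : Outer A B F F' F'') :
    CB2 (fun x => F (g x)) (fun x => F' (g x) * g' x)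
      (fun x => F'' (g x) * g' x * g' x + F' (g x) * g'' x) := by
  obtain ⟨D, hD0, hD⟩ := hF.bound
  obtain ⟨C1, h1⟩ := h.b1
  obtain ⟨C2, h2⟩ := h.b2
  have hC1 : 0 ≤ C1 := (abs_nonneg _).trans (h1 0)
  refine ⟨fun x => (hF.d1 _ (hmem x)).comp x (h.d1 x), fun x => ?_, ?_, ⟨D, fun x => ?_⟩,
    ⟨D * C1, fun x => ?_⟩, ⟨D * C1 * C1 + D * C2, fun x => ?_⟩⟩
  · exact ((hF.d2 _ (hmem x)).comp x (h.d1 x)).mul (h.d2 x)
  · refine Continuous.add (Continuous.mul (Continuous.mul ?_ h.cont1) h.cont1)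
      (Continuous.mul ?_ h.c2)
    · exact hF.c2.comp_continuous h.cont hmem
    · exact hF.c1.comp_continuous h.cont hmem
  · exact (hD _ (hmem x)).1
  · rw [abs_mul]
    exact mul_le_mul (hD _ (hmem x)).2.1 (h1 x) (abs_nonneg _) hD0
  · refine (abs_add_le _ _).trans (add_le_add ?_ ?_)
    · rw [abs_mul, abs_mul]
      exact mul_le_mul (mul_le_mul (hD _ (hmem x)).2.2 (h1 x) (abs_nonneg _) hD0) (h1 x)
        (abs_nonneg _) (by (clear * - hD0 hC1; positivity))
    · rw [abs_mul]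
      exact mul_le_mul (hD _ (hmem x)).2.1 (h2 x) (abs_nonneg _) hD0

lemma CB2.mul {g g' g'' k k' k'' : ℝ → ℝ} (h : CB2 g g' g'') (l : CB2 k k' k'') :
    CB2 (fun x => g x * k x) (fun x => g' x * k x + g x * k' x)
      (fun x => g'' x * k x + g' x * k' x + (g' x * k' x + g x * k'' x)) := by
  obtain ⟨G0, g0⟩ := h.b0
  obtain ⟨G1, g1⟩ := h.b1
  obtain ⟨G2, g2⟩ := h.b2
  obtain ⟨K0, k0⟩ := l.b0
  obtain ⟨K1, k1⟩ := l.b1
  obtain ⟨K2, k2⟩ := l.b2
  have n0 : 0 ≤ G0 := (abs_nonneg _).trans (g0 0)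
  have n1 : 0 ≤ G1 := (abs_nonneg _).trans (g1 0)
  have n2 : 0 ≤ G2 := (abs_nonneg _).trans (g2 0)
  have hm : ∀ {a b A B : ℝ}, |a| ≤ A → |b| ≤ B → 0 ≤ A → |a * b| ≤ A * B := by
    intro a b A B ha hb hA
    rw [abs_mul]
    exact mul_le_mul ha hb (abs_nonneg _) hA
  refine ⟨fun x => (h.d1 x).mul (l.d1 x), fun x => ?_, ?_, ⟨G0 * K0, fun x => hm (g0 x) (k0 x) n0⟩,
    ⟨G1 * K0 + G0 * K1, fun x => ?_⟩, ⟨G2 * K0 + G1 * K1 + (G1 * K1 + G0 * K2), fun x => ?_⟩⟩
  · exact ((h.d2 x).mul (l.d1 x)).add ((h.d1 x).mul (l.d2 x))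
  · exact ((h.c2.mul l.cont).add (h.cont1.mul l.cont1)).add ((h.cont1.mul l.cont1).add
      (h.cont.mul l.c2))
  · exact (abs_add_le _ _).trans (add_le_add (hm (g1 x) (k0 x) n1) (hm (g0 x) (k1 x) n0))
  · refine (abs_add_le _ _).trans (add_le_add ?_ ?_)
    · exact (abs_add_le _ _).trans (add_le_add (hm (g2 x) (k0 x) n2) (hm (g1 x) (k1 x) n1))
    · exact (abs_add_le _ _).trans (add_le_add (hm (g1 x) (k1 x) n1) (hm (g0 x) (k2 x) n0))

/-! ### The heat semigroup -/

lemma heat_continuous {g : ℝ → ℝ} (hg : Continuous g) {C : ℝ} (hC : ∀ x, |g x| ≤ C) :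
    Continuous fun p : ℝ × ℝ => heat p.1 g p.2 := by
  unfold heat
  refine continuous_of_dominated (bound := fun _ => C) ?_ ?_ (integrable_const C) ?_
  · intro p
    exact (hg.comp (by fun_prop)).aestronglyMeasurable
  · intro p
    exact Filter.Eventually.of_forall fun z => hC _
  · refine Filter.Eventually.of_forall fun z => hg.comp ?_
    exact continuous_snd.add ((Real.continuous_sqrt.comp continuous_fst).mul continuous_const)

lemma heat_continuous_x {g : ℝ → ℝ} (hg : Continuous g) {C : ℝ} (hC : ∀ x, |g x| ≤ C) (s : ℝ) :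
    Continuous (heat s g) :=
  (heat_continuous hg hC).comp (Continuous.prodMk continuous_const continuous_id)

lemma heat_abs_le {g : ℝ → ℝ} {C : ℝ} (hC : ∀ x, |g x| ≤ C) (s x : ℝ) : |heat s g x| ≤ C := by
  unfold heat
  rw [← Real.norm_eq_abs]
  refine (norm_integral_le_of_norm_le_const (C := C) (Filter.Eventually.of_forall fun z => ?_)).trans
    ?_
  · rw [Real.norm_eq_abs]; exact hC _
  · simp

lemma integrable_heat {g : ℝ → ℝ} (hg : Measurable g) {C : ℝ} (hC : ∀ x, |g x| ≤ C) (s x : ℝ) :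
    Integrable (fun z => g (x + √s * z)) (gaussianReal 0 1) := by
  refine Integrable.mono' (integrable_const C) (hg.comp (by fun_prop)).aestronglyMeasurable
    (Filter.Eventually.of_forall fun z => ?_)
  rw [Real.norm_eq_abs]; exact hC _

lemma heat_hasDerivAt {g g' : ℝ → ℝ} (hd : ∀ x, HasDerivAt g (g' x) x) (hg' : Continuous g')
    {C C' : ℝ} (hC : ∀ x, |g x| ≤ C) (hC' : ∀ x, |g' x| ≤ C') (s x : ℝ) :
    HasDerivAt (heat s g) (heat s g' x) x := by
  have hgc : Continuous g := continuous_iff_continuousAt.mpr fun x => (hd x).continuousAt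
  have := hasDerivAt_integral_of_dominated_loc_of_deriv_le (μ := gaussianReal 0 1)
    (F := fun x z => g (x + √s * z)) (F' := fun x z => g' (x + √s * z)) (x₀ := x)
    (bound := fun _ => C') (s := Set.univ) Filter.univ_mem
    (Filter.Eventually.of_forall fun y => (hgc.comp (by fun_prop)).aestronglyMeasurable)
    (integrable_heat hgc.measurable hC s x) (hg'.comp (by (clear * -; fun_prop))).aestronglyMeasurable
    (Filter.Eventually.of_forall fun z y _ => hC' _) (integrable_const _)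
    (Filter.Eventually.of_forall fun z y _ => by
      have h1 := (hd (y + √s * z)).comp y ((hasDerivAt_id y).add_const (√s * z))
      simpa only [id_eq, Function.comp_def, mul_one] using h1)
  exact this.2

/-- Derivative of a parametric integral at a point from a Lipschitz bound at this point. -/
lemma hasDerivAt_integral_lip {μ : Measure ℝ} {F : ℝ → ℝ → ℝ} {F' bound : ℝ → ℝ} {x₀ : ℝ}
    {s : Set ℝ} (hs : s ∈ 𝓝 x₀)
    (hF_meas : ∀ x ∈ s, AEStronglyMeasurable (F x) μ) (hF_int : Integrable (F x₀) μ)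
    (hF'_meas : AEStronglyMeasurable F' μ) (hF'_int : Integrable F' μ)
    (h_lipsch : ∀ᵐ a ∂μ, ∀ x ∈ s, ‖F x a - F x₀ a‖ ≤ bound a * ‖x - x₀‖)
    (bound_integrable : Integrable bound μ)
    (h_diff : ∀ᵐ a ∂μ, HasDerivAt (F · a) (F' a) x₀) :
    HasDerivAt (fun x => ∫ a, F x a ∂μ) (∫ a, F' a ∂μ) x₀ := by
  set L : ℝ →L[ℝ] ℝ →L[ℝ] ℝ := ContinuousLinearMap.smulRightL ℝ ℝ ℝ 1
  have h_diff' : ∀ᵐ a ∂μ, HasFDerivAt (F · a) (L (F' a)) x₀ :=
    h_diff.mono fun x hx => hx.hasFDerivAt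
  have hm : AEStronglyMeasurable (L ∘ F') μ := L.continuous.comp_aestronglyMeasurable hF'_meas
  obtain ⟨_, key⟩ := hasFDerivAt_integral_of_dominated_loc_of_lip' hs hF_meas hF_int hm
    h_lipsch bound_integrable h_diff'
  simp only [(· ∘ ·), ContinuousLinearMap.integral_comp_comm _ hF'_int] at key
  have h2 := key.hasDerivAt
  simpa [L] using h2

lemma heat_path {g g' g'' : ℝ → ℝ} (h : CB2 g g' g'') {t σ : ℝ} (ht : t < σ) {y : ℝ → ℝ} {y' : ℝ}
    (hy : HasDerivAt y y' t) :
    HasDerivAt (fun r => heat (σ - r) g (y r))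
      (-(1 / 2) * heat (σ - t) g'' (y t) + heat (σ - t) g' (y t) * y') t := by
  obtain ⟨C0, h0⟩ := h.b0
  obtain ⟨C1, h1⟩ := h.b1
  obtain ⟨C2, h2⟩ := h.b2
  have hC1 : 0 ≤ C1 := (abs_nonneg _).trans (h1 0)
  have hs : 0 < √(σ - t) := Real.sqrt_pos.mpr (by linarith)
  have hsq : HasDerivAt (fun r => √(σ - r)) (-1 / (2 * √(σ - t))) t := by
    have := ((hasDerivAt_id t).const_sub σ).sqrt (by simp only [id_eq, ne_eq]; linarith only [ht])
    simpa only [id_eq] using this
  have hzint : Integrable (fun z : ℝ => z) (gaussianReal 0 1) :=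
    (memLp_id_gaussianReal 1).integrable le_rfl
  -- Lipschitz constants
  obtain ⟨c1, hc1⟩ := hy.isBigO_sub.bound
  obtain ⟨c2, hc2⟩ := hsq.isBigO_sub.bound
  have hF'int : Integrable (fun z => g' (y t + √(σ - t) * z) *
      (y' + (-1 / (2 * √(σ - t))) * z)) (gaussianReal 0 1) := by
    have h3 : Integrable (fun z : ℝ => y' + (-1 / (2 * √(σ - t))) * z) (gaussianReal 0 1) :=
      (integrable_const _).add (hzint.const_mul _)
    refine h3.bdd_mul (c := C1) (h.cont1.comp (by fun_prop)).aestronglyMeasurable ?_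
    exact Filter.Eventually.of_forall fun z => by
      rw [Real.norm_eq_abs]; exact h1 _
  have key := hasDerivAt_integral_lip (μ := gaussianReal 0 1)
    (F := fun r z => g (y r + √(σ - r) * z))
    (F' := fun z => g' (y t + √(σ - t) * z) * (y' + (-1 / (2 * √(σ - t))) * z))
    (bound := fun z => C1 * (c1 + c2 * |z|)) (x₀ := t)
    (s := {r | ‖y r - y t‖ ≤ c1 * ‖r - t‖} ∩ {r | ‖√(σ - r) - √(σ - t)‖ ≤ c2 * ‖r - t‖})
    (Filter.inter_mem hc1 hc2)
    (fun r _ => (h.cont.comp (by fun_prop)).aestronglyMeasurable)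
    (integrable_heat h.cont.measurable h0 _ _)
    hF'int.aestronglyMeasurable hF'int
    (Filter.Eventually.of_forall fun z r hr => by
      have hlip : ∀ a b : ℝ, |g a - g b| ≤ C1 * |a - b| := by
        intro a b
        have := Convex.norm_image_sub_le_of_norm_hasDerivWithin_le (f := g) (f' := g') (C := C1)
          (s := Set.univ) (x := b) (y := a) (fun x _ => (h.d1 x).hasDerivWithinAt)
          (fun x _ => h1 x) convex_univ (Set.mem_univ _) (Set.mem_univ _)
        simpa only [ge_iff_le, Real.norm_eq_abs] using this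
      rw [Real.norm_eq_abs]
      refine (hlip _ _).trans ?_
      have e1 : y r + √(σ - r) * z - (y t + √(σ - t) * z) =
          (y r - y t) + (√(σ - r) - √(σ - t)) * z := by ring
      rw [e1, mul_assoc]
      refine mul_le_mul_of_nonneg_left ?_ hC1
      refine (abs_add_le _ _).trans ?_
      rw [abs_mul, add_mul]
      have hr1 : |y r - y t| ≤ c1 * ‖r - t‖ := hr.1
      have hr2 : |√(σ - r) - √(σ - t)| ≤ c2 * ‖r - t‖ := hr.2
      have := mul_le_mul_of_nonneg_right hr2 (abs_nonneg z)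
      linarith)
    (((integrable_const c1).add (hzint.abs.const_mul c2)).const_mul C1)
    (Filter.Eventually.of_forall fun z => by
      exact (h.d1 (y t + √(σ - t) * z)).comp t (hy.add (hsq.mul_const z)))
  have hval : ∫ z, g' (y t + √(σ - t) * z) * (y' + (-1 / (2 * √(σ - t))) * z)
      ∂(gaussianReal 0 1) =
      -(1 / 2) * heat (σ - t) g'' (y t) + heat (σ - t) g' (y t) * y' := by
    have hst := stein_one (fun z => g' (y t + √(σ - t) * z))
      (fun z => g'' (y t + √(σ - t) * z) * √(σ - t)) (C1 + C2 * √(σ - t))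
      (fun z => by
        have := (h.d2 (y t + √(σ - t) * z)).comp z
          (((hasDerivAt_id z).const_mul (√(σ - t))).const_add (y t))
        simpa only [id_eq, Function.comp_def, mul_one] using this)
      (fun z => by
        have := h1 (y t + √(σ - t) * z)
        have hC2 : 0 ≤ C2 := (abs_nonneg _).trans (h2 0)
        have : 0 ≤ C2 * √(σ - t) := by (clear * - hC2 ht; positivity)
        linarith)
      (fun z => by
        rw [abs_mul, abs_of_pos hs]
        have := mul_le_mul_of_nonneg_right (h2 (y t + √(σ - t) * z)) hs.le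
        linarith)
    have i1 : Integrable (fun z => g' (y t + √(σ - t) * z)) (gaussianReal 0 1) :=
      integrable_heat h.cont1.measurable h1 _ _
    have i2 : Integrable (fun z => z * g' (y t + √(σ - t) * z)) (gaussianReal 0 1) := by
      refine hzint.mul_bdd (c := C1) (h.cont1.comp (by fun_prop)).aestronglyMeasurable ?_
      exact Filter.Eventually.of_forall fun z => by
        rw [Real.norm_eq_abs]; exact h1 _
    have e1 : ∀ z, g' (y t + √(σ - t) * z) * (y' + (-1 / (2 * √(σ - t))) * z) =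
        y' * g' (y t + √(σ - t) * z) +
          (-1 / (2 * √(σ - t))) * (z * g' (y t + √(σ - t) * z)) := by
      intro z; ring
    simp only [e1]
    rw [integral_add (i1.const_mul _) (i2.const_mul _), integral_const_mul, integral_const_mul,
      hst, integral_mul_const]
    unfold heat
    field_simp
    ring
  rw [hval] at key
  exact key

lemma heat_flow {g g' g'' : ℝ → ℝ} (h : CB2 g g' g'') (σ : ℝ) :
    ∃ C, Flow σ C (fun t x => heat (σ - t) g x) (fun t x => -(1 / 2) * heat (σ - t) g'' x)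
      (fun t x => heat (σ - t) g' x) (fun t x => heat (σ - t) g'' x) := by
  obtain ⟨C0, h0⟩ := h.b0
  obtain ⟨C1, h1⟩ := h.b1
  obtain ⟨C2, h2⟩ := h.b2
  have n0 : 0 ≤ C0 := (abs_nonneg _).trans (h0 0)
  have n1 : 0 ≤ C1 := (abs_nonneg _).trans (h1 0)
  have n2 : 0 ≤ C2 := (abs_nonneg _).trans (h2 0)
  refine ⟨C0 + C1 + C2, ⟨?_, ?_, ?_⟩⟩
  · refine ⟨fun t _ => (heat_continuous_x h.cont h0 _).measurable,
      fun t _ => ((heat_continuous_x h.c2 h2 _).measurable).const_mul _,
      fun t _ => (heat_continuous_x h.cont1 h1 _).measurable,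
      fun t _ => (heat_continuous_x h.c2 h2 _).measurable, fun t _ x => ?_, fun t _ x => ?_,
      fun t _ x => ?_, fun t _ x => ?_, fun t ht x x' hx => ?_, fun t _ x => ?_, fun t _ x => ?_⟩
    · have := heat_abs_le h0 (σ - t) x
      linarith
    · have := heat_abs_le h2 (σ - t) x
      rw [abs_mul, abs_neg, abs_of_pos (by norm_num : (0 : ℝ) < 1 / 2)]
      linarith only [n0, n1, n2, this]
    · have := heat_abs_le h1 (σ - t) x
      linarith
    · have := heat_abs_le h2 (σ - t) x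
      linarith only [n0, n1, this]
    · exact heat_path h ht.2 hx
    · exact heat_hasDerivAt h.d1 h.cont1 h0 h1 _ x
    · exact heat_hasDerivAt h.d2 h.c2 h1 h2 _ x
  · refine Continuous.continuousOn ?_
    exact (heat_continuous h.cont h0).comp
      ((continuous_const.sub continuous_fst).prodMk continuous_snd)
  · intro t _ x
    have := heat_abs_le h0 (σ - t) x
    linarith

lemma Flow.outer {σ C A B : ℝ} {F F' F'' : ℝ → ℝ} {h ht hx hxx : ℝ → ℝ → ℝ}
    (hf : Flow σ C h ht hx hxx) (hmem : ∀ t ∈ Set.Icc 0 σ, ∀ x, h t x ∈ Set.Icc A B)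
    (hF : Outer A B F F' F'') :
    ∃ C', Flow σ C' (fun t x => F (h t x)) (fun t x => F' (h t x) * ht t x)
      (fun t x => F' (h t x) * hx t x)
      (fun t x => F'' (h t x) * hx t x * hx t x + F' (h t x) * hxx t x) := by
  obtain ⟨D, hD0, hD⟩ := hF.bound
  have hn := hf.nice
  have hK : C ≤ |C| := le_abs_self C
  have hK0 : 0 ≤ |C| := abs_nonneg C
  have hmem' : ∀ t ∈ Set.Ioo 0 σ, ∀ x, h t x ∈ Set.Icc A B := fun t ht x =>
    hmem t ⟨ht.1.le, ht.2.le⟩ x
  have hP : 0 ≤ D * |C| := by (clear * - hD0; positivity)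
  have hP2 : 0 ≤ D * |C| * |C| := by (clear * - hD0; positivity)
  refine ⟨D + D * |C| + D * |C| * |C|, ⟨?_, ?_, ?_⟩⟩
  · refine ⟨fun t ht => hF.m0.comp (hn.m0 t ht),
      fun t ht => (hF.m1.comp (hn.m0 t ht)).mul (hn.mt t ht),
      fun t ht => (hF.m1.comp (hn.m0 t ht)).mul (hn.m1 t ht),
      fun t ht => (((hF.m2.comp (hn.m0 t ht)).mul (hn.m1 t ht)).mul (hn.m1 t ht)).add
        ((hF.m1.comp (hn.m0 t ht)).mul (hn.m2 t ht)),
      fun t ht x => ?_, fun t ht x => ?_,
      fun t ht x => ?_, fun t ht x => ?_, fun t ht x x' hx' => ?_, fun t ht x => ?_,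
      fun t ht x => ?_⟩
    · have := (hD _ (hmem' t ht x)).1
      linarith
    · have := mul_le_mul (hD _ (hmem' t ht x)).2.1 ((hn.bt t ht x).trans hK) (abs_nonneg _) hD0
      rw [abs_mul]
      linarith only [hD0, hP2, this]
    · have := mul_le_mul (hD _ (hmem' t ht x)).2.1 ((hn.b1 t ht x).trans hK) (abs_nonneg _) hD0
      rw [abs_mul]
      linarith only [hD0, hP2, this]
    · have e1 := mul_le_mul (hD _ (hmem' t ht x)).2.1 ((hn.b2 t ht x).trans hK) (abs_nonneg _) hD0
      have e2 := mul_le_mul (mul_le_mul (hD _ (hmem' t ht x)).2.2 ((hn.b1 t ht x).trans hK)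
        (abs_nonneg _) hD0) ((hn.b1 t ht x).trans hK) (abs_nonneg _) hP
      refine (abs_add_le _ _).trans ?_
      rw [abs_mul, abs_mul, abs_mul]
      linarith only [hD0, e1, e2]
    · have e1 := (hF.d1 _ (hmem' t ht (x t))).comp t (hn.path t ht x x' hx')
      refine e1.congr_deriv ?_
      ring
    · exact (hF.d1 _ (hmem' t ht x)).comp x (hn.d1 t ht x)
    · exact ((hF.d2 _ (hmem' t ht x)).comp x (hn.d1 t ht x)).mul (hn.d2 t ht x)
  · exact hF.c0.comp hf.cont fun p hp => hmem p.1 hp.1 p.2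
  · intro t ht x
    have := (hD _ (hmem t ht x)).1
    linarith

lemma Flow.mul {σ C K : ℝ} {h ht hx hxx k kt kx kxx : ℝ → ℝ → ℝ}
    (hf : Flow σ C h ht hx hxx) (kf : Flow σ K k kt kx kxx) :
    ∃ C', Flow σ C' (fun t x => h t x * k t x) (fun t x => ht t x * k t x + h t x * kt t x)
      (fun t x => hx t x * k t x + h t x * kx t x)
      (fun t x => hxx t x * k t x + hx t x * kx t x + (hx t x * kx t x + h t x * kxx t x)) := by
  have hn := hf.nice
  have kn := kf.nice
  have hC : C ≤ |C| := le_abs_self C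
  have hK : K ≤ |K| := le_abs_self K
  have hC0 : 0 ≤ |C| := abs_nonneg C
  have hK0 : 0 ≤ |K| := abs_nonneg K
  have hP : 0 ≤ |C| * |K| := by (clear * -; positivity)
  have hm : ∀ {a b : ℝ}, |a| ≤ C → |b| ≤ K → |a * b| ≤ |C| * |K| := by
    intro a b ha hb
    rw [abs_mul]
    exact mul_le_mul (ha.trans hC) (hb.trans hK) (abs_nonneg _) hC0
  refine ⟨4 * (|C| * |K|), ⟨?_, ?_, ?_⟩⟩
  · refine ⟨fun t ht => (hn.m0 t ht).mul (kn.m0 t ht),
      fun t ht => ((hn.mt t ht).mul (kn.m0 t ht)).add ((hn.m0 t ht).mul (kn.mt t ht)),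
      fun t ht => ((hn.m1 t ht).mul (kn.m0 t ht)).add ((hn.m0 t ht).mul (kn.m1 t ht)),
      fun t ht => (((hn.m2 t ht).mul (kn.m0 t ht)).add ((hn.m1 t ht).mul (kn.m1 t ht))).add
        (((hn.m1 t ht).mul (kn.m1 t ht)).add ((hn.m0 t ht).mul (kn.m2 t ht))),
      fun t ht x => ?_, fun t ht x => ?_,
      fun t ht x => ?_, fun t ht x => ?_, fun t ht x x' hx' => ?_, fun t ht x => ?_,
      fun t ht x => ?_⟩
    · have := hm (hn.b0 t ht x) (kn.b0 t ht x)
      linarith only [hP, this]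
    · have e1 := hm (hn.bt t ht x) (kn.b0 t ht x)
      have e2 := hm (hn.b0 t ht x) (kn.bt t ht x)
      refine (abs_add_le _ _).trans ?_
      linarith only [hP, e1, e2]
    · have e1 := hm (hn.b1 t ht x) (kn.b0 t ht x)
      have e2 := hm (hn.b0 t ht x) (kn.b1 t ht x)
      refine (abs_add_le _ _).trans ?_
      linarith
    · have e1 := hm (hn.b2 t ht x) (kn.b0 t ht x)
      have e2 := hm (hn.b1 t ht x) (kn.b1 t ht x)
      have e3 := hm (hn.b0 t ht x) (kn.b2 t ht x)
      refine (abs_add_le _ _).trans ((add_le_add (abs_add_le _ _) (abs_add_le _ _)).trans ?_)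
      linarith only [e1, e2, e3]
    · have e1 := (hn.path t ht x x' hx').mul (kn.path t ht x x' hx')
      refine e1.congr_deriv ?_
      ring
    · exact (hn.d1 t ht x).mul (kn.d1 t ht x)
    · exact ((hn.d2 t ht x).mul (kn.d1 t ht x)).add ((hn.d1 t ht x).mul (kn.d2 t ht x))
  · exact hf.cont.mul kf.cont
  · intro t ht x
    have := hm (hf.bdd t ht x) (kf.bdd t ht x)
    linarith only [hP, this]

/-! ### Bounds -/

lemma pow_mem_Icc {m a b : ℝ} (hm : 0 < m) (ha : 0 < a) {W : ℝ → ℝ} (hWa : ∀ x, a ≤ W x)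
    (hWb : ∀ x, W x ≤ b) (x : ℝ) : W x ^ m ∈ Set.Icc (a ^ m) (b ^ m) :=
  ⟨Real.rpow_le_rpow ha.le (hWa x) hm.le,
    Real.rpow_le_rpow (ha.le.trans (hWa x)) (hWb x) hm.le⟩

lemma heat_mem_Icc {g : ℝ → ℝ} (hg : Measurable g) {A B : ℝ} (h : ∀ x, g x ∈ Set.Icc A B)
    (s x : ℝ) : heat s g x ∈ Set.Icc A B := by
  have hint : Integrable (fun z => g (x + √s * z)) (gaussianReal 0 1) :=
    integrable_heat hg (C := |A| + |B|) (fun y => by
      have h1 := (h y).1
      have h2 := (h y).2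
      rw [abs_le]
      constructor
      · have := neg_abs_le A
        have := abs_nonneg B
        (clear hg s x h2; linarith)
      · have := le_abs_self B
        have := abs_nonneg A
        (clear hg s x h1; linarith)) s x
  unfold heat
  constructor
  · calc A = ∫ _z, A ∂(gaussianReal 0 1) := by simp
      _ ≤ _ := integral_mono (integrable_const _) hint fun z => (h _).1
  · calc _ ≤ ∫ _z, B ∂(gaussianReal 0 1) := integral_mono hint (integrable_const _) fun z => (h _).2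
      _ = B := by simp

/-- bounds are preserved -/
theorem flowW_mem {m σ a b t : ℝ} (hm : 0 < m) (ha : 0 < a) {W : ℝ → ℝ} (hWm : Measurable W)
    (hWa : ∀ x, a ≤ W x) (hWb : ∀ x, W x ≤ b) (x : ℝ) :
    a ≤ flowW m σ W t x ∧ flowW m σ W t x ≤ b := by
  have h1 := heat_mem_Icc (g := fun y => W y ^ m) (hWm.pow_const m) (pow_mem_Icc hm ha hWa hWb)
    (σ - t) x
  have hb : 0 < b := ha.trans_le ((hWa 0).trans (hWb 0))
  have ham : 0 < a ^ m := Real.rpow_pos_of_pos ha m
  unfold flowW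
  constructor
  · calc a = (a ^ m) ^ (1 / m) := by
          rw [← Real.rpow_mul ha.le, mul_one_div_cancel hm.ne', Real.rpow_one]
      _ ≤ _ := Real.rpow_le_rpow ham.le h1.1 (by positivity)
  · calc _ ≤ (b ^ m) ^ (1 / m) := Real.rpow_le_rpow (ham.le.trans h1.1) h1.2 (by positivity)
      _ = b := by rw [← Real.rpow_mul hb.le, mul_one_div_cancel hm.ne', Real.rpow_one]

lemma heat_zero (g : ℝ → ℝ) (x : ℝ) : heat 0 g x = g x := by
  unfold heat
  simp

theorem flowW_end {m σ a : ℝ} (hm : 0 < m) (ha : 0 < a) {W : ℝ → ℝ} (hWa : ∀ x, a ≤ W x)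
    (x : ℝ) : flowW m σ W σ x = W x := by
  unfold flowW
  rw [sub_self, heat_zero, ← Real.rpow_mul (ha.le.trans (hWa x)), mul_one_div_cancel hm.ne',
    Real.rpow_one]

theorem flowh_end {m σ a : ℝ} (_hm : 0 < m) (ha : 0 < a) {W h : ℝ → ℝ} (hWa : ∀ x, a ≤ W x)
    (x : ℝ) : flowh m σ W h σ x = h x := by
  unfold flowh
  rw [sub_self, heat_zero, heat_zero]
  have : W x ^ m ≠ 0 := (Real.rpow_pos_of_pos (ha.trans_le (hWa x)) m).ne'
  field_simp

theorem flowh_one {m σ t a b : ℝ} (hm : 0 < m) (ha : 0 < a) {W : ℝ → ℝ} (hWm : Measurable W)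
    (hWa : ∀ x, a ≤ W x) (hWb : ∀ x, W x ≤ b) (x : ℝ) : flowh m σ W (fun _ => 1) t x = 1 := by
  have h1 := heat_mem_Icc (g := fun y => W y ^ m) (hWm.pow_const m) (pow_mem_Icc hm ha hWa hWb)
    (σ - t) x
  have ham : 0 < a ^ m := Real.rpow_pos_of_pos ha m
  unfold flowh
  simp only [one_mul]
  exact div_self (ham.trans_le h1.1).ne'

/-! ### Regularity -/

lemma CB2.rpow {m a b : ℝ} (ha : 0 < a) {W W' W'' : ℝ → ℝ}
    (hW : CB2 W W' W'') (hWa : ∀ x, a ≤ W x) (hWb : ∀ x, W x ≤ b) :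
    ∃ g' g'', CB2 (fun y => W y ^ m) g' g'' :=
  ⟨_, _, hW.outer (fun x => ⟨hWa x, hWb x⟩) (outer_rpow ha m)⟩

lemma CB2.heat {g g' g'' : ℝ → ℝ} (h : CB2 g g' g'') (s : ℝ) :
    CB2 (heat s g) (Par.heat s g') (Par.heat s g'') := by
  obtain ⟨C0, h0⟩ := h.b0
  obtain ⟨C1, h1⟩ := h.b1
  obtain ⟨C2, h2⟩ := h.b2
  exact ⟨fun x => heat_hasDerivAt h.d1 h.cont1 h0 h1 _ x,
    fun x => heat_hasDerivAt h.d2 h.c2 h1 h2 _ x, heat_continuous_x h.c2 h2 _,
    ⟨C0, heat_abs_le h0 s⟩, ⟨C1, heat_abs_le h1 s⟩, ⟨C2, heat_abs_le h2 s⟩⟩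

/-- Regularity is preserved. -/
theorem flowW_cb2 {m σ a b t : ℝ} (hm : 0 < m) (ha : 0 < a) {W W' W'' : ℝ → ℝ}
    (hW : CB2 W W' W'') (hWa : ∀ x, a ≤ W x) (hWb : ∀ x, W x ≤ b) :
    ∃ V' V'', CB2 (flowW m σ W t) V' V'' := by
  obtain ⟨g', g'', hg⟩ := hW.rpow (m := m) ha hWa hWb
  have hmem : ∀ x, heat (σ - t) (fun y => W y ^ m) x ∈ Set.Icc (a ^ m) (b ^ m) :=
    heat_mem_Icc hg.cont.measurable (pow_mem_Icc hm ha hWa hWb) (σ - t)
  exact ⟨_, _, (hg.heat (σ - t)).outer hmem (outer_rpow (Real.rpow_pos_of_pos ha m) (1 / m))⟩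

theorem flowh_cb2 {m σ a b t : ℝ} (hm : 0 < m) (ha : 0 < a) {W W' W'' h h' h'' : ℝ → ℝ}
    (hW : CB2 W W' W'') (hWa : ∀ x, a ≤ W x) (hWb : ∀ x, W x ≤ b) (hh : CB2 h h' h'') :
    ∃ g' g'', CB2 (flowh m σ W h t) g' g'' := by
  obtain ⟨g', g'', hg⟩ := hW.rpow (m := m) ha hWa hWb
  have hmem : ∀ x, heat (σ - t) (fun y => W y ^ m) x ∈ Set.Icc (a ^ m) (b ^ m) :=
    heat_mem_Icc hg.cont.measurable (pow_mem_Icc hm ha hWa hWb) (σ - t)
  have h1 := ((hh.mul hg).heat (σ - t)).mul
    ((hg.heat (σ - t)).outer hmem (outer_inv (Real.rpow_pos_of_pos ha m)))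
  exact ⟨_, _, h1⟩

/-- Jensen -/
theorem flowh_sq {m σ a b t : ℝ} (hm : 0 < m) (ha : 0 < a) {W h : ℝ → ℝ} (hWm : Measurable W)
    (hWa : ∀ x, a ≤ W x) (hWb : ∀ x, W x ≤ b) (hhm : Measurable h) {C : ℝ} (hC : ∀ x, |h x| ≤ C)
    (x : ℝ) : flowh m σ W h t x ^ 2 ≤ flowh m σ W (fun y => h y ^ 2) t x := by
  have hC0 : 0 ≤ C := (abs_nonneg _).trans (hC 0)
  have hpow := pow_mem_Icc hm ha hWa hWb
  have hgm : Measurable fun y => W y ^ m := hWm.pow_const m
  have h1 := heat_mem_Icc (g := fun y => W y ^ m) hgm hpow (σ - t) x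
  have ham : 0 < a ^ m := Real.rpow_pos_of_pos ha m
  have hbW : ∀ y, |W y ^ m| ≤ b ^ m := fun y => by
    rw [abs_of_pos (ham.trans_le (hpow y).1)]
    exact (hpow y).2
  have i0 : Integrable (fun z => W (x + √(σ - t) * z) ^ m) (gaussianReal 0 1) :=
    integrable_heat hgm hbW _ _
  have i1 : Integrable (fun z => h (x + √(σ - t) * z) * W (x + √(σ - t) * z) ^ m)
      (gaussianReal 0 1) :=
    integrable_heat (g := fun y => h y * W y ^ m) (hhm.mul hgm) (C := C * b ^ m) (fun y => by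
      rw [abs_mul]
      exact mul_le_mul (hC y) (hbW y) (abs_nonneg _) hC0) _ _
  have i2 : Integrable (fun z => h (x + √(σ - t) * z) ^ 2 * W (x + √(σ - t) * z) ^ m)
      (gaussianReal 0 1) :=
    integrable_heat (g := fun y => h y ^ 2 * W y ^ m) ((hhm.pow_const 2).mul hgm)
      (C := C ^ 2 * b ^ m) (fun y => by
      rw [abs_mul, abs_pow]
      exact mul_le_mul (pow_le_pow_left₀ (abs_nonneg _) (hC y) 2) (hbW y) (abs_nonneg _)
        (by (clear * -; positivity))) _ _
  unfold flowh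
  have hD : 0 < heat (σ - t) (fun y => W y ^ m) x := ham.trans_le h1.1
  set D := heat (σ - t) (fun y => W y ^ m) x with hDdef
  set N1 := heat (σ - t) (fun y => h y * W y ^ m) x with hN1
  set N2 := heat (σ - t) (fun y => h y ^ 2 * W y ^ m) x with hN2
  have hkey : 0 ≤ N2 - 2 * (N1 / D) * N1 + (N1 / D) ^ 2 * D := by
    have e1 : N2 - 2 * (N1 / D) * N1 + (N1 / D) ^ 2 * D =
        ∫ z, (h (x + √(σ - t) * z) - N1 / D) ^ 2 * W (x + √(σ - t) * z) ^ m
          ∂(gaussianReal 0 1) := by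
      have e2 : ∀ z, (h (x + √(σ - t) * z) - N1 / D) ^ 2 * W (x + √(σ - t) * z) ^ m =
          (h (x + √(σ - t) * z) ^ 2 * W (x + √(σ - t) * z) ^ m -
            2 * (N1 / D) * (h (x + √(σ - t) * z) * W (x + √(σ - t) * z) ^ m)) +
            (N1 / D) ^ 2 * W (x + √(σ - t) * z) ^ m := by
        intro z; ring
      simp only [e2]
      have i3 : Integrable (fun z => h (x + √(σ - t) * z) ^ 2 * W (x + √(σ - t) * z) ^ m -
            2 * (N1 / D) * (h (x + √(σ - t) * z) * W (x + √(σ - t) * z) ^ m))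
          (gaussianReal 0 1) := i2.sub (i1.const_mul _)
      rw [integral_add i3 (i0.const_mul _),
        integral_sub i2 (i1.const_mul _), integral_const_mul, integral_const_mul]
      rfl
    rw [e1]
    refine integral_nonneg fun z => ?_
    have := (ham.trans_le (hpow (x + √(σ - t) * z)).1).le
    (clear * - this; positivity)
  have e3 : N2 - 2 * (N1 / D) * N1 + (N1 / D) ^ 2 * D = N2 - N1 ^ 2 / D := by
    field_simp
    ring
  rw [e3] at hkey
  rw [div_pow, div_le_div_iff₀ (by (clear * - hD; positivity)) hD]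
  have e4 : N1 ^ 2 / D ≤ N2 := by linarith only [hkey]
  rw [div_le_iff₀ hD] at e4
  (by_contra nlg; linarith only [nlg, mul_pos (sub_pos.2 (not_le.1 nlg)) (sub_pos.2 hD), mul_nonneg (sq_nonneg (D : ℝ)) (sub_nonneg.2 e4)])

/-! ### The equations -/

/-- The main statement. -/
theorem flow_exists {m σ a b : ℝ} (hm : 0 < m) (_hσ : 0 < σ) (ha : 0 < a) {W W' W'' : ℝ → ℝ}
    (hW : CB2 W W' W'') (hWa : ∀ x, a ≤ W x) (hWb : ∀ x, W x ≤ b) :
    ∃ C : ℝ, ∃ Wt Wx Wxx : ℝ → ℝ → ℝ, Flow σ C (flowW m σ W) Wt Wx Wxx ∧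
      (∀ t ∈ Set.Ioo 0 σ, ∀ x, LL Wt Wxx t x = 1 / 2 * (1 - m) * Wx t x ^ 2 / flowW m σ W t x) ∧
      ∀ {h h' h'' : ℝ → ℝ}, CB2 h h' h'' → ∃ C' : ℝ, ∃ ht hx hxx : ℝ → ℝ → ℝ,
        Flow σ C' (flowh m σ W h) ht hx hxx ∧
        ∀ t ∈ Set.Ioo 0 σ, ∀ x,
          LL ht hxx t x = - m * (Wx t x / flowW m σ W t x) * hx t x := by
  obtain ⟨g', g'', hg⟩ := hW.rpow (m := m) ha hWa hWb
  have ham : 0 < a ^ m := Real.rpow_pos_of_pos ha m
  have hmem : ∀ t x, heat (σ - t) (fun y => W y ^ m) x ∈ Set.Icc (a ^ m) (b ^ m) := fun t x =>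
    heat_mem_Icc hg.cont.measurable (pow_mem_Icc hm ha hWa hWb) (σ - t) x
  obtain ⟨C0, hu⟩ := heat_flow hg σ
  obtain ⟨C1, hU⟩ := hu.outer (fun t _ x => hmem t x) (outer_rpow ham (1 / m))
  obtain ⟨C2, hV⟩ := hu.outer (fun t _ x => hmem t x) (outer_inv ham)
  refine ⟨C1, _, _, _, hU, ?_, ?_⟩
  · intro t _ x
    have hu0 : 0 < heat (σ - t) (fun y => W y ^ m) x := ham.trans_le (hmem t x).1
    unfold LL flowW
    beta_reduce
    set u := heat (σ - t) (fun y => W y ^ m) x with hudef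
    simp only [Real.rpow_sub_one hu0.ne']
    have hP : 0 < u ^ (1 / m) := Real.rpow_pos_of_pos hu0 _
    set P := u ^ (1 / m) with hPdef
    field_simp
    ring
  · intro h h' h'' hh
    obtain ⟨C3, hN⟩ := heat_flow (hh.mul hg) σ
    obtain ⟨C4, hH⟩ := hN.mul hV
    refine ⟨C4, _, _, _, hH, ?_⟩
    intro t _ x
    have hu0 : 0 < heat (σ - t) (fun y => W y ^ m) x := ham.trans_le (hmem t x).1
    unfold LL flowW
    beta_reduce
    set u := heat (σ - t) (fun y => W y ^ m) x with hudef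
    rw [Real.rpow_sub_one hu0.ne']
    have hP : 0 < u ^ (1 / m) := Real.rpow_pos_of_pos hu0 _
    set P := u ^ (1 / m) with hPdef
    field_simp
    ring

end Vale.Agent.P157.Par
end

section

open MeasureTheory ProbabilityTheory Filter Topology Finset

namespace Vale.Agent.P157.Par

set_option linter.unusedSectionVars false

namespace Arr

variable {k : ℕ} {w : Fin (k + 1) → ℝ} {δ : Type} [Fintype δ] [DecidableEq δ]

lemma slice_continuous {S : Set ℝ} {f : ℝ → ℝ → ℝ}
    (hf : ContinuousOn (fun p : ℝ × ℝ => f p.1 p.2) (S ×ˢ Set.univ)) {t : ℝ} (ht : t ∈ S) :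
    Continuous (f t) := by
  rw [← continuousOn_univ]
  exact hf.comp (f := fun x : ℝ => (t, x)) (by fun_prop) fun x _ => ⟨ht, trivial⟩

lemma T_continuousOn (𝓐 : Arr k w δ) (c : Fin (k + 1) → ℝ) (l : Fin (k + 1))
    (χ : LM k δ → ℝ) {S : Set ℝ} {C : ℝ} {A : δ → ℝ → ℝ → ℝ} {v : ℝ → ℝ → ℝ}
    (hA : ∀ i, ContinuousOn (fun p : ℝ × ℝ => A i p.1 p.2) (S ×ˢ Set.univ))
    (hv : ContinuousOn (fun p : ℝ × ℝ => v p.1 p.2) (S ×ˢ Set.univ))
    (bA : ∀ i, ∀ t ∈ S, ∀ x, |A i t x| ≤ C) (bv : ∀ t ∈ S, ∀ x, |v t x| ≤ C) (n : ℕ) :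
    ContinuousOn (fun s => 𝓐.T (Function.update c l s) χ (fun i => A i s) (v s) (Fin n)) S := by
  unfold T
  apply 𝓐.E_continuousOn
  intro L
  apply ContinuousOn.mul continuousOn_const
  have h := gE_continuousOn (S := S) (U := fun s => UL (Function.update c l s) L)
    (h := (famT A v : δ ⊕ Fin n → ℝ → ℝ → ℝ)) (C := C) ?_ ?_ ?_ ?_
  · simp only [famT_apply] at h
    exact h
  · intro a p
    unfold UL
    by_cases h : p.2 = cl L p.1 a
    · simp only [h, if_true]
      by_cases h' : p.1 = l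
      · subst h'
        simp only [Function.update_self]
        exact Real.continuous_sqrt.continuousOn
      · simp only [Function.update_of_ne h']
        exact continuousOn_const
    · simp only [h, if_false]
      exact continuousOn_const
  · rintro (i | j)
    · exact hA i
    · exact hv
  · rintro (i | j) t ht
    · exact (slice_continuous (hA i) ht).measurable
    · exact (slice_continuous hv ht).measurable
  · rintro (i | j) t ht x
    · exact bA i t ht x
    · exact bv t ht x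

lemma Q_continuousOn (𝓐 : Arr k w δ) (e : ℕ) (c : Fin (k + 1) → ℝ) (l : Fin (k + 1))
    (χ : LM k δ → ℝ) {S : Set ℝ} {C a : ℝ} {A : δ → ℝ → ℝ → ℝ} {v : ℝ → ℝ → ℝ}
    (hA : ∀ i, ContinuousOn (fun p : ℝ × ℝ => A i p.1 p.2) (S ×ˢ Set.univ))
    (hv : ContinuousOn (fun p : ℝ × ℝ => v p.1 p.2) (S ×ˢ Set.univ))
    (bA : ∀ i, ∀ t ∈ S, ∀ x, |A i t x| ≤ C) (ha0 : 0 ≤ a) (ha : a < 1)
    (bv : ∀ t ∈ S, ∀ x, |v t x| ≤ a) :
    ContinuousOn (fun s => 𝓐.Q e (Function.update c l s) χ (fun i => A i s) (v s)) S := by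
  obtain ⟨X, hX0, hX⟩ := exists_abs_bound χ
  have h1 : Summable fun n : ℕ => ((n + e).choose e : ℝ) * a ^ n :=
    summable_choose_mul_geometric_of_norm_lt_one e (by rwa [Real.norm_eq_abs, abs_of_nonneg ha0])
  unfold Q
  apply continuousOn_tsum (u := fun n : ℕ => (𝓐.C * X * |C| ^ Fintype.card δ) *
    (((n + e).choose e : ℝ) * a ^ n))
  · intro n
    apply ContinuousOn.mul continuousOn_const
    exact 𝓐.T_continuousOn c l χ (C := max |C| a) hA hv
      (fun i t ht x => ((bA i t ht x).trans (le_abs_self C)).trans (le_max_left _ _))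
      (fun t ht x => (bv t ht x).trans (le_max_right _ _)) n
  · exact h1.mul_left _
  · intro n s hs
    rw [norm_mul, Real.norm_eq_abs, Real.norm_eq_abs, abs_of_nonneg (by (clear * -; positivity))]
    have h2 := 𝓐.T_le (Function.update c l s) hX (A := fun i => A i s) (v := v s)
      (fun i x => (bA i s hs x).trans (le_abs_self C)) (bv s hs) n
    calc ((n + e).choose e : ℝ) * _ ≤ ((n + e).choose e : ℝ) *
          (𝓐.C * X * |C| ^ Fintype.card δ * a ^ n) := mul_le_mul_of_nonneg_left h2 (by (clear * -; positivity))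
      _ = _ := by ring

/-- Collapse of the level `l` for functionals with special indices. -/
theorem Q_collapse (𝓐 : Arr k w δ) {e : ℕ} (he : Fintype.card δ = e + 1)
    {c : Fin (k + 1) → ℝ} (hc : ∀ l, 0 ≤ c l) {l : Fin (k + 1)}
    (hcl : ∀ l', l < l' → c l' = 0) (hm : up w l < 1) (χ : LM k δ → ℝ)
    {a : ℝ} (ha : 0 < a) {W W' W'' : ℝ → ℝ} (hW : CB2 W W' W'') (hWa : ∀ x, a ≤ W x)
    (hW1 : ∀ x, W x ≤ 1) {h h' h'' : δ → ℝ → ℝ} (hh : ∀ i, CB2 (h i) (h' i) (h'' i))
    (cons : ∀ i j, i ≠ j → (∀ L, Ultra L → χ L * lk l i j L = 0) ∨ (h i = fun _ => 1) ∨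
      (h j = fun _ => 1)) :
    𝓐.Q e c χ (fun i x => h i x * W x) (fun x => 1 - W x) =
      𝓐.Q e (Function.update c l 0) χ
        (fun i x => flowh (1 - up w l) (c l) W (h i) 0 x * flowW (1 - up w l) (c l) W 0 x)
        (fun x => 1 - flowW (1 - up w l) (c l) W 0 x) := by
  have hm0 : 0 < 1 - up w l := by linarith only [hm]
  rcases (hc l).eq_or_lt with h0 | hσ
  · have e1 : Function.update c l 0 = c := by rw [h0, Function.update_eq_self]
    have e2 : ∀ x, flowW (1 - up w l) (c l) W 0 x = W x := by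
      intro x
      rw [← h0]
      exact flowW_end hm0 ha hWa x
    have e3 : ∀ i x, flowh (1 - up w l) (c l) W (h i) 0 x = h i x := by
      intro i x
      rw [← h0]
      exact flowh_end hm0 ha hWa x
    simp only [e1, e2, e3]
  set m := 1 - up w l with hmdef
  set σ := c l with hσdef
  obtain ⟨C0, Wt, Wx, Wxx, fW, pW, hrest⟩ := flow_exists hm0 hσ ha hW hWa hW1
  have hex : ∀ i, ∃ C' : ℝ, ∃ ht hx hxx : ℝ → ℝ → ℝ, Flow σ C' (flowh m σ W (h i)) ht hx hxx ∧
        ∀ t ∈ Set.Ioo 0 σ, ∀ x,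
          LL ht hxx t x = - m * (Wx t x / flowW m σ W t x) * hx t x := fun i => hrest (hh i)
  choose C1 ht hx hxx fh ph using hex
  obtain ⟨C2, hC2⟩ : ∃ C2 : ℝ, ∀ i, C1 i ≤ C2 :=
    ⟨∑ i, |C1 i|, fun i => (le_abs_self _).trans
      (Finset.single_le_sum (f := fun i => |C1 i|) (fun _ _ => abs_nonneg _) (Finset.mem_univ i))⟩
  have hWm : Measurable W := hW.cont.measurable
  have hmem : ∀ t x, a ≤ flowW m σ W t x ∧ flowW m σ W t x ≤ 1 := fun t x =>
    flowW_mem hm0 ha hWm hWa hW1 x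
  have hb : ∀ t x, |1 - flowW m σ W t x| ≤ 1 - a := by
    intro t x
    obtain ⟨h1, h2⟩ := hmem t x
    rw [abs_of_nonneg (by linarith only [h2])]
    linarith only [h1]
  have ha1 : a ≤ 1 := (hWa 0).trans (hW1 0)
  have hone : ∀ i, (h i = fun _ => 1) → ∀ t x, flowh m σ W (h i) t x = 1 := by
    intro i hi t x
    rw [hi]
    exact flowh_one hm0 ha hWm hWa hW1 x
  have hone' : ∀ i, (h i = fun _ => 1) → ∀ t ∈ Set.Ioo 0 σ, ∀ x, hx i t x = 0 := by
    intro i hi t ht' x
    have h1 := (fh i).nice.d1 t ht' x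
    have h2 : flowh m σ W (h i) t = fun _ => 1 := funext fun x => hone i hi t x
    rw [h2] at h1
    exact h1.unique (hasDerivAt_const x 1)
  set G : ℝ → ℝ := fun t => 𝓐.Q e (Function.update c l t) χ
    (fun i x => flowh m σ W (h i) t x * flowW m σ W t x) (fun x => 1 - flowW m σ W t x) with hG
  set CC : ℝ := max C0 C2 with hCC
  have fh' : ∀ i, Nice (Set.Ioo 0 σ) CC (flowh m σ W (h i)) (ht i) (hx i) (hxx i) := fun i =>
    (fh i).nice.mono ((hC2 i).trans (le_max_right _ _))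
  have fW' : Nice (Set.Ioo 0 σ) CC (flowW m σ W) Wt Wx Wxx := fW.nice.mono (le_max_left _ _)
  -- derivative
  have hderiv : ∀ t ∈ Set.Ioo 0 σ, HasDerivAt G 0 t := by
    intro t ht'
    have hA := fun i => (nice_mul (fh' i) fW').mono (le_max_left (4 * CC ^ 2) (1 + CC))
    have hv := (nice_one_sub fW').mono (le_max_right (4 * CC ^ 2) (1 + CC))
    have h1 := 𝓐.Q_hasDerivAt e hc l χ hA hv (by linarith only [ha1] : 0 ≤ 1 - a) (by linarith only [ha])
      (fun t _ x => hb t x) ht'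
    refine h1.congr_deriv ?_
    have hct : ∀ l', 0 ≤ Function.update c l t l' := by
      intro l'
      by_cases h : l' = l
      · subst h; rw [Function.update_self]; exact ht'.1.le
      · rw [Function.update_of_ne h]; exact hc l'
    have hclt : ∀ l', l < l' → Function.update c l t l' = 0 := by
      intro l' hl'
      rw [Function.update_of_ne hl'.ne']
      exact hcl l' hl'
    have bW : BM (flowW m σ W t) := ⟨fW'.m0 t ht', CC, fW'.b0 t ht'⟩
    have bWt : BM (Wt t) := ⟨fW'.mt t ht', CC, fW'.bt t ht'⟩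
    have bWx : BM (Wx t) := ⟨fW'.m1 t ht', CC, fW'.b1 t ht'⟩
    have bWxx : BM (Wxx t) := ⟨fW'.m2 t ht', CC, fW'.b2 t ht'⟩
    have bh : ∀ i, BM (flowh m σ W (h i) t) := fun i =>
      ⟨(fh' i).m0 t ht', CC, (fh' i).b0 t ht'⟩
    have bht : ∀ i, BM (ht i t) := fun i => ⟨(fh' i).mt t ht', CC, (fh' i).bt t ht'⟩
    have bhx : ∀ i, BM (hx i t) := fun i => ⟨(fh' i).m1 t ht', CC, (fh' i).b1 t ht'⟩
    have bhxx : ∀ i, BM (hxx i t) := fun i => ⟨(fh' i).m2 t ht', CC, (fh' i).b2 t ht'⟩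
    have hWne : ∀ x, flowW m σ W t x ≠ 0 := fun x => (ha.trans_le (hmem t x).1).ne'
    have hu : up w l = 1 - m := by rw [hmdef]; ring
    -- identification of the space-time operator
    have eLv : LL (fun t x => -Wt t x) (fun t x => -Wxx t x) t =
        fun x => -(1 / 2 * up w l * (Wx t x ^ 2 / flowW m σ W t x)) := by
      funext x
      have := pW t ht' x
      unfold LL at this ⊢
      rw [hu]
      linear_combination -this
    have eLA : ∀ i, LL (fun t x => ht i t x * flowW m σ W t x +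
        flowh m σ W (h i) t x * Wt t x) (fun t x => hxx i t x * flowW m σ W t x +
          2 * (hx i t x * Wx t x) + flowh m σ W (h i) t x * Wxx t x) t =
        fun x => up w l * ((hx i t x * flowW m σ W t x + flowh m σ W (h i) t x * Wx t x) *
          (Wx t x / flowW m σ W t x)) - 1 / 2 * (up w l *
          (flowh m σ W (h i) t x * flowW m σ W t x * (Wx t x ^ 2 / flowW m σ W t x ^ 2))) := by
      intro i
      funext x
      have h1 := pW t ht' x
      have h2 := ph i t ht' x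
      have h3 := hWne x
      unfold LL at h1 h2 ⊢
      beta_reduce
      rw [hu]
      have h4 : ht i t x = -m * (Wx t x / flowW m σ W t x) * hx i t x - 1 / 2 * hxx i t x := by
        linarith only [h2]
      have h5 : Wt t x = 1 / 2 * (1 - m) * Wx t x ^ 2 / flowW m σ W t x - 1 / 2 * Wxx t x := by
        linarith only [h1]
      rw [h4, h5]
      field_simp
      ring
    rw [𝓐.tsum_dT e l _ χ (fun i => (bh i).mul bW) _ _ _ _ (by linarith only [ha1] : 0 ≤ 1 - a)
      (by linarith only [ha]) (fun x => hb t x)]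
    · simp only [eLA, eLv]
      exact 𝓐.conservation e χ he hct hclt (by linarith only [ha1] : 0 ≤ 1 - a) (by linarith only [ha]) bW.meas
        (fun x => hb t x) bWx (fun i => (bh i).mul bW)
        (fun i => ((bhx i).mul bW).add ((bh i).mul bWx))
        (fun i x => rfl) (fun i j hij => by
          rcases cons i j hij with h1 | h1 | h1
          · exact Or.inl h1
          · right
            intro x
            have h2 := hone' i h1 t ht' x
            have h3 := hWne x
            rw [h2]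
            field_simp
            ring
          · right
            intro x
            have h2 := hone' j h1 t ht' x
            have h3 := hWne x
            rw [h2]
            field_simp
            ring)
    · intro i
      exact (((bht i).mul bW).add ((bh i).mul bWt)).add ((BM.const (1 / 2)).mul
        ((((bhxx i).mul bW).add ((BM.const 2).mul ((bhx i).mul bWx))).add ((bh i).mul bWxx)))
    · intro i
      exact ((bhx i).mul bW).add ((bh i).mul bWx)
    · exact bWt.neg.add ((BM.const (1 / 2)).mul bWxx.neg)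
    · exact bWx.neg
  have hcont : ContinuousOn G (Set.Icc 0 σ) := by
    apply 𝓐.Q_continuousOn e c l χ (C := CC ^ 2) (a := 1 - a)
      (A := fun i t x => flowh m σ W (h i) t x * flowW m σ W t x)
      (v := fun t x => 1 - flowW m σ W t x)
    · intro i
      exact (fh i).cont.mul fW.cont
    · exact continuousOn_const.sub fW.cont
    · intro i t ht' x
      rw [abs_mul, sq]
      have h1 := ((fh i).bdd t ht' x).trans ((hC2 i).trans (le_max_right C0 C2))
      have h2 := (fW.bdd t ht' x).trans (le_max_left C0 C2)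
      exact mul_le_mul h1 h2 (abs_nonneg _) ((abs_nonneg _).trans h1)
    · linarith only [ha1]
    · linarith only [ha]
    · intro t _ x
      exact hb t x
  obtain ⟨t, ht', hslope⟩ := exists_hasDerivAt_eq_slope G (fun _ => 0) hσ hcont hderiv
  have hfin : G σ = G 0 := by
    have hne : σ - 0 ≠ 0 := by linarith only [hσ]
    have := hslope.symm
    rw [div_eq_zero_iff] at this
    rcases this with h1 | h1
    · linarith only [h1]
    · exact absurd h1 hne
  have hGσ : G σ = 𝓐.Q e c χ (fun i x => h i x * W x) (fun x => 1 - W x) := by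
    simp only [hG]
    have e1 : Function.update c l σ = c := by rw [hσdef, Function.update_eq_self]
    have e2 : ∀ x, flowW m σ W σ x = W x := fun x => flowW_end hm0 ha hWa x
    have e3 : ∀ i x, flowh m σ W (h i) σ x = h i x := fun i x => flowh_end hm0 ha hWa x
    simp only [e1, e2, e3]
  rw [← hGσ, hfin]

end Arr

end Vale.Agent.P157.Par
end

section

open MeasureTheory ProbabilityTheory Filter Topology Finset

namespace Vale.Agent.P157.Par

set_option linter.unusedSectionVars false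

/-- The empty family. -/
def noA : Empty → ℝ → ℝ := fun i => i.elim

namespace Arr

variable {k : ℕ} {w : Fin (k + 1) → ℝ}

/-- The logarithm series: `-E log ⟨1 - v⟩ = ∑ E ⟨v⟩^n / n`. -/
noncomputable def Lg (𝓐 : Arr k w Empty) (c : Fin (k + 1) → ℝ) (v : ℝ → ℝ) : ℝ :=
  ∑' n : ℕ, 1 / ((n : ℝ) + 1) * 𝓐.T c (fun _ => 1) noA v (Fin (n + 1))

lemma T_empty_le (𝓐 : Arr k w Empty) (c : Fin (k + 1) → ℝ) {v : ℝ → ℝ} {a : ℝ}
    (hv : ∀ x, |v x| ≤ a) (n : ℕ) :
    |𝓐.T c (fun _ => 1) noA v (Fin n)| ≤ 𝓐.C * a ^ n := by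
  have h := 𝓐.T_le c (χ := fun _ => 1) (X := 1) (fun _ => by simp) (A := noA) (C := 1)
    (fun i => i.elim) hv n
  simpa only [ge_iff_le, mul_one, Fintype.card_eq_zero, pow_zero] using h

lemma Lg_summable (𝓐 : Arr k w Empty) (c : Fin (k + 1) → ℝ) {v : ℝ → ℝ} {a : ℝ}
    (ha0 : 0 ≤ a) (ha : a < 1) (hv : ∀ x, |v x| ≤ a) :
    Summable fun n : ℕ => 1 / ((n : ℝ) + 1) * 𝓐.T c (fun _ => 1) noA v (Fin (n + 1)) := by
  have h1 : Summable fun n : ℕ => a ^ n := summable_geometric_of_lt_one ha0 ha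
  refine Summable.of_norm_bounded (h1.mul_left 𝓐.C) fun n => ?_
  rw [norm_mul, Real.norm_eq_abs, Real.norm_eq_abs, abs_of_nonneg (by positivity)]
  have h2 := 𝓐.T_empty_le c hv (n + 1)
  have h3 : 1 / ((n : ℝ) + 1) ≤ 1 := by
    rw [div_le_one (by (clear * -; positivity))]; linarith [Nat.cast_nonneg (α := ℝ) n]
  have hC := 𝓐.C_nonneg
  calc 1 / ((n : ℝ) + 1) * |𝓐.T c (fun _ => 1) noA v (Fin (n + 1))| ≤
      1 * (𝓐.C * a ^ (n + 1)) := mul_le_mul h3 h2 (abs_nonneg _) zero_le_one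
    _ = 𝓐.C * a ^ n * a := by ring
    _ ≤ 𝓐.C * a ^ n * 1 := by (clear * - ha hC ha0; gcongr)
    _ = 𝓐.C * a ^ n := mul_one _

lemma Lg_continuousOn (𝓐 : Arr k w Empty) (c : Fin (k + 1) → ℝ) (l : Fin (k + 1))
    {S : Set ℝ} {a : ℝ} {v : ℝ → ℝ → ℝ}
    (hv : ContinuousOn (fun p : ℝ × ℝ => v p.1 p.2) (S ×ˢ Set.univ))
    (ha0 : 0 ≤ a) (ha : a < 1) (bv : ∀ t ∈ S, ∀ x, |v t x| ≤ a) :
    ContinuousOn (fun s => 𝓐.Lg (Function.update c l s) (v s)) S := by
  have h1 : Summable fun n : ℕ => a ^ n := summable_geometric_of_lt_one ha0 ha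
  unfold Lg
  apply continuousOn_tsum (u := fun n : ℕ => 𝓐.C * a ^ n)
  · intro n
    apply ContinuousOn.mul continuousOn_const
    exact 𝓐.T_continuousOn c l (fun _ => 1) (C := a) (A := fun i _ => noA i) (v := v)
      (fun i => i.elim) hv (fun i => i.elim) bv (n + 1)
  · exact h1.mul_left _
  · intro n s hs
    rw [norm_mul, Real.norm_eq_abs, Real.norm_eq_abs, abs_of_nonneg (by (clear * -; positivity))]
    have h2 := 𝓐.T_empty_le (Function.update c l s) (bv s hs) (n + 1)
    have h3 : 1 / ((n : ℝ) + 1) ≤ 1 := by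
      rw [div_le_one (by (clear * -; positivity))]; linarith only []
    have hC := 𝓐.C_nonneg
    calc 1 / ((n : ℝ) + 1) * |𝓐.T (Function.update c l s) (fun _ => 1) noA (v s) (Fin (n + 1))| ≤
        1 * (𝓐.C * a ^ (n + 1)) := mul_le_mul h3 h2 (abs_nonneg _) zero_le_one
      _ = 𝓐.C * a ^ n * a := by ring
      _ ≤ 𝓐.C * a ^ n * 1 := by (clear * - ha hC ha0; gcongr)
      _ = 𝓐.C * a ^ n := mul_one _

/-- The derivative of the logarithm series. -/
theorem Lg_hasDerivAt (𝓐 : Arr k w Empty) {c : Fin (k + 1) → ℝ}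
    (hc : ∀ l, 0 ≤ c l) (l : Fin (k + 1)) {σ C a : ℝ} {v vt vx vxx : ℝ → ℝ → ℝ}
    (hv : Nice (Set.Ioo 0 σ) C v vt vx vxx) (ha0 : 0 ≤ a) (ha : a < 1)
    (hva : ∀ t ∈ Set.Ioo 0 σ, ∀ x, |v t x| ≤ a) {t : ℝ} (ht : t ∈ Set.Ioo 0 σ) :
    HasDerivAt (fun s => 𝓐.Lg (Function.update c l s) (v s))
      (𝓐.mark.Q 0 (Function.update c l t) (fun _ => 1) (ext (LL vt vxx t) noA) (v t) +
        1 / 2 * 𝓐.mark.mark.Q 1 (Function.update c l t)
          (fun L => lift (lift fun _ => 1) L * lk l (some none) none L)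
          (ext (vx t) (ext (vx t) noA)) (v t)) t := by
  set b := max a (1 / 2) with hb
  have hb0 : 0 < b := lt_of_lt_of_le (by norm_num) (le_max_right _ _)
  have hb1 : b < 1 := max_lt ha (by norm_num)
  set C' := max 1 (2 * |C|) with hC'
  have hC1 : 1 ≤ C' := le_max_left _ _
  have hCC : |C| ≤ C' := (by (clear * -; linarith [abs_nonneg C]) : |C| ≤ 2 * |C|).trans (le_max_right _ _)
  have hCC0 : C ≤ C' := (le_abs_self C).trans hCC
  have hLL : ∀ t ∈ Set.Ioo 0 σ, ∀ x, |LL vt vxx t x| ≤ C' := by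
    intro t ht' x
    unfold LL
    have h1 := hv.bt t ht' x
    have h2 := hv.b2 t ht' x
    have h3 := abs_add_le (vt t x) (1 / 2 * vxx t x)
    rw [abs_mul, abs_of_pos (by norm_num : (0:ℝ) < 1 / 2)] at h3
    have h4 : 2 * |C| ≤ C' := le_max_right _ _
    have h5 := le_abs_self C
    linarith [abs_nonneg C]
  have hsum := summable_dT_bound 0 hb0.le hb1
    (𝓐.C * 1 * C' ^ (Fintype.card Empty + 2) * (Fintype.card Empty + 1) ^ 2 / b ^ 2)
  have hsum' := (summable_nat_add_iff 1).2 hsum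
  have key : HasDerivAt (fun s => 𝓐.Lg (Function.update c l s) (v s))
      (∑' n : ℕ, 1 / ((n : ℝ) + 1) * 𝓐.dT l (Function.update c l t) (fun _ => 1) noA noA noA
        (v t) (LL vt vxx t) (vx t) (n + 1)) t := by
    apply hasDerivAt_tsum_of_isPreconnected hsum' isOpen_Ioo
      isPreconnected_Ioo (g := fun (n : ℕ) s => 1 / ((n : ℝ) + 1) *
        𝓐.T (Function.update c l s) (fun _ => 1) noA (v s) (Fin (n + 1)))
      (g' := fun (n : ℕ) t => 1 / ((n : ℝ) + 1) * 𝓐.dT l (Function.update c l t) (fun _ => 1) noA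
        noA noA (v t) (LL vt vxx t) (vx t) (n + 1)) (y₀ := t) _ _ ht _ ht
    · intro n s hs
      have h1 := 𝓐.T_hasDerivAt hc l (fun _ => 1) (A := fun i _ => noA i)
        (At := fun i _ => noA i) (Ax := fun i _ => noA i) (Axx := fun i _ => noA i)
        (fun i => i.elim) hv hs (n + 1)
      have h2 : (fun i : Empty => LL (fun _ => noA i) (fun _ => noA i) s) = noA :=
        funext fun i => i.elim
      rw [h2] at h1
      exact h1.const_mul _
    · intro n s hs
      rw [norm_mul, Real.norm_eq_abs, Real.norm_eq_abs, abs_of_nonneg (by (clear * -; positivity))]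
      have h1 := 𝓐.dT_le l (Function.update c l s) (χ := fun _ => 1) (X := 1)
        (fun _ => by simp) (A := noA) (LA := noA) (Ax := noA) hC1
        (fun i => i.elim) (fun i => i.elim) (fun i => i.elim)
        (fun x => (hva s hs x).trans (le_max_left _ _)) (fun x => hLL s hs x)
        (fun x => (hv.b1 s hs x).trans hCC0) hb0 hb1.le (n + 1)
      have h3 : 1 / ((n : ℝ) + 1) ≤ 1 := by
        rw [div_le_one (by (clear * -; positivity))]; linarith only []
      have h4 := mul_le_mul h3 h1 (abs_nonneg _) zero_le_one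
      refine h4.trans (le_of_eq ?_)
      rw [← hb, one_mul]
      simp only [mul_one, Fintype.card_eq_zero, zero_add, CharP.cast_eq_zero, one_pow, Nat.cast_add, Nat.cast_one, add_zero, Nat.choose_zero_right, one_mul]
    · exact 𝓐.Lg_summable _ ha0 ha (hva t ht)
  refine key.congr_deriv ?_
  have bv : BM (v t) := ⟨hv.m0 t ht, C, hv.b0 t ht⟩
  have bvx : BM (vx t) := ⟨hv.m1 t ht, C, hv.b1 t ht⟩
  have bLv : BM (LL vt vxx t) :=
    (⟨hv.mt t ht, C, hv.bt t ht⟩ : BM (vt t)).add
      ((BM.const (1 / 2)).mul ⟨hv.m2 t ht, C, hv.b2 t ht⟩)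
  set c' := Function.update c l t with hc'
  have bn : ∀ i : Empty, BM (noA i) := fun i => i.elim
  have q1 := 𝓐.mark.Q_summable 0 c' (fun _ => 1) (BM_ext bn bLv) ha0 ha (hva t ht)
  have q2 := 𝓐.mark.mark.Q_summable 1 c'
    (fun L => lift (lift fun _ => 1) L * lk l (some none) none L)
    (BM_ext (BM_ext bn bvx) bvx) ha0 ha (hva t ht)
  have q3 := tsum_shift 0 _ q2
  have hterm : ∀ n : ℕ, 1 / ((n : ℝ) + 1) * 𝓐.dT l c' (fun _ => 1) noA
        noA noA (v t) (LL vt vxx t) (vx t) (n + 1) =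
      ((n + 0).choose 0 : ℝ) * 𝓐.mark.T c' (fun _ => 1) (ext (LL vt vxx t) noA) (v t) (Fin n) +
      1 / 2 * (((n + 0).choose 0 : ℝ) * (n * 𝓐.mark.mark.T c'
        (fun L => lift (lift fun _ => 1) L * lk l (some none) none L)
        (ext (vx t) (ext (vx t) noA)) (v t) (Fin (n - 1)))) := by
    intro n
    unfold dT
    have hn : ((n : ℝ) + 1) ≠ 0 := by (clear * -; positivity)
    have h1 : (lift fun _ : LM k Empty => (1 : ℝ)) = fun _ => 1 := rfl
    simp only [Finset.univ_eq_empty, Finset.sum_empty, mul_zero, zero_add, add_zero,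
      Nat.add_sub_cancel, Nat.choose_zero_right, Nat.cast_one, one_mul, h1]
    rw [show n + 1 - 2 = n - 1 from by (clear * -; omega)]
    push_cast
    have e3 : 𝓐.mark.T c' (fun _ => 1) (ext (LL vt vxx t) noA) (v t) (Fin (n + 1 - 1)) =
        𝓐.mark.T c' (fun _ => 1) (ext (LL vt vxx t) noA) (v t) (Fin n) := rfl
    rw [e3]
    (clear * - hn; field_simp)
  simp_rw [hterm]
  rw [q1.tsum_add (q3.1.mul_left _), tsum_mul_left, q3.2]
  unfold Q
  simp only [add_zero, Nat.choose_zero_right, Nat.cast_one, one_mul, one_div, zero_add, Nat.choose_one_right, Nat.cast_add]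

/-- Collapse of the level `l` for the logarithm. -/
theorem Lg_collapse (𝓐 : Arr k w Empty)
    {c : Fin (k + 1) → ℝ} (hc : ∀ l, 0 ≤ c l) {l : Fin (k + 1)}
    (hcl : ∀ l', l < l' → c l' = 0) (hm : up w l < 1)
    {a : ℝ} (ha : 0 < a) {W W' W'' : ℝ → ℝ} (hW : CB2 W W' W'') (hWa : ∀ x, a ≤ W x)
    (hW1 : ∀ x, W x ≤ 1) :
    𝓐.Lg c (fun x => 1 - W x) =
      𝓐.Lg (Function.update c l 0) (fun x => 1 - flowW (1 - up w l) (c l) W 0 x) := by
  have hm0 : 0 < 1 - up w l := by linarith only [hm]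
  rcases (hc l).eq_or_lt with h0 | hσ
  · have e1 : Function.update c l 0 = c := by rw [h0, Function.update_eq_self]
    have e2 : ∀ x, flowW (1 - up w l) (c l) W 0 x = W x := by
      intro x
      rw [← h0]
      exact flowW_end hm0 ha hWa x
    simp only [e1, e2]
  set m := 1 - up w l with hmdef
  set σ := c l with hσdef
  obtain ⟨C0, Wt, Wx, Wxx, fW, pW, -⟩ := flow_exists hm0 hσ ha hW hWa hW1
  have hWm : Measurable W := hW.cont.measurable
  have hmem : ∀ t x, a ≤ flowW m σ W t x ∧ flowW m σ W t x ≤ 1 := fun t x =>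
    flowW_mem hm0 ha hWm hWa hW1 x
  have hb : ∀ t x, |1 - flowW m σ W t x| ≤ 1 - a := by
    intro t x
    obtain ⟨h1, h2⟩ := hmem t x
    rw [abs_of_nonneg (by linarith only [h2])]
    linarith only [h1]
  have ha1 : a ≤ 1 := (hWa 0).trans (hW1 0)
  set G : ℝ → ℝ := fun t => 𝓐.Lg (Function.update c l t) (fun x => 1 - flowW m σ W t x) with hG
  have hderiv : ∀ t ∈ Set.Ioo 0 σ, HasDerivAt G 0 t := by
    intro t ht'
    have hv := nice_one_sub fW.nice
    have h1 := 𝓐.Lg_hasDerivAt hc l hv (by linarith only [ha1] : 0 ≤ 1 - a) (by linarith only [ha])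
      (fun t _ x => hb t x) ht'
    refine h1.congr_deriv ?_
    have hct : ∀ l', 0 ≤ Function.update c l t l' := by
      intro l'
      by_cases h : l' = l
      · subst h; rw [Function.update_self]; exact ht'.1.le
      · rw [Function.update_of_ne h]; exact hc l'
    have hclt : ∀ l', l < l' → Function.update c l t l' = 0 := by
      intro l' hl'
      rw [Function.update_of_ne hl'.ne']
      exact hcl l' hl'
    have bW : BM (flowW m σ W t) := ⟨fW.nice.m0 t ht', C0, fW.nice.b0 t ht'⟩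
    have bWx : BM (Wx t) := ⟨fW.nice.m1 t ht', C0, fW.nice.b1 t ht'⟩
    have hWne : ∀ x, flowW m σ W t x ≠ 0 := fun x => (ha.trans_le (hmem t x).1).ne'
    have hu : up w l = 1 - m := by rw [hmdef]; ring
    have hinv : BM fun x => (flowW m σ W t x)⁻¹ := by
      refine ⟨bW.meas.inv, a⁻¹, fun x => ?_⟩
      rw [abs_of_pos (inv_pos.2 (ha.trans_le (hmem t x).1))]
      exact inv_anti₀ ha (hmem t x).1
    have bR : BM fun x => -(Wx t x * (flowW m σ W t x)⁻¹) := (bWx.mul hinv).neg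
    have bn : ∀ i : Empty, BM (noA i) := fun i => i.elim
    have s1 := 𝓐.mark.Q_stab (e := 0) (by simp) hct hclt (lift fun _ => 1)
      (A := ext (fun x => -Wx t x) noA) (v := fun x => 1 - flowW m σ W t x)
      (BM_ext bn bWx.neg) (measurable_const.sub bW.meas) (by linarith only [ha1] : 0 ≤ 1 - a)
      (by linarith only [ha]) (fun x => hb t x) none (G := fun x => -Wx t x) bWx.neg bR
    have x1 : (fun x => -(Wx t x * (flowW m σ W t x)⁻¹) * (1 - (1 - flowW m σ W t x))) =
        fun x => -Wx t x := by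
      funext x
      have := hWne x
      field_simp
      ring
    rw [x1, ext_update_none, ext_update_none, Fintype.sum_option, 𝓐.mark.Q_lk_self] at s1
    have x2 : (fun x => -Wx t x * -(Wx t x * (flowW m σ W t x)⁻¹)) =
        fun x => Wx t x ^ 2 / flowW m σ W t x := by
      funext x; ring
    rw [x2] at s1
    simp only [Finset.univ_eq_empty, Finset.sum_empty, add_zero] at s1
    have s2 : 𝓐.mark.Q 0 (Function.update c l t) (fun _ => 1)
        (ext (LL (fun t x => -Wt t x) (fun t x => -Wxx t x) t) noA)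
        (fun x => 1 - flowW m σ W t x) = -(1 / 2 * up w l) *
        𝓐.mark.Q 0 (Function.update c l t) (fun _ => 1)
        (ext (fun x => Wx t x ^ 2 / flowW m σ W t x) noA)
        (fun x => 1 - flowW m σ W t x) := by
      have h := 𝓐.mark.Q_update_smul 0 (Function.update c l t) (fun _ => 1)
        (ext (fun x => Wx t x ^ 2 / flowW m σ W t x) noA) (fun x => 1 - flowW m σ W t x) none
        (fun x => Wx t x ^ 2 / flowW m σ W t x) (-(1 / 2 * up w l))
      rw [ext_update_none, ext_update_none] at h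
      rw [← h]
      congr 2
      funext x
      have := pW t ht' x
      unfold LL at this ⊢
      beta_reduce
      rw [hu]
      linear_combination -this
    rw [s2]
    have e0 : (lift fun _ : LM k Empty => (1 : ℝ)) = fun _ => 1 := rfl
    rw [e0] at s1 ⊢
    norm_num at s1 ⊢
    rw [s1]
    ring
  have hcont : ContinuousOn G (Set.Icc 0 σ) := by
    apply 𝓐.Lg_continuousOn c l (a := 1 - a) (v := fun t x => 1 - flowW m σ W t x)
    · exact continuousOn_const.sub fW.cont
    · linarith only [ha1]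
    · linarith only [ha]
    · intro t _ x
      exact hb t x
  obtain ⟨t, ht', hslope⟩ := exists_hasDerivAt_eq_slope G (fun _ => 0) hσ hcont hderiv
  have hfin : G σ = G 0 := by
    have hne : σ - 0 ≠ 0 := by linarith only [hσ]
    have := hslope.symm
    rw [div_eq_zero_iff] at this
    rcases this with h1 | h1
    · linarith only [h1]
    · exact absurd h1 hne
  have hGσ : G σ = 𝓐.Lg c (fun x => 1 - W x) := by
    simp only [hG]
    have e1 : Function.update c l σ = c := by rw [hσdef, Function.update_eq_self]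
    have e2 : ∀ x, flowW m σ W σ x = W x := fun x => flowW_end hm0 ha hWa x
    simp only [e1, e2]
  rw [← hGσ, hfin]

end Arr

end Vale.Agent.P157.Par
end

section

open MeasureTheory ProbabilityTheory Filter Topology Finset

namespace Vale.Agent.P157.Par

set_option linter.unusedSectionVars false

open Vale.Agent.P367.GT (gM)

namespace Arr

variable {k : ℕ} {w : Fin (k + 1) → ℝ} {δ : Type} [Fintype δ] [DecidableEq δ]

lemma up_zero : up w 0 = ∑ l, w l := by
  unfold up
  simp only [zero_le, ↓reduceIte]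

/-- Marginals. -/
lemma E_drop (𝓐 : Arr k w δ) (hw : ∑ l, w l = 1) (ι : Type) [Fintype ι] [DecidableEq ι]
    (i : δ ⊕ ι) (A : LM k (δ ⊕ ι) → ℝ) :
    𝓐.E (Option ι) (fun L => A (fun a b => L (Sum.map id some a) (Sum.map id some b))) =
      𝓐.E ι A := by
  have h := 𝓐.gg_link ι A i 0
  simp only [Fin.zero_le, if_true, mul_one, up_zero, hw, one_mul] at h
  rw [Finset.sum_const, Finset.card_univ, Fintype.card_sum, nsmul_eq_mul] at h
  have h2 : (0 : ℝ) < (Fintype.card δ : ℝ) + Fintype.card ι := by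
    have : 0 < Fintype.card (δ ⊕ ι) := Fintype.card_pos_iff.2 ⟨i⟩
    rw [Fintype.card_sum] at this
    exact_mod_cast this
  push_cast at h
  have h3 : ((Fintype.card δ : ℝ) + Fintype.card ι) *
      (𝓐.E (Option ι) (fun L => A (fun a b => L (Sum.map id some a) (Sum.map id some b))) -
        𝓐.E ι A) = 0 := by linarith only [h]
  rcases mul_eq_zero.1 h3 with h4 | h4
  · linarith only [h2, h4]
  · linarith only [h4]

lemma E_marg (𝓐 : Arr k w δ) (hw : ∑ l, w l = 1) (i : δ) (χ : LM k δ → ℝ) (n : ℕ) :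
    𝓐.E (Fin n) (fun L => χ (res L)) = 𝓐.E (Fin 0) (fun L => χ (res L)) := by
  induction n with
  | zero => rfl
  | succ n ih =>
    rw [← ih, ← 𝓐.E_drop hw (Fin n) (Sum.inl i) (fun L => χ (res L)),
      ← 𝓐.reindex (Fin (n + 1)) (Option (Fin n)) (finSuccEquivLast)]
    rfl

lemma E_one (𝓐 : Arr k w Empty) (hw : ∑ l, w l = 1) (n : ℕ) :
    𝓐.E (Fin (n + 1)) (fun _ => 1) = 𝓐.E (Fin 1) (fun _ => 1) := by
  induction n with
  | zero => rfl
  | succ n ih =>
    rw [← ih, ← 𝓐.E_drop hw (Fin (n + 1)) (Sum.inr 0) (fun _ => 1),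
      ← 𝓐.reindex (Fin (n + 1 + 1)) (Option (Fin (n + 1))) (finSuccEquivLast)]

end Arr

lemma gE_level0 {k : ℕ} {J : Type} [Fintype J] [DecidableEq J] {c : Fin (k + 1) → ℝ}
    (hc : ∀ l, 0 ≤ c l) (hc0 : ∀ l, l ≠ 0 → c l = 0) {L : LM k J} (hL : Ultra L)
    {f : J → ℝ → ℝ} (hf : ∀ a, Measurable (f a)) :
    gE (UL c L) f = ∫ z, ∏ a, f a (√(c 0) * z) ∂(gaussianReal 0 1) := by
  have h1 : gE (UL c L) f = gE (fun (_ : J) (_ : Unit) => √(c 0)) f := by
    apply gE_congr_gram _ hf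
    intro a b
    rw [gram_UL hc hL]
    unfold gram
    rw [Fintype.sum_eq_single (0 : Fin (k + 1))]
    · simp only [zero_le, ↓reduceIte, univ_unique, PUnit.default_eq_unit, Real.mul_self_sqrt (hc 0), sum_const, card_singleton, one_smul]
    · intro l hl
      rw [hc0 l hl]
      simp only [ite_self]
  rw [h1]
  unfold gE gM
  have h2 := (measurePreserving_funUnique (gaussianReal 0 1) Unit).integral_comp'
    (g := fun z : ℝ => ∏ a, f a (√(c 0) * z))
  rw [← h2]
  congr 1
  funext ξ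
  simp only [lin, univ_unique, PUnit.default_eq_unit, sum_singleton, MeasurableEquiv.funUnique_apply]

namespace Arr

variable {k : ℕ} {w : Fin (k + 1) → ℝ} {δ : Type} [Fintype δ] [DecidableEq δ]

lemma T_level0 (𝓐 : Arr k w δ) (hw : ∑ l, w l = 1) (i : δ) {c : Fin (k + 1) → ℝ}
    (hc : ∀ l, 0 ≤ c l) (hc0 : ∀ l, l ≠ 0 → c l = 0) (χ : LM k δ → ℝ) {A : δ → ℝ → ℝ}
    {v : ℝ → ℝ} (hA : ∀ i, Measurable (A i)) (hv : Measurable v) (n : ℕ) :
    𝓐.T c χ A v (Fin n) = 𝓐.E (Fin 0) (fun L => χ (res L)) *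
      ∫ z, (∏ i, A i (√(c 0) * z)) * v (√(c 0) * z) ^ n ∂(gaussianReal 0 1) := by
  rw [← 𝓐.E_marg hw i χ n, mul_comm, ← smul_eq_mul, ← map_smul]
  unfold T
  apply 𝓐.congr_ultra
  intro L hL
  rw [gE_level0 hc hc0 hL (measurable_fam hA hv), Pi.smul_apply, smul_eq_mul, mul_comm]
  congr 1
  congr 1
  funext z
  rw [Fintype.prod_sum_type]
  simp only [fam, Sum.elim_inl, Sum.elim_inr, prod_const, card_univ, Fintype.card_fin]

lemma T_level0_empty (𝓐 : Arr k w Empty) (hw : ∑ l, w l = 1) {c : Fin (k + 1) → ℝ}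
    (hc : ∀ l, 0 ≤ c l) (hc0 : ∀ l, l ≠ 0 → c l = 0) {v : ℝ → ℝ} (hv : Measurable v) (n : ℕ) :
    𝓐.T c (fun _ => 1) noA v (Fin (n + 1)) = 𝓐.E (Fin 1) (fun _ => 1) *
      ∫ z, v (√(c 0) * z) ^ (n + 1) ∂(gaussianReal 0 1) := by
  rw [← 𝓐.E_one hw n, mul_comm, ← smul_eq_mul, ← map_smul]
  unfold T
  apply 𝓐.congr_ultra
  intro L hL
  rw [gE_level0 hc hc0 hL (measurable_fam (fun i : Empty => i.elim) hv), Pi.smul_apply,
    smul_eq_mul, mul_one, one_mul]
  congr 1
  funext z
  rw [Fintype.prod_sum_type]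
  simp only [univ_eq_empty, fam, Sum.elim_inl, prod_empty, Sum.elim_inr, prod_const, card_univ, Fintype.card_fin, one_mul]

/-- The value of the resummed functional when only the level `0` is left. -/
theorem Q_level0 (𝓐 : Arr k w δ) (hw : ∑ l, w l = 1) {e : ℕ} (he : Fintype.card δ = e + 1)
    {c : Fin (k + 1) → ℝ} (hc : ∀ l, 0 ≤ c l) (hc0 : ∀ l, l ≠ 0 → c l = 0) (χ : LM k δ → ℝ)
    {h : δ → ℝ → ℝ} {W : ℝ → ℝ} (hh : ∀ i, BM (h i)) (hWm : Measurable W) {a : ℝ} (ha : 0 < a)
    (hWa : ∀ x, a ≤ W x) (hW1 : ∀ x, W x ≤ 1) :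
    𝓐.Q e c χ (fun i x => h i x * W x) (fun x => 1 - W x) =
      𝓐.E (Fin 0) (fun L => χ (res L)) *
        ∫ z, ∏ i, h i (√(c 0) * z) ∂(gaussianReal 0 1) := by
  have hne : Nonempty δ := Fintype.card_pos_iff.1 (by omega)
  obtain ⟨i⟩ := hne
  have ha1 : a ≤ 1 := (hWa 0).trans (hW1 0)
  obtain ⟨B, hB0, hB⟩ := exists_bound hh
  unfold Q
  have hT := fun n => 𝓐.T_level0 hw i hc hc0 χ (A := fun i x => h i x * W x)
    (v := fun x => 1 - W x) (fun i => (hh i).meas.mul hWm) (measurable_const.sub hWm) n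
  simp_rw [hT]
  have e1 : ∀ n : ℕ, ((n + e).choose e : ℝ) * (𝓐.E (Fin 0) (fun L => χ (res L)) *
      ∫ z, (∏ i, (h i (√(c 0) * z) * W (√(c 0) * z))) * (1 - W (√(c 0) * z)) ^ n
        ∂(gaussianReal 0 1)) = 𝓐.E (Fin 0) (fun L => χ (res L)) *
      ∫ z, (∏ i, h i (√(c 0) * z)) * (W (√(c 0) * z) ^ (e + 1) *
        (((n + e).choose e : ℝ) * (1 - W (√(c 0) * z)) ^ n)) ∂(gaussianReal 0 1) := by
    intro n
    rw [mul_left_comm, ← integral_const_mul]
    congr 2
    funext z
    rw [Finset.prod_mul_distrib, Finset.prod_const, Finset.card_univ, he]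
    ring
  simp_rw [e1]
  rw [tsum_mul_left]
  congr 1
  have hbd : ∀ z : ℝ, |1 - W (√(c 0) * z)| ≤ 1 - a := by
    intro z
    have h1 := hWa (√(c 0) * z)
    have h2 := hW1 (√(c 0) * z)
    rw [abs_of_nonneg (by linarith only [h2])]
    linarith only [h1]
  have hmz : Measurable fun z : ℝ => √(c 0) * z := by fun_prop
  have hprodm : Measurable fun z : ℝ => ∏ i, h i (√(c 0) * z) :=
    Finset.measurable_prod _ fun i _ => (hh i).meas.comp hmz
  have hprodb : ∀ z : ℝ, |∏ i, h i (√(c 0) * z)| ≤ B ^ Fintype.card δ := by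
    intro z
    have := abs_prod_le (s := Finset.univ) (f := fun i => h i (√(c 0) * z)) (C := B)
      (fun i _ => hB i _)
    simpa only [ge_iff_le, card_univ] using this
  have hterm : ∀ (n : ℕ) (z : ℝ), ‖(∏ i, h i (√(c 0) * z)) * (W (√(c 0) * z) ^ (e + 1) *
        (((n + e).choose e : ℝ) * (1 - W (√(c 0) * z)) ^ n))‖ ≤
      B ^ Fintype.card δ * (((n + e).choose e : ℝ) * (1 - a) ^ n) := by
    intro n z
    rw [Real.norm_eq_abs, abs_mul, abs_mul, abs_mul, abs_pow, abs_pow, Nat.abs_cast]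
    have h1 : |W (√(c 0) * z)| ≤ 1 := by
      rw [abs_of_nonneg (ha.le.trans (hWa _))]; exact hW1 _
    have h2 : |W (√(c 0) * z)| ^ (e + 1) ≤ 1 := pow_le_one₀ (abs_nonneg _) h1
    have h3 := pow_le_pow_left₀ (abs_nonneg _) (hbd z) n
    calc _ ≤ B ^ Fintype.card δ * (1 * (((n + e).choose e : ℝ) * (1 - a) ^ n)) := by
          gcongr
          exact hprodb z
      _ = _ := by ring
  have hmeas : ∀ n : ℕ, Measurable fun z : ℝ => (∏ i, h i (√(c 0) * z)) *
      (W (√(c 0) * z) ^ (e + 1) * (((n + e).choose e : ℝ) * (1 - W (√(c 0) * z)) ^ n)) := by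
    intro n
    exact hprodm.mul (((hWm.comp hmz).pow_const _).mul
      (((measurable_const.sub (hWm.comp hmz)).pow_const _).const_mul _))
  have hint : ∀ n : ℕ, Integrable (fun z : ℝ => (∏ i, h i (√(c 0) * z)) *
      (W (√(c 0) * z) ^ (e + 1) * (((n + e).choose e : ℝ) * (1 - W (√(c 0) * z)) ^ n)))
      (gaussianReal 0 1) := fun n =>
    Integrable.of_bound (hmeas n).aestronglyMeasurable _ (Eventually.of_forall (hterm n))
  have hsumg : Summable fun n : ℕ => ((n + e).choose e : ℝ) * (1 - a) ^ n :=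
    summable_choose_mul_geometric_of_norm_lt_one e (by
      rw [Real.norm_eq_abs, abs_of_nonneg (by linarith only [ha1])]; linarith only [ha])
  have hsum : Summable fun n : ℕ => ∫ z, ‖(∏ i, h i (√(c 0) * z)) *
      (W (√(c 0) * z) ^ (e + 1) * (((n + e).choose e : ℝ) * (1 - W (√(c 0) * z)) ^ n))‖
      ∂(gaussianReal 0 1) := by
    refine Summable.of_nonneg_of_le (fun n => integral_nonneg fun z => norm_nonneg _) (fun n => ?_)
      (hsumg.mul_left (B ^ Fintype.card δ))
    have h1 := integral_mono (hint n).norm (integrable_const _) (hterm n)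
    rwa [integral_const, probReal_univ, one_smul] at h1
  rw [integral_tsum_of_summable_integral_norm hint hsum]
  congr 1
  funext z
  have hW0 : 0 < W (√(c 0) * z) := ha.trans_le (hWa _)
  rw [tsum_mul_left, tsum_mul_left]
  have h1 := tsum_choose_mul_geometric_of_norm_lt_one (𝕜 := ℝ) e (r := 1 - W (√(c 0) * z)) (by
    rw [Real.norm_eq_abs]; exact (hbd z).trans_lt (by linarith only [ha]))
  rw [h1]
  have h2 : 1 - (1 - W (√(c 0) * z)) = W (√(c 0) * z) := by ring
  rw [h2]
  (clear * - hW0; field_simp)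

/-- The value of the logarithm when only the level `0` is left. -/
theorem Lg_level0 (𝓐 : Arr k w Empty) (hw : ∑ l, w l = 1)
    {c : Fin (k + 1) → ℝ} (hc : ∀ l, 0 ≤ c l) (hc0 : ∀ l, l ≠ 0 → c l = 0)
    {W : ℝ → ℝ} (hWm : Measurable W) {a : ℝ} (ha : 0 < a)
    (hWa : ∀ x, a ≤ W x) (hW1 : ∀ x, W x ≤ 1) :
    𝓐.Lg c (fun x => 1 - W x) = - (𝓐.E (Fin 1) (fun _ => 1) *
        ∫ z, Real.log (W (√(c 0) * z)) ∂(gaussianReal 0 1)) := by
  have ha1 : a ≤ 1 := (hWa 0).trans (hW1 0)
  unfold Lg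
  have hT := fun n => 𝓐.T_level0_empty hw hc hc0 (v := fun x => 1 - W x)
    (measurable_const.sub hWm) n
  simp_rw [hT]
  have hbd : ∀ z : ℝ, |1 - W (√(c 0) * z)| ≤ 1 - a := by
    intro z
    have h1 := hWa (√(c 0) * z)
    have h2 := hW1 (√(c 0) * z)
    rw [abs_of_nonneg (by linarith only [h2])]
    linarith only [h1]
  have hmz : Measurable fun z : ℝ => √(c 0) * z := by fun_prop
  have e1 : ∀ n : ℕ, 1 / ((n : ℝ) + 1) * (𝓐.E (Fin 1) (fun _ => 1) *
      ∫ z, (1 - W (√(c 0) * z)) ^ (n + 1) ∂(gaussianReal 0 1)) =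
      𝓐.E (Fin 1) (fun _ => 1) * ∫ z, (1 - W (√(c 0) * z)) ^ (n + 1) / ((n : ℝ) + 1)
        ∂(gaussianReal 0 1) := by
    intro n
    rw [integral_div]
    ring
  simp_rw [e1]
  rw [tsum_mul_left, ← mul_neg]
  congr 1
  have hterm : ∀ (n : ℕ) (z : ℝ), ‖(1 - W (√(c 0) * z)) ^ (n + 1) / ((n : ℝ) + 1)‖ ≤
      (1 - a) ^ n := by
    intro n z
    rw [Real.norm_eq_abs, abs_div, abs_pow, abs_of_nonneg (by (clear * -; positivity) : (0:ℝ) ≤ (n : ℝ) + 1)]
    have h3 := pow_le_pow_left₀ (abs_nonneg _) (hbd z) (n + 1)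
    have h4 : (1 - a) ^ (n + 1) ≤ (1 - a) ^ n := by
      rw [pow_succ]
      exact mul_le_of_le_one_right (pow_nonneg (by linarith) n) (by linarith)
    rw [div_le_iff₀ (by (clear * -; positivity))]
    have h5 : 0 ≤ (1 - a) ^ n := pow_nonneg (by linarith only [ha1]) n
    have h6 : (1 : ℝ) ≤ (n : ℝ) + 1 := by linarith only []
    nlinarith only [h3, h4, h5]
  have hmeas : ∀ n : ℕ, Measurable fun z : ℝ => (1 - W (√(c 0) * z)) ^ (n + 1) / ((n : ℝ) + 1) :=
    fun n => ((measurable_const.sub (hWm.comp hmz)).pow_const _).div_const _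
  have hint : ∀ n : ℕ, Integrable (fun z : ℝ => (1 - W (√(c 0) * z)) ^ (n + 1) / ((n : ℝ) + 1))
      (gaussianReal 0 1) := fun n =>
    Integrable.of_bound (hmeas n).aestronglyMeasurable _ (Eventually.of_forall (hterm n))
  have hsumg : Summable fun n : ℕ => (1 - a) ^ n :=
    summable_geometric_of_lt_one (by linarith) (by linarith only [ha])
  have hsum : Summable fun n : ℕ => ∫ z, ‖(1 - W (√(c 0) * z)) ^ (n + 1) / ((n : ℝ) + 1)‖
      ∂(gaussianReal 0 1) := by
    refine Summable.of_nonneg_of_le (fun n => integral_nonneg fun z => norm_nonneg _) (fun n => ?_)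
      hsumg
    have h1 := integral_mono (hint n).norm (integrable_const _) (hterm n)
    rwa [integral_const, probReal_univ, one_smul] at h1
  rw [integral_tsum_of_summable_integral_norm hint hsum, ← integral_neg]
  congr 1
  funext z
  have h1 := Real.hasSum_pow_div_log_of_abs_lt_one (x := 1 - W (√(c 0) * z))
    ((hbd z).trans_lt (by linarith only [ha]))
  rw [h1.tsum_eq]
  congr 2
  ring

end Arr

end Vale.Agent.P157.Par
end

section

open MeasureTheory ProbabilityTheory Filter Topology Finset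

namespace Vale.Agent.P157.Par

set_option linter.unusedSectionVars false

/-- The weight after `n` steps of the cascade starting from the level `k`. -/
noncomputable def parW (m v : ℕ → ℝ) (k : ℕ) (W : ℝ → ℝ) : ℕ → ℝ → ℝ
  | 0 => W
  | n + 1 => flowW (m (k - n)) (v (k - n)) (parW m v k W n) 0

/-- The weight at the level `l`. -/
noncomputable def lvW (m v : ℕ → ℝ) (k : ℕ) (W : ℝ → ℝ) (l : ℕ) : ℝ → ℝ := parW m v k W (k - l)

/-- The observable after `n` steps of the cascade starting from the level `s`. -/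
noncomputable def parh (m v : ℕ → ℝ) (V : ℕ → ℝ → ℝ) (s : ℕ) (h : ℝ → ℝ) : ℕ → ℝ → ℝ
  | 0 => h
  | n + 1 => flowh (m (s - n)) (v (s - n)) (V (s - n)) (parh m v V s h n) 0

/-- The observable at the level `l ≤ s` when it is `h` at the level `s`. -/
noncomputable def lvh (m v : ℕ → ℝ) (V : ℕ → ℝ → ℝ) (s : ℕ) (h : ℝ → ℝ) (l : ℕ) : ℝ → ℝ :=
  parh m v V s h (s - l)

section

variable {m v : ℕ → ℝ} {k : ℕ} {W : ℝ → ℝ}

lemma lvW_top : lvW m v k W k = W := by simp only [lvW, tsub_self, parW]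

lemma lvW_succ {l : ℕ} (hl : l < k) :
    lvW m v k W l = flowW (m (l + 1)) (v (l + 1)) (lvW m v k W (l + 1)) 0 := by
  unfold lvW
  have h1 : k - l = (k - (l + 1)) + 1 := by omega
  have h2 : k - (k - (l + 1)) = l + 1 := by (clear * - hl; omega)
  rw [h1, parW, h2]

variable {V : ℕ → ℝ → ℝ} {s : ℕ} {h : ℝ → ℝ}

lemma lvh_top : lvh m v V s h s = h := by simp only [lvh, tsub_self, parh]

lemma lvh_succ {l : ℕ} (hl : l < s) :
    lvh m v V s h l = flowh (m (l + 1)) (v (l + 1)) (V (l + 1)) (lvh m v V s h (l + 1)) 0 := by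
  unfold lvh
  have h1 : s - l = (s - (l + 1)) + 1 := by omega
  have h2 : s - (s - (l + 1)) = l + 1 := by omega
  rw [h1, parh, h2]

lemma down_ind {P : ℕ → Prop} {k : ℕ} (top : P k) (step : ∀ l < k, P (l + 1) → P l) :
    ∀ l ≤ k, P l := by
  have h : ∀ d l, l + d = k → P l := by
    intro d
    induction d with
    | zero => intro l hl; rw [add_zero] at hl; rwa [hl]
    | succ d ih => intro l hl; exact step l (by omega) (ih (l + 1) (by omega))
  intro l hl
  exact h (k - l) l (by omega)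

lemma lvh_lvh {l : ℕ} (hl : l ≤ s) :
    ∀ l' ≤ l, lvh m v V l (lvh m v V s h l) l' = lvh m v V s h l' := by
  apply down_ind
  · rw [lvh_top]
  · intro l' hl' ih
    rw [lvh_succ hl', ih, ← lvh_succ (by omega)]

/-- Regularity and bounds of the weights. -/
lemma lvW_spec (hm : ∀ l, 1 ≤ l → l ≤ k → 0 < m l) {a : ℝ} (ha : 0 < a)
    (hW : ∃ W' W'', CB2 W W' W'') (hWa : ∀ x, a ≤ W x) (hW1 : ∀ x, W x ≤ 1) :
    ∀ l ≤ k, (∃ V' V'', CB2 (lvW m v k W l) V' V'') ∧ (∀ x, a ≤ lvW m v k W l x) ∧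
      ∀ x, lvW m v k W l x ≤ 1 := by
  apply down_ind
  · rw [lvW_top]; exact ⟨hW, hWa, hW1⟩
  · intro l hl ih
    obtain ⟨⟨V', V'', hV⟩, h1, h2⟩ := ih
    have hm' := hm (l + 1) (by omega) (by omega)
    rw [lvW_succ hl]
    refine ⟨flowW_cb2 hm' ha hV h1 h2, fun x => ?_, fun x => ?_⟩
    · exact (flowW_mem hm' ha hV.cont.measurable h1 h2 x).1
    · exact (flowW_mem hm' ha hV.cont.measurable h1 h2 x).2

/-- Regularity of the observables. -/
lemma lvh_spec (hm : ∀ l, 1 ≤ l → l ≤ k → 0 < m l) {a : ℝ} (ha : 0 < a)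
    (hV : ∀ l ≤ k, (∃ V' V'', CB2 (V l) V' V'') ∧ (∀ x, a ≤ V l x) ∧ ∀ x, V l x ≤ 1)
    (hs : s ≤ k) (hh : ∃ h' h'', CB2 h h' h'') :
    ∀ l ≤ s, ∃ h' h'', CB2 (lvh m v V s h l) h' h'' := by
  apply down_ind
  · rw [lvh_top]; exact hh
  · intro l hl ih
    obtain ⟨h', h'', ih⟩ := ih
    have hm' := hm (l + 1) (by omega) (by omega)
    obtain ⟨⟨V', V'', hV0⟩, h1, h2⟩ := hV (l + 1) (by omega)
    rw [lvh_succ hl]
    exact flowh_cb2 hm' ha hV0 h1 h2 ih

lemma lvh_one (hm : ∀ l, 1 ≤ l → l ≤ k → 0 < m l) {a : ℝ} (ha : 0 < a)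
    (hV : ∀ l ≤ k, (∃ V' V'', CB2 (V l) V' V'') ∧ (∀ x, a ≤ V l x) ∧ ∀ x, V l x ≤ 1)
    (hs : s ≤ k) : ∀ l ≤ s, lvh m v V s (fun _ => 1) l = fun _ => 1 := by
  apply down_ind
  · rw [lvh_top]
  · intro l hl ih
    have hm' := hm (l + 1) (by omega) (by omega)
    obtain ⟨⟨V', V'', hV0⟩, h1, h2⟩ := hV (l + 1) (by omega)
    rw [lvh_succ hl, ih]
    funext x
    exact flowh_one hm' ha hV0.cont.measurable h1 h2 x

end

/-- The increments up to the level `l`. -/
noncomputable def cut {k : ℕ} (v : ℕ → ℝ) (l : ℕ) : Fin (k + 1) → ℝ :=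
  fun i => if (i : ℕ) ≤ l then v i else 0

section

variable {k : ℕ} {v : ℕ → ℝ}

lemma cut_nonneg (hv : ∀ l, 0 ≤ v l) (l : ℕ) (i : Fin (k + 1)) : 0 ≤ cut v l i := by
  unfold cut
  split_ifs
  · exact hv _
  · exact le_rfl

lemma cut_update {l : ℕ} (hl : l < k) :
    Function.update (cut v (l + 1) : Fin (k + 1) → ℝ) ⟨l + 1, by omega⟩ 0 = cut v l := by
  funext i
  by_cases h : i = ⟨l + 1, by omega⟩
  · subst h
    rw [Function.update_self]
    simp only [cut, add_le_iff_nonpos_right, nonpos_iff_eq_zero, one_ne_zero, ↓reduceIte]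
  · rw [Function.update_of_ne h]
    unfold cut
    have h2 : (i : ℕ) ≠ l + 1 := fun h3 => h (Fin.ext h3)
    by_cases h3 : (i : ℕ) ≤ l
    · rw [if_pos h3, if_pos (by omega)]
    · rw [if_neg h3, if_neg (by omega)]

lemma cut_apply {l : ℕ} (hl : l < k + 1) : (cut v l : Fin (k + 1) → ℝ) ⟨l, hl⟩ = v l := by
  simp [cut]

lemma cut_above {l : ℕ} (i : Fin (k + 1)) (hi : l < (i : ℕ)) : cut v l i = 0 := by
  unfold cut
  rw [if_neg (by omega)]

end

namespace Arr

variable {k : ℕ} {w : Fin (k + 1) → ℝ} {δ : Type} [Fintype δ] [DecidableEq δ]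

/-- The logarithm. -/
theorem Lg_eval (𝓐 : Arr k w Empty) (hw : ∑ l, w l = 1) {m v : ℕ → ℝ} (hv : ∀ l, 0 ≤ v l)
    (hm : ∀ l, 1 ≤ l → l ≤ k → 0 < m l) (hmw : ∀ l : Fin (k + 1), up w l = 1 - m l)
    {a : ℝ} (ha : 0 < a) {W : ℝ → ℝ} (hW : ∃ W' W'', CB2 W W' W'') (hWa : ∀ x, a ≤ W x)
    (hW1 : ∀ x, W x ≤ 1) :
    𝓐.Lg (cut v k) (fun x => 1 - W x) = - (𝓐.E (Fin 1) (fun _ => 1) *
        ∫ z, Real.log (lvW m v k W 0 (√(v 0) * z)) ∂(gaussianReal 0 1)) := by
  have hspec := lvW_spec (v := v) hm ha hW hWa hW1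
  have h1 : ∀ l ≤ k, 𝓐.Lg (cut v k) (fun x => 1 - W x) =
      𝓐.Lg (cut v l) (fun x => 1 - lvW m v k W l x) := by
    apply down_ind
    · rw [lvW_top]
    · intro l hl ih
      rw [ih]
      obtain ⟨⟨V', V'', hV⟩, h2, h3⟩ := hspec (l + 1) (by omega)
      have hm' := hm (l + 1) (by omega) (by omega)
      have hmw' := hmw ⟨l + 1, by omega⟩
      simp only at hmw'
      have hcol := 𝓐.Lg_collapse (cut_nonneg hv (l + 1)) (l := ⟨l + 1, by omega⟩)
        (fun l' hl' => cut_above l' hl') (by rw [hmw']; linarith only [hm']) ha hV h2 h3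
      rw [hcol, cut_update hl, cut_apply, hmw']
      have e1 : 1 - (1 - m (l + 1)) = m (l + 1) := by ring
      rw [e1, lvW_succ hl]
  rw [h1 0 (Nat.zero_le k)]
  obtain ⟨⟨V', V'', hV⟩, h2, h3⟩ := hspec 0 (Nat.zero_le k)
  rw [𝓐.Lg_level0 hw (cut_nonneg hv 0) (fun l hl => cut_above l (by
    rcases Nat.eq_zero_or_pos (l : ℕ) with h | h
    · exact absurd (Fin.ext h) hl
    · exact h)) hV.cont.measurable ha h2 h3]
  rfl

/-- Collapse of the levels above `l₀`, when the pairs are not linked at these levels or one of the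
observables is `1`. -/
theorem Q_chain (𝓐 : Arr k w δ) {e : ℕ} (he : Fintype.card δ = e + 1) {m v : ℕ → ℝ}
    (hv : ∀ l, 0 ≤ v l)
    (hm : ∀ l, 1 ≤ l → l ≤ k → 0 < m l) (hmw : ∀ l : Fin (k + 1), up w l = 1 - m l)
    {a : ℝ} (ha : 0 < a) {V : ℕ → ℝ → ℝ}
    (hV : ∀ l ≤ k, (∃ V' V'', CB2 (V l) V' V'') ∧ (∀ x, a ≤ V l x) ∧ ∀ x, V l x ≤ 1)
    (hVs : ∀ l < k, V l = flowW (m (l + 1)) (v (l + 1)) (V (l + 1)) 0)
    (χ : LM k δ → ℝ) {h : δ → ℝ → ℝ}
    (hh : ∀ i, ∃ h' h'', CB2 (h i) h' h'') {s l₀ : ℕ} (hs : s ≤ k) (hl₀ : l₀ ≤ s)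
    (cons : ∀ l : Fin (k + 1), l₀ < (l : ℕ) → (l : ℕ) ≤ s → ∀ i j, i ≠ j →
      (∀ L, Ultra L → χ L * lk l i j L = 0) ∨ (h i = fun _ => 1) ∨ (h j = fun _ => 1)) :
    𝓐.Q e (cut v s) χ (fun i x => h i x * V s x) (fun x => 1 - V s x) =
      𝓐.Q e (cut v l₀) χ (fun i x => lvh m v V s (h i) l₀ x * V l₀ x)
        (fun x => 1 - V l₀ x) := by
  have hspec := fun i => lvh_spec (v := v) hm ha hV hs (hh i)
  have hone := lvh_one (v := v) hm ha hV hs
  have h1 : ∀ l ≤ s, l₀ ≤ l → 𝓐.Q e (cut v s) χ (fun i x => h i x * V s x) (fun x => 1 - V s x) =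
      𝓐.Q e (cut v l) χ (fun i x => lvh m v V s (h i) l x * V l x) (fun x => 1 - V l x) := by
    apply down_ind
    · intro _
      simp only [lvh_top]
    · intro l hl ih hl'
      rw [ih (by omega)]
      obtain ⟨⟨V', V'', hV0⟩, h2, h3⟩ := hV (l + 1) (by omega)
      have hm' := hm (l + 1) (by omega) (by omega)
      have hmw' := hmw ⟨l + 1, by omega⟩
      simp only at hmw'
      choose h' h'' hh' using fun i => hspec i (l + 1) (by omega)
      have hcol := 𝓐.Q_collapse he (cut_nonneg hv (l + 1)) (l := ⟨l + 1, by omega⟩)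
        (fun l' hl' => cut_above l' hl') (by rw [hmw']; linarith only [hm']) χ ha hV0 h2 h3 hh'
        (fun i j hij => by
          rcases cons ⟨l + 1, by omega⟩ (by simp only [Order.lt_add_one_iff]; omega) (by simp only [Order.add_one_le_iff]; omega) i j hij with h4 | h4 | h4
          · exact Or.inl h4
          · right; left; rw [h4]; exact hone (l + 1) (by omega)
          · right; right; rw [h4]; exact hone (l + 1) (by omega))
      rw [hcol, cut_update (by omega), cut_apply, hmw']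
      have e1 : 1 - (1 - m (l + 1)) = m (l + 1) := by ring
      simp only [e1]
      simp only [← hVs l (by omega), ← lvh_succ hl]
  exact h1 l₀ hl₀ le_rfl

/-- One special index. -/
theorem Q_eval_one (𝓐 : Arr k w δ) (hcard : Fintype.card δ = 1) (hw : ∑ l, w l = 1) {m v : ℕ → ℝ}
    (hv : ∀ l, 0 ≤ v l)
    (hm : ∀ l, 1 ≤ l → l ≤ k → 0 < m l) (hmw : ∀ l : Fin (k + 1), up w l = 1 - m l)
    {a : ℝ} (ha : 0 < a) {W : ℝ → ℝ} (hW : ∃ W' W'', CB2 W W' W'') (hWa : ∀ x, a ≤ W x)
    (hW1 : ∀ x, W x ≤ 1) (χ : LM k δ → ℝ) {h : ℝ → ℝ} (hh : ∃ h' h'', CB2 h h' h'') :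
    𝓐.Q 0 (cut v k) χ (fun _ x => h x * W x) (fun x => 1 - W x) =
      𝓐.E (Fin 0) (fun L => χ (res L)) *
        ∫ z, lvh m v (lvW m v k W) k h 0 (√(v 0) * z) ∂(gaussianReal 0 1) := by
  have hspec := lvW_spec (v := v) hm ha hW hWa hW1
  have hsub : ∀ i j : δ, i = j := Fintype.card_le_one_iff.1 hcard.le
  have h1 := 𝓐.Q_chain (e := 0) (by simpa only [zero_add] using hcard) hv hm hmw ha hspec
    (fun l hl => lvW_succ hl) χ (h := fun _ => h) (fun _ => hh) le_rfl (Nat.zero_le k)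
    (fun l _ _ i j hij => absurd (hsub i j) hij)
  rw [lvW_top] at h1
  rw [h1]
  obtain ⟨h', h'', hh0⟩ := lvh_spec (v := v) hm ha hspec le_rfl hh 0 (Nat.zero_le k)
  obtain ⟨⟨V', V'', hV⟩, h2, h3⟩ := hspec 0 (Nat.zero_le k)
  rw [𝓐.Q_level0 (e := 0) hw (by simpa only [zero_add] using hcard) (cut_nonneg hv 0) (fun l hl => cut_above l (by
    rcases Nat.eq_zero_or_pos (l : ℕ) with h | h
    · exact absurd (Fin.ext h) hl
    · exact h)) χ (fun _ => ⟨hh0.cont.measurable, hh0.b0⟩) hV.cont.measurable ha h2 h3]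
  simp only [cut, Fin.coe_ofNat_eq_mod, Nat.zero_mod, Std.le_refl, ↓reduceIte, prod_const, card_univ, hcard, pow_one]

/-- The value of the pair functional for replicas linked exactly at the level `l`. -/
noncomputable def pairVal (m v : ℕ → ℝ) (k : ℕ) (W h : ℝ → ℝ) (l : ℕ) : ℝ :=
  ∫ z, lvh m v (lvW m v k W) l (fun x => lvh m v (lvW m v k W) k h l x ^ 2) 0 (√(v 0) * z)
    ∂(gaussianReal 0 1)

/-- Two special indices, linked exactly at the level `l₀`. -/
theorem Q_eval_two (𝓐 : Arr k w δ) (hcard : Fintype.card δ = 2) {i₀ j₀ : δ} (hne : i₀ ≠ j₀)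
    (hw : ∑ l, w l = 1) {m v : ℕ → ℝ} (hv : ∀ l, 0 ≤ v l)
    (hm : ∀ l, 1 ≤ l → l ≤ k → 0 < m l) (hmw : ∀ l : Fin (k + 1), up w l = 1 - m l)
    {a : ℝ} (ha : 0 < a) {W : ℝ → ℝ} (hW : ∃ W' W'', CB2 W W' W'') (hWa : ∀ x, a ≤ W x)
    (hW1 : ∀ x, W x ≤ 1) {h : ℝ → ℝ} (hh : ∃ h' h'', CB2 h h' h'') (l₀ : Fin (k + 1)) :
    𝓐.Q 1 (cut v k) (fun L => if L i₀ j₀ = l₀ then 1 else 0) (fun _ x => h x * W x)
      (fun x => 1 - W x) =
      𝓐.E (Fin 0) (fun L => if L (Sum.inl i₀) (Sum.inl j₀) = l₀ then 1 else 0) *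
        pairVal m v k W h l₀ := by
  have hall : ∀ i : δ, i = i₀ ∨ i = j₀ := by
    intro i
    by_contra hcon
    push Not at hcon
    have h1 : ({i, i₀, j₀} : Finset δ).card ≤ 2 := by
      rw [← hcard]; exact Finset.card_le_univ _
    have h2 : ({i, i₀, j₀} : Finset δ).card = 3 := by
      rw [Finset.card_eq_three]
      exact ⟨i, i₀, j₀, hcon.1, hcon.2, hne, rfl⟩
    omega
  have huniv : (Finset.univ : Finset δ) = {i₀, j₀} := by
    ext i
    simpa only [mem_univ, mem_insert, mem_singleton, true_iff] using hall i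
  have hspec := lvW_spec (v := v) hm ha hW hWa hW1
  set V := lvW m v k W with hVdef
  set χ : LM k δ → ℝ := fun L => if L i₀ j₀ = l₀ then 1 else 0 with hχ
  have hl₀ : (l₀ : ℕ) ≤ k := by omega
  -- above `l₀`
  have h1 := 𝓐.Q_chain (e := 1) hcard hv hm hmw ha hspec (fun l hl => lvW_succ hl) χ
    (h := fun _ => h) (fun _ => hh) (s := k) (l₀ := l₀) le_rfl hl₀
    (fun l hl _ i j hij => by
      left
      intro L hL
      simp only [hχ]
      by_cases h2 : L i₀ j₀ = l₀
      · have h3 : L i j = l₀ := by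
          rcases hall i with rfl | rfl <;> rcases hall j with rfl | rfl
          · exact absurd rfl hij
          · exact h2
          · rw [hL.symm]; exact h2
          · exact absurd rfl hij
        unfold lk
        rw [h3, if_neg (show ¬ l ≤ l₀ from not_le.2 hl), mul_zero]
      · rw [if_neg h2, zero_mul])
  have hVk : V k = W := lvW_top
  rw [hVk] at h1
  rw [h1]
  set g : ℝ → ℝ := lvh m v V k h l₀ with hg
  obtain ⟨g', g'', hg0⟩ := lvh_spec (v := v) hm ha hspec le_rfl hh l₀ hl₀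
  rw [← hg] at hg0
  obtain ⟨⟨V', V'', hV⟩, h2, h3⟩ := hspec l₀ hl₀
  -- on the link, everything can be moved
  have hχlk : ∀ L, Ultra L → χ L = χ L * lk l₀ i₀ j₀ L := by
    intro L _
    simp only [hχ]
    by_cases h4 : L i₀ j₀ = l₀
    · unfold lk
      rw [if_pos h4, if_pos (le_of_eq h4.symm), mul_one]
    · rw [if_neg h4, zero_mul]
  have hcl : ∀ l', l₀ < l' → (cut v l₀ : Fin (k + 1) → ℝ) l' = 0 := fun l' hl' => cut_above l' hl'
  have e1 : ∀ A : δ → ℝ → ℝ, 𝓐.Q 1 (cut v l₀) χ A (fun x => 1 - V l₀ x) =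
      𝓐.qq 1 (cut v l₀) l₀ χ A (fun x => 1 - V l₀ x) i₀ j₀ fun x => A i₀ x * A j₀ x := by
    intro A
    rw [𝓐.Q_congr 1 _ hχlk]
    have h4 := 𝓐.Q_pair 1 (l := l₀) χ (A := A) (v := fun x => 1 - V l₀ x) hcl hne (A i₀) (A j₀)
    rw [Function.update_eq_self, Function.update_eq_self] at h4
    exact h4
  have e2 : 𝓐.Q 1 (cut v l₀) χ (fun _ x => g x * V l₀ x) (fun x => 1 - V l₀ x) =
      𝓐.Q 1 (cut v l₀) χ (fun i x => (if i = i₀ then fun x => g x ^ 2 else fun _ => 1) x * V l₀ x)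
        (fun x => 1 - V l₀ x) := by
    rw [e1, e1]
    unfold qq
    congr 1
    funext i x
    by_cases hi : i = j₀
    · subst hi
      simp only [Function.update_self]
    · have hi' : i = i₀ := (hall i).resolve_right hi
      subst hi'
      rw [Function.update_of_ne hne, Function.update_of_ne hne, Function.update_self,
        Function.update_self]
      simp only [if_true, if_neg hne.symm]
      ring
  rw [e2]
  have hg2 : ∃ p' p'', CB2 (fun x => g x ^ 2) p' p'' := by
    have h4 := hg0.mul hg0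
    have h5 : (fun x => g x ^ 2) = fun x => g x * g x := by funext x; ring
    rw [h5]
    exact ⟨_, _, h4⟩
  have hone : ∃ p' p'', CB2 (fun _ : ℝ => (1 : ℝ)) p' p'' :=
    ⟨fun _ => 0, fun _ => 0, ⟨fun x => hasDerivAt_const x 1, fun x => hasDerivAt_const x 0,
      continuous_const, ⟨1, by simp⟩, ⟨0, by simp⟩, ⟨0, by simp⟩⟩⟩
  -- below `l₀`
  have h5 := 𝓐.Q_chain (e := 1) hcard hv hm hmw ha hspec (fun l hl => lvW_succ hl) χ
    (h := fun i => if i = i₀ then fun x => g x ^ 2 else fun _ => 1)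
    (fun i => by
      by_cases hi : i = i₀
      · simpa only [hi, ↓reduceIte] using hg2
      · simpa only [hi, ↓reduceIte] using hone) (s := l₀) (l₀ := 0) hl₀ (Nat.zero_le _)
    (fun l _ _ i j hij => by
      right
      rcases hall i with rfl | rfl
      · right
        rcases hall j with rfl | rfl
        · exact absurd rfl hij
        · rw [if_neg hne.symm]
      · left
        rw [if_neg hne.symm])
  rw [h5]
  obtain ⟨⟨V0', V0'', hV0⟩, h20, h30⟩ := hspec 0 (Nat.zero_le k)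
  obtain ⟨p', p'', hp⟩ := lvh_spec (v := v) hm ha hspec hl₀ hg2 0 (Nat.zero_le _)
  have hone0 := lvh_one (v := v) hm ha hspec hl₀ 0 (Nat.zero_le _)
  rw [𝓐.Q_level0 (e := 1) hw hcard (cut_nonneg hv 0) (fun l hl => cut_above l (by
    rcases Nat.eq_zero_or_pos (l : ℕ) with h | h
    · exact absurd (Fin.ext h) hl
    · exact h)) χ (fun i => by
      by_cases hi : i = i₀
      · simp only [hi, if_true]
        exact ⟨hp.cont.measurable, hp.b0⟩
      · simp only [hi, if_false, hone0]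
        exact BM.const 1) hV0.cont.measurable ha h20 h30]
  rw [huniv]
  simp only [Finset.prod_pair hne, if_true, if_neg hne.symm, hone0, mul_one]
  unfold pairVal
  rw [← hVdef, ← hg]
  have e3 : (cut v 0 : Fin (k + 1) → ℝ) 0 = v 0 := by simp only [cut, Fin.coe_ofNat_eq_mod, Nat.zero_mod, Std.le_refl, ↓reduceIte]
  rw [e3]
  rfl

end Arr

end Vale.Agent.P157.Par
end

section

open MeasureTheory ProbabilityTheory Filter Topology Finset

namespace Vale.Agent.P157.Par

set_option linter.unusedSectionVars false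

open Vale.Agent.P367.GT (gM)

variable {k : ℕ} {J K : Type} [Fintype J] [DecidableEq J] [Fintype K] [DecidableEq K]

/-- The Gaussian family `U` with an independent noise of variance `τ` for every index. -/
noncomputable def noisy (τ : ℝ) (U : J → K → ℝ) : J → K ⊕ J → ℝ :=
  fun a => Sum.elim (U a) fun b => if b = a then √τ else 0

lemma gram_noisy {τ : ℝ} (hτ : 0 ≤ τ) (U : J → K → ℝ) (a b : J) :
    gram (noisy τ U) (noisy τ U) a b = gram U U a b + if a = b then τ else 0 := by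
  unfold gram noisy
  rw [Fintype.sum_sum_type]
  congr 1
  simp only [Sum.elim_inr, ite_mul, mul_ite, zero_mul, mul_zero]
  by_cases h : a = b
  · subst h
    simp only [Real.mul_self_sqrt hτ, sum_ite_eq', mem_univ, ↓reduceIte]
  · rw [if_neg h]
    apply Finset.sum_eq_zero
    intro c _
    by_cases h1 : c = a
    · subst h1
      rw [if_pos rfl, if_neg h]
    · simp only [h1, ↓reduceIte, ite_self]

/-- The noise can be integrated out. -/
lemma gE_noisy (τ : ℝ) (U : J → K → ℝ) {f : J → ℝ → ℝ} (hf : ∀ a, BM (f a)) :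
    gE (noisy τ U) f = gE U fun a => heat τ (f a) := by
  obtain ⟨C, hC0, hC⟩ := exists_bound hf
  have mp := measurePreserving_sumPiEquivProdPi (X := fun _ : K ⊕ J => ℝ)
    (fun _ : K ⊕ J => gaussianReal 0 1)
  have e1 : ∀ ξ : K ⊕ J → ℝ, ∏ a, f a (lin (noisy τ U) ξ a) =
      (fun p : (K → ℝ) × (J → ℝ) => ∏ a, f a (lin U p.1 a + √τ * p.2 a))
        (MeasurableEquiv.sumPiEquivProdPi (fun _ : K ⊕ J => ℝ) ξ) := by
    intro ξ
    apply Finset.prod_congr rfl
    intro a _
    congr 1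
    unfold lin noisy
    rw [Fintype.sum_sum_type]
    simp only [Sum.elim_inl, Sum.elim_inr, ite_mul, zero_mul, Finset.sum_ite_eq',
      Finset.mem_univ, if_true]
    rfl
  unfold gE
  simp_rw [e1]
  rw [mp.integral_comp' (g := fun p : (K → ℝ) × (J → ℝ) =>
    ∏ a, f a (lin U p.1 a + √τ * p.2 a))]
  have hmeas : Measurable fun p : (K → ℝ) × (J → ℝ) =>
      ∏ a, f a (lin U p.1 a + √τ * p.2 a) := by
    apply Finset.measurable_prod
    intro a _
    apply (hf a).meas.comp
    unfold lin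
    (clear * -; fun_prop)
  have hint : Integrable (fun p : (K → ℝ) × (J → ℝ) =>
      ∏ a, f a (lin U p.1 a + √τ * p.2 a)) ((gM K).prod (gM J)) :=
    Integrable.of_bound hmeas.aestronglyMeasurable (C ^ (univ : Finset J).card)
      (Eventually.of_forall fun p => by
        rw [Real.norm_eq_abs]
        exact abs_prod_le fun a _ => hC a _)
  have h2 := integral_prod _ hint
  refine Eq.trans h2 ?_
  congr 1
  funext ξ
  exact integral_fintype_prod_eq_prod (𝕜 := ℝ) (μ := fun _ : J => gaussianReal 0 1)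
    (fun a z => f a (lin U ξ a + √τ * z))

/-- The Gram matrix of the tree field with noise. -/
lemma gram_noisy_UL {c : Fin (k + 1) → ℝ} (hc : ∀ l, 0 ≤ c l) {τ : ℝ} (hτ : 0 ≤ τ)
    {L : LM k J} (hL : Ultra L) (a b : J) :
    gram (noisy τ (UL c L)) (noisy τ (UL c L)) a b =
      (∑ l, if l ≤ L a b then c l else 0) + if a = b then τ else 0 := by
  rw [gram_noisy hτ, gram_UL hc hL]

end Vale.Agent.P157.Par
end

section

open MeasureTheory ProbabilityTheory Filter Topology Finset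

namespace Vale.Agent.P157.Par

/-- The increments of a path. -/
def incr (q : ℕ → ℝ) : ℕ → ℝ
  | 0 => q 0
  | l + 1 => q (l + 1) - q l

lemma incr_zero_def (q : ℕ → ℝ) : incr q 0 = q 0 := rfl

lemma incr_succ_def (q : ℕ → ℝ) (l : ℕ) : incr q (l + 1) = q (l + 1) - q l := rfl

/-! ### The cascade in terms of the weights -/

lemma flowW_log {m v a : ℝ} (hm : 0 < m) (ha : 0 < a) {W : ℝ → ℝ} (hWm : Measurable W)
    (hWa : ∀ x, a ≤ W x) (hW1 : ∀ x, W x ≤ 1) (x : ℝ) :
    gstep m v (fun y => Real.log (W y)) x = Real.log (flowW m v W 0 x) := by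
  have h1 := heat_mem_Icc (g := fun y => W y ^ m) (hWm.pow_const m) (pow_mem_Icc hm ha hWa hW1)
    (v - 0) x
  have ham : 0 < a ^ m := Real.rpow_pos_of_pos ha m
  unfold gstep flowW
  rw [Real.log_rpow (ham.trans_le h1.1), sub_zero]
  unfold heat
  congr 2
  refine integral_congr_ae (Filter.Eventually.of_forall fun z => ?_)
  simp only
  rw [Real.rpow_def_of_pos (ha.trans_le (hWa _)), mul_comm]

lemma lvW_shift {m v : ℕ → ℝ} {k : ℕ} {W : ℝ → ℝ} : ∀ l ≤ k, lvW m v (k + 1) W l =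
    lvW m v k (flowW (m (k + 1)) (v (k + 1)) W 0) l := by
  apply down_ind
  · rw [lvW_succ (Nat.lt_succ_self k), lvW_top, lvW_top]
  · intro l hl ih
    rw [lvW_succ (by omega), lvW_succ hl, ih]

theorem cascade_log {m q : ℕ → ℝ} {k : ℕ} (hm : ∀ l, 1 ≤ l → l ≤ k → 0 < m l) {a : ℝ}
    (ha : 0 < a) {W : ℝ → ℝ} (hW : ∃ W' W'', CB2 W W' W'') (hWa : ∀ x, a ≤ W x)
    (hW1 : ∀ x, W x ≤ 1) (x : ℝ) :
    cascade m q k (fun x => Real.log (W x)) x = Real.log (lvW m (incr q) k W 0 x) := by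
  induction k generalizing W with
  | zero => rw [lvW_top]; rfl
  | succ k ih =>
    obtain ⟨W', W'', hW⟩ := hW
    have hm' := hm (k + 1) (by omega) le_rfl
    have h1 : gstep (m (k + 1)) (q (k + 1) - q k) (fun x => Real.log (W x)) =
        fun x => Real.log (flowW (m (k + 1)) (incr q (k + 1)) W 0 x) := by
      funext y
      exact flowW_log hm' ha hW.cont.measurable hWa hW1 y
    rw [cascade, h1, lvW_shift 0 (Nat.zero_le k)]
    exact ih (fun l hl hl' => hm l hl (by omega)) (flowW_cb2 hm' ha hW hWa hW1)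
      (fun y => (flowW_mem hm' ha hW.cont.measurable hWa hW1 y).1)
      (fun y => (flowW_mem hm' ha hW.cont.measurable hWa hW1 y).2)

lemma val_integrable_exp_lip {F : ℝ → ℝ} {L : NNReal} (hF : LipschitzWith L F) (m v x : ℝ) :
    Integrable (fun z => Real.exp (m * F (x + √v * z))) (gaussianReal 0 1) := by
  have hF0 : ∀ y, |F y| ≤ |F 0| + L * |y| := by
    intro y
    have h := hF.dist_le_mul y 0
    rw [Real.dist_eq, Real.dist_eq, sub_zero] at h
    have := abs_sub_abs_le_abs_sub (F y) (F 0)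
    linarith
  set c : ℝ := |m| * L * √v with hc
  have hc0 : 0 ≤ c := by (clear * -; positivity)
  have hint : Integrable (fun z : ℝ => Real.exp (|m| * (|F 0| + L * |x|)) *
      (Real.exp (c * z) + Real.exp (-c * z))) (gaussianReal 0 1) :=
    ((integrable_exp_mul_gaussianReal c).add (integrable_exp_mul_gaussianReal (-c))).const_mul _
  refine hint.mono' ?_ (Filter.Eventually.of_forall fun z => ?_)
  · have := hF.continuous
    exact (by fun_prop : Continuous fun z : ℝ =>
      Real.exp (m * F (x + √v * z))).aestronglyMeasurable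
  · rw [Real.norm_eq_abs, Real.abs_exp]
    have h1 : m * F (x + √v * z) ≤ |m| * (|F 0| + L * |x|) + c * |z| := by
      calc m * F (x + √v * z) ≤ |m * F (x + √v * z)| := le_abs_self _
        _ = |m| * |F (x + √v * z)| := abs_mul _ _
        _ ≤ |m| * (|F 0| + L * (|x| + √v * |z|)) := by
            have h2 := hF0 (x + √v * z)
            have h3 : |x + √v * z| ≤ |x| + √v * |z| := by
              refine (abs_add_le _ _).trans ?_
              rw [abs_mul, abs_of_nonneg (Real.sqrt_nonneg v)]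
            have h4 : (L : ℝ) * |x + √v * z| ≤ L * (|x| + √v * |z|) :=
              mul_le_mul_of_nonneg_left h3 L.2
            exact mul_le_mul_of_nonneg_left (by linarith only [h2, h4]) (abs_nonneg m)
        _ = _ := by rw [hc]; ring
    refine (Real.exp_le_exp.2 h1).trans ?_
    rw [Real.exp_add]
    refine mul_le_mul_of_nonneg_left ?_ (Real.exp_pos _).le
    rcases le_total 0 z with hz | hz
    · rw [abs_of_nonneg hz]
      linarith only [Real.exp_pos (-c * z)]
    · rw [abs_of_nonpos hz]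
      have : c * -z = -c * z := by ring
      rw [this]
      linarith only [Real.exp_pos (c * z)]

lemma val_integral_exp_lip_pos {F : ℝ → ℝ} {L : NNReal} (hF : LipschitzWith L F) (m v x : ℝ) :
    0 < ∫ z, Real.exp (m * F (x + √v * z)) ∂(gaussianReal 0 1) :=
  integral_exp_pos (val_integrable_exp_lip hF m v x)

lemma val_gstep_lip {m v : ℝ} (hm : 0 < m) {F : ℝ → ℝ} {L : NNReal} (hF : LipschitzWith L F) :
    LipschitzWith L (gstep m v F) := by
  have key : ∀ x y, gstep m v F x ≤ gstep m v F y + L * |x - y| := by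
    intro x y
    unfold gstep
    have h1 : ∫ z, Real.exp (m * F (x + √v * z)) ∂(gaussianReal 0 1) ≤
        Real.exp (m * (L * |x - y|)) * ∫ z, Real.exp (m * F (y + √v * z)) ∂(gaussianReal 0 1) := by
      rw [← integral_const_mul]
      refine integral_mono (val_integrable_exp_lip hF m v x)
        ((val_integrable_exp_lip hF m v y).const_mul _) fun z => ?_
      simp only
      rw [← Real.exp_add, Real.exp_le_exp, ← mul_add]
      refine mul_le_mul_of_nonneg_left ?_ hm.le
      have h := hF.dist_le_mul (x + √v * z) (y + √v * z)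
      rw [Real.dist_eq, Real.dist_eq] at h
      have e : x + √v * z - (y + √v * z) = x - y := by ring
      rw [e] at h
      have := le_abs_self (F (x + √v * z) - F (y + √v * z))
      linarith only [h, this]
    have h2 := Real.log_le_log (val_integral_exp_lip_pos hF m v x) h1
    rw [Real.log_mul (Real.exp_pos _).ne' (val_integral_exp_lip_pos hF m v y).ne', Real.log_exp] at h2
    have h3 := mul_le_mul_of_nonneg_left h2 (by positivity : 0 ≤ 1 / m)
    rw [mul_add] at h3
    have h4 : 1 / m * (m * (L * |x - y|)) = L * |x - y| := by (clear * - hm; field_simp)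
    linarith only [h3, h4]
  refine LipschitzWith.of_dist_le_mul fun x y => ?_
  rw [Real.dist_eq, Real.dist_eq, abs_le]
  have h1 := key x y
  have h2 := key y x
  rw [abs_sub_comm y x] at h2
  constructor <;> linarith only [h1, h2]

lemma val_gstep_add_const {m v : ℝ} (hm : 0 < m) {F : ℝ → ℝ} {L : NNReal} (hF : LipschitzWith L F)
    (c x : ℝ) : gstep m v (fun x => F x + c) x = gstep m v F x + c := by
  unfold gstep
  have h1 : ∫ z, Real.exp (m * (F (x + √v * z) + c)) ∂(gaussianReal 0 1) =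
      Real.exp (m * c) * ∫ z, Real.exp (m * F (x + √v * z)) ∂(gaussianReal 0 1) := by
    rw [← integral_const_mul]
    refine integral_congr_ae (Filter.Eventually.of_forall fun z => ?_)
    simp only
    rw [← Real.exp_add]
    congr 1
    ring
  rw [h1, Real.log_mul (Real.exp_pos _).ne' (val_integral_exp_lip_pos hF m v x).ne', Real.log_exp]
  field_simp
  ring

theorem cascade_add_const {m q : ℕ → ℝ} {k : ℕ} (hm : ∀ l, 1 ≤ l → l ≤ k → 0 < m l)
    {F : ℝ → ℝ} {L : NNReal} (hF : LipschitzWith L F) (c x : ℝ) :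
    cascade m q k (fun x => F x + c) x = cascade m q k F x + c := by
  induction k generalizing F with
  | zero => rfl
  | succ k ih =>
    have hm' := hm (k + 1) (by omega) le_rfl
    have h1 : gstep (m (k + 1)) (q (k + 1) - q k) (fun x => F x + c) =
        fun x => gstep (m (k + 1)) (q (k + 1) - q k) F x + c := by
      funext y
      exact val_gstep_add_const hm' hF c y
    rw [cascade, h1, cascade]
    exact ih (fun l hl hl' => hm l hl (by omega)) (val_gstep_lip hm' hF)

lemma val_log_lip {a : ℝ} (ha : 0 < a) {W W' W'' : ℝ → ℝ} (hW : CB2 W W' W'')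
    (hWa : ∀ x, a ≤ W x) : ∃ L : NNReal, LipschitzWith L fun x => Real.log (W x) := by
  obtain ⟨C, hC⟩ := hW.b1
  have hC0 : 0 ≤ C := (abs_nonneg _).trans (hC 0)
  refine ⟨(C / a).toNNReal, ?_⟩
  refine lipschitzWith_of_nnnorm_deriv_le (fun x => ?_) (fun x => ?_)
  · exact ((hW.d1 x).log (ha.trans_le (hWa x)).ne').differentiableAt
  · rw [((hW.d1 x).log (ha.trans_le (hWa x)).ne').deriv, ← NNReal.coe_le_coe, coe_nnnorm,
      Real.norm_eq_abs, abs_div, abs_of_pos (ha.trans_le (hWa x)),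
      Real.coe_toNNReal _ (by positivity)]
    exact div_le_div₀ hC0 (hC x) ha (hWa x)

/-- The pattern part. -/
theorem patternPart_eq {m q : ℕ → ℝ} {k : ℕ} (hm : ∀ l, 1 ≤ l → l ≤ k → 0 < m l)
    {f : ℝ → ℝ} {c a : ℝ} (hc : 0 < c) (ha : 0 < a)
    (hW : ∃ W' W'', CB2 (fun x => Real.exp (f x) / c) W' W'')
    (hWa : ∀ x, a ≤ Real.exp (f x) / c) (hW1 : ∀ x, Real.exp (f x) / c ≤ 1) (hq : q k ≤ 1) :
    patternPart f k m q = Real.log c +
      ∫ z, Real.log (lvW m (incr q) k (flowW 1 (1 - q k) (fun x => Real.exp (f x) / c) 0) 0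
        (√(incr q 0) * z)) ∂(gaussianReal 0 1) := by
  obtain ⟨W', W'', hW⟩ := hW
  set W : ℝ → ℝ := fun x => Real.exp (f x) / c with hWdef
  set V : ℝ → ℝ := flowW 1 (1 - q k) W 0 with hV
  have hVcb : ∃ V' V'', CB2 V V' V'' := flowW_cb2 one_pos ha hW hWa hW1
  have hVa : ∀ x, a ≤ V x := fun x => (flowW_mem one_pos ha hW.cont.measurable hWa hW1 x).1
  have hV1 : ∀ x, V x ≤ 1 := fun x => (flowW_mem one_pos ha hW.cont.measurable hWa hW1 x).2
  have h1 : (fun x => Real.log (∫ y, Real.exp (f (x + √(1 - q k) * y)) ∂(gaussianReal 0 1))) =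
      fun x => Real.log (V x) + Real.log c := by
    funext x
    have e1 : ∫ y, Real.exp (f (x + √(1 - q k) * y)) ∂(gaussianReal 0 1) = V x * c := by
      rw [hV]
      unfold flowW heat
      rw [sub_zero, div_one, Real.rpow_one, ← integral_mul_const]
      refine integral_congr_ae (Filter.Eventually.of_forall fun z => ?_)
      simp only [hWdef, Real.rpow_one]
      (clear * - hc; field_simp)
    rw [e1, Real.log_mul (ha.trans_le (hVa x)).ne' hc.ne']
  obtain ⟨V', V'', hVc⟩ := hVcb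
  obtain ⟨L, hL⟩ := val_log_lip ha hVc hVa
  unfold patternPart
  rw [h1]
  have h2 : ∀ z, cascade m q k (fun x => Real.log (V x) + Real.log c) (√(q 0) * z) =
      Real.log (lvW m (incr q) k V 0 (√(incr q 0) * z)) + Real.log c := by
    intro z
    rw [cascade_add_const hm hL, cascade_log hm ha ⟨V', V'', hVc⟩ hVa hV1]
    rfl
  simp only [h2]
  obtain ⟨⟨U', U'', hU⟩, h3, h4⟩ := lvW_spec (v := incr q) hm ha ⟨V', V'', hVc⟩ hVa hV1 0
    (Nat.zero_le k)
  have hint : Integrable (fun z => Real.log (lvW m (incr q) k V 0 (√(incr q 0) * z)))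
      (gaussianReal 0 1) := by
    refine Integrable.mono' (integrable_const (|Real.log a|)) ?_
      (Filter.Eventually.of_forall fun z => ?_)
    · exact ((Real.measurable_log.comp hU.cont.measurable).comp
        (by fun_prop)).aestronglyMeasurable
    · rw [Real.norm_eq_abs]
      have h5 := Real.log_le_log ha (h3 (√(incr q 0) * z))
      have h6 := Real.log_nonpos (ha.le.trans (h3 (√(incr q 0) * z))) (h4 (√(incr q 0) * z))
      rw [abs_of_nonpos h6, abs_of_nonpos (h5.trans h6)]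
      linarith
  rw [integral_add hint (integrable_const _), integral_const]
  simp only [probReal_univ, one_smul]
  ring

/-! ### Pair values -/

lemma val_flowh_mono {m σ a : ℝ} (hm : 0 < m) (ha : 0 < a) {W : ℝ → ℝ} (hWm : Measurable W)
    (hWa : ∀ x, a ≤ W x) (hW1 : ∀ x, W x ≤ 1) {h g : ℝ → ℝ} (hh : Measurable h)
    (hg : Measurable g) {B C : ℝ} (hB : ∀ x, |h x| ≤ B) (hC : ∀ x, |g x| ≤ C)
    (hle : ∀ x, h x ≤ g x) (x : ℝ) : flowh m σ W h 0 x ≤ flowh m σ W g 0 x := by
  have hpow := pow_mem_Icc hm ha hWa hW1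
  have hgm : Measurable fun y => W y ^ m := hWm.pow_const m
  have h1 := heat_mem_Icc (g := fun y => W y ^ m) hgm hpow (σ - 0) x
  have ham : 0 < a ^ m := Real.rpow_pos_of_pos ha m
  have hbd : ∀ {p : ℝ → ℝ} {D : ℝ}, (∀ x, |p x| ≤ D) → ∀ x, |p x * W x ^ m| ≤ D := by
    intro p D hD x
    have h2 := (hpow x).1
    have h3 := (hpow x).2
    rw [Real.one_rpow] at h3
    rw [abs_mul, abs_of_nonneg (ham.le.trans h2)]
    calc |p x| * W x ^ m ≤ |p x| * 1 := mul_le_mul_of_nonneg_left h3 (abs_nonneg _)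
      _ ≤ D := by rw [mul_one]; exact hD x
  unfold flowh
  refine div_le_div_of_nonneg_right ?_ (ham.le.trans h1.1)
  unfold heat
  refine integral_mono (integrable_heat (hh.mul hgm) (hbd hB) _ _)
    (integrable_heat (hg.mul hgm) (hbd hC) _ _) fun z => ?_
  simp only
  exact mul_le_mul_of_nonneg_right (hle _) (ham.le.trans (hpow _).1)

lemma val_flowh_const {m σ a : ℝ} (hm : 0 < m) (ha : 0 < a) {W : ℝ → ℝ} (hWm : Measurable W)
    (hWa : ∀ x, a ≤ W x) (hW1 : ∀ x, W x ≤ 1) (c x : ℝ) :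
    flowh m σ W (fun _ => c) 0 x = c := by
  have h1 := flowh_one (t := 0) (σ := σ) hm ha hWm hWa hW1 x
  unfold flowh at h1 ⊢
  have e : heat (σ - 0) (fun y => c * W y ^ m) x = c * heat (σ - 0) (fun y => 1 * W y ^ m) x := by
    unfold heat
    rw [← integral_const_mul]
    refine integral_congr_ae (Filter.Eventually.of_forall fun z => ?_)
    simp only
    ring
  rw [e, mul_div_assoc, h1, mul_one]

section

variable {m v : ℕ → ℝ} {k : ℕ} {V : ℕ → ℝ → ℝ} {s : ℕ}

lemma lvh_mono (hm : ∀ l, 1 ≤ l → l ≤ k → 0 < m l) {a : ℝ} (ha : 0 < a)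
    (hV : ∀ l ≤ k, (∃ V' V'', CB2 (V l) V' V'') ∧ (∀ x, a ≤ V l x) ∧ ∀ x, V l x ≤ 1)
    (hs : s ≤ k) {h g : ℝ → ℝ} (hh : ∃ h' h'', CB2 h h' h'') (hg : ∃ h' h'', CB2 g h' h'')
    (hle : ∀ x, h x ≤ g x) : ∀ l ≤ s, ∀ x, lvh m v V s h l x ≤ lvh m v V s g l x := by
  have hh1 := lvh_spec (v := v) hm ha hV hs hh
  have hg1 := lvh_spec (v := v) hm ha hV hs hg
  apply down_ind
  · intro x
    rw [lvh_top, lvh_top]
    exact hle x
  · intro l hl ih x
    have hm' := hm (l + 1) (by omega) (by omega)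
    obtain ⟨⟨V', V'', hV0⟩, h1, h2⟩ := hV (l + 1) (by omega)
    obtain ⟨p', p'', hp⟩ := hh1 (l + 1) (by omega)
    obtain ⟨r', r'', hr⟩ := hg1 (l + 1) (by omega)
    obtain ⟨B, hB⟩ := hp.b0
    obtain ⟨C, hC⟩ := hr.b0
    rw [lvh_succ hl, lvh_succ hl]
    exact val_flowh_mono hm' ha hV0.cont.measurable h1 h2 hp.cont.measurable hr.cont.measurable
      hB hC ih x

lemma lvh_const (hm : ∀ l, 1 ≤ l → l ≤ k → 0 < m l) {a : ℝ} (ha : 0 < a)
    (hV : ∀ l ≤ k, (∃ V' V'', CB2 (V l) V' V'') ∧ (∀ x, a ≤ V l x) ∧ ∀ x, V l x ≤ 1)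
    (hs : s ≤ k) (c : ℝ) : ∀ l ≤ s, lvh m v V s (fun _ => c) l = fun _ => c := by
  apply down_ind
  · rw [lvh_top]
  · intro l hl ih
    have hm' := hm (l + 1) (by omega) (by omega)
    obtain ⟨⟨V', V'', hV0⟩, h1, h2⟩ := hV (l + 1) (by omega)
    rw [lvh_succ hl, ih]
    funext x
    exact val_flowh_const hm' ha hV0.cont.measurable h1 h2 c x

end

lemma CB2.const_fn (c : ℝ) : ∃ p' p'', CB2 (fun _ : ℝ => c) p' p'' :=
  ⟨fun _ => 0, fun _ => 0, ⟨fun x => hasDerivAt_const x c, fun x => hasDerivAt_const x 0,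
    continuous_const, ⟨|c|, by simp⟩, ⟨0, by simp only [abs_zero, Std.le_refl, implies_true]⟩, ⟨0, by simp⟩⟩⟩

lemma CB2.sq_fn {g g' g'' : ℝ → ℝ} (h : CB2 g g' g'') : ∃ p' p'', CB2 (fun x => g x ^ 2) p' p'' := by
  have h4 := h.mul h
  have h5 : (fun x => g x ^ 2) = fun x => g x * g x := by funext x; ring
  rw [h5]
  exact ⟨_, _, h4⟩

lemma CB2.integrable_fn {g g' g'' : ℝ → ℝ} (h : CB2 g g' g'') (t : ℝ) :
    Integrable (fun z => g (t * z)) (gaussianReal 0 1) := by
  obtain ⟨C, hC⟩ := h.b0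
  refine Integrable.mono' (integrable_const C) ?_ (Filter.Eventually.of_forall fun z => hC _)
  exact (h.cont.measurable.comp (by fun_prop)).aestronglyMeasurable

section

variable {m v : ℕ → ℝ} {k : ℕ} {a : ℝ} {W h : ℝ → ℝ}

/-- Regularity of the square of the observable at the level `l`. -/
lemma pair_spec (hm : ∀ l, 1 ≤ l → l ≤ k → 0 < m l)
    (ha : 0 < a) (hW : ∃ W' W'', CB2 W W' W'') (hWa : ∀ x, a ≤ W x)
    (hW1 : ∀ x, W x ≤ 1) (hh : ∃ h' h'', CB2 h h' h'') {l : ℕ} (hl : l ≤ k) :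
    (∃ p' p'', CB2 (fun x => lvh m v (lvW m v k W) k h l x ^ 2) p' p'') ∧
    ∃ p' p'', CB2 (lvh m v (lvW m v k W) l (fun x => lvh m v (lvW m v k W) k h l x ^ 2) 0)
      p' p'' := by
  have hspec := lvW_spec (v := v) hm ha hW hWa hW1
  obtain ⟨g', g'', hg⟩ := lvh_spec (v := v) hm ha hspec le_rfl hh l hl
  exact ⟨hg.sq_fn, lvh_spec (v := v) hm ha hspec hl hg.sq_fn 0 (Nat.zero_le l)⟩

end

theorem pairVal_nonneg {m v : ℕ → ℝ} {k : ℕ} (hm : ∀ l, 1 ≤ l → l ≤ k → 0 < m l) {a : ℝ}
    (ha : 0 < a) {W h : ℝ → ℝ} (hW : ∃ W' W'', CB2 W W' W'') (hWa : ∀ x, a ≤ W x)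
    (hW1 : ∀ x, W x ≤ 1) (hh : ∃ h' h'', CB2 h h' h'') {l : ℕ} (hl : l ≤ k) :
    0 ≤ Arr.pairVal m v k W h l := by
  have hspec := lvW_spec (v := v) hm ha hW hWa hW1
  obtain ⟨h1, -⟩ := pair_spec (v := v) hm ha hW hWa hW1 hh hl
  have h2 := lvh_mono (v := v) hm ha hspec hl (CB2.const_fn 0) h1 (fun x => sq_nonneg _) 0
    (Nat.zero_le l)
  rw [lvh_const (v := v) hm ha hspec hl 0 0 (Nat.zero_le l)] at h2
  exact integral_nonneg fun z => h2 _

theorem pairVal_mono {m v : ℕ → ℝ} {k : ℕ} (hm : ∀ l, 1 ≤ l → l ≤ k → 0 < m l) {a : ℝ}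
    (ha : 0 < a) {W h : ℝ → ℝ} (hW : ∃ W' W'', CB2 W W' W'') (hWa : ∀ x, a ≤ W x)
    (hW1 : ∀ x, W x ≤ 1) (hh : ∃ h' h'', CB2 h h' h'') {l : ℕ} (hl : l < k) :
    Arr.pairVal m v k W h l ≤ Arr.pairVal m v k W h (l + 1) := by
  have hspec := lvW_spec (v := v) hm ha hW hWa hW1
  obtain ⟨h1, g', g'', hg⟩ := pair_spec (v := v) hm ha hW hWa hW1 hh (l := l) (by omega)
  obtain ⟨h2, r', r'', hr⟩ := pair_spec (v := v) hm ha hW hWa hW1 hh (l := l + 1) (by omega)
  set V := lvW m v k W with hV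
  have hm' := hm (l + 1) (by omega) (by omega)
  obtain ⟨⟨V', V'', hV0⟩, h3, h4⟩ := hspec (l + 1) (by omega)
  obtain ⟨u', u'', hu⟩ := lvh_spec (v := v) hm ha hspec le_rfl hh (l + 1) (by omega)
  obtain ⟨C, hC⟩ := hu.b0
  have h5 : ∀ x, lvh m v V k h l x ^ 2 ≤
      lvh m v V (l + 1) (fun x => lvh m v V k h (l + 1) x ^ 2) l x := by
    intro x
    rw [lvh_succ hl, lvh_succ (Nat.lt_succ_self l), lvh_top]
    exact flowh_sq hm' ha hV0.cont.measurable h3 h4 hu.cont.measurable hC x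
  have h6 : ∃ h' h'', CB2 (lvh m v V (l + 1) (fun x => lvh m v V k h (l + 1) x ^ 2) l) h' h'' :=
    lvh_spec (v := v) hm ha hspec (by omega) h2 l (by omega)
  have h7 := lvh_mono (v := v) hm ha hspec (s := l) (by omega) h1 h6 h5 0 (Nat.zero_le l)
  rw [lvh_lvh (Nat.le_succ l) 0 (Nat.zero_le l)] at h7
  exact integral_mono (hg.integrable_fn _) (hr.integrable_fn _) fun z => h7 _

theorem pairVal_le {m v : ℕ → ℝ} {k : ℕ} (hm : ∀ l, 1 ≤ l → l ≤ k → 0 < m l) {a : ℝ}
    (ha : 0 < a) {W h : ℝ → ℝ} (hW : ∃ W' W'', CB2 W W' W'') (hWa : ∀ x, a ≤ W x)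
    (hW1 : ∀ x, W x ≤ 1) (hh : ∃ h' h'', CB2 h h' h'') {B : ℝ} (hB : ∀ x, |h x| ≤ B) {l : ℕ}
    (hl : l ≤ k) : Arr.pairVal m v k W h l ≤ B ^ 2 := by
  have hspec := lvW_spec (v := v) hm ha hW hWa hW1
  obtain ⟨h1, g', g'', hg⟩ := pair_spec (v := v) hm ha hW hWa hW1 hh hl
  have h2 := lvh_mono (v := v) hm ha hspec le_rfl hh (CB2.const_fn B)
    (fun x => (le_abs_self _).trans (hB x)) l hl
  have h3 := lvh_mono (v := v) hm ha hspec le_rfl (CB2.const_fn (-B)) hh
    (fun x => (abs_le.1 (hB x)).1) l hl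
  rw [lvh_const (v := v) hm ha hspec le_rfl _ l hl] at h2 h3
  have h4 : ∀ x, lvh m v (lvW m v k W) k h l x ^ 2 ≤ B ^ 2 := fun x =>
    sq_le_sq' (h3 x) (h2 x)
  have h5 := lvh_mono (v := v) hm ha hspec hl h1 (CB2.const_fn (B ^ 2)) h4 0 (Nat.zero_le l)
  rw [lvh_const (v := v) hm ha hspec hl _ 0 (Nat.zero_le l)] at h5
  have h6 : Arr.pairVal m v k W h l ≤ ∫ _, B ^ 2 ∂(gaussianReal 0 1) :=
    integral_mono (hg.integrable_fn _) (integrable_const _) fun z => h5 _
  simpa only [ge_iff_le, integral_const, probReal_univ, smul_eq_mul, one_mul] using h6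

/-- with the observable `1` the pair value is `1` -/
theorem pairVal_one {m v : ℕ → ℝ} {k : ℕ} (hm : ∀ l, 1 ≤ l → l ≤ k → 0 < m l) {a : ℝ}
    (ha : 0 < a) {W : ℝ → ℝ} (hW : ∃ W' W'', CB2 W W' W'') (hWa : ∀ x, a ≤ W x)
    (hW1 : ∀ x, W x ≤ 1) {l : ℕ} (hl : l ≤ k) : Arr.pairVal m v k W (fun _ => 1) l = 1 := by
  have hspec := lvW_spec (v := v) hm ha hW hWa hW1
  unfold Arr.pairVal
  rw [lvh_one (v := v) hm ha hspec le_rfl l hl]
  simp only [one_pow]
  rw [lvh_one (v := v) hm ha hspec hl 0 (Nat.zero_le l)]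
  simp

end Vale.Agent.P157.Par
end

section

/-!
The tilted chain on the line and its overlaps, for the spin part of the Parisi functional.
-/

open MeasureTheory ProbabilityTheory

namespace Vale.Agent.P157.Par

/-- One step of the tilted chain on the line. -/
noncomputable def tlt (m v : ℝ) (F h : ℝ → ℝ) : ℝ → ℝ := fun x =>
  (∫ z, h (x + √v * z) * Real.exp (m * F (x + √v * z)) ∂(gaussianReal 0 1)) /
    ∫ z, Real.exp (m * F (x + √v * z)) ∂(gaussianReal 0 1)

/-- The average of `h` at the level `l` of the tilted chain, with the log-weight `F` there. -/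
noncomputable def chn (m r : ℕ → ℝ) : ℕ → (ℝ → ℝ) → (ℝ → ℝ) → ℝ
  | 0, _, h => ∫ z, h (√(r 0) * z) ∂(gaussianReal 0 1)
  | l + 1, F, h => chn m r l (gstep (m (l + 1)) (r (l + 1) - r l) F)
      (tlt (m (l + 1)) (r (l + 1) - r l) F h)

/-- The overlaps of the tilted chain: with the log-weight `F` and the observable `M` at the level
`l`, the second moment of the conditional average of `M` at the level `j ≤ l`. -/
noncomputable def Rc (m r : ℕ → ℝ) : ℕ → (ℝ → ℝ) → (ℝ → ℝ) → ℕ → ℝ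
  | 0, F, M, _ => chn m r 0 F (fun x => M x ^ 2)
  | l + 1, F, M, j => if j ≤ l then
      Rc m r l (gstep (m (l + 1)) (r (l + 1) - r l) F) (tlt (m (l + 1)) (r (l + 1) - r l) F M) j
      else chn m r (l + 1) F (fun x => M x ^ 2)

theorem chn_zero_def (m r : ℕ → ℝ) (F h : ℝ → ℝ) :
    chn m r 0 F h = ∫ z, h (√(r 0) * z) ∂(gaussianReal 0 1) := by
  have h1 := @chn.eq_1
  have h2 := @chn.eq_def
  simp only [chn]

theorem chn_succ_def (m r : ℕ → ℝ) (l : ℕ) (F h : ℝ → ℝ) :
    chn m r (l + 1) F h = chn m r l (gstep (m (l + 1)) (r (l + 1) - r l) F)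
      (tlt (m (l + 1)) (r (l + 1) - r l) F h) := by
  have h1 := @chn.eq_1
  have h2 := @chn.eq_def
  simp only [chn]

theorem Rc_zero_def (m r : ℕ → ℝ) (F M : ℝ → ℝ) (j : ℕ) :
    Rc m r 0 F M j = chn m r 0 F (fun x => M x ^ 2) := by
  have h1 := @Rc.eq_1
  have h2 := @Rc.eq_def
  simp only [Rc]

theorem Rc_succ_le (m r : ℕ → ℝ) (l : ℕ) (F M : ℝ → ℝ) {j : ℕ} (hj : j ≤ l) :
    Rc m r (l + 1) F M j = Rc m r l (gstep (m (l + 1)) (r (l + 1) - r l) F)
      (tlt (m (l + 1)) (r (l + 1) - r l) F M) j := by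
  have h1 := @Rc.eq_1
  have h2 := @Rc.eq_def
  simp only [Rc, if_pos hj]

theorem Rc_succ_self (m r : ℕ → ℝ) (l : ℕ) (F M : ℝ → ℝ) :
    Rc m r (l + 1) F M (l + 1) = chn m r (l + 1) F (fun x => M x ^ 2) := by
  have h1 := @Rc.eq_1
  have h2 := @Rc.eq_def
  simp only [Rc, if_neg (Nat.not_succ_le_self l)]

theorem Rc_self (m r : ℕ → ℝ) (l : ℕ) (F M : ℝ → ℝ) :
    Rc m r l F M l = chn m r l F (fun x => M x ^ 2) := by
  cases l with
  | zero => exact Rc_zero_def m r F M 0
  | succ l => exact Rc_succ_self m r l F M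

/-- The overlap at the level `j` of the spin chain. -/
noncomputable def spR (k : ℕ) (m r : ℕ → ℝ) (j : ℕ) : ℝ :=
  Rc m r k (fun x => Real.log (Real.cosh x)) Real.tanh j

/-- Regular log-weights with their first two derivatives. -/
structure Sm (L B : ℝ) (F M D : ℝ → ℝ) : Prop where
  d1 : ∀ x, HasDerivAt F (M x) x
  d2 : ∀ x, HasDerivAt M (D x) x
  cD : Continuous D
  bM : ∀ x, |M x| ≤ L
  bD : ∀ x, |D x| ≤ B

/-- Regular even convex log-weights. -/
structure Ec (F M D : ℝ → ℝ) : Prop where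
  d1 : ∀ x, HasDerivAt F (M x) x
  d2 : ∀ x, HasDerivAt M (D x) x
  cD : Continuous D
  even : ∀ x, F (-x) = F x
  D0 : ∀ x, 0 ≤ D x
  D1 : ∀ x, D x + M x ^ 2 ≤ 1

/-- A smooth family of log-weights, on a segment: `u1, u2` are the derivatives in `x` and `us` is
the derivative in the parameter. -/
structure Fam (a b : ℝ) (u u1 u2 us : ℝ → ℝ → ℝ) : Prop where
  d1 : ∀ s ∈ Set.Icc a b, ∀ x, HasDerivAt (u s) (u1 s x) x
  d2 : ∀ s ∈ Set.Icc a b, ∀ x, HasDerivAt (u1 s) (u2 s x) x
  ds : ∀ s ∈ Set.Ioo a b, ∀ x, HasDerivAt (fun s => u s x) (us s x) s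
  c0 : ContinuousOn (fun p : ℝ × ℝ => u p.1 p.2) (Set.Icc a b ×ˢ Set.univ)
  c1 : ContinuousOn (fun p : ℝ × ℝ => u1 p.1 p.2) (Set.Icc a b ×ˢ Set.univ)
  c2 : ContinuousOn (fun p : ℝ × ℝ => u2 p.1 p.2) (Set.Icc a b ×ˢ Set.univ)
  cs : ContinuousOn (fun p : ℝ × ℝ => us p.1 p.2) (Set.Ioo a b ×ˢ Set.univ)
  b1 : ∃ B, ∀ s ∈ Set.Icc a b, ∀ x, |u1 s x| ≤ B
  b2 : ∃ B, ∀ s ∈ Set.Icc a b, ∀ x, |u2 s x| ≤ B
  bs : ∃ B, ∀ s ∈ Set.Ioo a b, ∀ x, |us s x| ≤ B

/-- Even functions which are nondecreasing on the half line. -/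
def Evm (g : ℝ → ℝ) : Prop := (∀ x, g (-x) = g x) ∧ MonotoneOn g (Set.Ici 0)

/-- Strictly increasing paths with a positive first value. -/
def SPath (k : ℕ) (r : ℕ → ℝ) : Prop := 0 < r 0 ∧ ∀ l < k, r l < r (l + 1)

end Vale.Agent.P157.Par
end

section

open MeasureTheory ProbabilityTheory Filter Topology Finset

namespace Vale.Agent.P157.Par

set_option linter.unusedSectionVars false
set_option linter.unusedVariables false

open Vale.Agent.P367.GT (gM)

section conc1

variable (ν : Measure ℝ) [IsFiniteMeasure ν]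

variable {ν}

end conc1

section conc2

variable {J K K' : Type} [Fintype J] [DecidableEq J] [Fintype K] [DecidableEq K] [Fintype K']
  [DecidableEq K']

variable {ν : Measure ℝ} [IsFiniteMeasure ν]

end conc2

namespace Arr

variable {k : ℕ} {w : Fin (k + 1) → ℝ}

section

variable {δ : Type} [Fintype δ] [DecidableEq δ]

end

end Arr

end Vale.Agent.P157.Par
end

section

/-!
The tangent inequality for functions on the cone of strictly increasing paths whose gradient is
nonincreasing in the other coordinates and nondecreasing along the diagonal.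
-/

open Set Filter Topology

namespace Vale.Agent.P157.Par

/-- The hypotheses of `lnat_tangent`. -/
structure Sp6H (k : ℕ) (w : ℕ → ℝ) (G : (ℕ → ℝ) → ℝ) (R : (ℕ → ℝ) → ℕ → ℝ) : Prop where
  hw : ∀ l ≤ k, 0 < w l
  hder : ∀ (r η : ℕ → ℝ) (a : ℝ), 0 < a →
      (∀ s ∈ Set.Ico 0 a, SPath k (fun l => r l + s * η l)) → Path k (fun l => r l + a * η l) →
      ContinuousOn (fun s => G (fun l => r l + s * η l)) (Set.Icc 0 a) ∧
      (∀ s ∈ Set.Ioo 0 a, HasDerivAt (fun s => G (fun l => r l + s * η l))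
        (-(1 / 2) * ∑ l ∈ Finset.range (k + 1), w l * η l *
          R (fun l => r l + s * η l) l) s) ∧
      ∀ j ≤ k, ContinuousOn (fun s => R (fun l => r l + s * η l) j) (Set.Icc 0 a)
  hanti : ∀ (r : ℕ → ℝ) (i j : ℕ) (s : ℝ), SPath k r → i < j → j ≤ k → 0 ≤ s →
      SPath k (Function.update r j (r j + s)) → R (Function.update r j (r j + s)) i ≤ R r i
  hdiag : ∀ (r : ℕ → ℝ) (c : ℝ) (j : ℕ), SPath k r → 0 ≤ c → j ≤ k →
      R r j ≤ R (fun l => r l + c) j

variable {k : ℕ} {w : ℕ → ℝ} {G : (ℕ → ℝ) → ℝ} {R : (ℕ → ℝ) → ℕ → ℝ}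

theorem sp6_path {r : ℕ → ℝ} (h : SPath k r) : Path k r :=
  ⟨h.1.le, fun l hl => (h.2 l hl).le⟩

theorem sp6_congr {r r' : ℕ → ℝ} (h : SPath k r) (he : ∀ l ≤ k, r l = r' l) : SPath k r' := by
  refine ⟨?_, fun l hl => ?_⟩
  · rw [← he 0 (Nat.zero_le k)]; exact h.1
  · rw [← he l hl.le, ← he (l + 1) hl]; exact h.2 l hl

theorem sp6_conv {r r' : ℕ → ℝ} (h : SPath k r) (h' : Path k r') {s : ℝ} (hs : 0 ≤ s)
    (hs1 : s < 1) : SPath k (fun l => r l + s * (r' l - r l)) := by
  refine ⟨?_, fun l hl => ?_⟩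
  · have h1 := h.1
    have h2 := h'.1
    have h3 : 0 < (1 - s) * r 0 := mul_pos (by linarith only [hs1]) h1
    have h4 : 0 ≤ s * r' 0 := mul_nonneg hs h2
    change 0 < r 0 + s * (r' 0 - r 0)
    linarith
  · have h1 := h.2 l hl
    have h2 := h'.2 l hl
    have h3 : 0 < (1 - s) * (r (l + 1) - r l) := mul_pos (by linarith only [hs1]) (by linarith only [h1])
    have h4 : 0 ≤ s * (r' (l + 1) - r' l) := mul_nonneg hs (by linarith only [h2])
    change r l + s * (r' l - r l) < r (l + 1) + s * (r' (l + 1) - r (l + 1))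
    linarith only [h4, h3]

theorem sp6_line {r r' : ℕ → ℝ} (h : SPath k r) (h' : SPath k r') {s : ℝ} (hs : 0 ≤ s)
    (hs1 : s ≤ 1) : SPath k (fun l => r l + s * (r' l - r l)) := by
  rcases hs1.lt_or_eq with h1 | h1
  · exact sp6_conv h (sp6_path h') hs h1
  · refine sp6_congr h' (fun l _ => ?_)
    rw [h1]; ring

theorem sp6_small {x : ℕ → ℝ} (hx : SPath k x) (η : ℕ → ℝ) :
    ∃ a : ℝ, 0 < a ∧ ∀ s ∈ Icc 0 a, SPath k (fun l => x l + s * η l) := by
  have h1 : ∀ᶠ s in 𝓝 (0 : ℝ), 0 < x 0 + s * η 0 := by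
    have hc : Continuous (fun s : ℝ => x 0 + s * η 0) := by fun_prop
    have := hc.tendsto 0
    refine this.eventually (lt_mem_nhds ?_)
    have := hx.1
    linarith
  have h2 : ∀ᶠ s in 𝓝 (0 : ℝ), ∀ l ∈ Finset.range k, x l + s * η l < x (l + 1) + s * η (l + 1) := by
    refine (Filter.eventually_all_finset (Finset.range k)).2 (fun l hl => ?_)
    have hc : Continuous (fun s : ℝ => x (l + 1) + s * η (l + 1) - (x l + s * η l)) := by fun_prop
    have := hc.tendsto 0
    have h3 : ∀ᶠ s in 𝓝 (0 : ℝ), 0 < x (l + 1) + s * η (l + 1) - (x l + s * η l) := by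
      refine this.eventually (lt_mem_nhds ?_)
      have := hx.2 l (Finset.mem_range.1 hl)
      linarith only [this]
    filter_upwards [h3] with s hs
    linarith only [hs]
  obtain ⟨ε, hε, hb⟩ := Metric.eventually_nhds_iff.1 (h1.and h2)
  refine ⟨ε / 2, by linarith only [hε], fun s hs => ?_⟩
  have h3 : dist s 0 < ε := by
    rw [Real.dist_eq, sub_zero, abs_of_nonneg hs.1]
    have := hs.2
    linarith only [hε, this]
  have h4 := hb h3
  exact ⟨h4.1, fun l hl => h4.2 l (Finset.mem_range.2 hl)⟩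

/-- The function whose monotonicity along the path is used. -/
noncomputable def sp6F (k : ℕ) (w : ℕ → ℝ) (G : (ℕ → ℝ) → ℝ) (ρ x : ℕ → ℝ) : ℝ :=
  -2 * G x - ∑ l ∈ Finset.range (k + 1), w l * ρ l * x l

theorem sp6_seg (H : Sp6H k w G R) {x η : ℕ → ℝ} {c : ℝ} (hc : 0 < c)
    (hs : ∀ s ∈ Icc 0 c, SPath k (fun l => x l + s * η l)) (ρ : ℕ → ℝ)
    (hpos : ∀ s ∈ Ioo 0 c, ∀ l ≤ k, 0 ≤ η l * (R (fun l => x l + s * η l) l - ρ l)) :
    sp6F k w G ρ x ≤ sp6F k w G ρ (fun l => x l + c * η l) := by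
  obtain ⟨h1, h2, -⟩ := H.hder x η c hc (fun s h => hs s ⟨h.1, h.2.le⟩)
    (sp6_path (hs c ⟨hc.le, le_refl c⟩))
  have hcont : ContinuousOn (fun s => sp6F k w G ρ (fun l => x l + s * η l)) (Icc 0 c) := by
    have h3 : Continuous (fun s : ℝ => ∑ l ∈ Finset.range (k + 1), w l * ρ l * (x l + s * η l)) := by
      (clear * -; fun_prop)
    exact (h1.const_mul (-2)).sub h3.continuousOn
  have hd : ∀ s ∈ Ioo 0 c, HasDerivAt (fun s => sp6F k w G ρ (fun l => x l + s * η l))
      (∑ l ∈ Finset.range (k + 1), w l * (η l * (R (fun l => x l + s * η l) l - ρ l))) s := by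
    intro s h
    have h3 := (h2 s h).const_mul (-2)
    have h4 : HasDerivAt (fun s : ℝ => ∑ l ∈ Finset.range (k + 1), w l * ρ l * (x l + s * η l))
        (∑ l ∈ Finset.range (k + 1), w l * ρ l * η l) s := by
      refine HasDerivAt.fun_sum (fun l _ => ?_)
      have h5 : HasDerivAt (fun s : ℝ => x l + s * η l) (η l) s := by
        have := ((hasDerivAt_id s).mul_const (η l)).const_add (x l)
        simpa using this
      exact h5.const_mul (w l * ρ l)
    have h6 := h3.sub h4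
    have h7 : -2 * (-(1 / 2) * ∑ l ∈ Finset.range (k + 1), w l * η l *
        R (fun l => x l + s * η l) l) - ∑ l ∈ Finset.range (k + 1), w l * ρ l * η l =
        ∑ l ∈ Finset.range (k + 1), w l * (η l * (R (fun l => x l + s * η l) l - ρ l)) := by
      rw [← mul_assoc, show (-2 : ℝ) * -(1 / 2) = 1 by norm_num, one_mul,
        ← Finset.sum_sub_distrib]
      refine Finset.sum_congr rfl (fun l _ => ?_)
      ring
    rw [← h7]
    exact h6
  have hmono : MonotoneOn (fun s => sp6F k w G ρ (fun l => x l + s * η l)) (Icc 0 c) := by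
    refine monotoneOn_of_deriv_nonneg (convex_Icc 0 c) hcont ?_ ?_
    · rw [interior_Icc]
      exact fun s h => (hd s h).differentiableAt.differentiableWithinAt
    · rw [interior_Icc]
      intro s h
      rw [(hd s h).deriv]
      refine Finset.sum_nonneg (fun l hl => ?_)
      have hl' : l ≤ k := Nat.lt_succ_iff.1 (Finset.mem_range.1 hl)
      exact mul_nonneg (H.hw l hl').le (hpos s h l hl')
  have h8 := hmono ⟨le_refl 0, hc.le⟩ ⟨hc.le, le_refl c⟩ hc.le
  have e2 : (fun l => x l + 0 * η l) = x := by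
    funext l; ring
  simp only [e2] at h8
  exact h8

theorem sp6_indepG (H : Sp6H k w G R) {x y : ℕ → ℝ} (hx : SPath k x)
    (he : ∀ l ≤ k, x l = y l) : G x = G y := by
  have key : ∀ x y : ℕ → ℝ, SPath k x → (∀ l ≤ k, x l = y l) → G y ≤ G x := by
    intro x y hx he
    have h1 := sp6_seg H (x := x) (η := fun l => y l - x l) one_pos (fun s _ =>
      sp6_congr hx (fun l hl => by rw [he l hl]; ring)) (fun _ => 0)
      (fun s _ l hl => by rw [he l hl]; simp)
    have e1 : (fun l => x l + 1 * (y l - x l)) = y := by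
      funext l; ring
    rw [e1] at h1
    unfold sp6F at h1
    simp only [mul_zero, zero_mul, Finset.sum_const_zero, sub_zero] at h1
    linarith only [h1]
  exact le_antisymm (key y x (sp6_congr hx he) (fun l hl => (he l hl).symm)) (key x y hx he)

/-- The one-sided derivative along a direction. -/
theorem sp6_right (H : Sp6H k w G R) {x η : ℕ → ℝ} {a : ℝ} (ha : 0 < a)
    (hs : ∀ s ∈ Icc 0 a, SPath k (fun l => x l + s * η l)) :
    HasDerivWithinAt (fun s => G (fun l => x l + s * η l))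
      (-(1 / 2) * ∑ l ∈ Finset.range (k + 1), w l * η l * R x l) (Ici 0) 0 := by
  obtain ⟨h1, h2, h3⟩ := H.hder x η a ha (fun s h => hs s ⟨h.1, h.2.le⟩)
    (sp6_path (hs a ⟨ha.le, le_refl a⟩))
  refine hasDerivWithinAt_Ici_of_tendsto_deriv (s := Ioo 0 a) ?_ ?_ (Ioo_mem_nhdsGT ha) ?_
  · exact fun s h => (h2 s h).differentiableAt.differentiableWithinAt
  · exact (h1 0 ⟨le_refl 0, ha.le⟩).mono Ioo_subset_Icc_self
  · have h4 : Tendsto (fun s => -(1 / 2) * ∑ l ∈ Finset.range (k + 1), w l * η l *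
          R (fun l => x l + s * η l) l) (𝓝[>] 0)
        (𝓝 (-(1 / 2) * ∑ l ∈ Finset.range (k + 1), w l * η l * R x l)) := by
      refine Tendsto.const_mul _ (tendsto_finsetSum _ (fun l hl => ?_))
      have hl' : l ≤ k := Nat.lt_succ_iff.1 (Finset.mem_range.1 hl)
      refine Tendsto.const_mul _ ?_
      have h5 := (h3 l hl') 0 ⟨le_refl 0, ha.le⟩
      have h6 : Tendsto (fun s => R (fun l => x l + s * η l) l) (𝓝[Ioo 0 a] 0)
          (𝓝 (R (fun l => x l + 0 * η l) l)) := h5.mono Ioo_subset_Icc_self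
      have e2 : (fun l => x l + 0 * η l) = x := by
        funext l; ring
      rw [e2, nhdsWithin_Ioo_eq_nhdsGT ha] at h6
      exact h6
    refine h4.congr' ?_
    filter_upwards [Ioo_mem_nhdsGT ha] with s h
    exact ((h2 s h).deriv).symm

theorem sp6_single_sum (i : ℕ) (hi : i ≤ k) (ρ : ℕ → ℝ) :
    ∑ l ∈ Finset.range (k + 1), w l * (Pi.single i (1 : ℝ) : ℕ → ℝ) l * ρ l = w i * ρ i := by
  rw [Finset.sum_eq_single i]
  · rw [Pi.single_eq_same, mul_one]
  · intro l _ hl
    rw [Pi.single_eq_of_ne hl, mul_zero, zero_mul]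
  · intro h
    exact absurd (Finset.mem_range.2 (Nat.lt_succ_of_le hi)) h

/-- Comparison of the components of the gradient from the comparison of small increments. -/
theorem sp6_cmp (H : Sp6H k w G R) {x y : ℕ → ℝ} (hx : SPath k x) (hy : SPath k y) {i : ℕ}
    (hi : i ≤ k) {a : ℝ} (ha : 0 < a)
    (h : ∀ s ∈ Ioo 0 a, G (fun l => x l + s * (Pi.single i (1 : ℝ) : ℕ → ℝ) l) - G x ≤
      G (fun l => y l + s * (Pi.single i (1 : ℝ) : ℕ → ℝ) l) - G y) : R y i ≤ R x i := by
  obtain ⟨a1, ha1, hs1⟩ := sp6_small hx (Pi.single i (1 : ℝ))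
  obtain ⟨a2, ha2, hs2⟩ := sp6_small hy (Pi.single i (1 : ℝ))
  have h1 := sp6_right H ha1 hs1
  have h2 := sp6_right H ha2 hs2
  rw [sp6_single_sum i hi] at h1 h2
  have h0 : (0 : ℝ) ∉ Ioi (0 : ℝ) := fun h => lt_irrefl (0 : ℝ) (mem_Ioi.1 h)
  have g1 := (hasDerivWithinAt_iff_tendsto_slope' h0).1 (h1.mono Ioi_subset_Ici_self)
  have g2 := (hasDerivWithinAt_iff_tendsto_slope' h0).1 (h2.mono Ioi_subset_Ici_self)
  have h3 : -(1 / 2) * (w i * R x i) ≤ -(1 / 2) * (w i * R y i) := by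
    refine le_of_tendsto_of_tendsto g1 g2 ?_
    filter_upwards [Ioo_mem_nhdsGT ha] with s hs
    have e1 : (fun l => x l + 0 * (Pi.single i (1 : ℝ) : ℕ → ℝ) l) = x := by
      funext l; ring
    have e2 : (fun l => y l + 0 * (Pi.single i (1 : ℝ) : ℕ → ℝ) l) = y := by
      funext l; ring
    rw [slope_def_field, slope_def_field, e1, e2, sub_zero]
    exact div_le_div_of_nonneg_right (h s hs) hs.1.le
  have h4 := H.hw i hi
  have h5 : w i * R y i ≤ w i * R x i := by linarith only [h3]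
  exact le_of_mul_le_mul_left h5 h4

theorem sp6_indepR (H : Sp6H k w G R) {x y : ℕ → ℝ} (hx : SPath k x)
    (he : ∀ l ≤ k, x l = y l) {i : ℕ} (hi : i ≤ k) : R x i = R y i := by
  have hy : SPath k y := sp6_congr hx he
  have key : ∀ x y : ℕ → ℝ, SPath k x → SPath k y → (∀ l ≤ k, x l = y l) → R y i ≤ R x i := by
    intro x y hx hy he
    obtain ⟨a1, ha1, hs1⟩ := sp6_small hx (Pi.single i (1 : ℝ))
    refine sp6_cmp H hx hy hi ha1 (fun s hs => ?_)
    rw [sp6_indepG H hx he, sp6_indepG H (hs1 s ⟨hs.1.le, hs.2.le⟩)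
      (y := fun l => y l + s * (Pi.single i (1 : ℝ) : ℕ → ℝ) l)
      (fun l hl => by rw [he l hl])]
  exact le_antisymm (key y x hy hx (fun l hl => (he l hl).symm)) (key x y hx hy he)

/-- The components of the gradient are nonincreasing in the other coordinates. -/
theorem sp6_anti (H : Sp6H k w G R) {r : ℕ → ℝ} {i j : ℕ} {s : ℝ} (hr : SPath k r) (hij : i ≠ j)
    (hi : i ≤ k) (hj : j ≤ k) (hs : 0 ≤ s) (hy : SPath k (Function.update r j (r j + s))) :
    R (Function.update r j (r j + s)) i ≤ R r i := by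
  rcases lt_or_gt_of_ne hij with h1 | h1
  · exact H.hanti r i j s hr h1 hj hs hy
  set y := Function.update r j (r j + s) with hydef
  obtain ⟨a1, ha1, hs1⟩ := sp6_small hr (Pi.single i (1 : ℝ))
  obtain ⟨a2, ha2, hs2⟩ := sp6_small hy (Pi.single i (1 : ℝ))
  refine sp6_cmp H hr hy hi (lt_min ha1 ha2) (fun h hh => ?_)
  have b1 : SPath k (fun l => r l + h * (Pi.single i (1 : ℝ) : ℕ → ℝ) l) :=
    hs1 h ⟨hh.1.le, hh.2.le.trans (min_le_left _ _)⟩
  have b2 : SPath k (fun l => y l + h * (Pi.single i (1 : ℝ) : ℕ → ℝ) l) :=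
    hs2 h ⟨hh.1.le, hh.2.le.trans (min_le_right _ _)⟩
  have l1 : ∀ u ∈ Icc (0 : ℝ) 1, SPath k (fun l => r l + u * (s * (Pi.single j (1 : ℝ) : ℕ → ℝ) l)) := by
    intro u hu
    refine sp6_congr (sp6_line hr hy hu.1 hu.2) (fun l _ => ?_)
    by_cases hl : l = j
    · rw [hydef, hl, Function.update_self, Pi.single_eq_same]; ring
    · rw [hydef, Function.update_of_ne hl, Pi.single_eq_of_ne hl]; ring
  have l2 : ∀ u ∈ Icc (0 : ℝ) 1, SPath k (fun l => (r l + h * (Pi.single i (1 : ℝ) : ℕ → ℝ) l) +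
      u * (s * (Pi.single j (1 : ℝ) : ℕ → ℝ) l)) := by
    intro u hu
    refine sp6_congr (sp6_line b1 b2 hu.1 hu.2) (fun l _ => ?_)
    by_cases hl : l = j
    · rw [hydef, hl, Function.update_self, Pi.single_eq_same]; ring
    · rw [hydef, Function.update_of_ne hl, Pi.single_eq_of_ne hl]; ring
  obtain ⟨c1, d1, -⟩ := H.hder r (fun l => s * (Pi.single j (1 : ℝ) : ℕ → ℝ) l) 1 one_pos
    (fun u hu => l1 u ⟨hu.1, hu.2.le⟩) (sp6_path (l1 1 ⟨zero_le_one, le_refl 1⟩))
  obtain ⟨c2, d2, -⟩ := H.hder (fun l => r l + h * (Pi.single i (1 : ℝ) : ℕ → ℝ) l)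
    (fun l => s * (Pi.single j (1 : ℝ) : ℕ → ℝ) l) 1 one_pos
    (fun u hu => l2 u ⟨hu.1, hu.2.le⟩) (sp6_path (l2 1 ⟨zero_le_one, le_refl 1⟩))
  have sumj : ∀ ρ : ℕ → ℝ, ∑ l ∈ Finset.range (k + 1),
      w l * (s * (Pi.single j (1 : ℝ) : ℕ → ℝ) l) * ρ l = s * (w j * ρ j) := by
    intro ρ
    rw [← sp6_single_sum j hj ρ, Finset.mul_sum]
    refine Finset.sum_congr rfl (fun l _ => ?_)
    ring
  have hmono : MonotoneOn (fun u => G (fun l => (r l + h * (Pi.single i (1 : ℝ) : ℕ → ℝ) l) +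
      u * (s * (Pi.single j (1 : ℝ) : ℕ → ℝ) l)) -
      G (fun l => r l + u * (s * (Pi.single j (1 : ℝ) : ℕ → ℝ) l))) (Icc 0 1) := by
    refine monotoneOn_of_deriv_nonneg (convex_Icc 0 1) (c2.sub c1) ?_ ?_
    · rw [interior_Icc]
      exact fun u hu => ((d2 u hu).sub (d1 u hu)).differentiableAt.differentiableWithinAt
    · rw [interior_Icc]
      intro u hu
      have h2 := ((d2 u hu).sub (d1 u hu)).deriv
      rw [sumj, sumj] at h2
      refine h2.ge.trans' ?_
      have p1 := l1 u ⟨hu.1.le, hu.2.le⟩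
      have p2 := l2 u ⟨hu.1.le, hu.2.le⟩
      have e3 : (fun l => (r l + h * (Pi.single i (1 : ℝ) : ℕ → ℝ) l) +
          u * (s * (Pi.single j (1 : ℝ) : ℕ → ℝ) l)) =
          Function.update (fun l => r l + u * (s * (Pi.single j (1 : ℝ) : ℕ → ℝ) l)) i
            ((fun l => r l + u * (s * (Pi.single j (1 : ℝ) : ℕ → ℝ) l)) i + h) := by
        funext l
        by_cases hl : l = i
        · rw [hl, Function.update_self, Pi.single_eq_same]; ring
        · rw [Function.update_of_ne hl, Pi.single_eq_of_ne hl]; ring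
      rw [e3] at p2
      have h3 := H.hanti _ j i h p1 h1 hi hh.1.le p2
      rw [← e3] at h3
      have h4 : 0 ≤ s * w j := mul_nonneg hs (H.hw j hj).le
      have h5 := mul_le_mul_of_nonneg_left h3 h4
      linarith only [h5]
  have h6 := hmono ⟨le_refl 0, zero_le_one⟩ ⟨zero_le_one, le_refl 1⟩ zero_le_one
  have e4 : (fun l => (r l + h * (Pi.single i (1 : ℝ) : ℕ → ℝ) l) +
      0 * (s * (Pi.single j (1 : ℝ) : ℕ → ℝ) l)) =
      (fun l => (r l + h * (Pi.single i (1 : ℝ) : ℕ → ℝ) l)) := by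
    funext l; ring
  have e5 : (fun l => r l + 0 * (s * (Pi.single j (1 : ℝ) : ℕ → ℝ) l)) = r := by
    funext l; ring
  have e6 : (fun l => (r l + h * (Pi.single i (1 : ℝ) : ℕ → ℝ) l) +
      1 * (s * (Pi.single j (1 : ℝ) : ℕ → ℝ) l)) =
      (fun l => (y l + h * (Pi.single i (1 : ℝ) : ℕ → ℝ) l)) := by
    funext l
    by_cases hl : l = j
    · rw [hydef, hl, Function.update_self, Pi.single_eq_same]; ring
    · rw [hydef, Function.update_of_ne hl, Pi.single_eq_of_ne hl]; ring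
  have e7 : (fun l => r l + 1 * (s * (Pi.single j (1 : ℝ) : ℕ → ℝ) l)) = y := by
    funext l
    by_cases hl : l = j
    · rw [hydef, hl, Function.update_self, Pi.single_eq_same]; ring
    · rw [hydef, Function.update_of_ne hl, Pi.single_eq_of_ne hl]; ring
  simp only [e4, e5, e6, e7] at h6
  linarith only [h6]

/-- Raising other coordinates decreases a component of the gradient. -/
theorem sp6_comp (H : Sp6H k w G R) {x y : ℕ → ℝ} (hx : SPath k x) (hy : SPath k y)
    (hxy : ∀ l ≤ k, x l ≤ y l) {i : ℕ} (hi : i ≤ k) (hxi : x i = y i) : R y i ≤ R x i := by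
  have hz : ∀ m, SPath k (fun l => if m ≤ l then y l else x l) := by
    intro m
    refine ⟨?_, fun l hl => ?_⟩
    · change 0 < if m ≤ 0 then y 0 else x 0
      split_ifs
      · exact hy.1
      · exact hx.1
    · change (if m ≤ l then y l else x l) < if m ≤ l + 1 then y (l + 1) else x (l + 1)
      by_cases h1 : m ≤ l
      · rw [if_pos h1, if_pos (Nat.le_succ_of_le h1)]; exact hy.2 l hl
      · rw [if_neg h1]
        by_cases h2 : m ≤ l + 1
        · rw [if_pos h2]; exact (hx.2 l hl).trans_le (hxy (l + 1) hl)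
        · rw [if_neg h2]; exact hx.2 l hl
  have hstep : ∀ m ≤ k, R (fun l => if m ≤ l then y l else x l) i ≤
      R (fun l => if m + 1 ≤ l then y l else x l) i := by
    intro m hm
    have e1 : (fun l => if m ≤ l then y l else x l) =
        Function.update (fun l => if m + 1 ≤ l then y l else x l) m
          ((fun l => if m + 1 ≤ l then y l else x l) m + (y m - x m)) := by
      funext l
      by_cases hl : l = m
      · rw [hl, Function.update_self]
        simp only [Std.le_refl, ↓reduceIte, add_le_iff_nonpos_right, nonpos_iff_eq_zero, one_ne_zero, add_sub_cancel]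
      · rw [Function.update_of_ne hl]
        by_cases h2 : m ≤ l
        · have h3 : m + 1 ≤ l := Nat.succ_le_of_lt (lt_of_le_of_ne h2 (Ne.symm hl))
          rw [if_pos h2, if_pos h3]
        · rw [if_neg h2, if_neg (fun h => h2 (Nat.le_of_succ_le h))]
    by_cases him : i = m
    · have e2 : (fun l => if m ≤ l then y l else x l) =
          (fun l => if m + 1 ≤ l then y l else x l) := by
        rw [e1, ← him, hxi, sub_self, add_zero, Function.update_eq_self]
      rw [e2]
    · have h3 := hz m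
      rw [e1] at h3
      rw [e1]
      exact sp6_anti H (hz (m + 1)) him hi hm (sub_nonneg.2 (hxy m hm)) h3
  have hind : ∀ m ≤ k + 1, R (fun l => if 0 ≤ l then y l else x l) i ≤
      R (fun l => if m ≤ l then y l else x l) i := by
    intro m
    induction m with
    | zero => exact fun _ => le_refl _
    | succ m ih => exact fun hm => (ih (Nat.le_of_succ_le hm)).trans (hstep m (Nat.le_of_succ_le_succ hm))
  have h4 := hind (k + 1) (le_refl _)
  have e0 : (fun l => if 0 ≤ l then y l else x l) = y := by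
    funext l; rw [if_pos (Nat.zero_le l)]
  rw [e0, sp6_indepR H (hz (k + 1)) (y := x) (fun l hl => by
    rw [if_neg (fun h => Nat.not_succ_le_self l (le_trans (Nat.succ_le_succ hl) h))]) hi] at h4
  exact h4

theorem sp6_min {r r' : ℕ → ℝ} (h : SPath k r) (h' : SPath k r') {t : ℝ} (ht : 0 ≤ t) :
    SPath k (fun l => min (r' l) (r l + t)) := by
  refine ⟨lt_min h'.1 (by have := h.1; linarith), fun l hl => ?_⟩
  have h1 := h.2 l hl
  have h2 := h'.2 l hl
  exact lt_min ((min_le_left _ _).trans_lt h2) ((min_le_right _ _).trans_lt (by linarith only [h1]))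

theorem sp6_max {r y : ℕ → ℝ} (h : SPath k r) (h' : SPath k y) {t : ℝ} :
    SPath k (fun l => max (y l) (r l - t)) := by
  refine ⟨lt_max_of_lt_left h'.1, fun l hl => ?_⟩
  have h1 := h.2 l hl
  have h2 := h'.2 l hl
  exact max_lt (lt_max_of_lt_left h2) (lt_max_of_lt_right (by linarith only [h1]))

theorem sp6_shift {r : ℕ → ℝ} (h : SPath k r) {t : ℝ} (ht : 0 ≤ t) :
    SPath k (fun l => r l + t) :=
  ⟨by have := h.1; linarith only [ht, this], fun l hl => by have := h.2 l hl; linarith only [this]⟩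

theorem sp6_up (H : Sp6H k w G R) {r r' : ℕ → ℝ} (hr : SPath k r) (hr' : SPath k r')
    (hb : ∀ l, k < l → r' l = r l) : ∀ (n : ℕ) (t : ℝ), 0 ≤ t →
      ((Finset.range (k + 1)).filter (fun l => r l + t < r' l)).card = n →
      sp6F k w G (R r) (fun l => min (r' l) (r l + t)) ≤ sp6F k w G (R r) r' := by
  intro n
  induction n using Nat.strong_induction_on with
  | _ n ih =>
  intro t ht hn
  set A := (Finset.range (k + 1)).filter (fun l => r l + t < r' l) with hA
  rcases A.eq_empty_or_nonempty with he | hne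
  · have e1 : (fun l => min (r' l) (r l + t)) = r' := by
      funext l
      refine min_eq_left ?_
      by_cases hl : l ≤ k
      · by_contra hcon
        have : l ∈ A := Finset.mem_filter.2 ⟨Finset.mem_range.2 (Nat.lt_succ_of_le hl),
          not_le.1 hcon⟩
        rw [he] at this
        exact absurd this (Finset.notMem_empty l)
      · rw [hb l (not_le.1 hl)]; linarith only [ht]
    rw [e1]
  · obtain ⟨l0, hl0, hmin⟩ := Finset.exists_min_image A (fun l => r' l - r l - t) hne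
    set c := r' l0 - r l0 - t with hc
    have hc0 : 0 < c := by
      have := (Finset.mem_filter.1 hl0).2
      rw [hc]; linarith only [this]
    have hX : ∀ s ∈ Icc 0 c, (fun l => min (r' l) (r l + t) + s * (if l ∈ A then (1 : ℝ) else 0)) =
        (fun l => min (r' l) (r l + (t + s))) := by
      intro s hs
      funext l
      by_cases hl : l ∈ A
      · have h1 := hmin l hl
        have h2 := hs.2
        rw [if_pos hl, min_eq_right (by linarith only [hc0, h1]), min_eq_right (by linarith only [h1, h2])]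
        ring
      · rw [if_neg hl, mul_zero, add_zero]
        have h1 : r' l ≤ r l + t := by
          by_cases hlk : l ≤ k
          · by_contra hcon
            exact hl (Finset.mem_filter.2 ⟨Finset.mem_range.2 (Nat.lt_succ_of_le hlk),
              not_le.1 hcon⟩)
          · rw [hb l (not_le.1 hlk)]; linarith only [ht]
        rw [min_eq_left h1, min_eq_left (by linarith only [h1, hs.1])]
    have hseg := sp6_seg H (x := fun l => min (r' l) (r l + t))
      (η := fun l => if l ∈ A then (1 : ℝ) else 0) hc0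
      (fun s hs => by
        rw [hX s hs]
        exact sp6_min hr hr' (by linarith only [ht, hs.1])) (R r)
      (fun s hs l hl => by
        by_cases hlA : l ∈ A
        · rw [if_pos hlA, one_mul, hX s ⟨hs.1.le, hs.2.le⟩, sub_nonneg]
          have h1 := hmin l hlA
          have h2 : 0 ≤ t + s := by linarith only [ht, hs.1]
          have h3 := H.hdiag r (t + s) l hr h2 hl
          refine h3.trans (sp6_comp H (sp6_min hr hr' h2) (sp6_shift hr h2)
            (fun j _ => min_le_right _ _) hl ?_)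
          exact min_eq_right (by linarith only [h1, hs.2])
        · rw [if_neg hlA, zero_mul])
    rw [hX c ⟨hc0.le, le_refl c⟩] at hseg
    refine hseg.trans (ih _ ?_ (t + c) (by linarith only [ht, hc0]) rfl)
    rw [← hn]
    refine Finset.card_lt_card ?_
    rw [Finset.ssubset_iff_of_subset]
    · refine ⟨l0, hl0, fun h => ?_⟩
      have := (Finset.mem_filter.1 h).2
      rw [hc] at this
      linarith only [this]
    · intro l hl
      have h1 := Finset.mem_filter.1 hl
      exact Finset.mem_filter.2 ⟨h1.1, by linarith only [hc0, h1]⟩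

theorem sp6_down (H : Sp6H k w G R) {r y : ℕ → ℝ} (hr : SPath k r) (hy : SPath k y)
    (hb : ∀ l, k < l → y l = r l) : ∀ (n : ℕ) (t : ℝ), 0 ≤ t →
      ((Finset.range (k + 1)).filter (fun l => y l < r l - t)).card = n →
      sp6F k w G (R r) (fun l => max (y l) (r l - t)) ≤ sp6F k w G (R r) y := by
  intro n
  induction n using Nat.strong_induction_on with
  | _ n ih =>
  intro t ht hn
  set A := (Finset.range (k + 1)).filter (fun l => y l < r l - t) with hA
  rcases A.eq_empty_or_nonempty with he | hne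
  · have e1 : (fun l => max (y l) (r l - t)) = y := by
      funext l
      refine max_eq_left ?_
      by_cases hl : l ≤ k
      · by_contra hcon
        have : l ∈ A := Finset.mem_filter.2 ⟨Finset.mem_range.2 (Nat.lt_succ_of_le hl),
          not_le.1 hcon⟩
        rw [he] at this
        exact absurd this (Finset.notMem_empty l)
      · rw [hb l (not_le.1 hl)]; linarith only [ht]
    rw [e1]
  · obtain ⟨l0, hl0, hmin⟩ := Finset.exists_min_image A (fun l => r l - t - y l) hne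
    set c := r l0 - t - y l0 with hc
    have hc0 : 0 < c := by
      have := (Finset.mem_filter.1 hl0).2
      rw [hc]; linarith only [this]
    have hX : ∀ s ∈ Icc 0 c, (fun l => max (y l) (r l - t) + s * (if l ∈ A then (-1 : ℝ) else 0)) =
        (fun l => max (y l) (r l - (t + s))) := by
      intro s hs
      funext l
      by_cases hl : l ∈ A
      · have h1 := hmin l hl
        have h2 := hs.2
        rw [if_pos hl, max_eq_right (by linarith only [hc0, h1]), max_eq_right (by linarith only [h1, h2])]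
        ring
      · rw [if_neg hl, mul_zero, add_zero]
        have h1 : r l - t ≤ y l := by
          by_cases hlk : l ≤ k
          · by_contra hcon
            exact hl (Finset.mem_filter.2 ⟨Finset.mem_range.2 (Nat.lt_succ_of_le hlk),
              not_le.1 hcon⟩)
          · rw [hb l (not_le.1 hlk)]; linarith only [ht]
        rw [max_eq_left h1, max_eq_left (by linarith only [h1, hs.1])]
    have hseg := sp6_seg H (x := fun l => max (y l) (r l - t))
      (η := fun l => if l ∈ A then (-1 : ℝ) else 0) hc0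
      (fun s hs => by
        rw [hX s hs]
        exact sp6_max hr hy) (R r)
      (fun s hs l hl => by
        by_cases hlA : l ∈ A
        · rw [if_pos hlA, hX s ⟨hs.1.le, hs.2.le⟩]
          have h1 := hmin l hlA
          have h2 : 0 ≤ t + s := by linarith only [ht, hs.1]
          have h3 := H.hdiag (fun l => max (y l) (r l - (t + s))) (t + s) l (sp6_max hr hy) h2 hl
          have h4 := sp6_comp H hr (sp6_shift (sp6_max hr hy (t := t + s)) h2)
            (fun j _ => by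
              have := le_max_right (y j) (r j - (t + s))
              linarith only [this]) hl
            (by
              rw [max_eq_right (by linarith only [h1, hs.2])]
              ring)
          linarith only [h3, h4]
        · rw [if_neg hlA, zero_mul])
    rw [hX c ⟨hc0.le, le_refl c⟩] at hseg
    refine hseg.trans (ih _ ?_ (t + c) (by linarith only [ht, hc0]) rfl)
    rw [← hn]
    refine Finset.card_lt_card ?_
    rw [Finset.ssubset_iff_of_subset]
    · refine ⟨l0, hl0, fun h => ?_⟩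
      have := (Finset.mem_filter.1 h).2
      rw [hc] at this
      linarith only [this]
    · intro l hl
      have h1 := Finset.mem_filter.1 hl
      exact Finset.mem_filter.2 ⟨h1.1, by linarith only [hc0, h1]⟩

theorem sp6_strict (H : Sp6H k w G R) {r r' : ℕ → ℝ} (hr : SPath k r) (hr' : SPath k r')
    (hb : ∀ l, k < l → r' l = r l) :
    G r' ≤ G r - 1 / 2 * ∑ l ∈ Finset.range (k + 1), w l * R r l * (r' l - r l) := by
  have h1 := sp6_up H hr hr' hb _ 0 (le_refl 0) rfl
  have hy : SPath k (fun l => min (r' l) (r l + 0)) := sp6_min hr hr' (le_refl 0)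
  have h2 := sp6_down H hr hy (fun l hl => by
    rw [hb l hl, add_zero, min_self]) _ 0 (le_refl 0) rfl
  have e1 : (fun l => max (min (r' l) (r l + 0)) (r l - 0)) = r := by
    funext l
    rw [add_zero, sub_zero, max_eq_right (min_le_right _ _)]
  rw [e1] at h2
  have h3 := h2.trans h1
  unfold sp6F at h3
  have e2 : ∑ l ∈ Finset.range (k + 1), w l * R r l * (r' l - r l) =
      ∑ l ∈ Finset.range (k + 1), w l * R r l * r' l -
        ∑ l ∈ Finset.range (k + 1), w l * R r l * r l := by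
    rw [← Finset.sum_sub_distrib]
    exact Finset.sum_congr rfl (fun l _ => by ring)
  rw [e2]
  linarith

theorem lnat_tangent {k : ℕ} {w : ℕ → ℝ} (hw : ∀ l ≤ k, 0 < w l) (G : (ℕ → ℝ) → ℝ)
    (R : (ℕ → ℝ) → ℕ → ℝ)
    (hder : ∀ (r η : ℕ → ℝ) (a : ℝ), 0 < a →
      (∀ s ∈ Set.Ico 0 a, SPath k (fun l => r l + s * η l)) → Path k (fun l => r l + a * η l) →
      ContinuousOn (fun s => G (fun l => r l + s * η l)) (Set.Icc 0 a) ∧
      (∀ s ∈ Set.Ioo 0 a, HasDerivAt (fun s => G (fun l => r l + s * η l))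
        (-(1 / 2) * ∑ l ∈ Finset.range (k + 1), w l * η l *
          R (fun l => r l + s * η l) l) s) ∧
      ∀ j ≤ k, ContinuousOn (fun s => R (fun l => r l + s * η l) j) (Set.Icc 0 a))
    (hanti : ∀ (r : ℕ → ℝ) (i j : ℕ) (s : ℝ), SPath k r → i < j → j ≤ k → 0 ≤ s →
      SPath k (Function.update r j (r j + s)) → R (Function.update r j (r j + s)) i ≤ R r i)
    (hdiag : ∀ (r : ℕ → ℝ) (c : ℝ) (j : ℕ), SPath k r → 0 ≤ c → j ≤ k →
      R r j ≤ R (fun l => r l + c) j)
    {r r' : ℕ → ℝ} (hr : SPath k r) (hr' : Path k r') :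
    G r' ≤ G r - 1 / 2 * ∑ l ∈ Finset.range (k + 1), w l * R r l * (r' l - r l) := by
  have H : Sp6H k w G R := ⟨hw, hder, hanti, hdiag⟩
  have e1 : (fun l => r l + 1 * (r' l - r l)) = r' := by
    funext l; ring
  obtain ⟨hc, -, -⟩ := hder r (fun l => r' l - r l) 1 one_pos
    (fun s hs => sp6_conv hr hr' hs.1 hs.2) (by rw [e1]; exact hr')
  have hS : ∀ s ∈ Ico (0 : ℝ) 1, G (fun l => r l + s * (r' l - r l)) ≤
      G r - 1 / 2 * (s * ∑ l ∈ Finset.range (k + 1), w l * R r l * (r' l - r l)) := by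
    intro s hs
    have h1 := sp6_conv hr hr' hs.1 hs.2
    have h2 : ∀ l ≤ k, (fun l => r l + s * (r' l - r l)) l =
        (fun l => if l ≤ k then r l + s * (r' l - r l) else r l) l := by
      intro l hl
      exact (if_pos hl).symm
    have h3 := sp6_strict H hr (sp6_congr h1 h2) (fun l hl => if_neg (not_le.2 hl))
    rw [sp6_indepG H h1 h2]
    have h4 : ∑ l ∈ Finset.range (k + 1), w l * R r l *
        ((if l ≤ k then r l + s * (r' l - r l) else r l) - r l) =
        s * ∑ l ∈ Finset.range (k + 1), w l * R r l * (r' l - r l) := by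
      rw [Finset.mul_sum]
      refine Finset.sum_congr rfl (fun l hl => ?_)
      rw [if_pos (Nat.lt_succ_iff.1 (Finset.mem_range.1 hl))]
      ring
    rw [← h4]
    exact h3
  have h5 : Tendsto (fun s => G (fun l => r l + s * (r' l - r l))) (𝓝[Ico 0 1] 1) (𝓝 (G r')) := by
    have h6 := (hc 1 ⟨zero_le_one, le_refl 1⟩).mono Ico_subset_Icc_self
    have h7 : Tendsto (fun s => G (fun l => r l + s * (r' l - r l))) (𝓝[Ico 0 1] 1)
      (𝓝 (G (fun l => r l + 1 * (r' l - r l)))) := h6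
    rwa [e1] at h7
  have h8 : Tendsto (fun s : ℝ => G r - 1 / 2 * (s * ∑ l ∈ Finset.range (k + 1),
      w l * R r l * (r' l - r l))) (𝓝[Ico 0 1] 1)
      (𝓝 (G r - 1 / 2 * (1 * ∑ l ∈ Finset.range (k + 1), w l * R r l * (r' l - r l)))) := by
    have h9 : Continuous (fun s : ℝ => G r - 1 / 2 * (s * ∑ l ∈ Finset.range (k + 1),
      w l * R r l * (r' l - r l))) := by fun_prop
    exact (h9.tendsto 1).mono_left nhdsWithin_le_nhds
  rw [one_mul] at h8
  have : (𝓝[Ico (0 : ℝ) 1] 1).NeBot := by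
    rw [← mem_closure_iff_nhdsWithin_neBot, closure_Ico zero_ne_one]
    exact ⟨zero_le_one, le_refl 1⟩
  exact le_of_tendsto_of_tendsto h5 h8 (eventually_nhdsWithin_of_forall hS)

end Vale.Agent.P157.Par
end
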