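import Vale.Agent.P157.ParDefs
import Vale.Agent.P157.Bdl.B6
import Vale.Agent.P157.Bdl.B8
import Vale.Agent.P157.Bdl.B7
attribute [-instance] ProperSMul.toContinuousSMul IsTopologicalTorsor.toContinuousSMul IdemSemiring.toCanonicallyOrderedAdd IdemSemiring.toMulLeftMono IdemSemiring.toMulRightMono AddQuantale.instAddLeftMono AddQuantale.instAddRightMono Quantale.instMulLeftMono Quantale.instMulRightMono FiniteDimensional.rclike_to_real IsScalarTower.complexToReal FiniteDimensional.complexToReal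

set_option linter.all false

section

/-!
Assembly of the Parisi formula from the upper bound and the lower bound.
-/

open MeasureTheory ProbabilityTheory Filter Topology

namespace Vale.Agent.P157.Par

/-- Convergence to an infimum of suprema from the two bounds. -/
theorem minimax_of_bounds {I R : Type*} (A : Set I) (B : I → Set R) (hB : ∀ i ∈ A, (B i).Nonempty)
    (F : I → R → ℝ) (a : ℕ → ℝ) {K : ℝ} (hK : ∀ᶠ N in atTop, |a N| ≤ K)
    (hU : ∀ i ∈ A, ∀ C, (∀ r ∈ B i, F i r ≤ C) → ∀ ε > 0, ∀ᶠ N in atTop, a N ≤ C + ε)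
    (hL : ∀ p, (∀ ε > 0, ∃ᶠ N in atTop, a N < p + ε) →
      ∀ ε > 0, ∃ i ∈ A, ∀ r ∈ B i, F i r ≤ p + ε) :
    ∃ L, Tendsto a atTop (𝓝 L) ∧
      IsGLB {y | ∃ i ∈ A, IsLUB {y | ∃ r ∈ B i, y = F i r} y} L := by
  have hbl : IsBoundedUnder (· ≥ ·) atTop a := ⟨-K, by
    rw [eventually_map]; exact hK.mono fun N h => (abs_le.1 h).1⟩
  have hbu : IsBoundedUnder (· ≤ ·) atTop a := ⟨K, by
    rw [eventually_map]; exact hK.mono fun N h => (abs_le.1 h).2⟩
  set p := liminf a atTop with hp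
  have hfreq : ∀ ε > 0, ∃ᶠ N in atTop, a N < p + ε := fun ε hε =>
    frequently_lt_of_liminf_lt hbu.isCoboundedUnder_ge (by rw [← hp]; linarith only [hε])
  have hlow := hL p hfreq
  have hev : ∀ ε > 0, ∀ᶠ N in atTop, a N ≤ p + ε := by
    intro ε hε
    obtain ⟨i, hi, hr⟩ := hlow (ε / 2) (by linarith only [hε])
    filter_upwards [hU i hi (p + ε / 2) hr (ε / 2) (by linarith only [hε])] with N hN
    linarith
  have hlim : Tendsto a atTop (𝓝 p) := by
    refine tendsto_of_le_liminf_of_limsup_le le_rfl ?_ hbu hbl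
    refine le_of_forall_pos_le_add fun ε hε => ?_
    exact limsup_le_of_le hbl.isCoboundedUnder_le (hev ε hε)
  refine ⟨p, hlim, ?_, ?_⟩
  · rintro y ⟨i, hi, hy⟩
    refine le_of_forall_pos_le_add fun ε hε => ?_
    have h := hU i hi y (fun r hr => hy.1 ⟨r, hr, rfl⟩) ε hε
    exact le_of_tendsto hlim h
  · intro b hb
    refine le_of_forall_pos_le_add fun ε hε => ?_
    obtain ⟨i, hi, hr⟩ := hlow ε hε
    have hne : ({y | ∃ r ∈ B i, y = F i r} : Set ℝ).Nonempty := by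
      obtain ⟨r, hr'⟩ := hB i hi
      exact ⟨_, r, hr', rfl⟩
    have hbd : BddAbove {y | ∃ r ∈ B i, y = F i r} := ⟨p + ε, by
      rintro y ⟨r, hr', rfl⟩
      exact hr r hr'⟩
    have h1 := hb ⟨i, hi, isLUB_csSup hne hbd⟩
    exact h1.trans (csSup_le hne (by
      rintro y ⟨r, hr', rfl⟩
      exact hr r hr'))

/-- The Parisi formula from the two bounds. -/
theorem formula_of_bounds {α : ℝ} {f : ℝ → ℝ} {K : ℝ}
    (hK : ∀ᶠ N in atTop, |meanPressure cube α f N| ≤ K)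
    (hU : ∀ (k : ℕ) (m q : ℕ → ℝ), Exponents k m → Path k q → q k < 1 → ∀ C,
      (∀ r, Path k r → parisi α f k m q r ≤ C) →
        ∀ ε > 0, ∀ᶠ N in atTop, meanPressure cube α f N ≤ C + ε)
    (hL : ∀ p, (∀ ε > 0, ∃ᶠ N in atTop, meanPressure cube α f N < p + ε) →
      ∀ ε > 0, ∃ (k : ℕ) (m q : ℕ → ℝ), Exponents k m ∧ Path k q ∧ q k < 1 ∧
        ∀ r, Path k r → parisi α f k m q r ≤ p + ε) :
    ∃ L, Tendsto (meanPressure cube α f) atTop (𝓝 L) ∧
      IsGLB {y | ∃ (k : ℕ) (m q : ℕ → ℝ), Exponents k m ∧ Path k q ∧ q k < 1 ∧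
        IsLUB {y | ∃ r, Path k r ∧ y = parisi α f k m q r} y} L := by
  obtain ⟨L, h1, h2⟩ := minimax_of_bounds (I := ℕ × (ℕ → ℝ) × (ℕ → ℝ)) (R := ℕ → ℝ)
    {i | Exponents i.1 i.2.1 ∧ Path i.1 i.2.2 ∧ i.2.2 i.1 < 1} (fun i => {r | Path i.1 r})
    (fun i _ => ⟨fun _ => 0, le_rfl, fun _ _ => le_rfl⟩)
    (fun i r => parisi α f i.1 i.2.1 i.2.2 r) (meanPressure cube α f) hK
    (fun i hi C hC ε hε => hU i.1 i.2.1 i.2.2 hi.1 hi.2.1 hi.2.2 C hC ε hε)
    (fun p hp ε hε => by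
      obtain ⟨k, m, q, h1, h2, h3, h4⟩ := hL p hp ε hε
      exact ⟨(k, m, q), ⟨h1, h2, h3⟩, h4⟩)
  refine ⟨L, h1, ?_⟩
  convert h2 using 1
  ext y
  constructor
  · rintro ⟨k, m, q, h1, h2, h3, h4⟩
    exact ⟨(k, m, q), ⟨h1, h2, h3⟩, h4⟩
  · rintro ⟨⟨k, m, q⟩, ⟨h1, h2, h3⟩, h4⟩
    exact ⟨k, m, q, h1, h2, h3, h4⟩

end Vale.Agent.P157.Par
end

section

open MeasureTheory ProbabilityTheory Filter Topology Finset

namespace Vale.Agent.P157.Par

set_option linter.unusedSectionVars false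

open Vale.Agent.P367.GT (gM)

namespace Sys

variable (S : Sys) {J : Type} [Fintype J] [DecidableEq J]

/-- The product weight of a family of replicas. -/
lemma sum_prod_w (ω : S.Ω) : ∑ x : J → S.X, ∏ a, S.w ω (x a) = 1 := by
  classical
  rw [← Fintype.piFinset_univ, ← Finset.prod_univ_sum]
  simp only [S.w1, prod_const_one]

lemma prod_wT_nonneg (ω : S.Ω) (x : J → S.X) : 0 ≤ ∏ a, S.w ω (x a) :=
  Finset.prod_nonneg fun _ _ => S.w0 _ _

lemma prod_wT_le_one (ω : S.Ω) (x : J → S.X) : ∏ a, S.w ω (x a) ≤ 1 :=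
  Finset.prod_le_one (fun _ _ => S.w0 _ _) fun _ _ => w_le_one ω _

lemma avT_integrable {G : S.Ω → (J → S.X) → ℝ} (hm : ∀ x, Measurable fun ω => G ω x) {C : ℝ}
    (hC : ∀ ω x, |G ω x| ≤ C) :
    Integrable (fun ω => ∑ x : J → S.X, (∏ a, S.w ω (x a)) * G ω x) S.P := by
  apply integrable_finsetSum
  intro x _
  have hmm : Measurable fun ω => (∏ a, S.w ω (x a)) * G ω x :=
    (Finset.measurable_prod _ fun a _ => S.hw _).mul (hm x)
  apply Integrable.of_bound hmm.aestronglyMeasurable C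
  filter_upwards with ω
  rw [Real.norm_eq_abs, abs_mul, abs_of_nonneg (S.prod_wT_nonneg ω x)]
  exact (mul_le_of_le_one_left (abs_nonneg _) (S.prod_wT_le_one ω x)).trans (hC ω x)

lemma avT_sub {G H : S.Ω → (J → S.X) → ℝ} (hm : ∀ x, Measurable fun ω => G ω x) {C : ℝ}
    (hC : ∀ ω x, |G ω x| ≤ C) (hm' : ∀ x, Measurable fun ω => H ω x) {C' : ℝ}
    (hC' : ∀ ω x, |H ω x| ≤ C') :
    S.avT (fun ω x => G ω x - H ω x) = S.avT G - S.avT H := by
  unfold avT
  rw [← integral_sub (S.avT_integrable hm hC) (S.avT_integrable hm' hC')]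
  congr 1
  funext ω
  rw [← Finset.sum_sub_distrib]
  exact Finset.sum_congr rfl fun x _ => by ring

lemma avT_add {G H : S.Ω → (J → S.X) → ℝ} (hm : ∀ x, Measurable fun ω => G ω x) {C : ℝ}
    (hC : ∀ ω x, |G ω x| ≤ C) (hm' : ∀ x, Measurable fun ω => H ω x) {C' : ℝ}
    (hC' : ∀ ω x, |H ω x| ≤ C') :
    S.avT (fun ω x => G ω x + H ω x) = S.avT G + S.avT H := by
  unfold avT
  rw [← integral_add (S.avT_integrable hm hC) (S.avT_integrable hm' hC')]
  congr 1
  funext ω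
  rw [← Finset.sum_add_distrib]
  exact Finset.sum_congr rfl fun x _ => by ring

lemma avT_sum {I : Type*} (s : Finset I) {G : I → S.Ω → (J → S.X) → ℝ}
    (hm : ∀ i x, Measurable fun ω => G i ω x) {C : ℝ} (hC : ∀ i ω x, |G i ω x| ≤ C) :
    S.avT (fun ω x => ∑ i ∈ s, G i ω x) = ∑ i ∈ s, S.avT (G i) := by
  unfold avT
  rw [← integral_finsetSum _ fun i _ => S.avT_integrable (hm i) (hC i)]
  congr 1
  funext ω
  rw [Finset.sum_comm]
  exact Finset.sum_congr rfl fun x _ => by rw [Finset.mul_sum]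

lemma avT_const_mul (c : ℝ) (G : S.Ω → (J → S.X) → ℝ) :
    S.avT (fun ω x => c * G ω x) = c * S.avT G := by
  unfold avT
  rw [← integral_const_mul]
  congr 1
  funext ω
  rw [Finset.mul_sum]
  exact Finset.sum_congr rfl fun x _ => by ring

lemma avT_mono {G H : S.Ω → (J → S.X) → ℝ} (hm : ∀ x, Measurable fun ω => G ω x) {C : ℝ}
    (hC : ∀ ω x, |G ω x| ≤ C) (hm' : ∀ x, Measurable fun ω => H ω x) {C' : ℝ}
    (hC' : ∀ ω x, |H ω x| ≤ C') (h : ∀ ω x, G ω x ≤ H ω x) : S.avT G ≤ S.avT H := by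
  unfold avT
  apply integral_mono (S.avT_integrable hm hC) (S.avT_integrable hm' hC')
  intro ω
  exact Finset.sum_le_sum fun x _ => mul_le_mul_of_nonneg_left (h ω x) (S.prod_wT_nonneg ω x)

lemma avT_const (c : ℝ) : S.avT (fun _ (_ : J → S.X) => c) = c := by
  unfold avT
  simp_rw [← Finset.sum_mul, S.sum_prod_w, one_mul]
  simp

lemma abs_avT_le {G H : S.Ω → (J → S.X) → ℝ} (hm : ∀ x, Measurable fun ω => G ω x) {C : ℝ}
    (hC : ∀ ω x, |G ω x| ≤ C) (hm' : ∀ x, Measurable fun ω => H ω x) {C' : ℝ}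
    (hC' : ∀ ω x, |H ω x| ≤ C') (h : ∀ ω x, |G ω x| ≤ H ω x) : |S.avT G| ≤ S.avT H := by
  rw [abs_le]
  constructor
  · have h1 := S.avT_mono (G := fun ω x => (-1) * H ω x) (H := G)
      (fun x => (hm' x).const_mul (-1)) (C := C') (fun ω x => by simpa only [neg_mul, one_mul, abs_neg] using hC' ω x) hm hC
      (fun ω x => by have := neg_le_of_abs_le (h ω x); (clear * - this; linarith))
    rw [S.avT_const_mul] at h1
    linarith only [h1]
  · exact S.avT_mono hm hC hm' hC' fun ω x => le_of_abs_le (h ω x)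

lemma abs_avT_le_const {G : S.Ω → (J → S.X) → ℝ} (hm : ∀ x, Measurable fun ω => G ω x) {C : ℝ}
    (hC : ∀ ω x, |G ω x| ≤ C) : |S.avT G| ≤ C := by
  have h := S.abs_avT_le (H := fun _ _ => C) hm hC (fun x => measurable_const) (C' := |C|)
    (fun _ _ => le_rfl) hC
  rwa [S.avT_const] at h

end Sys

/-! ### The moment identity -/

section Moments

variable (S : Sys) {K : Type} [Fintype K] [DecidableEq K] {κ : S.T → S.X → K → ℝ}
  (hκ : ∀ x c, Measurable fun t => κ t x c)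

include hκ

lemma measurable_field (x : S.X) :
    Measurable fun z : S.Ω × (K → ℝ) => lin (κ (S.π z.1)) z.2 x := by
  unfold lin
  apply Finset.measurable_sum
  intro c _
  exact ((hκ x c).comp (S.hπ.comp measurable_fst)).mul ((measurable_pi_apply c).comp measurable_snd)

/-- Average over a Gaussian field which is independent of the system. -/
theorem moment {J : Type} [Fintype J] [DecidableEq J] {F : S.T → (J → S.X) → ℝ}
    (hF : ∀ x, Measurable fun t => F t x) {B : ℝ} (hB : ∀ t x, |F t x| ≤ B) {f : J → ℝ → ℝ}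
    (hf : ∀ a, BM (f a)) :
    ∫ z : S.Ω × (K → ℝ), ∑ x : J → S.X, (∏ a, S.w z.1 (x a)) *
      (F (S.π z.1) x * ∏ a, f a (lin (κ (S.π z.1)) z.2 (x a))) ∂(S.P.prod (gM K)) =
      S.avT (fun ω x => F (S.π ω) x * gE (fun a => κ (S.π ω) (x a)) f) := by
  obtain ⟨C, hC0, hC⟩ := exists_bound hf
  have hmeas : ∀ x : J → S.X, Measurable fun z : S.Ω × (K → ℝ) =>
      (∏ a, S.w z.1 (x a)) * (F (S.π z.1) x * ∏ a, f a (lin (κ (S.π z.1)) z.2 (x a))) := by
    intro x
    refine (Finset.measurable_prod _ fun a _ => (S.hw _).comp measurable_fst).mul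
      (((hF x).comp (S.hπ.comp measurable_fst)).mul (Finset.measurable_prod _ fun a _ => ?_))
    exact (hf a).meas.comp (measurable_field S hκ (x a))
  have hB0 : 0 ≤ |B| := abs_nonneg B
  have hbound : ∀ (x : J → S.X) (z : S.Ω × (K → ℝ)), ‖(∏ a, S.w z.1 (x a)) *
      (F (S.π z.1) x * ∏ a, f a (lin (κ (S.π z.1)) z.2 (x a)))‖ ≤
      1 * (|B| * C ^ (univ : Finset J).card) := by
    intro x z
    rw [Real.norm_eq_abs, abs_mul, abs_mul]
    have h1 : |∏ a, S.w z.1 (x a)| ≤ 1 := by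
      rw [abs_of_nonneg (S.prod_wT_nonneg _ _)]; exact S.prod_wT_le_one _ _
    have h2 := (hB (S.π z.1) x).trans (le_abs_self B)
    have h3 : |∏ a, f a (lin (κ (S.π z.1)) z.2 (x a))| ≤ C ^ (univ : Finset J).card :=
      abs_prod_le fun a _ => hC a _
    (clear * - h1 h2 h3; gcongr)
  have hint : ∀ x : J → S.X, Integrable (fun z : S.Ω × (K → ℝ) =>
      (∏ a, S.w z.1 (x a)) * (F (S.π z.1) x * ∏ a, f a (lin (κ (S.π z.1)) z.2 (x a))))
      (S.P.prod (gM K)) := fun x =>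
    Integrable.of_bound (hmeas x).aestronglyMeasurable _ (Eventually.of_forall (hbound x))
  rw [integral_prod _ (integrable_finsetSum _ fun x _ => hint x)]
  unfold Sys.avT
  congr 1
  funext ω
  have hintω : ∀ x : J → S.X, Integrable (fun ξ : K → ℝ =>
      (∏ a, S.w ω (x a)) * (F (S.π ω) x * ∏ a, f a (lin (κ (S.π ω)) ξ (x a)))) (gM K) := fun x =>
    Integrable.of_bound ((hmeas x).comp measurable_prodMk_left).aestronglyMeasurable _
      (Eventually.of_forall fun ξ => hbound x (ω, ξ))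
  rw [integral_finsetSum _ fun x _ => hintω x]
  apply Finset.sum_congr rfl
  intro x _
  rw [integral_const_mul, integral_const_mul]
  rfl

end Moments

/-! ### Algebra of products of sums -/

lemma prod_sum_pow {X δ : Type} [Fintype X] [Fintype δ] [DecidableEq δ] (n : ℕ)
    (Φ : (δ → X) → ℝ) (p : δ → X → ℝ) (q : X → ℝ) :
    (∑ x : δ → X, Φ x * ∏ i, p i (x i)) * (∑ y, q y) ^ n =
      ∑ x : δ ⊕ Fin n → X, Φ (fun i => x (Sum.inl i)) *
        ((∏ i, p i (x (Sum.inl i))) * ∏ j, q (x (Sum.inr j))) := by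
  classical
  have h1 : (∑ y, q y) ^ n = ∑ y : Fin n → X, ∏ j, q (y j) := by
    have h := Finset.prod_univ_sum (fun _ : Fin n => (Finset.univ : Finset X)) (fun _ y => q y)
    rw [Fintype.piFinset_univ] at h
    rw [← h]
    simp only [prod_const, card_univ, Fintype.card_fin]
  rw [h1, Finset.sum_mul_sum, ← Fintype.sum_prod_type' (f := fun (x : δ → X) (y : Fin n → X) =>
    Φ x * (∏ i, p i (x i)) * ∏ j, q (y j)),
    ← (Equiv.sumArrowEquivProdArrow δ (Fin n) X).sum_comp]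
  apply Finset.sum_congr rfl
  intro x _
  rw [mul_assoc]
  rfl

/-! ### Comparison with the tree field -/

lemma prod_bound {δ : Type} (n : ℕ) [Fintype δ] [DecidableEq δ]
    (C α : ℝ) (a b : δ ⊕ Fin n) :
    ∏ x : δ ⊕ Fin n, (Sum.elim (fun _ => C) (fun _ => α) x) *
      ((if x = a then C / α else 1) * (if x = b then C / α else 1)) =
      C ^ Fintype.card δ * α ^ n * (C / α) ^ 2 := by
  rw [Finset.prod_mul_distrib, Finset.prod_mul_distrib, Fintype.prod_sum_type]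
  simp only [Sum.elim_inl, Sum.elim_inr, Finset.prod_const, Finset.card_univ, Fintype.card_fin,
    Finset.prod_ite_eq', Finset.mem_univ, if_true]
  ring

/-- Comparison of the field of the system with the tree field, for a fixed configuration of
replicas. -/
lemma gE_cmp {k : ℕ} {δ : Type} [Fintype δ] [DecidableEq δ] {n : ℕ} {K : Type} [Fintype K]
    [DecidableEq K] (V : δ ⊕ Fin n → K → ℝ) {c : Fin (k + 1) → ℝ} (hc : ∀ l, 0 ≤ c l) {τ : ℝ}
    (hτ : 0 ≤ τ) {L : LM k (δ ⊕ Fin n)} (hL : Ultra L) {A A' A'' : δ → ℝ → ℝ} {v v' v'' : ℝ → ℝ}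
    {C α : ℝ} (hC : 1 ≤ C) (hα0 : 0 < α) (hα1 : α ≤ 1)
    (hA : ∀ i, (∀ x, HasDerivAt (A i) (A' i x) x) ∧ (∀ x, HasDerivAt (A' i) (A'' i x) x) ∧
      Continuous (A'' i) ∧ (∀ x, |A i x| ≤ C) ∧ (∀ x, |A' i x| ≤ C) ∧ ∀ x, |A'' i x| ≤ C)
    (hv : (∀ x, HasDerivAt v (v' x) x) ∧ (∀ x, HasDerivAt v' (v'' x) x) ∧
      Continuous v'' ∧ (∀ x, |v x| ≤ α) ∧ (∀ x, |v' x| ≤ C) ∧ ∀ x, |v'' x| ≤ C) :
    |gE V (fam A v) - gE (noisy τ (UL c L)) (fam A v)| ≤
      C ^ (Fintype.card δ + 2) / α ^ 2 * α ^ n * (1 / 2 * ∑ a, ∑ b,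
        |gram V V a b - ((∑ l, if l ≤ L a b then c l else 0) + if a = b then τ else 0)|) := by
  classical
  have hαC : α ≤ C := hα1.trans hC
  have hC0 : 0 < C := by linarith only [hC]
  have hCα : 1 ≤ C / α := by rw [le_div_iff₀ hα0]; linarith only [hC, hα1]
  set F : δ ⊕ Fin n → ℝ → ℝ := fam A v with hF
  set F' : δ ⊕ Fin n → ℝ → ℝ := fam A' v' with hF'
  set F'' : δ ⊕ Fin n → ℝ → ℝ := fam A'' v'' with hF''
  have b0 : ∀ a x, |F a x| ≤ C := by
    rintro (i | j) x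
    · exact (hA i).2.2.2.1 x
    · exact (hv.2.2.2.1 x).trans hαC
  have b1 : ∀ a x, |F' a x| ≤ C := by
    rintro (i | j) x
    · exact (hA i).2.2.2.2.1 x
    · exact hv.2.2.2.2.1 x
  have b2 : ∀ a x, |F'' a x| ≤ C := by
    rintro (i | j) x
    · exact (hA i).2.2.2.2.2 x
    · exact hv.2.2.2.2.2 x
  have d1 : ∀ a x, HasDerivAt (F a) (F' a x) x := by
    rintro (i | j) x
    · exact (hA i).1 x
    · exact hv.1 x
  have d2 : ∀ a x, HasDerivAt (F' a) (F'' a x) x := by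
    rintro (i | j) x
    · exact (hA i).2.1 x
    · exact hv.2.1 x
  have m2 : ∀ a, Measurable (F'' a) := by
    rintro (i | j)
    · exact (hA i).2.2.1.measurable
    · exact hv.2.2.1.measurable
  have hel : ∀ x : δ ⊕ Fin n, α ≤ Sum.elim (fun _ => C) (fun _ => α) x := by
    rintro (i | j)
    · exact hαC
    · exact le_rfl
  have hb0' : ∀ (x : δ ⊕ Fin n) y, |F x y| ≤ Sum.elim (fun _ => C) (fun _ => α) x := by
    rintro (i | j) y
    · exact (hA i).2.2.2.1 y
    · exact hv.2.2.2.1 y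
  have hM : ∀ a b, ∀ W : δ ⊕ Fin n → K ⊕ ((Fin (k + 1) × (δ ⊕ Fin n → Bool)) ⊕ (δ ⊕ Fin n)) → ℝ,
      |gE W (D2 F F' F'' a b)| ≤ C ^ Fintype.card δ * α ^ n * (C / α) ^ 2 := by
    intro a b W
    rw [← prod_bound n C α a b]
    apply abs_gE_le
    intro x y
    have h0 := hel x
    have hpos : 0 < Sum.elim (fun _ : δ => C) (fun _ : Fin n => α) x := hα0.trans_le h0
    unfold D2
    by_cases hab : a = b
    · subst hab
      simp only [if_true]
      by_cases hx : x = a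
      · subst hx
        simp only [if_true, Function.update_self]
        calc |F'' x y| ≤ C := b2 x y
          _ = α * (C / α) := by (clear * - hα0 hC; field_simp)
          _ ≤ Sum.elim (fun _ : δ => C) (fun _ : Fin n => α) x * (C / α * (C / α)) := by
            apply mul_le_mul h0 _ (by positivity) hpos.le
            (by_contra nlg; linarith only [nlg, mul_pos (sub_pos.2 (not_le.1 nlg)) (sub_pos.2 (not_le.1 nlg)), mul_nonneg (mul_self_nonneg (1 * (C / α) : ℝ)) (sub_nonneg.2 hCα), mul_nonneg (mul_self_nonneg (1 * (C / α) : ℝ)) (le_of_lt (sub_pos.2 (not_le.1 nlg)))])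
      · simp only [if_neg hx, mul_one, Function.update_of_ne hx]
        exact hb0' x y
    · simp only [if_neg hab]
      by_cases hxb : x = b
      · subst hxb
        have hxa : x ≠ a := fun h => hab h.symm
        simp only [if_true, if_neg hxa, one_mul, Function.update_self]
        calc |F' x y| ≤ C := b1 x y
          _ = α * (C / α) := by (clear * - hα0 hC; field_simp)
          _ ≤ Sum.elim (fun _ : δ => C) (fun _ : Fin n => α) x * (C / α) :=
            mul_le_mul_of_nonneg_right h0 (by positivity)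
      · by_cases hxa : x = a
        · subst hxa
          simp only [if_true, if_neg hxb, mul_one, Function.update_of_ne hxb,
            Function.update_self]
          calc |F' x y| ≤ C := b1 x y
            _ = α * (C / α) := by (clear * - hα0 hC; field_simp)
            _ ≤ Sum.elim (fun _ : δ => C) (fun _ : Fin n => α) x * (C / α) :=
              mul_le_mul_of_nonneg_right h0 (by positivity)
        · simp only [if_neg hxa, if_neg hxb, mul_one, Function.update_of_ne hxb,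
            Function.update_of_ne hxa]
          exact hb0' x y
  have hM' : ∀ a b, ∀ W : δ ⊕ Fin n → ((Fin (k + 1) × (δ ⊕ Fin n → Bool)) ⊕ (δ ⊕ Fin n)) ⊕ K → ℝ,
      |gE W (D2 F F' F'' a b)| ≤ C ^ Fintype.card δ * α ^ n * (C / α) ^ 2 := by
    intro a b W
    have e : K ⊕ ((Fin (k + 1) × (δ ⊕ Fin n → Bool)) ⊕ (δ ⊕ Fin n)) ≃
      ((Fin (k + 1) × (δ ⊕ Fin n → Bool)) ⊕ (δ ⊕ Fin n)) ⊕ K := Equiv.sumComm _ _
    have h := hM a b (fun x p => W x (e p))
    rwa [gE_reindex_right W e (D2 F F' F'' a b)] at h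
  have hcmp := gE_compare (noisy τ (UL c L)) V b0 b1 b2 d1 d2 m2
    (M := fun _ _ => C ^ Fintype.card δ * α ^ n * (C / α) ^ 2) hM'
  refine hcmp.trans (le_of_eq ?_)
  simp_rw [gram_noisy_UL hc hτ hL, ← Finset.sum_mul]
  rw [pow_add, div_pow]
  field_simp

end Vale.Agent.P157.Par
end

section

open MeasureTheory ProbabilityTheory Filter Topology Finset

namespace Vale.Agent.P157.Par

set_option linter.unusedSectionVars false

open Vale.Agent.P367.GT (gM)

/-- Limits of sums. -/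
lemma sum_lim {U : Filter ℕ} {x : ℕ → ℕ → ℝ} {y B D : ℕ → ℝ} {ε : ℝ} (hε : 0 ≤ ε)
    (hB : Summable B) (hD : Summable D) (hx : ∀ j n, |x j n| ≤ B n) (hy : ∀ n, |y n| ≤ B n)
    (hD0 : ∀ n, 0 ≤ D n)
    (h : ∀ n, ∀ η > 0, ∀ᶠ j in U, |x j n - y n| ≤ D n * ε + η) :
    ∀ η > 0, ∀ᶠ j in U, |∑' n, x j n - ∑' n, y n| ≤ (∑' n, D n) * ε + η := by
  intro η hη
  have hxs : ∀ j, Summable (x j) := fun j =>
    Summable.of_norm_bounded hB fun n => by rw [Real.norm_eq_abs]; exact hx j n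
  have hys : Summable y := Summable.of_norm_bounded hB fun n => by
    rw [Real.norm_eq_abs]; exact hy n
  have ht := tendsto_sum_nat_add B
  obtain ⟨n₀, hn₀⟩ := ((tendsto_order.1 ht).2 (η / 4) (by (clear * - hη; positivity))).exists
  have hBt : Summable fun i => B (i + n₀) := (summable_nat_add_iff n₀).2 hB
  have hfin : ∀ᶠ j in U, ∀ n ∈ Finset.range n₀, |x j n - y n| ≤ D n * ε + η / (2 * (n₀ + 1)) := by
    rw [Filter.eventually_all_finset]
    intro n _
    exact h n _ (by (clear * - hη; positivity))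
  filter_upwards [hfin] with j hj
  rw [← (hxs j).sum_add_tsum_nat_add n₀, ← hys.sum_add_tsum_nat_add n₀]
  have e1 : |∑' i, x j (i + n₀)| ≤ ∑' i, B (i + n₀) := by
    rw [← Real.norm_eq_abs]
    exact tsum_of_norm_bounded hBt.hasSum fun i => by rw [Real.norm_eq_abs]; exact hx j _
  have e2 : |∑' i, y (i + n₀)| ≤ ∑' i, B (i + n₀) := by
    rw [← Real.norm_eq_abs]
    exact tsum_of_norm_bounded hBt.hasSum fun i => by rw [Real.norm_eq_abs]; exact hy _
  have e3 : |∑ n ∈ Finset.range n₀, x j n - ∑ n ∈ Finset.range n₀, y n| ≤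
      (∑' n, D n) * ε + η / 2 := by
    rw [← Finset.sum_sub_distrib]
    refine (Finset.abs_sum_le_sum_abs _ _).trans ((Finset.sum_le_sum hj).trans ?_)
    rw [Finset.sum_add_distrib, ← Finset.sum_mul, Finset.sum_const, Finset.card_range,
      nsmul_eq_mul]
    have h1 : ∑ n ∈ Finset.range n₀, D n ≤ ∑' n, D n := hD.sum_le_tsum _ fun n _ => hD0 n
    have h2 : (n₀ : ℝ) * (η / (2 * (n₀ + 1))) ≤ η / 2 := by
      have h3 : (0 : ℝ) < n₀ + 1 := by (clear * -; positivity)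
      rw [show (n₀ : ℝ) * (η / (2 * (n₀ + 1))) = (n₀ / (n₀ + 1)) * (η / 2) by (clear * - hη; field_simp)]
      apply mul_le_of_le_one_left (by positivity)
      rw [div_le_one h3]
      linarith only []
    have h4 := mul_le_mul_of_nonneg_right h1 hε
    linarith only [h2, h4]
  have e4 : (∑ n ∈ Finset.range n₀, x j n + ∑' i, x j (i + n₀)) -
      (∑ n ∈ Finset.range n₀, y n + ∑' i, y (i + n₀)) =
      (∑ n ∈ Finset.range n₀, x j n - ∑ n ∈ Finset.range n₀, y n) + ∑' i, x j (i + n₀) -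
        ∑' i, y (i + n₀) := by ring
  rw [e4]
  have e5 := abs_sub ((∑ n ∈ Finset.range n₀, x j n - ∑ n ∈ Finset.range n₀, y n) +
    ∑' i, x j (i + n₀)) (∑' i, y (i + n₀))
  have e6 := abs_add_le (∑ n ∈ Finset.range n₀, x j n - ∑ n ∈ Finset.range n₀, y n)
    (∑' i, x j (i + n₀))
  linarith

/-- The standing assumptions on the limit of the systems. -/
structure LimData (U : Ultrafilter ℕ) (S : ℕ → Sys) {k : ℕ} (b : Fin k → ℝ)
    (w : Fin (k + 1) → ℝ) : Prop where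
  gg : ∀ p : ℕ, AsympGG U S (fun x => x ^ p)
  mono : StrictMono b
  b0 : ∀ i, 0 < b i
  b1 : ∀ i, b i ≤ 1
  na : ∀ i, NonAtom U S (b i)
  lim : ∀ l, Tendsto (fun j => (S j).pr (fun x : Fin 2 → (S j).X =>
      lev b ((S j).R (x 0) (x 1)) = l)) U (𝓝 (w l))
  wpos : ∀ l, 0 < w l
  wsum : ∑ l, w l = 1

/-- The value at the level `l` of the covariance with increments `c`. -/
noncomputable def cumul {k : ℕ} (c : Fin (k + 1) → ℝ) (l : Fin (k + 1)) : ℝ :=
  ∑ l', if l' ≤ l then c l' else 0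

lemma abs_cumul_le {k : ℕ} {c : Fin (k + 1) → ℝ} (hc : ∀ l, 0 ≤ c l) (l : Fin (k + 1)) :
    |cumul c l| ≤ ∑ l, c l := by
  unfold cumul
  rw [abs_of_nonneg (Finset.sum_nonneg fun l' _ => by split_ifs <;> simp [hc])]
  exact Finset.sum_le_sum fun l' _ => by split_ifs <;> simp [hc]

/-- A kernel, given by vectors depending on the disorder and on the configuration, which is close
to the value of its level. -/
structure KerClose (U : Ultrafilter ℕ) (S : ℕ → Sys) {k : ℕ} (b : Fin k → ℝ)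
    (c : Fin (k + 1) → ℝ) (τ ε B : ℝ) {K : ℕ → Type} [∀ j, Fintype (K j)]
    (κ : ∀ j, (S j).T → (S j).X → K j → ℝ) : Prop where
  meas : ∀ j x c, Measurable fun t => κ j t x c
  bdd : ∀ j t x, ∑ i, κ j t x i ^ 2 ≤ B
  off : ∀ᶠ j in (U : Filter ℕ), (S j).tav (n := 2) (fun t x =>
    |gram (κ j t) (κ j t) (x 0) (x 1) - cumul c (lev b ((S j).R (x 0) (x 1)))|) ≤ ε
  diag : ∀ᶠ j in (U : Filter ℕ), (S j).tav (n := 1) (fun t x =>
    |gram (κ j t) (κ j t) (x 0) (x 0) - (cumul c (Fin.last k) + τ)|) ≤ ε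

lemma abs_gram_le {X K : Type} [Fintype K] {κ : X → K → ℝ} {B : ℝ}
    (hB : ∀ x, ∑ i, κ x i ^ 2 ≤ B) (x y : X) : |gram κ κ x y| ≤ B := by
  have hB0 : 0 ≤ B := (Finset.sum_nonneg fun i _ => sq_nonneg _).trans (hB x)
  have h1 : gram κ κ x y ^ 2 ≤ B ^ 2 := by
    have h2 := Finset.sum_mul_sq_le_sq_mul_sq Finset.univ (κ x) (κ y)
    calc gram κ κ x y ^ 2 ≤ (∑ i, κ x i ^ 2) * ∑ i, κ y i ^ 2 := h2
      _ ≤ B * B := mul_le_mul (hB x) (hB y) (Finset.sum_nonneg fun i _ => sq_nonneg _) hB0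
      _ = B ^ 2 := by ring
  exact abs_le_of_sq_le_sq h1 hB0

/-- The smoothness and bounds used for the observables. -/
def SB (C : ℝ) (A A' A'' : ℝ → ℝ) : Prop :=
  (∀ x, HasDerivAt A (A' x) x) ∧ (∀ x, HasDerivAt A' (A'' x) x) ∧
      Continuous A'' ∧ (∀ x, |A x| ≤ C) ∧ (∀ x, |A' x| ≤ C) ∧ ∀ x, |A'' x| ≤ C

section Average

variable (S : Sys) {k : ℕ} {b : Fin k → ℝ} {c : Fin (k + 1) → ℝ} (hc : ∀ l, 0 ≤ c l) {τ : ℝ}
  (hτ : 0 ≤ τ) {K : Type} [Fintype K] [DecidableEq K] {κ : S.T → S.X → K → ℝ}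
  (hκ : ∀ x c, Measurable fun t => κ t x c) {B : ℝ} (hB : ∀ t x, ∑ i, κ t x i ^ 2 ≤ B)
  {δ : Type} [Fintype δ] [DecidableEq δ]

include hκ in
lemma measurable_gram (x y : S.X) : Measurable fun t => gram (κ t) (κ t) x y := by
  unfold gram
  exact Finset.measurable_sum _ fun c _ => (hκ x c).mul (hκ y c)

include hκ in
lemma measurable_gE {J : Type} [Fintype J] [DecidableEq J] (x : J → S.X) {f : J → ℝ → ℝ}
    (hf : ∀ a, BM (f a)) : Measurable fun t => gE (fun a => κ t (x a)) f := by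
  unfold gE
  have h : StronglyMeasurable fun p : S.T × (K → ℝ) => ∏ a, f a (lin (fun a => κ p.1 (x a)) p.2 a) := by
    apply Measurable.stronglyMeasurable
    apply Finset.measurable_prod
    intro a _
    apply (hf a).meas.comp
    unfold lin
    apply Finset.measurable_sum
    intro c _
    exact ((hκ (x a) c).comp measurable_fst).mul ((measurable_pi_apply c).comp measurable_snd)
  exact (h.integral_prod_right' (ν := gM K)).measurable

include hc hτ hκ hB in
/-- The comparison, averaged over the system. -/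
lemma avT_cmp {n : ℕ} {Φ : S.T → (δ → S.X) → ℝ} (hΦm : ∀ x, Measurable fun t => Φ t x)
    (hΦ : ∀ t x, |Φ t x| ≤ 1) {A A' A'' : δ → ℝ → ℝ} {v v' v'' : ℝ → ℝ}
    {C α : ℝ} (hC : 1 ≤ C) (hα0 : 0 < α) (hα1 : α ≤ 1) (hA : ∀ i, SB C (A i) (A' i) (A'' i))
    (hv : (∀ x, HasDerivAt v (v' x) x) ∧ (∀ x, HasDerivAt v' (v'' x) x) ∧
      Continuous v'' ∧ (∀ x, |v x| ≤ α) ∧ (∀ x, |v' x| ≤ C) ∧ ∀ x, |v'' x| ≤ C) {E : ℝ}
    (hoff : S.tav (n := 2) (fun t x =>
      |gram (κ t) (κ t) (x 0) (x 1) - cumul c (lev b (S.R (x 0) (x 1)))|) ≤ E)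
    (hdiag : S.tav (n := 1) (fun t x =>
      |gram (κ t) (κ t) (x 0) (x 0) - (cumul c (Fin.last k) + τ)|) ≤ E) :
    |S.avT (fun ω (x : δ ⊕ Fin n → S.X) => Φ (S.π ω) (fun i => x (Sum.inl i)) *
        gE (fun a => κ (S.π ω) (x a)) (fam A v)) -
      S.avT (fun ω (x : δ ⊕ Fin n → S.X) => Φ (S.π ω) (fun i => x (Sum.inl i)) *
        gE (noisy τ (UL c (S.LMat b x))) (fam A v))| ≤
      C ^ (Fintype.card δ + 2) / α ^ 2 * α ^ n * (1 / 2 * ((Fintype.card δ + n) ^ 2 * E)) +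
        2 * C ^ Fintype.card δ * S.avT (fun _ (x : δ ⊕ Fin n → S.X) =>
          ind (¬ Ultra (S.LMat b x))) := by
  have hC0 : 0 < C := by linarith only [hC]
  set M := C ^ (Fintype.card δ + 2) / α ^ 2 * α ^ n with hM
  have hM0 : 0 ≤ M := by (clear * - hC hα0; positivity)
  have hbm : ∀ a : δ ⊕ Fin n, BM (fam A v a) := by
    rintro (i | j)
    · exact ⟨(continuous_iff_continuousAt.2 fun x => ((hA i).1 x).continuousAt).measurable, C,
        (hA i).2.2.2.1⟩
    · exact ⟨(continuous_iff_continuousAt.2 fun x => (hv.1 x).continuousAt).measurable, α,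
        hv.2.2.2.1⟩
  have hgb : ∀ {K' : Type} [Fintype K'] [DecidableEq K'] (V : δ ⊕ Fin n → K' → ℝ),
      |gE V (fam A v)| ≤ C ^ Fintype.card δ := by
    intro K' _ _ V
    have h := abs_gE_le (U := V) (f := fam A v) (C := Sum.elim (fun _ => C) (fun _ => 1)) (by
      rintro (i | j) x
      · exact (hA i).2.2.2.1 x
      · exact (hv.2.2.2.1 x).trans hα1)
    rw [Fintype.prod_sum_type] at h
    simpa using h
  have hcomp : ∀ {t : S.T} {x : δ → S.X} {g : ℝ} {G : ℝ}, |g| ≤ G → |Φ t x * g| ≤ G := by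
    intro t x g G hg
    rw [abs_mul]
    exact (mul_le_of_le_one_left (abs_nonneg _) (hΦ t x)).trans hg
  have hΦm' : ∀ x : δ ⊕ Fin n → S.X, Measurable fun ω => Φ (S.π ω) (fun i => x (Sum.inl i)) :=
    fun x => (hΦm _).comp S.hπ
  have hm1 : ∀ x : δ ⊕ Fin n → S.X, Measurable fun ω => Φ (S.π ω) (fun i => x (Sum.inl i)) *
      gE (fun a => κ (S.π ω) (x a)) (fam A v) := fun x =>
    (hΦm' x).mul ((measurable_gE S hκ x hbm).comp S.hπ)
  have hm2 : ∀ x : δ ⊕ Fin n → S.X, Measurable fun ω => Φ (S.π ω) (fun i => x (Sum.inl i)) *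
      gE (noisy τ (UL c (S.LMat b x))) (fam A v) := fun x => (hΦm' x).mul measurable_const
  rw [← S.avT_sub hm1 (fun ω x => hcomp (hgb _)) hm2 (fun ω x => hcomp (hgb _))]
  -- the pointwise bound
  set Δ : (δ ⊕ Fin n) → (δ ⊕ Fin n) → S.T → (δ ⊕ Fin n → S.X) → ℝ := fun a a' t x =>
    |gram (κ t) (κ t) (x a) (x a') - (cumul c (S.LMat b x a a') + if a = a' then τ else 0)| with hΔ
  have hB0 : ∀ t x y, |gram (κ t) (κ t) x y| ≤ B := fun t => abs_gram_le (hB t)
  have hΔb : ∀ a a' t x, |Δ a a' t x| ≤ B + (∑ l, c l + τ) := by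
    intro a a' t x
    simp only [hΔ, abs_abs]
    refine (abs_sub _ _).trans (add_le_add (hB0 t _ _) ((abs_add_le _ _).trans
      (add_le_add (abs_cumul_le hc _) ?_)))
    split_ifs
    · rw [abs_of_nonneg hτ]
    · rw [abs_zero]; exact hτ
  have hΔm : ∀ a a' x, Measurable fun t => Δ a a' t x := by
    intro a a' x
    simp only [hΔ]
    exact ((measurable_gram S hκ _ _).sub_const _).abs
  have hpt : ∀ ω (x : δ ⊕ Fin n → S.X), |Φ (S.π ω) (fun i => x (Sum.inl i)) *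
      gE (fun a => κ (S.π ω) (x a)) (fam A v) - Φ (S.π ω) (fun i => x (Sum.inl i)) *
      gE (noisy τ (UL c (S.LMat b x))) (fam A v)| ≤
      (M * (1 / 2)) * (∑ p : (δ ⊕ Fin n) × (δ ⊕ Fin n), Δ p.1 p.2 (S.π ω) x) +
        (2 * C ^ Fintype.card δ) * ind (¬ Ultra (S.LMat b x)) := by
    intro ω x
    rw [← mul_sub]
    apply hcomp
    have hΔ0 : 0 ≤ ∑ p : (δ ⊕ Fin n) × (δ ⊕ Fin n), Δ p.1 p.2 (S.π ω) x :=
      Finset.sum_nonneg fun p _ => abs_nonneg _
    by_cases hL : Ultra (S.LMat b x)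
    · have h := gE_cmp (fun a => κ (S.π ω) (x a)) hc hτ hL hC hα0 hα1 hA hv
      rw [ind_of_not (not_not.2 hL), mul_zero, add_zero]
      refine h.trans (le_of_eq ?_)
      rw [Fintype.sum_prod_type, ← hM, ← mul_assoc]
      rfl
    · rw [ind_of hL, mul_one]
      have h1 := hgb (fun a => κ (S.π ω) (x a))
      have h2 := hgb (noisy τ (UL c (S.LMat b x)))
      have h3 := abs_sub (gE (fun a => κ (S.π ω) (x a)) (fam A v))
        (gE (noisy τ (UL c (S.LMat b x))) (fam A v))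
      have h4 : 0 ≤ (M * (1 / 2)) * (∑ p : (δ ⊕ Fin n) × (δ ⊕ Fin n), Δ p.1 p.2 (S.π ω) x) := by
        (clear * - hC hα0; positivity)
      linarith only [h1, h2, h3, h4]
  have hmS : ∀ x : δ ⊕ Fin n → S.X, Measurable fun ω =>
      ∑ p : (δ ⊕ Fin n) × (δ ⊕ Fin n), Δ p.1 p.2 (S.π ω) x := fun x =>
    Finset.measurable_sum _ fun p _ => (hΔm _ _ x).comp S.hπ
  have hbS : ∀ ω (x : δ ⊕ Fin n → S.X), |∑ p : (δ ⊕ Fin n) × (δ ⊕ Fin n), Δ p.1 p.2 (S.π ω) x| ≤
      ∑ _p : (δ ⊕ Fin n) × (δ ⊕ Fin n), (B + (∑ l, c l + τ)) := fun ω x =>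
    (Finset.abs_sum_le_sum_abs _ _).trans (Finset.sum_le_sum fun p _ => hΔb _ _ _ _)
  have hindb : ∀ (_ω : S.Ω) (x : δ ⊕ Fin n → S.X),
      |(2 * C ^ Fintype.card δ) * ind (¬ Ultra (S.LMat b x))| ≤ 2 * C ^ Fintype.card δ := by
    intro ω x
    rw [abs_mul, abs_of_nonneg (by positivity : 0 ≤ 2 * C ^ Fintype.card δ)]
    exact mul_le_of_le_one_right (by positivity) (abs_ind_le_one _)
  have hb1 : ∀ ω (x : δ ⊕ Fin n → S.X),
      |(M * (1 / 2)) * (∑ p : (δ ⊕ Fin n) × (δ ⊕ Fin n), Δ p.1 p.2 (S.π ω) x)| ≤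
      (M * (1 / 2)) * ∑ _p : (δ ⊕ Fin n) × (δ ⊕ Fin n), (B + (∑ l, c l + τ)) := by
    intro ω x
    rw [abs_mul, abs_of_nonneg (by (clear * - hC hα0; positivity) : 0 ≤ M * (1 / 2))]
    exact mul_le_mul_of_nonneg_left (hbS ω x) (by positivity)
  have key := S.abs_avT_le (G := fun ω (x : δ ⊕ Fin n → S.X) =>
      Φ (S.π ω) (fun i => x (Sum.inl i)) *
      gE (fun a => κ (S.π ω) (x a)) (fam A v) - Φ (S.π ω) (fun i => x (Sum.inl i)) *
      gE (noisy τ (UL c (S.LMat b x))) (fam A v))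
    (H := fun ω x => (M * (1 / 2)) * (∑ p : (δ ⊕ Fin n) × (δ ⊕ Fin n), Δ p.1 p.2 (S.π ω) x) +
        (2 * C ^ Fintype.card δ) * ind (¬ Ultra (S.LMat b x)))
    (fun x => (hm1 x).sub (hm2 x)) (C := C ^ Fintype.card δ + C ^ Fintype.card δ)
    (fun ω x => (abs_sub _ _).trans (add_le_add (hcomp (hgb _)) (hcomp (hgb _))))
    (fun x => ((hmS x).const_mul _).add measurable_const)
    (fun ω x => (abs_add_le _ _).trans (add_le_add (hb1 ω x) (hindb ω x))) hpt
  have key2 := S.avT_sum (C := B + (∑ l, c l + τ)) (Finset.univ : Finset ((δ ⊕ Fin n) × (δ ⊕ Fin n)))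
      (G := fun p ω (x : δ ⊕ Fin n → S.X) => Δ p.1 p.2 (S.π ω) x)
      (fun p x => (hΔm _ _ x).comp S.hπ) (fun p ω x => hΔb _ _ _ _)
  rw [S.avT_add (G := fun ω (x : δ ⊕ Fin n → S.X) =>
      (M * (1 / 2)) * (∑ p : (δ ⊕ Fin n) × (δ ⊕ Fin n), Δ p.1 p.2 (S.π ω) x))
    (H := fun _ (x : δ ⊕ Fin n → S.X) => (2 * C ^ Fintype.card δ) * ind (¬ Ultra (S.LMat b x)))
    (fun x => (hmS x).const_mul _) hb1 (fun x => measurable_const) hindb,
    S.avT_const_mul, S.avT_const_mul, key2] at key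
  refine key.trans (add_le_add ?_ (le_of_eq (by ring)))
  -- the averages of the increments
  have hΔav : ∀ p : (δ ⊕ Fin n) × (δ ⊕ Fin n),
      S.avT (fun ω (x : δ ⊕ Fin n → S.X) => Δ p.1 p.2 (S.π ω) x) ≤ E := by
    rintro ⟨a, a'⟩
    by_cases h : a = a'
    · subst h
      have h1 := S.avT_comp (J := Fin 1) (J' := δ ⊕ Fin n) (fun _ => a)
        (fun _ _ _ => Subsingleton.elim _ _) (fun t (x : Fin 1 → S.X) =>
        |gram (κ t) (κ t) (x 0) (x 0) - (cumul c (Fin.last k) + τ)|)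
      have h2 := S.avT_eq (Equiv.refl (Fin 1)) (fun t (x : Fin 1 → S.X) =>
        |gram (κ t) (κ t) (x 0) (x 0) - (cumul c (Fin.last k) + τ)|)
      rw [h2] at h1
      refine le_trans (le_of_eq ?_) hdiag
      refine Eq.trans ?_ h1
      simp only [hΔ, Sys.LMat, if_true]
    · have hinj : Function.Injective (![a, a'] : Fin 2 → δ ⊕ Fin n) := by
        intro i j hij
        fin_cases i <;> fin_cases j
        · rfl
        · exact absurd hij h
        · exact absurd hij.symm h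
        · rfl
      have h1 := S.avT_comp (J := Fin 2) (J' := δ ⊕ Fin n) ![a, a'] hinj
        (fun t (x : Fin 2 → S.X) =>
        |gram (κ t) (κ t) (x 0) (x 1) - cumul c (lev b (S.R (x 0) (x 1)))|)
      have h2 := S.avT_eq (Equiv.refl (Fin 2)) (fun t (x : Fin 2 → S.X) =>
        |gram (κ t) (κ t) (x 0) (x 1) - cumul c (lev b (S.R (x 0) (x 1)))|)
      rw [h2] at h1
      refine le_trans (le_of_eq ?_) hoff
      refine Eq.trans ?_ h1
      simp only [hΔ, Sys.LMat, if_neg h, add_zero]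
      rfl
  have hsum : ∑ p : (δ ⊕ Fin n) × (δ ⊕ Fin n),
      S.avT (fun ω (x : δ ⊕ Fin n → S.X) => Δ p.1 p.2 (S.π ω) x) ≤
      (Fintype.card δ + n) ^ 2 * E := by
    refine (Finset.sum_le_sum fun p _ => hΔav p).trans (le_of_eq ?_)
    rw [Finset.sum_const, Finset.card_univ, Fintype.card_prod, Fintype.card_sum,
      Fintype.card_fin, nsmul_eq_mul]
    push_cast
    ring
  calc M * (1 / 2) * _ ≤ M * (1 / 2) * ((Fintype.card δ + n) ^ 2 * E) :=
        mul_le_mul_of_nonneg_left hsum (by (clear * - hC hα0; positivity))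
    _ = _ := by ring

end Average

end Vale.Agent.P157.Par
end

section

open MeasureTheory ProbabilityTheory Filter Topology Finset

namespace Vale.Agent.P157.Par

set_option linter.unusedSectionVars false

open Vale.Agent.P367.GT (gM)

/-! ### Series representations for one system -/

section Series

variable (S : Sys) {K : Type} [Fintype K] [DecidableEq K] {κ : S.T → S.X → K → ℝ}
  (hκ : ∀ x c, Measurable fun t => κ t x c) {δ : Type} [Fintype δ] [DecidableEq δ]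

lemma zbar_eq {W : ℝ → ℝ} (ω : S.Ω) (y : S.X → ℝ) :
    1 - ∑ x, S.w ω x * (1 - W (y x)) = ∑ x, S.w ω x * W (y x) := by
  have h := S.w1 ω
  simp only [mul_sub, mul_one, sum_sub_distrib, h]
  ring

lemma vbar_mem {W : ℝ → ℝ} {a : ℝ} (hWa : ∀ x, a ≤ W x) (hW1 : ∀ x, W x ≤ 1) (ω : S.Ω)
    (y : S.X → ℝ) : 0 ≤ ∑ x, S.w ω x * (1 - W (y x)) ∧ ∑ x, S.w ω x * (1 - W (y x)) ≤ 1 - a := by
  constructor
  · exact Finset.sum_nonneg fun x _ => mul_nonneg (S.w0 ω x) (by linarith [hW1 (y x)])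
  · calc ∑ x, S.w ω x * (1 - W (y x)) ≤ ∑ x, S.w ω x * (1 - a) :=
          Finset.sum_le_sum fun x _ => mul_le_mul_of_nonneg_left (by linarith only [hWa (y x)]) (S.w0 ω x)
      _ = 1 - a := by rw [← Finset.sum_mul, S.w1, one_mul]

include hκ

/-- The series of a ratio of averages. -/
theorem ratio_eq {Φ : S.T → (δ → S.X) → ℝ} (hΦm : ∀ x, Measurable fun t => Φ t x)
    (hΦ : ∀ t x, |Φ t x| ≤ 1) {A : δ → ℝ → ℝ} (hA : ∀ i, BM (A i)) {W : ℝ → ℝ}
    (hWm : Measurable W) {a : ℝ} (ha : 0 < a) (hWa : ∀ x, a ≤ W x) (hW1 : ∀ x, W x ≤ 1) (e : ℕ) :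
    ∫ z : S.Ω × (K → ℝ), (∑ x : δ → S.X, Φ (S.π z.1) x *
        ∏ i, (S.w z.1 (x i) * A i (lin (κ (S.π z.1)) z.2 (x i)))) /
        (∑ x, S.w z.1 x * W (lin (κ (S.π z.1)) z.2 x)) ^ (e + 1) ∂(S.P.prod (gM K)) =
      ∑' n : ℕ, ((n + e).choose e : ℝ) * S.avT (fun ω (x : δ ⊕ Fin n → S.X) =>
        Φ (S.π ω) (fun i => x (Sum.inl i)) *
        gE (fun a => κ (S.π ω) (x a)) (fam A fun x => 1 - W x)) := by
  obtain ⟨C, hC0, hC⟩ := exists_bound hA
  have ha1 : a ≤ 1 := (hWa 0).trans (hW1 0)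
  have bv : BM fun x => 1 - W x :=
    ⟨measurable_const.sub hWm, 1, fun x => by
      rw [abs_le]; constructor <;> linarith only [hW1 x, ha, hWa x]⟩
  have hfam : ∀ (n : ℕ) (x : δ ⊕ Fin n), BM (fam A (fun x => 1 - W x) x) := by
    rintro n (i | j)
    · exact hA i
    · exact bv
  -- each term
  have hterm : ∀ n : ℕ, S.avT (fun ω (x : δ ⊕ Fin n → S.X) =>
        Φ (S.π ω) (fun i => x (Sum.inl i)) *
        gE (fun a => κ (S.π ω) (x a)) (fam A fun x => 1 - W x)) =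
      ∫ z : S.Ω × (K → ℝ), (∑ x : δ → S.X, Φ (S.π z.1) x *
        ∏ i, (S.w z.1 (x i) * A i (lin (κ (S.π z.1)) z.2 (x i)))) *
        (∑ x, S.w z.1 x * (1 - W (lin (κ (S.π z.1)) z.2 x))) ^ n ∂(S.P.prod (gM K)) := by
    intro n
    rw [← moment S hκ (F := fun t (x : δ ⊕ Fin n → S.X) => Φ t (fun i => x (Sum.inl i)))
      (fun x => hΦm _) (fun t x => hΦ t _) (hfam n)]
    congr 1
    funext z
    rw [prod_sum_pow n (Φ (S.π z.1))
      (fun i x => S.w z.1 x * A i (lin (κ (S.π z.1)) z.2 x))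
      (fun x => S.w z.1 x * (1 - W (lin (κ (S.π z.1)) z.2 x)))]
    apply Finset.sum_congr rfl
    intro x _
    rw [Fintype.prod_sum_type, Fintype.prod_sum_type, Finset.prod_mul_distrib,
      Finset.prod_mul_distrib]
    simp only [fam, Sum.elim_inl, Sum.elim_inr]
    ring
  simp_rw [hterm, ← integral_const_mul]
  -- measurability and bounds
  have hmx : ∀ x : S.X, Measurable fun z : S.Ω × (K → ℝ) => lin (κ (S.π z.1)) z.2 x :=
    measurable_field S hκ
  have hmN : Measurable fun z : S.Ω × (K → ℝ) => ∑ x : δ → S.X, Φ (S.π z.1) x *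
        ∏ i, (S.w z.1 (x i) * A i (lin (κ (S.π z.1)) z.2 (x i))) := by
    apply Finset.measurable_sum
    intro x _
    refine ((hΦm x).comp (S.hπ.comp measurable_fst)).mul (Finset.measurable_prod _ fun i _ => ?_)
    exact ((S.hw _).comp measurable_fst).mul ((hA i).meas.comp (hmx _))
  have hmV : Measurable fun z : S.Ω × (K → ℝ) =>
      ∑ x, S.w z.1 x * (1 - W (lin (κ (S.π z.1)) z.2 x)) := by
    apply Finset.measurable_sum
    intro x _
    exact ((S.hw _).comp measurable_fst).mul (measurable_const.sub (hWm.comp (hmx _)))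
  have hbN : ∀ z : S.Ω × (K → ℝ), |∑ x : δ → S.X, Φ (S.π z.1) x *
        ∏ i, (S.w z.1 (x i) * A i (lin (κ (S.π z.1)) z.2 (x i)))| ≤ C ^ Fintype.card δ := by
    intro z
    refine (Finset.abs_sum_le_sum_abs _ _).trans ?_
    have h1 : ∀ x : δ → S.X, |Φ (S.π z.1) x *
        ∏ i, (S.w z.1 (x i) * A i (lin (κ (S.π z.1)) z.2 (x i)))| ≤
        (∏ i, S.w z.1 (x i)) * C ^ Fintype.card δ := by
      intro x
      rw [Finset.prod_mul_distrib, abs_mul, abs_mul, abs_of_nonneg (S.prod_wT_nonneg _ _)]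
      have h2 : |∏ i, A i (lin (κ (S.π z.1)) z.2 (x i))| ≤ C ^ (univ : Finset δ).card :=
        abs_prod_le fun i _ => hC i _
      rw [Finset.card_univ] at h2
      calc |Φ (S.π z.1) x| * ((∏ i, S.w z.1 (x i)) * |∏ i, A i (lin (κ (S.π z.1)) z.2 (x i))|) ≤
          1 * ((∏ i, S.w z.1 (x i)) * C ^ Fintype.card δ) := by
            apply mul_le_mul (hΦ _ _) _ (mul_nonneg (S.prod_wT_nonneg _ _) (abs_nonneg _))
              zero_le_one
            exact mul_le_mul_of_nonneg_left h2 (S.prod_wT_nonneg _ _)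
        _ = _ := one_mul _
    refine (Finset.sum_le_sum fun x _ => h1 x).trans ?_
    rw [← Finset.sum_mul, S.sum_prod_w, one_mul]
  set N : S.Ω × (K → ℝ) → ℝ := fun z => ∑ x : δ → S.X, Φ (S.π z.1) x *
        ∏ i, (S.w z.1 (x i) * A i (lin (κ (S.π z.1)) z.2 (x i))) with hN
  set V : S.Ω × (K → ℝ) → ℝ := fun z =>
      ∑ x, S.w z.1 x * (1 - W (lin (κ (S.π z.1)) z.2 x)) with hV
  have hV0 : ∀ z, 0 ≤ V z ∧ V z ≤ 1 - a := fun z =>
    vbar_mem S hWa hW1 z.1 fun x => lin (κ (S.π z.1)) z.2 x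
  have hbt : ∀ (n : ℕ) z, ‖((n + e).choose e : ℝ) * (N z * V z ^ n)‖ ≤
      C ^ Fintype.card δ * (((n + e).choose e : ℝ) * (1 - a) ^ n) := by
    intro n z
    rw [Real.norm_eq_abs, abs_mul, abs_mul, Nat.abs_cast, abs_pow, abs_of_nonneg (hV0 z).1]
    have h1 := pow_le_pow_left₀ (hV0 z).1 (hV0 z).2 n
    calc ((n + e).choose e : ℝ) * (|N z| * V z ^ n) ≤
        ((n + e).choose e : ℝ) * (C ^ Fintype.card δ * (1 - a) ^ n) := by
          gcongr
          · exact pow_nonneg (hV0 z).1 n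
          · exact hbN z
      _ = _ := by ring
  have hint : ∀ n : ℕ, Integrable (fun z => ((n + e).choose e : ℝ) * (N z * V z ^ n))
      (S.P.prod (gM K)) := fun n =>
    Integrable.of_bound ((hmN.mul (hmV.pow_const n)).const_mul _).aestronglyMeasurable _
      (Eventually.of_forall (hbt n))
  have hsumg : Summable fun n : ℕ => ((n + e).choose e : ℝ) * (1 - a) ^ n :=
    summable_choose_mul_geometric_of_norm_lt_one e (by
      rw [Real.norm_eq_abs, abs_of_nonneg (by linarith only [ha1])]; linarith only [ha])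
  have hsum : Summable fun n : ℕ => ∫ z, ‖((n + e).choose e : ℝ) * (N z * V z ^ n)‖
      ∂(S.P.prod (gM K)) := by
    refine Summable.of_nonneg_of_le (fun n => integral_nonneg fun z => norm_nonneg _) (fun n => ?_)
      (hsumg.mul_left (C ^ Fintype.card δ))
    have h1 := integral_mono (hint n).norm (integrable_const _) (hbt n)
    rwa [integral_const, probReal_univ, one_smul] at h1
  rw [integral_tsum_of_summable_integral_norm hint hsum]
  congr 1
  funext z
  have h1 := tsum_choose_mul_geometric_of_norm_lt_one (𝕜 := ℝ) e (r := V z) (by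
    rw [Real.norm_eq_abs, abs_of_nonneg (hV0 z).1]; linarith only [ha, (hV0 z).2])
  have h2 : ∀ n : ℕ, ((n + e).choose e : ℝ) * (N z * V z ^ n) =
      N z * (((n + e).choose e : ℝ) * V z ^ n) := fun n => by ring
  simp_rw [h2]
  rw [tsum_mul_left, h1, hV]
  simp only
  rw [zbar_eq S z.1 fun x => lin (κ (S.π z.1)) z.2 x]
  rw [div_eq_mul_one_div]

/-- The series of the logarithm of an average. -/
theorem log_eq {W : ℝ → ℝ}
    (hWm : Measurable W) {a : ℝ} (ha : 0 < a) (hWa : ∀ x, a ≤ W x) (hW1 : ∀ x, W x ≤ 1) :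
    ∫ z : S.Ω × (K → ℝ), Real.log (∑ x, S.w z.1 x * W (lin (κ (S.π z.1)) z.2 x))
        ∂(S.P.prod (gM K)) =
      - ∑' n : ℕ, 1 / ((n : ℝ) + 1) * S.avT (fun ω (x : Empty ⊕ Fin (n + 1) → S.X) =>
        (fun _ _ => (1 : ℝ)) (S.π ω) (fun i => x (Sum.inl i)) *
        gE (fun a => κ (S.π ω) (x a)) (fam noA fun x => 1 - W x)) := by
  have ha1 : a ≤ 1 := (hWa 0).trans (hW1 0)
  have bv : BM fun x => 1 - W x :=
    ⟨measurable_const.sub hWm, 1, fun x => by
      rw [abs_le]; constructor <;> linarith only [hW1 x, ha, hWa x]⟩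
  have hfam : ∀ (n : ℕ) (x : Empty ⊕ Fin n), BM (fam noA (fun x => 1 - W x) x) := by
    rintro n (i | j)
    · exact i.elim
    · exact bv
  have hterm : ∀ n : ℕ, S.avT (fun ω (x : Empty ⊕ Fin n → S.X) =>
        (fun _ _ => (1 : ℝ)) (S.π ω) (fun i => x (Sum.inl i)) *
        gE (fun a => κ (S.π ω) (x a)) (fam noA fun x => 1 - W x)) =
      ∫ z : S.Ω × (K → ℝ),
        (∑ x, S.w z.1 x * (1 - W (lin (κ (S.π z.1)) z.2 x))) ^ n ∂(S.P.prod (gM K)) := by
    intro n
    rw [← moment S hκ (F := fun t (x : Empty ⊕ Fin n → S.X) =>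
      (fun _ _ => (1 : ℝ)) t (fun i => x (Sum.inl i)))
      (fun x => measurable_const) (B := 1) (fun t x => by simp) (hfam n)]
    congr 1
    funext z
    have h := prod_sum_pow (δ := Empty) n (fun _ => (1 : ℝ)) (fun i (_ : S.X) => i.elim)
      (fun x => S.w z.1 x * (1 - W (lin (κ (S.π z.1)) z.2 x)))
    simp only [Finset.univ_eq_empty, Finset.prod_empty, Finset.univ_unique, mul_one,
      Finset.sum_const, Finset.card_singleton, one_smul, one_mul] at h
    rw [h]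
    apply Finset.sum_congr rfl
    intro x _
    rw [Fintype.prod_sum_type, Fintype.prod_sum_type]
    simp only [fam, Sum.elim_inl, Sum.elim_inr, Finset.univ_eq_empty, Finset.prod_empty, one_mul]
    rw [Finset.prod_mul_distrib]
  simp_rw [hterm, ← integral_const_mul]
  have hmx : ∀ x : S.X, Measurable fun z : S.Ω × (K → ℝ) => lin (κ (S.π z.1)) z.2 x :=
    measurable_field S hκ
  have hmV : Measurable fun z : S.Ω × (K → ℝ) =>
      ∑ x, S.w z.1 x * (1 - W (lin (κ (S.π z.1)) z.2 x)) := by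
    apply Finset.measurable_sum
    intro x _
    exact ((S.hw _).comp measurable_fst).mul (measurable_const.sub (hWm.comp (hmx _)))
  set V : S.Ω × (K → ℝ) → ℝ := fun z =>
      ∑ x, S.w z.1 x * (1 - W (lin (κ (S.π z.1)) z.2 x)) with hV
  have hV0 : ∀ z, 0 ≤ V z ∧ V z ≤ 1 - a := fun z =>
    vbar_mem S hWa hW1 z.1 fun x => lin (κ (S.π z.1)) z.2 x
  have hbt : ∀ (n : ℕ) z, ‖1 / ((n : ℝ) + 1) * V z ^ (n + 1)‖ ≤ (1 - a) ^ n := by
    intro n z
    rw [Real.norm_eq_abs, abs_mul, abs_pow, abs_of_nonneg (hV0 z).1,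
      abs_of_nonneg (by (clear * -; positivity) : (0:ℝ) ≤ 1 / ((n : ℝ) + 1))]
    have h1 := pow_le_pow_left₀ (hV0 z).1 (hV0 z).2 (n + 1)
    have h4 : (1 - a) ^ (n + 1) ≤ (1 - a) ^ n := by
      rw [pow_succ]
      exact mul_le_of_le_one_right (pow_nonneg (by linarith only [ha1]) n) (by linarith only [ha])
    have h5 : 1 / ((n : ℝ) + 1) ≤ 1 := by
      rw [div_le_one (by (clear * -; positivity))]; linarith only []
    have h6 : 0 ≤ V z ^ (n + 1) := pow_nonneg (hV0 z).1 _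
    calc 1 / ((n : ℝ) + 1) * V z ^ (n + 1) ≤ 1 * V z ^ (n + 1) :=
          mul_le_mul_of_nonneg_right h5 h6
      _ ≤ (1 - a) ^ n := by rw [one_mul]; exact h1.trans h4
  have hint : ∀ n : ℕ, Integrable (fun z => 1 / ((n : ℝ) + 1) * V z ^ (n + 1))
      (S.P.prod (gM K)) := fun n =>
    Integrable.of_bound ((hmV.pow_const (n + 1)).const_mul _).aestronglyMeasurable _
      (Eventually.of_forall (hbt n))
  have hsumg : Summable fun n : ℕ => (1 - a) ^ n :=
    summable_geometric_of_lt_one (by linarith only [ha1]) (by linarith only [ha])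
  have hsum : Summable fun n : ℕ => ∫ z, ‖1 / ((n : ℝ) + 1) * V z ^ (n + 1)‖
      ∂(S.P.prod (gM K)) := by
    refine Summable.of_nonneg_of_le (fun n => integral_nonneg fun z => norm_nonneg _) (fun n => ?_)
      hsumg
    have h1 := integral_mono (hint n).norm (integrable_const _) (hbt n)
    rwa [integral_const, probReal_univ, one_smul] at h1
  rw [integral_tsum_of_summable_integral_norm hint hsum, ← integral_neg]
  congr 1
  funext z
  have h1 := Real.hasSum_pow_div_log_of_abs_lt_one (x := V z)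
    (by rw [abs_of_nonneg (hV0 z).1]; linarith only [ha, (hV0 z).2])
  have h2 : ∀ n : ℕ, 1 / ((n : ℝ) + 1) * V z ^ (n + 1) = V z ^ (n + 1) / ((n : ℝ) + 1) :=
    fun n => by ring
  simp_rw [h2]
  rw [h1.tsum_eq, neg_neg, hV]
  simp only
  rw [zbar_eq S z.1 fun x => lin (κ (S.π z.1)) z.2 x]

end Series

end Vale.Agent.P157.Par
end

section

open MeasureTheory ProbabilityTheory Filter Topology Finset

namespace Vale.Agent.P157.Par

set_option linter.unusedSectionVars false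

open Vale.Agent.P367.GT (gM)

/-- Average of the indicator of the non ultrametric matrices. -/
lemma tendsto_ind_ultra {U : Ultrafilter ℕ} {S : ℕ → Sys} {k : ℕ} {b : Fin k → ℝ}
    {w : Fin (k + 1) → ℝ} (h : LimData U S b w) {J : Type} [Fintype J] [DecidableEq J] :
    Tendsto (fun j => (S j).avT (fun _ (x : J → (S j).X) => ind (¬ Ultra ((S j).LMat b x)))) U
      (𝓝 0) := by
  have h1 := tendsto_not_ultra h.gg h.mono h.na (Fintype.equivFin J)
  refine h1.congr fun j => ?_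
  exact ((S j).avT_eq (Fintype.equivFin J) (fun _ x => ind (¬ Ultra ((S j).LMat b x)))).symm

section Limit

variable {U : Ultrafilter ℕ} {S : ℕ → Sys} {k : ℕ} {b : Fin k → ℝ} {w : Fin (k + 1) → ℝ}
  (hL : LimData U S b w) {c : Fin (k + 1) → ℝ} (hc : ∀ l, 0 ≤ c l) {τ ε B : ℝ} (hτ : 0 ≤ τ)
  {K : ℕ → Type} [∀ j, Fintype (K j)] [∀ j, DecidableEq (K j)]
  {κ : ∀ j, (S j).T → (S j).X → K j → ℝ} (hκ : KerClose U S b c τ ε B κ)
  {δ : Type} [Fintype δ] [DecidableEq δ] {Φ : ∀ j, (S j).T → (δ → (S j).X) → ℝ}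
  (hΦm : ∀ j x, Measurable fun t => Φ j t x) (hΦ : ∀ j t x, |Φ j t x| ≤ 1)
  {𝓐 : Arr k w δ} (h𝓐 : ∀ (ι : Type) [Fintype ι] [DecidableEq ι]
      (A : LM k (δ ⊕ ι) → ℝ), Tendsto (fun j => (S j).avT
        (fun ω (x : δ ⊕ ι → (S j).X) => Φ j ((S j).π ω) (fun i => x (Sum.inl i)) *
          A ((S j).LMat b x))) U (𝓝 (𝓐.E ι A)))

include hL hc hτ hκ hΦm hΦ h𝓐

/-- The limit of a term of the series. -/
lemma term_lim {A A' A'' : δ → ℝ → ℝ} {v v' v'' : ℝ → ℝ}
    {C α : ℝ} (hC : 1 ≤ C) (hα0 : 0 < α) (hα1 : α ≤ 1) (hA : ∀ i, SB C (A i) (A' i) (A'' i))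
    (hv : (∀ x, HasDerivAt v (v' x) x) ∧ (∀ x, HasDerivAt v' (v'' x) x) ∧
      Continuous v'' ∧ (∀ x, |v x| ≤ α) ∧ (∀ x, |v' x| ≤ C) ∧ ∀ x, |v'' x| ≤ C) (n : ℕ) :
    ∀ η > 0, ∀ᶠ j in (U : Filter ℕ),
      |(S j).avT (fun ω (x : δ ⊕ Fin n → (S j).X) => Φ j ((S j).π ω) (fun i => x (Sum.inl i)) *
        gE (fun a => κ j ((S j).π ω) (x a)) (fam A v)) -
      𝓐.T c (fun _ => 1) (fun i => heat τ (A i)) (heat τ v) (Fin n)| ≤
      C ^ (Fintype.card δ + 2) / α ^ 2 * α ^ n * (1 / 2 * (Fintype.card δ + n) ^ 2) * ε + η := by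
  intro η hη
  have hC0 : 0 < C := by linarith only [hC]
  have hbm : ∀ a : δ ⊕ Fin n, BM (fam A v a) := by
    rintro (i | j)
    · exact ⟨(continuous_iff_continuousAt.2 fun x => ((hA i).1 x).continuousAt).measurable, C,
        (hA i).2.2.2.1⟩
    · exact ⟨(continuous_iff_continuousAt.2 fun x => (hv.1 x).continuousAt).measurable, α,
        hv.2.2.2.1⟩
  have e1 : 𝓐.T c (fun _ => 1) (fun i => heat τ (A i)) (heat τ v) (Fin n) =
      𝓐.E (Fin n) (fun L => gE (noisy τ (UL c L)) (fam A v)) := by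
    unfold Arr.T
    congr 1
    funext L
    rw [one_mul, gE_noisy τ _ hbm]
    congr 1
    funext a
    rcases a with i | j <;> rfl
  have h1 := h𝓐 (Fin n) (fun L => gE (noisy τ (UL c L)) (fam A v))
  rw [← e1] at h1
  have h2 := tendsto_ind_ultra (J := δ ⊕ Fin n) hL
  have h3 := (Metric.tendsto_nhds.1 h1) (η / 2) (by (clear * - hη; positivity))
  have h4 : Tendsto (fun j => 2 * C ^ Fintype.card δ * (S j).avT
      (fun _ (x : δ ⊕ Fin n → (S j).X) => ind (¬ Ultra ((S j).LMat b x)))) U (𝓝 0) := by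
    have := h2.const_mul (2 * C ^ Fintype.card δ)
    rwa [mul_zero] at this
  have h5 := (tendsto_order.1 h4).2 (η / 2) (by positivity)
  filter_upwards [h3, h5, hκ.off, hκ.diag] with j h3 h5 h6 h7
  have h8 := avT_cmp (S j) hc hτ (hκ.meas j) (hκ.bdd j) (hΦm j) (hΦ j) hC hα0 hα1 hA hv
    (n := n) h6 h7
  rw [Real.dist_eq] at h3
  have h9 := abs_sub_le ((S j).avT (fun ω (x : δ ⊕ Fin n → (S j).X) =>
      Φ j ((S j).π ω) (fun i => x (Sum.inl i)) *
        gE (fun a => κ j ((S j).π ω) (x a)) (fam A v)))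
    ((S j).avT (fun ω (x : δ ⊕ Fin n → (S j).X) => Φ j ((S j).π ω) (fun i => x (Sum.inl i)) *
        gE (noisy τ (UL c ((S j).LMat b x))) (fam A v)))
    (𝓐.T c (fun _ => 1) (fun i => heat τ (A i)) (heat τ v) (Fin n))
  have e2 : C ^ (Fintype.card δ + 2) / α ^ 2 * α ^ n * (1 / 2 * ((Fintype.card δ + n) ^ 2 * ε)) =
    C ^ (Fintype.card δ + 2) / α ^ 2 * α ^ n * (1 / 2 * (Fintype.card δ + n) ^ 2) * ε := by ring
  rw [e2] at h8
  linarith only [h3, h5, h8, h9]

end Limit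

/-- The bounds of a term. -/
lemma term_bound (S : Sys) {K : Type} [Fintype K] [DecidableEq K] {κ : S.T → S.X → K → ℝ}
    (hκ : ∀ x c, Measurable fun t => κ t x c) {δ : Type} [Fintype δ] [DecidableEq δ]
    {Φ : S.T → (δ → S.X) → ℝ} (hΦm : ∀ x, Measurable fun t => Φ t x)
    (hΦ : ∀ t x, |Φ t x| ≤ 1) {A : δ → ℝ → ℝ} {v : ℝ → ℝ} {C α : ℝ} (hAm : ∀ i, Measurable (A i))
    (hA : ∀ i x, |A i x| ≤ C) (hvm : Measurable v) (hv : ∀ x, |v x| ≤ α) (n : ℕ) :
    |S.avT (fun ω (x : δ ⊕ Fin n → S.X) => Φ (S.π ω) (fun i => x (Sum.inl i)) *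
        gE (fun a => κ (S.π ω) (x a)) (fam A v))| ≤ C ^ Fintype.card δ * α ^ n := by
  have hbm : ∀ a : δ ⊕ Fin n, BM (fam A v a) := by
    rintro (i | j)
    · exact ⟨hAm i, C, hA i⟩
    · exact ⟨hvm, α, hv⟩
  apply S.abs_avT_le_const
  · intro x
    exact ((hΦm _).comp S.hπ).mul ((measurable_gE S hκ x hbm).comp S.hπ)
  · intro ω x
    rw [abs_mul]
    have h := abs_gE_le (U := fun a => κ (S.π ω) (x a)) (f := fam A v)
      (C := Sum.elim (fun _ => C) (fun _ => α)) (by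
      rintro (i | j) y
      · exact hA i y
      · exact hv y)
    rw [Fintype.prod_sum_type] at h
    simp only [Sum.elim_inl, Sum.elim_inr, Finset.prod_const, Finset.card_univ,
      Fintype.card_fin] at h
    exact (mul_le_of_le_one_left (abs_nonneg _) (hΦ _ _)).trans h

lemma heat_le {τ C : ℝ} {g : ℝ → ℝ} (hg : ∀ x, |g x| ≤ C) (x : ℝ) : |heat τ g x| ≤ C :=
  heat_abs_le hg τ x

end Vale.Agent.P157.Par
end

section

open MeasureTheory ProbabilityTheory Filter Topology Finset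

namespace Vale.Agent.P157.Par

set_option linter.unusedSectionVars false

open Vale.Agent.P367.GT (gM)

/-- The constant of the transfer of ratios. -/
noncomputable def Dr (C α : ℝ) (d e : ℕ) : ℝ :=
  ∑' n : ℕ, ((n + e).choose e : ℝ) * (C ^ (d + 2) / α ^ 2 * α ^ n * (1 / 2 * ((d : ℝ) + n) ^ 2))

/-- The constant of the transfer of logarithms. -/
noncomputable def Dl (C α : ℝ) : ℝ :=
  ∑' n : ℕ, C ^ 2 / α ^ 2 * α ^ (n + 1) * (1 / 2 * ((n : ℝ) + 1) ^ 2)

lemma summable_Dr {C α : ℝ} (_hC : 0 ≤ C) (hα0 : 0 < α) (hα1 : α < 1) (d e : ℕ) :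
    Summable fun n : ℕ => ((n + e).choose e : ℝ) *
      (C ^ (d + 2) / α ^ 2 * α ^ n * (1 / 2 * ((d : ℝ) + n) ^ 2)) := by
  have h := Arr.summable_dT_bound e hα0.le hα1 (C ^ (d + 2) / α ^ 2 * (1 / 2) * ((d : ℝ) + 1) ^ 2)
  refine Summable.of_nonneg_of_le (fun n => by (clear * - _hC hα0; positivity)) (fun n => ?_) h
  apply mul_le_mul_of_nonneg_left _ (Nat.cast_nonneg _)
  have h1 : ((d : ℝ) + n) ^ 2 ≤ ((d : ℝ) + 1) ^ 2 * ((n : ℝ) + 1) ^ 2 := by
    rw [← mul_pow]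
    apply pow_le_pow_left₀ (by (clear * -; positivity))
    linarith only [mul_nonneg (Nat.cast_nonneg (α := ℝ) d) (Nat.cast_nonneg (α := ℝ) n)]
  calc C ^ (d + 2) / α ^ 2 * α ^ n * (1 / 2 * ((d : ℝ) + n) ^ 2) ≤
      C ^ (d + 2) / α ^ 2 * α ^ n * (1 / 2 * (((d : ℝ) + 1) ^ 2 * ((n : ℝ) + 1) ^ 2)) := by
        gcongr
    _ = _ := by ring

lemma summable_Dl {C α : ℝ} (hC : 0 ≤ C) (hα0 : 0 < α) (hα1 : α < 1) :
    Summable fun n : ℕ => C ^ 2 / α ^ 2 * α ^ (n + 1) * (1 / 2 * ((n : ℝ) + 1) ^ 2) := by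
  have h := Arr.summable_dT_bound 0 hα0.le hα1 (C ^ 2 / α ^ 2 * α * (1 / 2))
  refine h.congr fun n => ?_
  simp only [Nat.choose_zero_right, Nat.cast_one, one_mul]
  ring

lemma summable_choose_pow (e : ℕ) {α : ℝ} (hα0 : 0 < α) (hα1 : α < 1) :
    Summable fun n : ℕ => ((n + e).choose e : ℝ) * α ^ n :=
  summable_choose_mul_geometric_of_norm_lt_one e
    (by rwa [Real.norm_eq_abs, abs_of_nonneg hα0.le])

section Limit

variable {U : Ultrafilter ℕ} {S : ℕ → Sys} {k : ℕ} {b : Fin k → ℝ} {w : Fin (k + 1) → ℝ}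
  (hL : LimData U S b w) {c : Fin (k + 1) → ℝ} (hc : ∀ l, 0 ≤ c l) {τ ε B : ℝ} (hτ : 0 ≤ τ)
  (hε : 0 ≤ ε)
  {K : ℕ → Type} [∀ j, Fintype (K j)] [∀ j, DecidableEq (K j)]
  {κ : ∀ j, (S j).T → (S j).X → K j → ℝ} (hκ : KerClose U S b c τ ε B κ)
  {δ : Type} [Fintype δ] [DecidableEq δ] {Φ : ∀ j, (S j).T → (δ → (S j).X) → ℝ}
  (hΦm : ∀ j x, Measurable fun t => Φ j t x) (hΦ : ∀ j t x, |Φ j t x| ≤ 1)
  {𝓐 : Arr k w δ} (h𝓐1 : 𝓐.C = 1) (h𝓐 : ∀ (ι : Type) [Fintype ι] [DecidableEq ι]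
      (A : LM k (δ ⊕ ι) → ℝ), Tendsto (fun j => (S j).avT
        (fun ω (x : δ ⊕ ι → (S j).X) => Φ j ((S j).π ω) (fun i => x (Sum.inl i)) *
          A ((S j).LMat b x))) U (𝓝 (𝓐.E ι A)))

include hL hc hτ hε hκ hΦm hΦ h𝓐1 h𝓐

/-- Transfer of a ratio to the limiting array. -/
theorem ratio_lim {A A' A'' : δ → ℝ → ℝ} {W W' W'' : ℝ → ℝ}
    {C α a : ℝ} (hC : 1 ≤ C) (ha : 0 < a) (haα : 1 - a ≤ α) (hα0 : 0 < α) (hα1 : α < 1)
    (hA : ∀ i, SB C (A i) (A' i) (A'' i)) (hW : SB C W W' W'') (hWa : ∀ x, a ≤ W x)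
    (hW1 : ∀ x, W x ≤ 1) (e : ℕ) :
    ∀ η > 0, ∀ᶠ j in (U : Filter ℕ),
      |(∫ z : (S j).Ω × (K j → ℝ), (∑ x : δ → (S j).X, Φ j ((S j).π z.1) x *
        ∏ i, ((S j).w z.1 (x i) * A i (lin (κ j ((S j).π z.1)) z.2 (x i)))) /
        (∑ x, (S j).w z.1 x * W (lin (κ j ((S j).π z.1)) z.2 x)) ^ (e + 1)
          ∂((S j).P.prod (gM (K j)))) -
      𝓐.Q e c (fun _ => 1) (fun i => heat τ (A i)) (heat τ fun x => 1 - W x)| ≤
      Dr C α (Fintype.card δ) e * ε + η := by
  have hC0 : 0 < C := by linarith only [hC]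
  have hWm : Measurable W :=
    (continuous_iff_continuousAt.2 fun x => (hW.1 x).continuousAt).measurable
  have hbm : ∀ i, BM (A i) := fun i =>
    ⟨(continuous_iff_continuousAt.2 fun x => ((hA i).1 x).continuousAt).measurable, C,
      (hA i).2.2.2.1⟩
  have hv1 : ∀ x, |1 - W x| ≤ α := fun x => by
    rw [abs_le]; constructor <;> linarith only [haα, hWa x, hα0, hW1 x]
  have hv : (∀ x, HasDerivAt (fun x => 1 - W x) (- W' x) x) ∧
      (∀ x, HasDerivAt (fun x => - W' x) (- W'' x) x) ∧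
      Continuous (fun x => - W'' x) ∧ (∀ x, |1 - W x| ≤ α) ∧ (∀ x, |- W' x| ≤ C) ∧
        ∀ x, |- W'' x| ≤ C := by
    refine ⟨fun x => ?_, fun x => (hW.2.1 x).neg, hW.2.2.1.neg, hv1, fun x => ?_, fun x => ?_⟩
    · have := (hW.1 x).const_sub 1
      exact this
    · rw [abs_neg]; exact hW.2.2.2.2.1 x
    · rw [abs_neg]; exact hW.2.2.2.2.2 x
  have h1 := sum_lim (U := (U : Filter ℕ))
    (x := fun j n => ((n + e).choose e : ℝ) * (S j).avT (fun ω (x : δ ⊕ Fin n → (S j).X) =>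
        Φ j ((S j).π ω) (fun i => x (Sum.inl i)) *
        gE (fun a => κ j ((S j).π ω) (x a)) (fam A fun x => 1 - W x)))
    (y := fun n => ((n + e).choose e : ℝ) *
      𝓐.T c (fun _ => 1) (fun i => heat τ (A i)) (heat τ fun x => 1 - W x) (Fin n))
    (B := fun n => C ^ Fintype.card δ * (((n + e).choose e : ℝ) * α ^ n))
    (D := fun n => ((n + e).choose e : ℝ) *
      (C ^ (Fintype.card δ + 2) / α ^ 2 * α ^ n * (1 / 2 * ((Fintype.card δ : ℝ) + n) ^ 2)))
    hε ((summable_choose_pow e hα0 hα1).mul_left _) (summable_Dr hC0.le hα0 hα1 _ e)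
    (fun j n => by
      rw [abs_mul, Nat.abs_cast]
      have := term_bound (S j) (hκ.meas j) (hΦm j) (hΦ j) (A := A) (v := fun x => 1 - W x)
        (fun i => (hbm i).meas) (fun i => (hA i).2.2.2.1) (measurable_const.sub hWm) hv1 n
      calc _ ≤ ((n + e).choose e : ℝ) * (C ^ Fintype.card δ * α ^ n) :=
            mul_le_mul_of_nonneg_left this (Nat.cast_nonneg _)
        _ = _ := by ring)
    (fun n => by
      rw [abs_mul, Nat.abs_cast]
      have := 𝓐.T_le c (χ := fun _ => 1) (X := 1) (fun _ => by simp)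
        (A := fun i => heat τ (A i)) (v := heat τ fun x => 1 - W x) (C := C) (a := α)
        (fun i => heat_le (hA i).2.2.2.1) (heat_le hv1) n
      rw [h𝓐1, one_mul, one_mul] at this
      calc _ ≤ ((n + e).choose e : ℝ) * (C ^ Fintype.card δ * α ^ n) :=
            mul_le_mul_of_nonneg_left this (Nat.cast_nonneg _)
        _ = _ := by ring)
    (fun n => by (clear * - hC hα0; positivity))
    (fun n η hη => by
      have hch : (0 : ℝ) < ((n + e).choose e : ℝ) := by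
        exact_mod_cast Nat.choose_pos (Nat.le_add_left e n)
      have := term_lim hL hc hτ hκ hΦm hΦ h𝓐 hC hα0 hα1.le hA hv n
        (η / ((n + e).choose e : ℝ)) (by (clear * - hη hch; positivity))
      filter_upwards [this] with j hj
      rw [← mul_sub, abs_mul, Nat.abs_cast]
      calc _ ≤ ((n + e).choose e : ℝ) * _ := mul_le_mul_of_nonneg_left hj hch.le
        _ = _ := by (clear * - hch hα0 hC hε hη; field_simp))
  intro η hη
  filter_upwards [h1 η hη] with j hj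
  rw [ratio_eq (S j) (hκ.meas j) (hΦm j) (hΦ j) hbm hWm ha hWa hW1 e]
  exact hj

end Limit

/-- Transfer of a logarithm to the limiting array. -/
theorem log_lim {U : Ultrafilter ℕ} {S : ℕ → Sys} {k : ℕ} {b : Fin k → ℝ} {w : Fin (k + 1) → ℝ}
    (hL : LimData U S b w) {c : Fin (k + 1) → ℝ} (hc : ∀ l, 0 ≤ c l) {τ ε B : ℝ} (hτ : 0 ≤ τ)
    (hε : 0 ≤ ε)
    {K : ℕ → Type} [∀ j, Fintype (K j)] [∀ j, DecidableEq (K j)]
    {κ : ∀ j, (S j).T → (S j).X → K j → ℝ} (hκ : KerClose U S b c τ ε B κ)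
    {𝓐 : Arr k w Empty} (h𝓐1 : 𝓐.C = 1) (h𝓐 : ∀ (ι : Type) [Fintype ι] [DecidableEq ι]
      (A : LM k (Empty ⊕ ι) → ℝ), Tendsto (fun j => (S j).avT
        (fun ω (x : Empty ⊕ ι → (S j).X) => (fun _ _ _ => (1 : ℝ)) j ((S j).π ω)
          (fun i => x (Sum.inl i)) *
          A ((S j).LMat b x))) U (𝓝 (𝓐.E ι A)))
    {W W' W'' : ℝ → ℝ}
    {C α a : ℝ} (hC : 1 ≤ C) (ha : 0 < a) (haα : 1 - a ≤ α) (hα0 : 0 < α) (hα1 : α < 1)
    (hW : SB C W W' W'') (hWa : ∀ x, a ≤ W x) (hW1 : ∀ x, W x ≤ 1) :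
    ∀ η > 0, ∀ᶠ j in (U : Filter ℕ),
      |(∫ z : (S j).Ω × (K j → ℝ), Real.log
        (∑ x, (S j).w z.1 x * W (lin (κ j ((S j).π z.1)) z.2 x)) ∂((S j).P.prod (gM (K j)))) +
      𝓐.Lg c (heat τ fun x => 1 - W x)| ≤ Dl C α * ε + η := by
  have hC0 : 0 < C := by linarith
  have hWm : Measurable W :=
    (continuous_iff_continuousAt.2 fun x => (hW.1 x).continuousAt).measurable
  have hv1 : ∀ x, |1 - W x| ≤ α := fun x => by
    rw [abs_le]; constructor <;> linarith only [haα, hWa x, hα0, hW1 x]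
  have hv : (∀ x, HasDerivAt (fun x => 1 - W x) (- W' x) x) ∧
      (∀ x, HasDerivAt (fun x => - W' x) (- W'' x) x) ∧
      Continuous (fun x => - W'' x) ∧ (∀ x, |1 - W x| ≤ α) ∧ (∀ x, |- W' x| ≤ C) ∧
        ∀ x, |- W'' x| ≤ C := by
    refine ⟨fun x => ?_, fun x => (hW.2.1 x).neg, hW.2.2.1.neg, hv1, fun x => ?_, fun x => ?_⟩
    · have := (hW.1 x).const_sub 1
      exact this
    · rw [abs_neg]; exact hW.2.2.2.2.1 x
    · rw [abs_neg]; exact hW.2.2.2.2.2 x
  have hAe : ∀ i : Empty, SB C (noA i) (noA i) (noA i) := fun i => i.elim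
  have hnoA : (fun i => heat τ (noA i)) = noA := funext fun i => i.elim
  have hinv : ∀ n : ℕ, 0 < 1 / ((n : ℝ) + 1) ∧ 1 / ((n : ℝ) + 1) ≤ 1 := fun n =>
    ⟨by (clear * -; positivity), by rw [div_le_one (by (clear * -; positivity))]; linarith only []⟩
  have h1 := sum_lim (U := (U : Filter ℕ))
    (x := fun j n => 1 / ((n : ℝ) + 1) * (S j).avT (fun ω (x : Empty ⊕ Fin (n + 1) → (S j).X) =>
        (fun _ _ => (1 : ℝ)) ((S j).π ω) (fun i => x (Sum.inl i)) *
        gE (fun a => κ j ((S j).π ω) (x a)) (fam noA fun x => 1 - W x)))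
    (y := fun n => 1 / ((n : ℝ) + 1) *
      𝓐.T c (fun _ => 1) noA (heat τ fun x => 1 - W x) (Fin (n + 1)))
    (B := fun n => α ^ n)
    (D := fun n => C ^ 2 / α ^ 2 * α ^ (n + 1) * (1 / 2 * ((n : ℝ) + 1) ^ 2))
    hε (summable_geometric_of_lt_one hα0.le hα1) (summable_Dl hC0.le hα0 hα1)
    (fun j n => by
      rw [abs_mul, abs_of_pos (hinv n).1]
      have := term_bound (S j) (hκ.meas j) (δ := Empty) (Φ := fun _ _ => (1 : ℝ))
        (fun _ => measurable_const) (fun _ _ => by simp) (A := noA) (v := fun x => 1 - W x)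
        (C := C) (fun i => i.elim) (fun i => i.elim) (measurable_const.sub hWm) hv1 (n + 1)
      rw [Fintype.card_empty, pow_zero, one_mul] at this
      calc _ ≤ 1 * α ^ (n + 1) :=
            mul_le_mul (hinv n).2 this (abs_nonneg _) zero_le_one
        _ = α ^ n * α := by ring
        _ ≤ α ^ n := mul_le_of_le_one_right (by (clear * - hα0; positivity)) hα1.le)
    (fun n => by
      rw [abs_mul, abs_of_pos (hinv n).1]
      have := 𝓐.T_empty_le c (v := heat τ fun x => 1 - W x) (heat_le hv1) (n + 1)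
      rw [h𝓐1, one_mul] at this
      calc _ ≤ 1 * α ^ (n + 1) :=
            mul_le_mul (hinv n).2 this (abs_nonneg _) zero_le_one
        _ = α ^ n * α := by ring
        _ ≤ α ^ n := mul_le_of_le_one_right (by (clear * - hα0; positivity)) hα1.le)
    (fun n => by (clear * - hC hα0; positivity))
    (fun n η hη => by
      have := term_lim hL hc hτ hκ (Φ := fun _ _ _ => (1 : ℝ)) (fun _ _ => measurable_const)
        (fun _ _ _ => by simp) h𝓐 hC hα0 hα1.le hAe hv (n + 1) η hη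
      rw [hnoA] at this
      filter_upwards [this] with j hj
      rw [← mul_sub, abs_mul, abs_of_pos (hinv n).1]
      calc _ ≤ 1 * _ := mul_le_mul (hinv n).2 hj (abs_nonneg _) zero_le_one
        _ = _ := by
          rw [Fintype.card_empty]
          push_cast
          ring)
  intro η hη
  filter_upwards [h1 η hη] with j hj
  rw [log_eq (S j) (hκ.meas j) hWm ha hWa hW1, neg_add_eq_sub, abs_sub_comm]
  exact hj

end Vale.Agent.P157.Par
end

section

open MeasureTheory ProbabilityTheory Filter Topology Finset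

namespace Vale.Agent.P157.Par

set_option linter.unusedSectionVars false

open Vale.Agent.P367.GT (gM)

/-- The weight after integration of the top increment. -/
noncomputable def topW (τ : ℝ) (W : ℝ → ℝ) : ℝ → ℝ := heat τ W

/-- The observable after integration of the top increment. -/
noncomputable def toph (τ : ℝ) (W h : ℝ → ℝ) : ℝ → ℝ := fun x =>
  heat τ (fun y => h y * W y) x / heat τ W x

lemma topW_eq (τ : ℝ) (W : ℝ → ℝ) : topW τ W = flowW 1 τ W 0 := by
  funext x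
  simp only [topW, flowW, sub_zero, Real.rpow_one, div_one]

lemma toph_eq (τ : ℝ) (W h : ℝ → ℝ) : toph τ W h = flowh 1 τ W h 0 := by
  funext x
  simp only [toph, flowh, sub_zero, Real.rpow_one]

section

variable {W : ℝ → ℝ} {a : ℝ}

lemma topW_spec (τ : ℝ) (ha : 0 < a) (hW : ∃ W' W'', CB2 W W' W'') (hWa : ∀ x, a ≤ W x)
    (hW1 : ∀ x, W x ≤ 1) :
    (∃ V' V'', CB2 (topW τ W) V' V'') ∧ (∀ x, a ≤ topW τ W x) ∧ ∀ x, topW τ W x ≤ 1 := by
  obtain ⟨W', W'', hW⟩ := hW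
  rw [topW_eq]
  refine ⟨flowW_cb2 one_pos ha hW hWa hW1, fun x => ?_, fun x => ?_⟩
  · exact (flowW_mem one_pos ha hW.cont.measurable hWa hW1 x).1
  · exact (flowW_mem one_pos ha hW.cont.measurable hWa hW1 x).2

lemma toph_spec (τ : ℝ) (ha : 0 < a) (hW : ∃ W' W'', CB2 W W' W'') (hWa : ∀ x, a ≤ W x)
    (hW1 : ∀ x, W x ≤ 1) {h : ℝ → ℝ} (hh : ∃ h' h'', CB2 h h' h'') :
    ∃ h' h'', CB2 (toph τ W h) h' h'' := by
  obtain ⟨W', W'', hW⟩ := hW
  obtain ⟨h', h'', hh⟩ := hh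
  rw [toph_eq]
  exact flowh_cb2 one_pos ha hW hWa hW1 hh

lemma heat_one_sub (τ : ℝ) (hWm : Measurable W) (ha : 0 < a) (hWa : ∀ x, a ≤ W x)
    (hW1 : ∀ x, W x ≤ 1) : heat τ (fun x => 1 - W x) = fun x => 1 - topW τ W x := by
  funext x
  have h1 : ∀ x, |W x| ≤ 1 := fun x => by rw [abs_le]; constructor <;> linarith only [hW1 x, ha, hWa x]
  have h2 := integrable_heat hWm h1 τ x
  unfold heat topW heat
  rw [integral_sub (integrable_const _) h2]
  simp

lemma heat_mul_eq (τ : ℝ) (ha : 0 < a) (hW : ∃ W' W'', CB2 W W' W'') (hWa : ∀ x, a ≤ W x)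
    (hW1 : ∀ x, W x ≤ 1) (h : ℝ → ℝ) :
    heat τ (fun y => h y * W y) = fun x => toph τ W h x * topW τ W x := by
  funext x
  have h1 := (topW_spec τ ha hW hWa hW1).2.1 x
  have h2 : topW τ W x ≠ 0 := (lt_of_lt_of_le ha h1).ne'
  unfold toph
  unfold topW at h2 ⊢
  field_simp

end

/-- Decomposition along the level of a pair. -/
lemma Q_split {k : ℕ} {w : Fin (k + 1) → ℝ} {δ : Type} [Fintype δ] [DecidableEq δ]
    (𝓐 : Arr k w δ) (e : ℕ) (c : Fin (k + 1) → ℝ) (i₀ j₀ : δ) {A : δ → ℝ → ℝ} {v : ℝ → ℝ}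
    (hA : ∀ i, BM (A i)) {a : ℝ} (ha0 : 0 ≤ a) (ha : a < 1) (hv : ∀ x, |v x| ≤ a) :
    𝓐.Q e c (fun _ => 1) A v =
      ∑ l, 𝓐.Q e c (fun L => if L i₀ j₀ = l then 1 else 0) A v := by
  unfold Arr.Q
  rw [← Summable.tsum_finsetSum fun l _ => 𝓐.Q_summable e c _ hA ha0 ha hv]
  congr 1
  funext n
  rw [← Finset.mul_sum]
  congr 1
  unfold Arr.T
  rw [← map_sum]
  congr 1
  funext L
  rw [Finset.sum_apply, ← Finset.sum_mul]
  have h1 : ∑ l, (if Arr.res L i₀ j₀ = l then (1 : ℝ) else 0) = 1 := by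
    rw [Finset.sum_ite_eq, if_pos (Finset.mem_univ _)]
  rw [h1]

section Final

variable {U : Ultrafilter ℕ} {S : ℕ → Sys} {k : ℕ} {b : Fin k → ℝ} {w : Fin (k + 1) → ℝ}
  (hL : LimData U S b w) {m v : ℕ → ℝ} (hv : ∀ l, 0 ≤ v l)
  (hm : ∀ l, 1 ≤ l → l ≤ k → 0 < m l) (hmw : ∀ l : Fin (k + 1), Arr.up w l = 1 - m l)
  {τ ε B : ℝ} (hτ : 0 ≤ τ) (hε : 0 ≤ ε)
  {K : ℕ → Type} [∀ j, Fintype (K j)] [∀ j, DecidableEq (K j)]
  {κ : ∀ j, (S j).T → (S j).X → K j → ℝ} (hκ : KerClose U S b (cut v k) τ ε B κ)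
  {W W' W'' : ℝ → ℝ} {C α a : ℝ} (hC : 1 ≤ C) (ha : 0 < a) (haα : 1 - a ≤ α) (hα0 : 0 < α)
  (hα1 : α < 1) (hW : SB C W W' W'') (hWa : ∀ x, a ≤ W x) (hW1 : ∀ x, W x ≤ 1)

lemma SB.cb2 {C : ℝ} {A A' A'' : ℝ → ℝ} (h : SB C A A' A'') : CB2 A A' A'' :=
  ⟨h.1, h.2.1, h.2.2.1, ⟨C, h.2.2.2.1⟩, ⟨C, h.2.2.2.2.1⟩, ⟨C, h.2.2.2.2.2⟩⟩

include hL hv hm hmw hτ hε hκ hC ha haα hα0 hα1 hW hWa hW1

/-- Transfer of the logarithm of an average. -/
theorem trans_log :
    ∀ η > 0, ∀ᶠ j in (U : Filter ℕ),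
      |(∫ z : (S j).Ω × (K j → ℝ), Real.log
        (∑ x, (S j).w z.1 x * W (lin (κ j ((S j).π z.1)) z.2 x)) ∂((S j).P.prod (gM (K j)))) -
      ∫ z, Real.log (lvW m v k (topW τ W) 0 (√(v 0) * z)) ∂(gaussianReal 0 1)| ≤
        Dl C α * ε + η := by
  obtain ⟨𝓐, h𝓐1, h𝓐⟩ := exists_arr hL.gg hL.mono hL.b0 hL.b1 hL.na hL.lim
    (δ := Empty) (fun _ _ _ => (1 : ℝ)) (fun _ _ => measurable_const) (fun _ _ _ => by simp)
  have h1 := log_lim hL (cut_nonneg hv k) hτ hε hκ h𝓐1 h𝓐 hC ha haα hα0 hα1 hW hWa hW1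
  have hWc : ∃ W' W'', CB2 W W' W'' := ⟨W', W'', hW.cb2⟩
  have hspec := topW_spec τ ha hWc hWa hW1
  have hE1 : 𝓐.E (Fin 1) (fun _ => 1) = 1 := by
    have h2 := h𝓐 (Fin 1) (fun _ => 1)
    have h3 : (fun j => (S j).avT (fun _ (_ : Empty ⊕ Fin 1 → (S j).X) => (1 : ℝ) * 1)) =
        fun _ => (1 : ℝ) := by
      funext j
      rw [(S j).avT_const, mul_one]
    have h4 : Tendsto (fun _ : ℕ => (1 : ℝ)) U (𝓝 (𝓐.E (Fin 1) (fun _ => 1))) := by
      rw [← h3]
      exact h2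
    exact tendsto_nhds_unique h4 tendsto_const_nhds
  have h2 := 𝓐.Lg_eval hL.wsum hv hm hmw ha hspec.1 hspec.2.1 hspec.2.2
  rw [heat_one_sub τ hW.cb2.cont.measurable ha hWa hW1, h2, hE1, one_mul] at h1
  intro η hη
  filter_upwards [h1 η hη] with j hj
  rw [sub_eq_add_neg]
  exact hj

variable {h h' h'' : ℝ → ℝ} (hh : CB2 h h' h'') {A' A'' : ℝ → ℝ}
  (hA : SB C (fun x => h x * W x) A' A'')

include hh hA

/-- Transfer of an average of one replica. -/
theorem trans_one {Φ : ∀ j, (S j).T → (Fin 1 → (S j).X) → ℝ}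
    (hΦm : ∀ j x, Measurable fun t => Φ j t x) (hΦ : ∀ j t x, |Φ j t x| ≤ 1) :
    ∀ η > 0, ∀ᶠ j in (U : Filter ℕ),
      |(∫ z : (S j).Ω × (K j → ℝ), (∑ x : Fin 1 → (S j).X, Φ j ((S j).π z.1) x *
        ∏ i, ((S j).w z.1 (x i) * (h (lin (κ j ((S j).π z.1)) z.2 (x i)) *
          W (lin (κ j ((S j).π z.1)) z.2 (x i))))) /
        (∑ x, (S j).w z.1 x * W (lin (κ j ((S j).π z.1)) z.2 x)) ^ 1
          ∂((S j).P.prod (gM (K j)))) -
      (S j).avT (fun ω (x : Fin 1 → (S j).X) => Φ j ((S j).π ω) x) *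
        ∫ z, lvh m v (lvW m v k (topW τ W)) k (toph τ W h) 0 (√(v 0) * z) ∂(gaussianReal 0 1)| ≤
        Dr C α 1 0 * ε + η := by
  obtain ⟨𝓐, h𝓐1, h𝓐⟩ := exists_arr hL.gg hL.mono hL.b0 hL.b1 hL.na hL.lim Φ hΦm hΦ
  have h1 := ratio_lim hL (cut_nonneg hv k) hτ hε hκ hΦm hΦ h𝓐1 h𝓐
    (A := fun _ x => h x * W x) (A' := fun _ => A') (A'' := fun _ => A'') hC ha haα hα0 hα1
    (fun _ => hA) hW hWa hW1 0
  have hWc : ∃ W' W'', CB2 W W' W'' := ⟨W', W'', hW.cb2⟩
  have hspec := topW_spec τ ha hWc hWa hW1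
  have hhs := toph_spec τ ha hWc hWa hW1 (h := h) ⟨h', h'', hh⟩
  have h2 := 𝓐.Q_eval_one (by simp) hL.wsum hv hm hmw ha hspec.1 hspec.2.1 hspec.2.2
    (fun _ => 1) hhs
  simp only [heat_mul_eq τ ha hWc hWa hW1 h, heat_one_sub τ hW.cb2.cont.measurable ha hWa hW1] at h1
  rw [h2] at h1
  set I := ∫ z, lvh m v (lvW m v k (topW τ W)) k (toph τ W h) 0 (√(v 0) * z) ∂(gaussianReal 0 1)
    with hI
  -- the average of the test function
  have h3 := h𝓐 (Fin 0) (fun _ => 1)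
  have h4 : Tendsto (fun j => (S j).avT (fun ω (x : Fin 1 → (S j).X) => Φ j ((S j).π ω) x)) U
      (𝓝 (𝓐.E (Fin 0) (fun _ => 1))) := by
    refine h3.congr fun j => ?_
    rw [← (S j).avT_comp (J := Fin 1) (J' := Fin 1 ⊕ Fin 0) Sum.inl Sum.inl_injective
      (fun t x => Φ j t x)]
    congr 1
    funext ω x
    rw [mul_one]
  have h5 := (h4.sub_const (𝓐.E (Fin 0) (fun _ => 1))).mul_const I
  rw [sub_self, zero_mul] at h5
  intro η hη
  filter_upwards [h1 (η / 2) (by (clear * - hη; positivity)), (Metric.tendsto_nhds.1 h5) (η / 2) (by (clear * - hη; positivity))]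
    with j hj1 hj2
  rw [Real.dist_eq, sub_zero] at hj2
  rw [Fintype.card_fin] at hj1
  have e1 : ∀ X Y Z : ℝ, X - Y * I = (X - Z * I) - (Y - Z) * I := fun X Y Z => by ring
  rw [e1 _ _ (𝓐.E (Fin 0) (fun _ => 1))]
  refine (abs_sub _ _).trans ?_
  linarith only [hj2, hj1]

/-- Transfer of an average of two replicas. -/
theorem trans_two {Φ : ∀ j, (S j).T → (Fin 2 → (S j).X) → ℝ}
    (hΦm : ∀ j x, Measurable fun t => Φ j t x) (hΦ : ∀ j t x, |Φ j t x| ≤ 1) :
    ∀ η > 0, ∀ᶠ j in (U : Filter ℕ),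
      |(∫ z : (S j).Ω × (K j → ℝ), (∑ x : Fin 2 → (S j).X, Φ j ((S j).π z.1) x *
        ∏ i, ((S j).w z.1 (x i) * (h (lin (κ j ((S j).π z.1)) z.2 (x i)) *
          W (lin (κ j ((S j).π z.1)) z.2 (x i))))) /
        (∑ x, (S j).w z.1 x * W (lin (κ j ((S j).π z.1)) z.2 x)) ^ 2
          ∂((S j).P.prod (gM (K j)))) -
      (S j).avT (fun ω (x : Fin 2 → (S j).X) => Φ j ((S j).π ω) x *
        Arr.pairVal m v k (topW τ W) (toph τ W h) (lev b ((S j).R (x 0) (x 1))))| ≤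
        Dr C α 2 1 * ε + η := by
  obtain ⟨𝓐, h𝓐1, h𝓐⟩ := exists_arr hL.gg hL.mono hL.b0 hL.b1 hL.na hL.lim Φ hΦm hΦ
  have h1 := ratio_lim hL (cut_nonneg hv k) hτ hε hκ hΦm hΦ h𝓐1 h𝓐
    (A := fun _ x => h x * W x) (A' := fun _ => A') (A'' := fun _ => A'') hC ha haα hα0 hα1
    (fun _ => hA) hW hWa hW1 1
  have hWc : ∃ W' W'', CB2 W W' W'' := ⟨W', W'', hW.cb2⟩
  have hspec := topW_spec τ ha hWc hWa hW1
  have hhs := toph_spec τ ha hWc hWa hW1 (h := h) ⟨h', h'', hh⟩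
  simp only [heat_one_sub τ hW.cb2.cont.measurable ha hWa hW1,
    heat_mul_eq τ ha hWc hWa hW1 h] at h1
  have h2 : 𝓐.Q 1 (cut v k) (fun _ => 1) (fun _ x => toph τ W h x * topW τ W x)
      (fun x => 1 - topW τ W x) = 𝓐.E (Fin 0) (fun L =>
        Arr.pairVal m v k (topW τ W) (toph τ W h) (L (Sum.inl 0) (Sum.inl 1))) := by
    rw [Q_split 𝓐 1 (cut v k) 0 1 (a := 1 - a) (fun i => ?_) (by linarith [hWa 0, hW1 0])
      (by linarith only [ha]) (fun x => ?_)]
    · have h3 := fun l => 𝓐.Q_eval_two (by simp) (i₀ := (0 : Fin 2)) (j₀ := 1) (by simp) hL.wsum hv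
        hm hmw ha hspec.1 hspec.2.1 hspec.2.2 hhs l
      rw [Finset.sum_congr rfl fun l _ => h3 l]
      have h4 : ∀ l, 𝓐.E (Fin 0) (fun L => if L (Sum.inl 0) (Sum.inl 1) = l then 1 else 0) *
          Arr.pairVal m v k (topW τ W) (toph τ W h) l =
          𝓐.E (Fin 0) (fun L => if L (Sum.inl 0) (Sum.inl 1) = l then
            Arr.pairVal m v k (topW τ W) (toph τ W h) l else 0) := by
        intro l
        rw [mul_comm, ← smul_eq_mul, ← map_smul]
        congr 1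
        funext L
        rw [Pi.smul_apply, smul_eq_mul, mul_ite, mul_one, mul_zero]
      rw [Finset.sum_congr rfl fun l _ => h4 l, ← map_sum]
      congr 1
      funext L
      rw [Finset.sum_apply]
      simp only [Fin.isValue, sum_ite_eq, mem_univ, ↓reduceIte]
    · obtain ⟨p', p'', hp⟩ := hhs
      obtain ⟨q', q'', hq⟩ := hspec.1
      exact BM.mul ⟨hp.cont.measurable, hp.b0⟩ ⟨hq.cont.measurable, hq.b0⟩
    · rw [abs_le]
      constructor <;> linarith only [hspec.2.1 x, hspec.2.2 x]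
  rw [h2] at h1
  -- the average of the test function
  have h3 := h𝓐 (Fin 0) (fun L => Arr.pairVal m v k (topW τ W) (toph τ W h) (L (Sum.inl 0) (Sum.inl 1)))
  have h4 : Tendsto (fun j => (S j).avT (fun ω (x : Fin 2 → (S j).X) => Φ j ((S j).π ω) x *
        Arr.pairVal m v k (topW τ W) (toph τ W h) (lev b ((S j).R (x 0) (x 1))))) U
      (𝓝 (𝓐.E (Fin 0) (fun L =>
        Arr.pairVal m v k (topW τ W) (toph τ W h) (L (Sum.inl 0) (Sum.inl 1))))) := by
    refine h3.congr fun j => ?_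
    rw [← (S j).avT_comp (J := Fin 2) (J' := Fin 2 ⊕ Fin 0) Sum.inl Sum.inl_injective
      (fun t x => Φ j t x * Arr.pairVal m v k (topW τ W) (toph τ W h) (lev b ((S j).R (x 0) (x 1))))]
    congr 1
  intro η hη
  filter_upwards [h1 (η / 2) (by (clear * - hη; positivity)), (Metric.tendsto_nhds.1 h4) (η / 2) (by (clear * - hη; positivity))]
    with j hj1 hj2
  rw [Real.dist_eq] at hj2
  rw [Fintype.card_fin] at hj1
  have e1 := abs_sub_le (∫ z : (S j).Ω × (K j → ℝ), (∑ x : Fin 2 → (S j).X, Φ j ((S j).π z.1) x *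
        ∏ i, ((S j).w z.1 (x i) * (h (lin (κ j ((S j).π z.1)) z.2 (x i)) *
          W (lin (κ j ((S j).π z.1)) z.2 (x i))))) /
        (∑ x, (S j).w z.1 x * W (lin (κ j ((S j).π z.1)) z.2 x)) ^ (1 + 1)
          ∂((S j).P.prod (gM (K j)))) (𝓐.E (Fin 0) (fun L =>
        Arr.pairVal m v k (topW τ W) (toph τ W h) (L (Sum.inl 0) (Sum.inl 1))))
        ((S j).avT (fun ω (x : Fin 2 → (S j).X) => Φ j ((S j).π ω) x *
        Arr.pairVal m v k (topW τ W) (toph τ W h) (lev b ((S j).R (x 0) (x 1)))))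
  rw [abs_sub_comm (𝓐.E _ _)] at e1
  linarith

end Final

end Vale.Agent.P157.Par
end

section

open MeasureTheory ProbabilityTheory Filter Topology

namespace Vale.Agent.P157.Par

open Vale.Agent.P367.GT (gM)

/-- The perturbed perceptron on the cube, with `M` patterns. -/
noncomputable abbrev pS (f : ℝ → ℝ) (hf : Measurable f) (C : ℝ) (hC : ∀ x, |f x| ≤ C)
    (N M P : ℕ) (s : ℝ) (u : Fin P → ℝ) : Sys := (cubeBase f hf C hC N M).sys P s u

/-- The additive functional of `n` replicas: `δ ∑_a ∏_i h(S_a(x_i))`. -/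
noncomputable def addF {M N : ℕ} (δ : ℝ) (h : ℝ → ℝ) {n : ℕ} (t : Fin M → Fin (N + 1) → ℝ)
    (x : Fin n → Fin (N + 1) → Bool) : ℝ :=
  δ * ∑ a, ∏ i, h (cubeS (t a) (x i))

/-- The kernel of the new spin. -/
noncomputable def ker1 {M N : ℕ} (δ : ℝ) (f1 : ℝ → ℝ) (t : Fin M → Fin (N + 1) → ℝ)
    (x : Fin (N + 1) → Bool) : Fin M → ℝ := fun a => √δ * f1 (cubeS (t a) x)

/-- The kernel of the rescaling. -/
noncomputable def ker2 {M N : ℕ} (δ : ℝ) (f1 : ℝ → ℝ) (t : Fin M → Fin (N + 1) → ℝ)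
    (x : Fin (N + 1) → Bool) : Fin M × Fin (N + 1) → ℝ :=
  fun p => √δ * f1 (cubeS (t p.1) x) * cubeφ N x p.2

/-- The exponents of the weights `w`. -/
noncomputable def mOf {k : ℕ} (w : Fin (k + 1) → ℝ) (l : ℕ) : ℝ :=
  ∑ l' : Fin (k + 1), if (l' : ℕ) < l then w l' else 0

/-- The bounded truncation of the identity. -/
noncomputable def trn (T : ℝ) (x : ℝ) : ℝ := T * Real.tanh (x / T)

/-- Smooth potentials: `W = e^f / c₀` takes its values in `[a, 1]`. -/
structure Pot (C c₀ a : ℝ) (f f1 f2 f3 : ℝ → ℝ) : Prop where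
  cb3 : CB3 C f f1 f2 f3
  cf1 : ∃ g' g'', CB2 f1 g' g''
  cf2 : ∃ g' g'', CB2 f2 g' g''
  c0 : 0 < c₀
  a0 : 0 < a
  Wa : ∀ x, a ≤ Real.exp (f x) / c₀
  W1 : ∀ x, Real.exp (f x) / c₀ ≤ 1

end Vale.Agent.P157.Par
end

section

open MeasureTheory ProbabilityTheory Filter Topology Finset

namespace Vale.Agent.P157.Par

set_option linter.unusedSectionVars false

open Vale.Agent.P367.GT (gM)

/-! ### Exponents -/

section Exponents

variable {k : ℕ} {w : Fin (k + 1) → ℝ}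

lemma mOf_zero : mOf w 0 = 0 := by simp only [mOf, not_lt_zero, ↓reduceIte, sum_const_zero]

lemma mOf_top : mOf w (k + 1) = ∑ l, w l := by
  unfold mOf
  exact Finset.sum_congr rfl fun l _ => by rw [if_pos l.2]

lemma mOf_succ {l : ℕ} (hl : l < k + 1) : mOf w (l + 1) - mOf w l = w ⟨l, hl⟩ := by
  unfold mOf
  rw [← Finset.sum_sub_distrib, Finset.sum_eq_single (⟨l, hl⟩ : Fin (k + 1))]
  · simp only [lt_add_iff_pos_right, Order.lt_one_iff, ↓reduceIte, lt_self_iff_false, sub_zero]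
  · intro b _ hb
    have : (b : ℕ) ≠ l := fun h => hb (Fin.ext h)
    by_cases h : (b : ℕ) < l
    · rw [if_pos (by omega), if_pos h, sub_self]
    · rw [if_neg (by omega), if_neg h, sub_self]
  · intro h
    exact absurd (Finset.mem_univ _) h

lemma up_eq_mOf (hw : ∑ l, w l = 1) (l : Fin (k + 1)) : Arr.up w l = 1 - mOf w l := by
  unfold Arr.up mOf
  rw [← hw, eq_sub_iff_add_eq, ← Finset.sum_add_distrib]
  refine Finset.sum_congr rfl fun l' _ => ?_
  by_cases h : l ≤ l'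
  · rw [if_pos h, if_neg (by rw [not_lt]; exact h), add_zero]
  · rw [if_neg h, if_pos (by rw [← not_le]; exact h), zero_add]

lemma exponents_mOf (hw0 : ∀ l, 0 < w l) (hw : ∑ l, w l = 1) : Exponents k (mOf w) := by
  refine ⟨mOf_zero, by rw [mOf_top, hw], fun l hl => ?_⟩
  have h := mOf_succ (w := w) (l := l) (by (clear * - hl; omega))
  have := hw0 ⟨l, by omega⟩
  linarith only [h, this]

lemma mOf_pos (hw0 : ∀ l, 0 < w l) {l : ℕ} (h1 : 1 ≤ l) : 0 < mOf w l := by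
  unfold mOf
  refine Finset.sum_pos' (fun l' _ => ?_) ⟨0, Finset.mem_univ _, ?_⟩
  · split_ifs
    · exact (hw0 l').le
    · exact le_rfl
  · rw [if_pos (by simp only [Fin.val_zero]; omega)]
    exact hw0 0

lemma mOf_le_one (hw0 : ∀ l, 0 < w l) (hw : ∑ l, w l = 1) (l : ℕ) : mOf w l ≤ 1 := by
  rw [← hw]
  unfold mOf
  refine Finset.sum_le_sum fun l' _ => ?_
  split_ifs
  · exact le_rfl
  · exact (hw0 l').le

end Exponents

/-! ### Increments -/

lemma path_mono {k : ℕ} {q : ℕ → ℝ} (hq : ∀ l < k, q l ≤ q (l + 1)) :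
    ∀ a b, a ≤ b → b ≤ k → q a ≤ q b := by
  intro a b hab hb
  induction b, hab using Nat.le_induction with
  | base => exact le_rfl
  | succ b hab ih => exact (ih (by omega)).trans (hq b (by omega))

/-- The path stopped at the level `k`. -/
def stop (k : ℕ) (q : ℕ → ℝ) (l : ℕ) : ℝ := q (min l k)

lemma stop_le {k : ℕ} {q : ℕ → ℝ} {l : ℕ} (hl : l ≤ k) : stop k q l = q l := by
  unfold stop
  rw [min_eq_left hl]

lemma incr_stop_nonneg {k : ℕ} {q : ℕ → ℝ} (hq : Path k q) (l : ℕ) : 0 ≤ incr (stop k q) l := by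
  cases l with
  | zero => simpa only [incr_zero_def, stop, zero_le, inf_of_le_left] using hq.1
  | succ l =>
    simp only [incr_succ_def, sub_nonneg, stop]
    exact path_mono hq.2 _ _ (by (clear * -; omega)) (by (clear * -; omega))

lemma incr_stop {k : ℕ} {q : ℕ → ℝ} {l : ℕ} (hl : l ≤ k) : incr (stop k q) l = incr q l := by
  cases l with
  | zero => simp only [incr_zero_def, stop, zero_le, inf_of_le_left]
  | succ l => simp only [incr_succ_def, stop_le hl, stop_le (show l ≤ k by omega)]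

lemma sum_incr (q : ℕ → ℝ) (l : ℕ) : ∑ i ∈ Finset.range (l + 1), incr q i = q l := by
  induction l with
  | zero => simp [incr_zero_def]
  | succ l ih => rw [Finset.sum_range_succ, ih]; simp [incr_succ_def]

lemma cumul_cut {k : ℕ} (v : ℕ → ℝ) (l : Fin (k + 1)) :
    cumul (cut v k) l = ∑ i ∈ Finset.range ((l : ℕ) + 1), v i := by
  unfold cumul cut
  rw [← Finset.sum_filter, Finset.sum_congr rfl (g := fun l' : Fin (k + 1) => v l') (fun l' _ => by
    rw [if_pos (by omega)])]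
  refine Finset.sum_bij (fun (a : Fin (k + 1)) _ => (a : ℕ)) (fun a ha => ?_) (fun a _ b _ h => ?_)
    (fun b hb => ?_) (fun a _ => rfl)
  · simp only [Finset.mem_filter, Finset.mem_univ, true_and] at ha
    rw [Finset.mem_range]
    have : (a : ℕ) ≤ l := ha
    omega
  · exact Fin.ext h
  · rw [Finset.mem_range] at hb
    refine ⟨⟨b, by omega⟩, ?_, rfl⟩
    simp only [Finset.mem_filter, Finset.mem_univ, true_and]
    exact Fin.le_iff_val_le_val.2 (by simpa only using Nat.lt_succ_iff.1 hb)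

lemma cumul_incr {k : ℕ} {q : ℕ → ℝ} (l : Fin (k + 1)) :
    cumul (cut (incr (stop k q)) k) l = q l := by
  rw [cumul_cut, sum_incr, stop_le (by omega)]

/-! ### Levels of a small mesh -/

/-- Levels on which the overlap is almost constant. -/
theorem exists_mesh {U : Ultrafilter ℕ} {S : ℕ → Sys}
    (hGG : ∀ p : ℕ, AsympGG U S (fun x => x ^ p)) {ε : ℝ} (hε : 0 < ε) :
    ∃ (k : ℕ) (b : Fin k → ℝ) (w : Fin (k + 1) → ℝ) (q : ℕ → ℝ), LimData U S b w ∧
      Path k q ∧ q k ≤ 1 ∧ ∀ᶠ j in (U : Filter ℕ), (S j).tav (n := 2) (fun _ x =>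
        |(S j).R (x 0) (x 1) - q (lev b ((S j).R (x 0) (x 1)))|) ≤ ε := by
  obtain ⟨k, b, q, w, h1, h2, h3, h4, h5, h6, h7, h8, h9, h10, h11⟩ :=
    exists_levels hGG (ε := ε / 2) (by positivity)
  have hqn : ∀ l : Fin (k + 1), q ⟨min (l : ℕ) k, by omega⟩ = q l := fun l => by
    congr 1
    ext
    simp only
    omega
  refine ⟨k, b, w, fun l => q ⟨min l k, by omega⟩, ⟨hGG, h1, h2, h3, h4, h10, h8, h9⟩,
    ⟨h6 _, fun l hl => ?_⟩, h7 _, ?_⟩
  · apply h5
    rw [Fin.le_iff_val_le_val]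
    simp only
    omega
  · filter_upwards [(tendsto_order.1 h11).2 (ε / 4) (by (clear * - hε; positivity))] with j hj
    simp only [hqn]
    have hR : ∀ x y, |(S j).R x y| ≤ 1 := fun x y => by
      have := Sys.R_mem (S := S j) x y
      rw [abs_le]; exact this
    have hb : ∀ x : Fin 2 → (S j).X,
        |(S j).R (x 0) (x 1) - q (lev b ((S j).R (x 0) (x 1)))| ≤ 2 := by
      intro x
      have := abs_sub ((S j).R (x 0) (x 1)) (q (lev b ((S j).R (x 0) (x 1))))
      have h12 := hR (x 0) (x 1)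
      have h13 : |q (lev b ((S j).R (x 0) (x 1)))| ≤ 1 := by
        rw [abs_of_nonneg (h6 _)]; exact h7 _
      linarith only [this, h12, h13]
    have hle : ∀ x : Fin 2 → (S j).X, |(S j).R (x 0) (x 1) - q (lev b ((S j).R (x 0) (x 1)))| ≤
        ε / 2 + 2 * (if ε / 2 < |(S j).R (x 0) (x 1) - q (lev b ((S j).R (x 0) (x 1)))| then 1
          else 0) := by
      intro x
      by_cases h : ε / 2 < |(S j).R (x 0) (x 1) - q (lev b ((S j).R (x 0) (x 1)))|
      · rw [if_pos h]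
        linarith only [hε, hb x]
      · rw [if_neg h]
        linarith only [h]
    have hB1 : Sys.Bdd (S j) (n := 2) (fun _ x =>
        |(S j).R (x 0) (x 1) - q (lev b ((S j).R (x 0) (x 1)))|) 2 :=
      ⟨fun x => measurable_const, fun t x => by rw [abs_abs]; exact hb x⟩
    have hB2 : Sys.Bdd (S j) (n := 2) (fun _ x => 2 *
        (if ε / 2 < |(S j).R (x 0) (x 1) - q (lev b ((S j).R (x 0) (x 1)))| then (1 : ℝ)
          else 0)) 2 :=
      ⟨fun x => measurable_const, fun t x => by split_ifs <;> norm_num⟩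
    have hB3 : Sys.Bdd (S j) (n := 2) (fun _ _ => ε / 2) (ε / 2) :=
      ⟨fun x => measurable_const, fun t x => by rw [abs_of_pos (by (clear * - hε; positivity))]⟩
    have hB4 : Sys.Bdd (S j) (n := 2) (fun _ x => ε / 2 + 2 *
        (if ε / 2 < |(S j).R (x 0) (x 1) - q (lev b ((S j).R (x 0) (x 1)))| then (1 : ℝ)
          else 0)) (ε / 2 + 2) :=
      ⟨fun x => measurable_const, fun t x =>
        (abs_add_le _ _).trans (add_le_add (hB3.bdd t x) (hB2.bdd t x))⟩
    have h12 := Sys.tav_mono hB1 hB4 (fun t x => hle x)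
    rw [Sys.tav_add hB3 hB2, Sys.tav_const, Sys.tav_smul] at h12
    have h13 : (S j).pr (fun x : Fin 2 → (S j).X =>
        ε / 2 < |(S j).R (x 0) (x 1) - q (lev b ((S j).R (x 0) (x 1)))|) =
      (S j).tav (n := 2) (fun _ x =>
        (if ε / 2 < |(S j).R (x 0) (x 1) - q (lev b ((S j).R (x 0) (x 1)))| then (1 : ℝ)
          else 0)) := by
      unfold Sys.pr
      congr 1
    rw [h13] at hj
    linarith only [hj, h12]

/-- The kernel of the configurations. -/
lemma kerClose_phi {U : Ultrafilter ℕ} {S : ℕ → Sys} {k : ℕ} {b : Fin k → ℝ} {q : ℕ → ℝ}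
    {ε : ℝ} (hε : 0 ≤ ε)
    (h : ∀ᶠ j in (U : Filter ℕ), (S j).tav (n := 2) (fun _ x =>
        |(S j).R (x 0) (x 1) - q (lev b ((S j).R (x 0) (x 1)))|) ≤ ε) :
    KerClose U S b (cut (incr (stop k q)) k) (1 - q k) ε 1
      (fun j _ x i => (S j).φ x i) := by
  have hR : ∀ j (x y : (S j).X), gram (fun x i => (S j).φ x i) (fun x i => (S j).φ x i) x y =
      (S j).R x y := by
    intro j x y
    unfold gram Sys.R
    rw [PiLp.inner_apply]
    exact Finset.sum_congr rfl fun i _ => by simp [mul_comm]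
  have hR1 : ∀ j (x : (S j).X), (S j).R x x = 1 := fun j x => by
    unfold Sys.R
    rw [real_inner_self_eq_norm_sq, (S j).hφ, one_pow]
  refine ⟨fun j x c => measurable_const, fun j t x => ?_, ?_, ?_⟩
  · have h1 := hR j x x
    rw [hR1] at h1
    unfold gram at h1
    refine le_of_eq (Eq.trans (Finset.sum_congr rfl fun i _ => ?_) h1)
    ring
  · filter_upwards [h] with j hj
    simp only [hR, cumul_incr]
    exact hj
  · refine Eventually.of_forall fun j => ?_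
    simp only [hR, hR1, cumul_incr]
    have h1 : |(1 : ℝ) - (q ((Fin.last k : Fin (k + 1)) : ℕ) + (1 - q k))| = 0 := by
      rw [Fin.val_last]
      simp
    simp only [h1]
    rw [Sys.tav_const]
    exact hε

end Vale.Agent.P157.Par
end

section

/-! Adding one pattern: exchangeability of the patterns and separation of the first pattern. -/

open MeasureTheory ProbabilityTheory Filter Topology

namespace Vale.Agent.P157.Par

open Vale.Agent.P367.GT (gM)

namespace AddP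

open Vale.Agent.P157.Par.Cube

/-- the weights -/
noncomputable def wA (f : ℝ → ℝ) (N M P : ℕ) (s : ℝ) (u : Fin P → ℝ)
    (z : (Fin M → Fin (N + 1) → ℝ) × (GI P (N + 1) → ℝ)) (y : Fin (N + 1) → Bool) : ℝ :=
  Real.exp (EE f s u z.1 z.2 y) / ∑ y', Real.exp (EE f s u z.1 z.2 y')

/-- the averages -/
noncomputable def TV (f : ℝ → ℝ) (N M P : ℕ) (s : ℝ) (u : Fin P → ℝ) {n : ℕ}
    (G : (Fin M → Fin (N + 1) → ℝ) → (Fin n → Fin (N + 1) → Bool) → ℝ) : ℝ :=
  ∫ z : (Fin M → Fin (N + 1) → ℝ) × (GI P (N + 1) → ℝ),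
    ∑ x : Fin n → Fin (N + 1) → Bool, (∏ i, wA f N M P s u z (x i)) * G z.1 x
    ∂((pm M N).prod (gM (GI P (N + 1))))

section conc

variable (f : ℝ → ℝ) (N M P : ℕ) (s : ℝ) (u : Fin P → ℝ)

lemma den_pos (z : (Fin M → Fin (N + 1) → ℝ) × (GI P (N + 1) → ℝ)) :
    0 < ∑ y', Real.exp (EE f s u z.1 z.2 y') := Lin.sum_pos' fun _ => Real.exp_pos _

lemma wA_nonneg (z : (Fin M → Fin (N + 1) → ℝ) × (GI P (N + 1) → ℝ)) (y : Fin (N + 1) → Bool) :
    0 ≤ wA f N M P s u z y := div_nonneg (Real.exp_pos _).le (den_pos f N M P s u z).le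

lemma wA_sum (z : (Fin M → Fin (N + 1) → ℝ) × (GI P (N + 1) → ℝ)) :
    ∑ y, wA f N M P s u z y = 1 := by
  unfold wA
  rw [← Finset.sum_div, div_self (den_pos f N M P s u z).ne']

lemma wA_le_one (z : (Fin M → Fin (N + 1) → ℝ) × (GI P (N + 1) → ℝ)) (y : Fin (N + 1) → Bool) :
    wA f N M P s u z y ≤ 1 := by
  rw [← wA_sum f N M P s u z]
  exact Finset.single_le_sum (f := fun y => wA f N M P s u z y)
    (fun y _ => wA_nonneg f N M P s u z y) (Finset.mem_univ y)

lemma EE_meas (hf : Measurable f) (y : Fin (N + 1) → Bool) : Measurable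
    fun z : (Fin M → Fin (N + 1) → ℝ) × (GI P (N + 1) → ℝ) => EE f s u z.1 z.2 y := by
  unfold EE
  refine Measurable.add ?_ ?_
  · refine Finset.measurable_sum _ fun a _ => hf.comp ?_
    unfold cubeS
    (clear * -; fun_prop)
  · unfold lin
    fun_prop

lemma wA_meas (hf : Measurable f) (y : Fin (N + 1) → Bool) : Measurable
    fun z : (Fin M → Fin (N + 1) → ℝ) × (GI P (N + 1) → ℝ) => wA f N M P s u z y := by
  unfold wA
  refine Measurable.div (EE_meas f N M P s u hf y).exp ?_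
  exact Finset.measurable_sum _ fun y' _ => (EE_meas f N M P s u hf y').exp

lemma prod_wA_abs {n : ℕ} (z : (Fin M → Fin (N + 1) → ℝ) × (GI P (N + 1) → ℝ))
    (x : Fin n → Fin (N + 1) → Bool) : |∏ i, wA f N M P s u z (x i)| ≤ 1 := by
  rw [Finset.abs_prod]
  refine Finset.prod_le_one (fun _ _ => abs_nonneg _) fun i _ => ?_
  rw [abs_of_nonneg (wA_nonneg f N M P s u z (x i))]
  exact wA_le_one f N M P s u z (x i)

lemma prod_wA_meas (hf : Measurable f) {n : ℕ} (x : Fin n → Fin (N + 1) → Bool) : Measurable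
    fun z : (Fin M → Fin (N + 1) → ℝ) × (GI P (N + 1) → ℝ) => ∏ i, wA f N M P s u z (x i) :=
  Finset.measurable_prod _ fun i _ => wA_meas f N M P s u hf (x i)

lemma EE_perm (σ : Equiv.Perm (Fin M)) (t : Fin M → Fin (N + 1) → ℝ) (g : GI P (N + 1) → ℝ)
    (y : Fin (N + 1) → Bool) : EE f s u (fun c => t (σ c)) g y = EE f s u t g y := by
  unfold EE
  rw [Equiv.sum_comp σ fun a => f (cubeS (t a) y)]

lemma wA_perm (σ : Equiv.Perm (Fin M)) (z : (Fin M → Fin (N + 1) → ℝ) × (GI P (N + 1) → ℝ))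
    (y : Fin (N + 1) → Bool) : wA f N M P s u (fun c => z.1 (σ c), z.2) y =
      wA f N M P s u z y := by
  unfold wA
  simp only [EE_perm]

/-- Exchangeability of the patterns. -/
lemma TV_exch {n : ℕ} (a b : Fin M)
    (G : (Fin M → Fin (N + 1) → ℝ) → (Fin n → Fin (N + 1) → Bool) → ℝ) :
    TV f N M P s u G = TV f N M P s u (fun t x => G (fun c => t (Equiv.swap a b c)) x) := by
  set σ : Equiv.Perm (Fin M) := Equiv.swap a b with hσ
  have hσσ : ∀ c, σ (σ c) = c := fun c => by rw [hσ, Equiv.swap_apply_self]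
  set e0 : (Fin M → Fin (N + 1) → ℝ) ≃ᵐ (Fin M → Fin (N + 1) → ℝ) :=
    MeasurableEquiv.piCongrLeft (fun _ : Fin M => Fin (N + 1) → ℝ) σ with he0
  have he0a : ∀ t : Fin M → Fin (N + 1) → ℝ, e0 t = fun c => t (σ c) := by
    intro t
    funext c
    have h1 := MeasurableEquiv.piCongrLeft_apply_apply
      (β := fun _ : Fin M => Fin (N + 1) → ℝ) σ t (σ c)
    rw [hσσ] at h1
    exact h1
  have mp0 : MeasurePreserving e0 (pm M N) (pm M N) :=
    measurePreserving_piCongrLeft (fun _ : Fin M => gM (Fin (N + 1))) σ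
  set e1 := e0.prodCongr (MeasurableEquiv.refl (GI P (N + 1) → ℝ)) with he1
  have mp1 : MeasurePreserving e1 ((pm M N).prod (gM (GI P (N + 1))))
      ((pm M N).prod (gM (GI P (N + 1)))) := mp0.prod (MeasurePreserving.id _)
  unfold TV
  rw [← mp1.integral_comp' (g := fun z : (Fin M → Fin (N + 1) → ℝ) × (GI P (N + 1) → ℝ) =>
        ∑ x : Fin n → Fin (N + 1) → Bool, (∏ i, wA f N M P s u z (x i)) * G z.1 x)]
  refine integral_congr_ae (Filter.Eventually.of_forall fun z => ?_)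
  have e2 : e1 z = (fun c => z.1 (σ c), z.2) := by
    have : e1 z = (e0 z.1, z.2) := rfl
    rw [this, he0a]
  simp only [e2, wA_perm]

/-- A sum over the patterns. -/
lemma TV_sum_patterns (hf : Measurable f) {n : ℕ}
    {F : (Fin (N + 1) → ℝ) → (Fin n → Fin (N + 1) → Bool) → ℝ}
    (hFm : ∀ x, Measurable fun g => F g x) {B : ℝ} (hFB : ∀ g x, |F g x| ≤ B)
    {G : (Fin (M + 1) → Fin (N + 1) → ℝ) → (Fin n → Fin (N + 1) → Bool) → ℝ}
    (hGm : ∀ x, Measurable fun t => G t x) {D : ℝ} (hGD : ∀ t x, |G t x| ≤ D)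
    (hG : ∀ (a b : Fin (M + 1)) t x, G (fun c => t (Equiv.swap a b c)) x = G t x) :
    TV f N (M + 1) P s u (n := n) (fun t x => (∑ a, F (t a) x) * G t x) =
      (M + 1) * TV f N (M + 1) P s u (n := n) (fun t x => F (t 0) x * G t x) := by
  have h1 : ∀ a : Fin (M + 1), TV f N (M + 1) P s u (n := n) (fun t x => F (t a) x * G t x) =
      TV f N (M + 1) P s u (n := n) (fun t x => F (t 0) x * G t x) := by
    intro a
    rw [TV_exch f N (M + 1) P s u 0 a]
    simp only [Equiv.swap_apply_right, hG]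
  have hint : ∀ a : Fin (M + 1), Integrable
      (fun z : (Fin (M + 1) → Fin (N + 1) → ℝ) × (GI P (N + 1) → ℝ) =>
        ∑ x : Fin n → Fin (N + 1) → Bool, (∏ i, wA f N (M + 1) P s u z (x i)) *
          (F (z.1 a) x * G z.1 x)) ((pm (M + 1) N).prod (gM (GI P (N + 1)))) := by
    intro a
    refine integrable_finsetSum _ fun x _ => ?_
    refine Integrable.mono' (integrable_const (|B| * |D|)) ?_
      (Filter.Eventually.of_forall fun z => ?_)
    · exact ((prod_wA_meas f N (M + 1) P s u hf x).mul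
        (((hFm x).comp ((measurable_pi_apply a).comp measurable_fst)).mul
          ((hGm x).comp measurable_fst))).aestronglyMeasurable
    · rw [Real.norm_eq_abs, abs_mul, abs_mul]
      have k1 := prod_wA_abs f N (M + 1) P s u z x
      have k2 := (hFB (z.1 a) x).trans (le_abs_self B)
      have k3 := (hGD z.1 x).trans (le_abs_self D)
      calc _ ≤ 1 * (|B| * |D|) := mul_le_mul k1
            (mul_le_mul k2 k3 (abs_nonneg _) (abs_nonneg _)) (by (clear * -; positivity)) zero_le_one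
        _ = _ := one_mul _
  have h2 : TV f N (M + 1) P s u (n := n) (fun t x => (∑ a, F (t a) x) * G t x) =
      ∑ a, TV f N (M + 1) P s u (n := n) (fun t x => F (t a) x * G t x) := by
    unfold TV
    rw [← integral_finsetSum _ fun a _ => hint a]
    refine integral_congr_ae (Filter.Eventually.of_forall fun z => ?_)
    simp only
    rw [Finset.sum_comm]
    refine Finset.sum_congr rfl fun x _ => ?_
    rw [Finset.sum_mul, Finset.mul_sum]
  rw [h2, Finset.sum_congr rfl fun a _ => h1 a]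
  simp only [Finset.sum_const, Finset.card_univ, Fintype.card_fin, nsmul_eq_mul, Nat.cast_add, Nat.cast_one]

/-- the rearrangement of the variables: separation of the first pattern -/
noncomputable def eAg (E G : Type) [MeasurableSpace E] [MeasurableSpace G] :
    ((Fin (M + 1) → E) × G) ≃ᵐ (((Fin M → E) × G) × E) :=
  (((MeasurableEquiv.piFinSuccAbove (fun _ : Fin (M + 1) => E) 0).prodCongr
    (MeasurableEquiv.refl G)).trans MeasurableEquiv.prodAssoc).trans MeasurableEquiv.prodComm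

lemma mp_eAg {E G : Type} [MeasurableSpace E] [MeasurableSpace G] (μ : Measure E)
    [IsProbabilityMeasure μ] (ν : Measure G) [IsProbabilityMeasure ν] :
    MeasurePreserving (eAg M E G) ((Measure.pi fun _ => μ).prod ν)
      (((Measure.pi fun _ => μ).prod ν).prod μ) := by
  have mp1 : MeasurePreserving ((MeasurableEquiv.piFinSuccAbove
      (fun _ : Fin (M + 1) => E) 0).prodCongr (MeasurableEquiv.refl G))
      ((Measure.pi fun _ : Fin (M + 1) => μ).prod ν)
      ((μ.prod (Measure.pi fun _ : Fin M => μ)).prod ν) :=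
    (measurePreserving_piFinSuccAbove (fun _ : Fin (M + 1) => μ) 0).prod
      (MeasurePreserving.id _)
  have mp2 := measurePreserving_prodAssoc μ (Measure.pi fun _ : Fin M => μ) ν
  have mp3 := Measure.measurePreserving_swap (μ := μ)
    (ν := (Measure.pi fun _ : Fin M => μ).prod ν)
  exact mp3.comp (mp2.comp mp1)

/-- the rearrangement of the variables: separation of the first pattern -/
noncomputable abbrev eA : ((Fin (M + 1) → Fin (N + 1) → ℝ) × (GI P (N + 1) → ℝ)) ≃ᵐ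
    (((Fin M → Fin (N + 1) → ℝ) × (GI P (N + 1) → ℝ)) × (Fin (N + 1) → ℝ)) :=
  eAg M (Fin (N + 1) → ℝ) (GI P (N + 1) → ℝ)

lemma eA_apply (z : (Fin (M + 1) → Fin (N + 1) → ℝ) × (GI P (N + 1) → ℝ)) :
    eA N M P z = ((fun a => z.1 a.succ, z.2), z.1 0) := rfl

lemma mp_eA : MeasurePreserving (eA N M P) ((pm (M + 1) N).prod (gM (GI P (N + 1))))
    (((pm M N).prod (gM (GI P (N + 1)))).prod (gM (Fin (N + 1)))) :=
  mp_eAg M (gM (Fin (N + 1))) (gM (GI P (N + 1)))

variable {f}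

/-- the weights with one more pattern -/
lemma wA_succ {W : ℝ → ℝ} {c₀ : ℝ} (hc₀ : 0 < c₀) (hW : ∀ x, W x = Real.exp (f x) / c₀)
    (z : (Fin (M + 1) → Fin (N + 1) → ℝ) × (GI P (N + 1) → ℝ)) (y : Fin (N + 1) → Bool) :
    wA f N (M + 1) P s u z y =
      wA f N M P s u (eA N M P z).1 y * W (cubeS (z.1 0) y) /
        ∑ y', wA f N M P s u (eA N M P z).1 y' * W (cubeS (z.1 0) y') := by
  rw [eA_apply]
  simp only
  set z' : (Fin M → Fin (N + 1) → ℝ) × (GI P (N + 1) → ℝ) := (fun a => z.1 a.succ, z.2) with hz'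
  have hE : ∀ y, EE f s u z.1 z.2 y = EE f s u z'.1 z'.2 y + f (cubeS (z.1 0) y) := by
    intro y
    unfold EE
    rw [Fin.sum_univ_succ]
    ring
  have hD := den_pos f N M P s u z'
  set D := ∑ y', Real.exp (EE f s u z'.1 z'.2 y') with hDd
  have hexp : ∀ y, Real.exp (EE f s u z.1 z.2 y) =
      (wA f N M P s u z' y * W (cubeS (z.1 0) y)) * (D * c₀) := by
    intro y
    rw [hE, Real.exp_add, hW]
    unfold wA
    rw [← hDd]
    (clear * - hD hc₀; field_simp)
  unfold wA at hexp ⊢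
  simp_rw [hexp]
  rw [← Finset.sum_mul, mul_div_mul_right _ _ (by positivity)]

/-- Separation of the first pattern. -/
lemma TV_add {n : ℕ} {Φ : (Fin M → Fin (N + 1) → ℝ) → (Fin n → Fin (N + 1) → Bool) → ℝ}
    {h : ℝ → ℝ} {W : ℝ → ℝ} {c₀ : ℝ} (hc₀ : 0 < c₀) (hW : ∀ x, W x = Real.exp (f x) / c₀) :
    TV f N (M + 1) P s u (n := n)
        (fun t x => Φ (fun a => t a.succ) x * ∏ i, h (cubeS (t 0) (x i))) =
      ∫ z : ((Fin M → Fin (N + 1) → ℝ) × (GI P (N + 1) → ℝ)) × (Fin (N + 1) → ℝ),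
        (∑ x : Fin n → Fin (N + 1) → Bool, Φ z.1.1 x *
          ∏ i, (wA f N M P s u z.1 (x i) * (h (cubeS z.2 (x i)) * W (cubeS z.2 (x i))))) /
          (∑ x, wA f N M P s u z.1 x * W (cubeS z.2 x)) ^ n
        ∂(((pm M N).prod (gM (GI P (N + 1)))).prod (gM (Fin (N + 1)))) := by
  rw [← (mp_eA N M P).integral_comp'
    (g := fun z : ((Fin M → Fin (N + 1) → ℝ) × (GI P (N + 1) → ℝ)) × (Fin (N + 1) → ℝ) =>
        (∑ x : Fin n → Fin (N + 1) → Bool, Φ z.1.1 x *
          ∏ i, (wA f N M P s u z.1 (x i) * (h (cubeS z.2 (x i)) * W (cubeS z.2 (x i))))) /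
          (∑ x, wA f N M P s u z.1 x * W (cubeS z.2 x)) ^ n)]
  unfold TV
  refine integral_congr_ae (Filter.Eventually.of_forall fun z => ?_)
  simp only
  rw [Finset.sum_div]
  refine Finset.sum_congr rfl fun x _ => ?_
  simp only [wA_succ N M P s u hc₀ hW]
  rw [Finset.prod_div_distrib, Finset.prod_const, Finset.card_univ, Fintype.card_fin]
  have e1 : (eA N M P z).1.1 = fun a => z.1 a.succ := rfl
  have e2 : (eA N M P z).2 = z.1 0 := rfl
  rw [e1, e2]
  simp only [Finset.prod_mul_distrib]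
  ring

/-- the law of a field -/
lemma law_cubeS (y : Fin (N + 1) → Bool) :
    (gM (Fin (N + 1))).map (fun g => cubeS g y) = gaussianReal 0 1 := by
  set U : Unit → Fin (N + 1) → ℝ := fun _ i => cubeφ N y i with hU
  set V : Unit → Unit → ℝ := fun _ _ => 1 with hV
  have hG : ∀ a b, gram U U a b = gram V V a b := by
    intro a b
    simp only [gram, hU, hV]
    have := Cube.sum_cubeφ_sq N y
    simp_rw [sq] at this
    rw [this]
    simp only [Finset.univ_unique, PUnit.default_eq_unit, mul_one, Finset.sum_const, Finset.card_singleton, one_smul]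
  have h := map_lin_congr hG
  have mU : Measurable fun ξ : Fin (N + 1) → ℝ =>
      (WithLp.toLp 2 (lin U ξ) : EuclideanSpace ℝ Unit) := by unfold lin; fun_prop
  have mV : Measurable fun ξ : Unit → ℝ =>
      (WithLp.toLp 2 (lin V ξ) : EuclideanSpace ℝ Unit) := by unfold lin; fun_prop
  have mE : Measurable fun z : EuclideanSpace ℝ Unit => z () := by fun_prop
  have h2 := congrArg (fun μ => Measure.map (fun z : EuclideanSpace ℝ Unit => z ()) μ) h
  simp only at h2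
  rw [Measure.map_map mE mU, Measure.map_map mE mV] at h2
  have e1 : (fun z : EuclideanSpace ℝ Unit => z ()) ∘
      (fun ξ : Fin (N + 1) → ℝ => (WithLp.toLp 2 (lin U ξ) : EuclideanSpace ℝ Unit)) =
      fun g => cubeS g y := by
    funext g
    simp only [Function.comp, lin, hU, cubeS]
    exact Finset.sum_congr rfl fun i _ => mul_comm _ _
  have e2 : (fun z : EuclideanSpace ℝ Unit => z ()) ∘
      (fun ξ : Unit → ℝ => (WithLp.toLp 2 (lin V ξ) : EuclideanSpace ℝ Unit)) =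
      fun ξ => ξ () := by
    funext g
    simp [Function.comp, lin, hV]
  rw [e1, e2] at h2
  rw [h2]
  exact (measurePreserving_eval (fun _ : Unit => gaussianReal 0 1) ()).map_eq

lemma mpS (b : Fin (M + 1)) (y : Fin (N + 1) → Bool) : MeasurePreserving
    (fun z : (Fin (M + 1) → Fin (N + 1) → ℝ) × (GI P (N + 1) → ℝ) => cubeS (z.1 b) y)
    ((pm (M + 1) N).prod (gM (GI P (N + 1)))) (gaussianReal 0 1) := by
  have m1 : MeasurePreserving (Prod.fst : (Fin (M + 1) → Fin (N + 1) → ℝ) ×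
      (GI P (N + 1) → ℝ) → Fin (M + 1) → Fin (N + 1) → ℝ)
      ((pm (M + 1) N).prod (gM (GI P (N + 1)))) (pm (M + 1) N) := measurePreserving_fst
  have m2 : MeasurePreserving (Function.eval b) (pm (M + 1) N) (gM (Fin (N + 1))) :=
    measurePreserving_eval (fun _ : Fin (M + 1) => gM (Fin (N + 1))) b
  have m3 : MeasurePreserving (fun g => cubeS g y) (gM (Fin (N + 1))) (gaussianReal 0 1) :=
    ⟨by unfold cubeS; fun_prop, law_cubeS N y⟩
  exact m3.comp (m2.comp m1)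

/-- integrability for possibly unbounded functions of one field -/
lemma field_integrable (hf : Measurable f) {g : ℝ → ℝ} (hg : Integrable g (gaussianReal 0 1))
    (b : Fin (M + 1)) (x : Fin 1 → Fin (N + 1) → Bool) : Integrable
      (fun z : (Fin (M + 1) → Fin (N + 1) → ℝ) × (GI P (N + 1) → ℝ) =>
        (∏ i, wA f N (M + 1) P s u z (x i)) * g (cubeS (z.1 b) (x 0)))
      ((pm (M + 1) N).prod (gM (GI P (N + 1)))) := by
  have h1 : Integrable (fun z : (Fin (M + 1) → Fin (N + 1) → ℝ) × (GI P (N + 1) → ℝ) =>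
      g (cubeS (z.1 b) (x 0))) ((pm (M + 1) N).prod (gM (GI P (N + 1)))) :=
    (mpS N M P b (x 0)).integrable_comp_of_integrable hg
  exact h1.bdd_mul (c := 1) (prod_wA_meas f N (M + 1) P s u hf x).aestronglyMeasurable
    (Filter.Eventually.of_forall fun z => by
      rw [Real.norm_eq_abs]; exact prod_wA_abs f N (M + 1) P s u z x)

lemma sum_fin1 {Y : Type} [Fintype Y] (F : Y → ℝ) : ∑ x : Fin 1 → Y, F (x 0) = ∑ y, F y :=
  Fintype.sum_equiv (Equiv.funUnique (Fin 1) Y) _ _ fun _ => rfl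

/-- First moments of one field. -/
lemma TV_field_le (hf : Measurable f) {W : ℝ → ℝ} {c₀ a : ℝ} (hc₀ : 0 < c₀)
    (hW : ∀ x, W x = Real.exp (f x) / c₀) (ha : 0 < a) (hWa : ∀ x, a ≤ W x)
    (hW1 : ∀ x, W x ≤ 1) {g : ℝ → ℝ} (hg0 : ∀ x, 0 ≤ g x)
    (hg : Integrable g (gaussianReal 0 1)) (b : Fin (M + 1)) :
    TV f N (M + 1) P s u (n := 1) (fun t x => g (cubeS (t b) (x 0))) ≤
      1 / a * ∫ z, g z ∂(gaussianReal 0 1) := by
  rw [TV_exch f N (M + 1) P s u b 0]
  simp only [Equiv.swap_apply_left]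
  have h1 : TV f N (M + 1) P s u (n := 1) (fun t x => g (cubeS (t 0) (x 0))) =
      TV f N (M + 1) P s u (n := 1)
        (fun t x => (1 : ℝ) * ∏ i, g (cubeS (t 0) (x i))) := by
    congr 1
    funext t x
    simp
  have h2 := TV_add N M P s u (n := 1) (Φ := fun _ _ => (1 : ℝ)) (h := g) hc₀ hW
  rw [h1.trans h2]
  -- the comparison function
  have hi : ∀ y : Fin (N + 1) → Bool, Integrable
      (fun z : ((Fin M → Fin (N + 1) → ℝ) × (GI P (N + 1) → ℝ)) × (Fin (N + 1) → ℝ) =>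
        wA f N M P s u z.1 y * g (cubeS z.2 y))
      (((pm M N).prod (gM (GI P (N + 1)))).prod (gM (Fin (N + 1)))) := by
    intro y
    refine Integrable.mul_prod (f := fun z => wA f N M P s u z y)
      (g := fun z => g (cubeS z y)) ?_ ?_
    · refine Integrable.mono' (integrable_const 1) (wA_meas f N M P s u hf y).aestronglyMeasurable
        (Filter.Eventually.of_forall fun z => ?_)
      rw [Real.norm_eq_abs, abs_of_nonneg (wA_nonneg f N M P s u z y)]
      exact wA_le_one f N M P s u z y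
    · have m3 : MeasurePreserving (fun g => cubeS g y) (gM (Fin (N + 1))) (gaussianReal 0 1) :=
        ⟨by unfold cubeS; fun_prop, law_cubeS N y⟩
      exact m3.integrable_comp_of_integrable hg
  have hval : ∀ y : Fin (N + 1) → Bool,
      ∫ z : ((Fin M → Fin (N + 1) → ℝ) × (GI P (N + 1) → ℝ)) × (Fin (N + 1) → ℝ),
        wA f N M P s u z.1 y * g (cubeS z.2 y)
        ∂(((pm M N).prod (gM (GI P (N + 1)))).prod (gM (Fin (N + 1)))) =
      (∫ z, wA f N M P s u z y ∂((pm M N).prod (gM (GI P (N + 1))))) *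
        ∫ z, g z ∂(gaussianReal 0 1) := by
    intro y
    rw [integral_prod_mul (fun z => wA f N M P s u z y) (fun z => g (cubeS z y))]
    congr 1
    have hm : Measurable fun g : Fin (N + 1) → ℝ => cubeS g y := by unfold cubeS; fun_prop
    rw [← law_cubeS N y, integral_map hm.aemeasurable
      (by rw [law_cubeS N y]; exact hg.aestronglyMeasurable)]
  have hsum : ∑ y, (∫ z, wA f N M P s u z y ∂((pm M N).prod (gM (GI P (N + 1))))) = 1 := by
    rw [← integral_finsetSum]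
    · simp_rw [wA_sum]
      simp
    · intro y _
      refine Integrable.mono' (integrable_const 1) (wA_meas f N M P s u hf y).aestronglyMeasurable
        (Filter.Eventually.of_forall fun z => ?_)
      rw [Real.norm_eq_abs, abs_of_nonneg (wA_nonneg f N M P s u z y)]
      exact wA_le_one f N M P s u z y
  have hle : ∀ z : ((Fin M → Fin (N + 1) → ℝ) × (GI P (N + 1) → ℝ)) × (Fin (N + 1) → ℝ),
      0 ≤ (∑ x : Fin 1 → Fin (N + 1) → Bool, (1 : ℝ) *
          ∏ i, (wA f N M P s u z.1 (x i) * (g (cubeS z.2 (x i)) * W (cubeS z.2 (x i))))) /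
          (∑ x, wA f N M P s u z.1 x * W (cubeS z.2 x)) ^ 1 ∧
      (∑ x : Fin 1 → Fin (N + 1) → Bool, (1 : ℝ) *
          ∏ i, (wA f N M P s u z.1 (x i) * (g (cubeS z.2 (x i)) * W (cubeS z.2 (x i))))) /
          (∑ x, wA f N M P s u z.1 x * W (cubeS z.2 x)) ^ 1 ≤
      1 / a * ∑ y, wA f N M P s u z.1 y * g (cubeS z.2 y) := by
    intro z
    have e1 : (∑ x : Fin 1 → Fin (N + 1) → Bool, (1 : ℝ) *
          ∏ i, (wA f N M P s u z.1 (x i) * (g (cubeS z.2 (x i)) * W (cubeS z.2 (x i))))) =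
        ∑ y, wA f N M P s u z.1 y * (g (cubeS z.2 y) * W (cubeS z.2 y)) := by
      rw [← sum_fin1 fun y => wA f N M P s u z.1 y * (g (cubeS z.2 y) * W (cubeS z.2 y))]
      simp only [Finset.univ_unique, Fin.default_eq_zero, Fin.isValue, Finset.prod_singleton, one_mul]
    have e2 : a ≤ ∑ x, wA f N M P s u z.1 x * W (cubeS z.2 x) := by
      calc a = ∑ x, wA f N M P s u z.1 x * a := by
            rw [← Finset.sum_mul, wA_sum, one_mul]
        _ ≤ _ := Finset.sum_le_sum fun x _ =>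
            mul_le_mul_of_nonneg_left (hWa _) (wA_nonneg f N M P s u z.1 x)
    have e3 : ∑ y, wA f N M P s u z.1 y * (g (cubeS z.2 y) * W (cubeS z.2 y)) ≤
        ∑ y, wA f N M P s u z.1 y * g (cubeS z.2 y) := by
      refine Finset.sum_le_sum fun y _ => mul_le_mul_of_nonneg_left ?_
        (wA_nonneg f N M P s u z.1 y)
      exact mul_le_of_le_one_right (hg0 _) (hW1 _)
    have e4 : 0 ≤ ∑ y, wA f N M P s u z.1 y * (g (cubeS z.2 y) * W (cubeS z.2 y)) :=
      Finset.sum_nonneg fun y _ => mul_nonneg (wA_nonneg f N M P s u z.1 y)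
        (mul_nonneg (hg0 _) (ha.le.trans (hWa _)))
    rw [e1, pow_one]
    have hD : 0 < ∑ x, wA f N M P s u z.1 x * W (cubeS z.2 x) := ha.trans_le e2
    refine ⟨div_nonneg e4 hD.le, ?_⟩
    calc _ ≤ (∑ y, wA f N M P s u z.1 y * (g (cubeS z.2 y) * W (cubeS z.2 y))) / a :=
          div_le_div_of_nonneg_left e4 ha e2
      _ = 1 / a * ∑ y, wA f N M P s u z.1 y * (g (cubeS z.2 y) * W (cubeS z.2 y)) := by ring
      _ ≤ _ := mul_le_mul_of_nonneg_left e3 (by positivity)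
  have hI : Integrable
      (fun z : ((Fin M → Fin (N + 1) → ℝ) × (GI P (N + 1) → ℝ)) × (Fin (N + 1) → ℝ) =>
        1 / a * ∑ y, wA f N M P s u z.1 y * g (cubeS z.2 y))
      (((pm M N).prod (gM (GI P (N + 1)))).prod (gM (Fin (N + 1)))) :=
    (integrable_finsetSum _ fun y _ => hi y).const_mul _
  refine (integral_mono_of_nonneg (Filter.Eventually.of_forall fun z => (hle z).1) hI
    (Filter.Eventually.of_forall fun z => (hle z).2)).trans (le_of_eq ?_)
  rw [integral_const_mul, integral_finsetSum _ fun y _ => hi y]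
  simp_rw [hval]
  rw [← Finset.sum_mul, hsum, one_mul]

end conc

end AddP

section ADD

variable {f : ℝ → ℝ} (hf : Measurable f) (C : ℝ) (hC : ∀ x, |f x| ≤ C) (N M P : ℕ) (s : ℝ)
  (u : Fin P → ℝ)

lemma AddP.tav_eq {n : ℕ}
    (G : (Fin M → Fin (N + 1) → ℝ) → (Fin n → Fin (N + 1) → Bool) → ℝ) :
    (pS f hf C hC N M P s u).tav (n := n) G = AddP.TV f N M P s u G := by
  have h1 : (pS f hf C hC N M P s u).tav (n := n) G =
      ∫ z : (Fin M → Fin (N + 1) → ℝ) × (GI P (N + 1) → ℝ),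
        ∑ x : Fin n → Fin (N + 1) → Bool, (∏ i, (pS f hf C hC N M P s u).w z (x i)) * G z.1 x
        ∂((Cube.pm M N).prod (gM (GI P (N + 1)))) := rfl
  refine h1.trans ?_
  unfold AddP.TV
  refine integral_congr_ae (Filter.Eventually.of_forall fun z => ?_)
  refine Finset.sum_congr rfl fun x _ => ?_
  refine congrArg (fun t => t * G z.1 x) ?_
  exact Finset.prod_congr rfl fun i _ => Cube.w_eq hf C hC N M s u z (x i)

/-- A sum over the patterns. -/
theorem tav_sum_patterns {n : ℕ} {F : (Fin (N + 1) → ℝ) → (Fin n → Fin (N + 1) → Bool) → ℝ}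
    (hFm : ∀ x, Measurable fun g => F g x) {B : ℝ} (hFB : ∀ g x, |F g x| ≤ B)
    {G : (Fin (M + 1) → Fin (N + 1) → ℝ) → (Fin n → Fin (N + 1) → Bool) → ℝ}
    (hGm : ∀ x, Measurable fun t => G t x) {D : ℝ} (hGD : ∀ t x, |G t x| ≤ D)
    (hG : ∀ (a b : Fin (M + 1)) t x, G (fun c => t (Equiv.swap a b c)) x = G t x) :
    (pS f hf C hC N (M + 1) P s u).tav (n := n) (fun t x => (∑ a, F (t a) x) * G t x) =
      (M + 1) * (pS f hf C hC N (M + 1) P s u).tav (n := n) (fun t x => F (t 0) x * G t x) :=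
  (AddP.tav_eq hf C hC N (M + 1) P s u fun t x => (∑ a, F (t a) x) * G t x).trans
    ((AddP.TV_sum_patterns f N M P s u hf hFm hFB hGm hGD hG).trans
      (congrArg (fun r => ((M : ℝ) + 1) * r)
        (AddP.tav_eq hf C hC N (M + 1) P s u fun t x => F (t 0) x * G t x).symm))

/-- Separation of the first pattern. -/
theorem tav_add {n : ℕ} {Φ : (Fin M → Fin (N + 1) → ℝ) → (Fin n → Fin (N + 1) → Bool) → ℝ}
    (_hΦm : ∀ x, Measurable fun t => Φ t x) {h : ℝ → ℝ} (_hh : Measurable h)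
    {W : ℝ → ℝ} {c₀ : ℝ} (hc₀ : 0 < c₀) (hW : ∀ x, W x = Real.exp (f x) / c₀) :
    (pS f hf C hC N (M + 1) P s u).tav (n := n)
        (fun t x => Φ (fun a => t a.succ) x * ∏ i, h (cubeS (t 0) (x i))) =
      ∫ z : ((Fin M → Fin (N + 1) → ℝ) × (GI P (N + 1) → ℝ)) × (Fin (N + 1) → ℝ),
        (∑ x : Fin n → Fin (N + 1) → Bool, Φ z.1.1 x *
          ∏ i, ((pS f hf C hC N M P s u).w z.1 (x i) *
            (h (lin (fun y j => cubeφ N y j) z.2 (x i)) *
              W (lin (fun y j => cubeφ N y j) z.2 (x i))))) /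
          (∑ x, (pS f hf C hC N M P s u).w z.1 x * W (lin (fun y j => cubeφ N y j) z.2 x)) ^ n
        ∂((pS f hf C hC N M P s u).P.prod (gM (Fin (N + 1)))) := by
  refine (AddP.tav_eq hf C hC N (M + 1) P s u _).trans
    ((AddP.TV_add N M P s u (Φ := Φ) (h := h) hc₀ hW).trans ?_)
  change ∫ z : ((Fin M → Fin (N + 1) → ℝ) × (GI P (N + 1) → ℝ)) × (Fin (N + 1) → ℝ), _
    ∂(((Cube.pm M N).prod (gM (GI P (N + 1)))).prod (gM (Fin (N + 1)))) =
    ∫ z : ((Fin M → Fin (N + 1) → ℝ) × (GI P (N + 1) → ℝ)) × (Fin (N + 1) → ℝ),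
        (∑ x : Fin n → Fin (N + 1) → Bool, Φ z.1.1 x *
          ∏ i, ((pS f hf C hC N M P s u).w z.1 (x i) *
            (h (lin (fun y j => cubeφ N y j) z.2 (x i)) *
              W (lin (fun y j => cubeφ N y j) z.2 (x i))))) /
          (∑ x : Fin (N + 1) → Bool, (pS f hf C hC N M P s u).w z.1 x *
            W (lin (fun y j => cubeφ N y j) z.2 x)) ^ n
    ∂(((Cube.pm M N).prod (gM (GI P (N + 1)))).prod (gM (Fin (N + 1))))
  refine integral_congr_ae (Filter.Eventually.of_forall fun z => ?_)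
  have hw : ∀ y, (pS f hf C hC N M P s u).w z.1 y = AddP.wA f N M P s u z.1 y :=
    fun y => Cube.w_eq hf C hC N M s u z.1 y
  simp only [Cube.cubeS_eq_lin]
  refine congrArg₂ (fun p q : ℝ => p / q ^ n) ?_ ?_
  · refine Finset.sum_congr rfl fun x _ => congrArg (fun t => Φ z.1.1 x * t) ?_
    refine Finset.prod_congr rfl fun i _ => ?_
    rw [← hw (x i)]
  · refine Finset.sum_congr rfl fun x _ => ?_
    rw [← hw x]

/-- First moments of one field, possibly unbounded. -/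
theorem tav_field_le {W : ℝ → ℝ} {c₀ a : ℝ} (hc₀ : 0 < c₀)
    (hW : ∀ x, W x = Real.exp (f x) / c₀) (ha : 0 < a) (hWa : ∀ x, a ≤ W x)
    (hW1 : ∀ x, W x ≤ 1) {g : ℝ → ℝ} (hg0 : ∀ x, 0 ≤ g x)
    (hg : Integrable g (gaussianReal 0 1)) (_hgm : Measurable g) (b : Fin (M + 1)) :
    (∀ x : Fin 1 → Fin (N + 1) → Bool, Integrable (fun ω : (Fin (M + 1) → Fin (N + 1) → ℝ) ×
        (GI P (N + 1) → ℝ) => (∏ i, (pS f hf C hC N (M + 1) P s u).w ω (x i)) *
          g (cubeS (ω.1 b) (x 0))) (pS f hf C hC N (M + 1) P s u).P) ∧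
    (pS f hf C hC N (M + 1) P s u).tav (n := 1) (fun t x => g (cubeS (t b) (x 0))) ≤
      1 / a * ∫ z, g z ∂(gaussianReal 0 1) := by
  constructor
  · intro x
    have h1 := AddP.field_integrable N M P s u hf hg b x
    have h2 : (fun ω : (Fin (M + 1) → Fin (N + 1) → ℝ) ×
        (GI P (N + 1) → ℝ) => (∏ i, (pS f hf C hC N (M + 1) P s u).w ω (x i)) *
          g (cubeS (ω.1 b) (x 0))) = fun z => (∏ i, AddP.wA f N (M + 1) P s u z (x i)) *
          g (cubeS (z.1 b) (x 0)) := by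
      funext z
      refine congrArg (fun t => t * g (cubeS (z.1 b) (x 0))) ?_
      exact Finset.prod_congr rfl fun i _ => Cube.w_eq hf C hC N (M + 1) s u z (x i)
    rw [h2]
    exact h1
  · exact (AddP.tav_eq hf C hC N (M + 1) P s u _).trans_le
      (AddP.TV_field_le N M P s u hf hc₀ hW ha hWa hW1 hg0 hg b)

end ADD

end Vale.Agent.P157.Par
end

section

open MeasureTheory ProbabilityTheory Filter Topology Finset

namespace Vale.Agent.P157.Par

set_option linter.unusedSectionVars false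

open Vale.Agent.P367.GT (gM)

lemma exists_SB {g g' g'' : ℝ → ℝ} (h : CB2 g g' g'') : ∃ C, 1 ≤ C ∧ SB C g g' g'' := by
  obtain ⟨A, hA⟩ := h.b0
  obtain ⟨B, hB⟩ := h.b1
  obtain ⟨D, hD⟩ := h.b2
  refine ⟨max 1 (max A (max B D)), le_max_left _ _, h.d1, h.d2, h.c2, fun x => ?_, fun x => ?_,
    fun x => ?_⟩
  · exact (hA x).trans ((le_max_left _ _).trans (le_max_right _ _))
  · exact (hB x).trans ((le_max_left _ _).trans ((le_max_right _ _).trans (le_max_right _ _)))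
  · exact (hD x).trans ((le_max_right _ _).trans ((le_max_right _ _).trans (le_max_right _ _)))

lemma SB.mono {C C' : ℝ} (hC : C ≤ C') {g g' g'' : ℝ → ℝ} (h : SB C g g' g'') :
    SB C' g g' g'' :=
  ⟨h.1, h.2.1, h.2.2.1, fun x => (h.2.2.2.1 x).trans hC, fun x => (h.2.2.2.2.1 x).trans hC,
    fun x => (h.2.2.2.2.2 x).trans hC⟩

/-- The weight of a potential is regular. -/
lemma Pot.cb2W {C c₀ a : ℝ} {f f1 f2 f3 : ℝ → ℝ} (hf : Pot C c₀ a f f1 f2 f3) :
    ∃ W' W'', CB2 (fun x => Real.exp (f x) / c₀) W' W'' := by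
  have hf0 : CB2 f f1 f2 := ⟨hf.cb3.d1, hf.cb3.d2,
    continuous_iff_continuousAt.2 fun x => (hf.cb3.d3 x).continuousAt, ⟨C, hf.cb3.b0⟩,
    ⟨C, hf.cb3.b1⟩, ⟨C, hf.cb3.b2⟩⟩
  have hC0 : 0 ≤ C := (abs_nonneg _).trans (hf.cb3.b0 0)
  have hec : ∀ x, |Real.exp (f x)| ≤ Real.exp C := fun x => by
    rw [abs_of_pos (Real.exp_pos _)]
    exact Real.exp_le_exp.2 (le_of_abs_le (hf.cb3.b0 x))
  have he : CB2 (fun x => Real.exp (f x)) (fun x => Real.exp (f x) * f1 x)
      (fun x => Real.exp (f x) * f1 x * f1 x + Real.exp (f x) * f2 x) := by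
    refine ⟨fun x => (hf.cb3.d1 x).exp, fun x => ((hf.cb3.d1 x).exp.mul (hf.cb3.d2 x)), ?_,
      ⟨Real.exp C, hec⟩, ⟨Real.exp C * C, fun x => ?_⟩,
      ⟨Real.exp C * C * C + Real.exp C * C, fun x => ?_⟩⟩
    · exact (((Real.continuous_exp.comp hf0.cont).mul hf0.cont1).mul hf0.cont1).add
        ((Real.continuous_exp.comp hf0.cont).mul hf0.c2)
    · rw [abs_mul]
      exact mul_le_mul (hec x) (hf.cb3.b1 x) (abs_nonneg _) (Real.exp_pos _).le
    · refine (abs_add_le _ _).trans (add_le_add ?_ ?_)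
      · rw [abs_mul, abs_mul]
        exact mul_le_mul (mul_le_mul (hec x) (hf.cb3.b1 x) (abs_nonneg _) (Real.exp_pos _).le)
          (hf.cb3.b1 x) (abs_nonneg _) (by (clear * - hC0; positivity))
      · rw [abs_mul]
        exact mul_le_mul (hec x) (hf.cb3.b2 x) (abs_nonneg _) (Real.exp_pos _).le
  obtain ⟨p', p'', hp⟩ := CB2.const_fn (1 / c₀)
  have h1 := he.mul hp
  have h2 : (fun x => Real.exp (f x) / c₀) = fun x => Real.exp (f x) * (1 / c₀) := by
    funext x; ring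
  rw [h2]
  exact ⟨_, _, h1⟩

lemma abs_sub_le_congr {A A' B B' c : ℝ} (h : |A - B| ≤ c) (h1 : A = A') (h2 : B = B') :
    |A' - B'| ≤ c := by rw [← h1, ← h2]; exact h

lemma tri1 {A B w δ : ℝ} (h1 : |B - w| < δ / 2) (h2 : |A - B| ≤ δ / 3) : |A - w| < δ := by
  have h3 := abs_sub_le A B w
  have h4 := abs_nonneg (B - w)
  linarith only [h1, h2, h3, h4]

lemma tri2 {A B δ : ℝ} (h1 : B ≤ δ / 2) (h2 : |A - B| ≤ δ / 2) : A ≤ δ := by
  have := (abs_le.1 h2).2
  linarith only [h1, this]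

lemma Sys.tav_mul_const (S : Sys) {n : ℕ} (F : S.T → (Fin n → S.X) → ℝ) (c : ℝ) :
    S.tav (fun t x => F t x * c) = S.tav F * c := by
  have h1 := Sys.tav_smul (S := S) c F
  rw [mul_comm (S.tav F) c, ← h1]
  exact Sys.tav_congr fun t x => mul_comm _ _

lemma Sys.avT_fin (S : Sys) {n : ℕ} (F : S.T → (Fin n → S.X) → ℝ) :
    S.avT (fun ω (x : Fin n → S.X) => F (S.π ω) x) = S.tav F :=
  S.avT_eq (Equiv.refl (Fin n)) F

/-- The value of a pair of replicas at a level. -/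
noncomputable def pv (W h : ℝ → ℝ) (k : ℕ) (w : Fin (k + 1) → ℝ) (q : ℕ → ℝ) (l : ℕ) : ℝ :=
  Arr.pairVal (mOf w) (incr (stop k q)) k (topW (1 - q k) W) (toph (1 - q k) W h) l

/-- The value of one replica. -/
noncomputable def ov (W h : ℝ → ℝ) (k : ℕ) (w : Fin (k + 1) → ℝ) (q : ℕ → ℝ) : ℝ :=
  ∫ z, lvh (mOf w) (incr (stop k q))
    (lvW (mOf w) (incr (stop k q)) k (topW (1 - q k) W)) k (toph (1 - q k) W h) 0
      (√(incr (stop k q) 0) * z) ∂(gaussianReal 0 1)

section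

variable {C c₀ a : ℝ} {f f1 f2 f3 : ℝ → ℝ} (hf : Pot C c₀ a f f1 f2 f3) (hfm : Measurable f)

/-- Adding a pattern: two replicas. -/
theorem add_two {h h' h'' : ℝ → ℝ} (hh : CB2 h h' h'') : ∃ D : ℝ, 0 ≤ D ∧
    ∀ (U : Ultrafilter ℕ) (N M P : ℕ → ℕ) (s : ℕ → ℝ) (u : ∀ j, Fin (P j) → ℝ) (k : ℕ)
      (b : Fin k → ℝ) (w : Fin (k + 1) → ℝ) (q : ℕ → ℝ) (ε : ℝ), 0 ≤ ε →
      LimData U (fun j => pS f hfm C hf.cb3.b0 (N j) (M j) (P j) (s j) (u j)) b w →
      Path k q → q k ≤ 1 →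
      (∀ᶠ j in (U : Filter ℕ),
        (pS f hfm C hf.cb3.b0 (N j) (M j) (P j) (s j) (u j)).tav (n := 2) (fun _ x =>
        |(pS f hfm C hf.cb3.b0 (N j) (M j) (P j) (s j) (u j)).R (x 0) (x 1) -
          q (lev b ((pS f hfm C hf.cb3.b0 (N j) (M j) (P j) (s j) (u j)).R (x 0) (x 1)))|) ≤ ε) →
      ∀ Φ : ∀ j, (Fin (M j) → Fin (N j + 1) → ℝ) → (Fin 2 → Fin (N j + 1) → Bool) → ℝ,
      (∀ j x, Measurable fun t => Φ j t x) → (∀ j t x, |Φ j t x| ≤ 1) → ∀ η > 0,
      ∀ᶠ j in (U : Filter ℕ),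
        |(pS f hfm C hf.cb3.b0 (N j) (M j + 1) (P j) (s j) (u j)).tav (n := 2)
          (fun t x => Φ j (fun a => t a.succ) x * ∏ i, h (cubeS (t 0) (x i))) -
        (pS f hfm C hf.cb3.b0 (N j) (M j) (P j) (s j) (u j)).tav (n := 2)
          (fun t x => Φ j t x * pv (fun x => Real.exp (f x) / c₀) h k w q
            (lev b ((pS f hfm C hf.cb3.b0 (N j) (M j) (P j) (s j) (u j)).R (x 0) (x 1))))| ≤
          D * ε + η := by
  obtain ⟨W', W'', hW⟩ := hf.cb2W
  obtain ⟨C1, hC1, hC1'⟩ := exists_SB hW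
  obtain ⟨C2, hC2, hC2'⟩ := exists_SB (hh.mul hW)
  set Cm := max C1 C2 with hCm
  set α := max (1 - a) (1 / 2) with hα
  have hα1 : α < 1 := max_lt (by linarith only [hf.a0]) (by norm_num)
  have hα0 : 0 < α := lt_of_lt_of_le (by norm_num) (le_max_right _ _)
  refine ⟨Dr Cm α 2 1, tsum_nonneg fun n => by (clear * - hC1; positivity), ?_⟩
  intro U N M P s u k b w q ε hε hL hq hq1 hoff Φ hΦm hΦ η hη
  have hker := kerClose_phi (q := q) hε hoff
  have h1 := trans_two hL (m := mOf w) (v := incr (stop k q)) (incr_stop_nonneg hq)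
    (fun l hl _ => mOf_pos hL.wpos hl) (fun l => up_eq_mOf hL.wsum l) (sub_nonneg.2 hq1) hε hker
    (hC1.trans (le_max_left C1 C2)) hf.a0 (le_max_left (1 - a) (1 / 2)) hα0 hα1
    (hC1'.mono (le_max_left C1 C2)) hf.Wa hf.W1 hh (hC2'.mono (le_max_right C1 C2)) (Φ := Φ)
    hΦm hΦ η hη
  filter_upwards [h1] with j hj
  have h2 := tav_add hfm C hf.cb3.b0 (N j) (M j) (P j) (s j) (u j) (n := 2) (Φ := Φ j) (hΦm j)
    (h := h) hh.cont.measurable (W := fun x => Real.exp (f x) / c₀) hf.c0 (fun x => rfl)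
  rw [h2]
  rw [(pS f hfm C hf.cb3.b0 (N j) (M j) (P j) (s j) (u j)).avT_eq (Equiv.refl (Fin 2))
    (fun t x => Φ j t x * Arr.pairVal (mOf w) (incr (stop k q)) k
      (topW (1 - q k) (fun x => Real.exp (f x) / c₀))
      (toph (1 - q k) (fun x => Real.exp (f x) / c₀) h)
      (lev b ((pS f hfm C hf.cb3.b0 (N j) (M j) (P j) (s j) (u j)).R (x 0) (x 1))))] at hj
  exact hj

/-- Adding a pattern: one replica. -/
theorem add_one {h h' h'' : ℝ → ℝ} (hh : CB2 h h' h'') : ∃ D : ℝ, 0 ≤ D ∧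
    ∀ (U : Ultrafilter ℕ) (N M P : ℕ → ℕ) (s : ℕ → ℝ) (u : ∀ j, Fin (P j) → ℝ) (k : ℕ)
      (b : Fin k → ℝ) (w : Fin (k + 1) → ℝ) (q : ℕ → ℝ) (ε : ℝ), 0 ≤ ε →
      LimData U (fun j => pS f hfm C hf.cb3.b0 (N j) (M j) (P j) (s j) (u j)) b w →
      Path k q → q k ≤ 1 →
      (∀ᶠ j in (U : Filter ℕ),
        (pS f hfm C hf.cb3.b0 (N j) (M j) (P j) (s j) (u j)).tav (n := 2) (fun _ x =>
        |(pS f hfm C hf.cb3.b0 (N j) (M j) (P j) (s j) (u j)).R (x 0) (x 1) -
          q (lev b ((pS f hfm C hf.cb3.b0 (N j) (M j) (P j) (s j) (u j)).R (x 0) (x 1)))|) ≤ ε) →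
      ∀ Φ : ∀ j, (Fin (M j) → Fin (N j + 1) → ℝ) → (Fin 1 → Fin (N j + 1) → Bool) → ℝ,
      (∀ j x, Measurable fun t => Φ j t x) → (∀ j t x, |Φ j t x| ≤ 1) → ∀ η > 0,
      ∀ᶠ j in (U : Filter ℕ),
        |(pS f hfm C hf.cb3.b0 (N j) (M j + 1) (P j) (s j) (u j)).tav (n := 1)
          (fun t x => Φ j (fun a => t a.succ) x * ∏ i, h (cubeS (t 0) (x i))) -
        (pS f hfm C hf.cb3.b0 (N j) (M j) (P j) (s j) (u j)).tav (n := 1)
          (fun t x => Φ j t x * ov (fun x => Real.exp (f x) / c₀) h k w q)| ≤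
          D * ε + η := by
  obtain ⟨W', W'', hW⟩ := hf.cb2W
  obtain ⟨C1, hC1, hC1'⟩ := exists_SB hW
  obtain ⟨C2, hC2, hC2'⟩ := exists_SB (hh.mul hW)
  set Cm := max C1 C2 with hCm
  set α := max (1 - a) (1 / 2) with hα
  have hα1 : α < 1 := max_lt (by linarith only [hf.a0]) (by norm_num)
  have hα0 : 0 < α := lt_of_lt_of_le (by norm_num) (le_max_right _ _)
  refine ⟨Dr Cm α 1 0, tsum_nonneg fun n => by (clear * - hC1; positivity), ?_⟩
  intro U N M P s u k b w q ε hε hL hq hq1 hoff Φ hΦm hΦ η hη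
  have hker := kerClose_phi (q := q) hε hoff
  have h1 := trans_one hL (m := mOf w) (v := incr (stop k q)) (incr_stop_nonneg hq)
    (fun l hl _ => mOf_pos hL.wpos hl) (fun l => up_eq_mOf hL.wsum l) (sub_nonneg.2 hq1) hε hker
    (hC1.trans (le_max_left C1 C2)) hf.a0 (le_max_left (1 - a) (1 / 2)) hα0 hα1
    (hC1'.mono (le_max_left C1 C2)) hf.Wa hf.W1 hh (hC2'.mono (le_max_right C1 C2)) (Φ := Φ)
    hΦm hΦ η hη
  filter_upwards [h1] with j hj
  have h2 := tav_add hfm C hf.cb3.b0 (N j) (M j) (P j) (s j) (u j) (n := 1) (Φ := Φ j) (hΦm j)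
    (h := h) hh.cont.measurable (W := fun x => Real.exp (f x) / c₀) hf.c0 (fun x => rfl)
  have h3 : (pS f hfm C hf.cb3.b0 (N j) (M j) (P j) (s j) (u j)).tav (n := 1)
      (fun t x => Φ j t x * ov (fun x => Real.exp (f x) / c₀) h k w q) =
      (pS f hfm C hf.cb3.b0 (N j) (M j) (P j) (s j) (u j)).avT
        (fun ω (x : Fin 1 → Fin (N j + 1) → Bool) => Φ j
          ((pS f hfm C hf.cb3.b0 (N j) (M j) (P j) (s j) (u j)).π ω) x) *
        ov (fun x => Real.exp (f x) / c₀) h k w q := by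
    have h4 := (pS f hfm C hf.cb3.b0 (N j) (M j) (P j) (s j) (u j)).avT_fin (Φ j)
    refine ((pS f hfm C hf.cb3.b0 (N j) (M j) (P j) (s j) (u j)).tav_mul_const (Φ j) _).trans ?_
    exact congrArg (· * ov (fun x => Real.exp (f x) / c₀) h k w q) h4.symm
  exact abs_sub_le_congr hj h2.symm h3.symm

include hf in
lemma pv_one {k : ℕ} {w : Fin (k + 1) → ℝ} (hw : ∀ l, 0 < w l) (q : ℕ → ℝ) {l : ℕ}
    (hl : l ≤ k) : pv (fun x => Real.exp (f x) / c₀) (fun _ => 1) k w q l = 1 := by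
  have hspec := topW_spec (1 - q k) hf.a0 hf.cb2W hf.Wa hf.W1
  have h1 : toph (1 - q k) (fun x => Real.exp (f x) / c₀) (fun _ => 1) = fun _ => 1 := by
    funext x
    have h2 : topW (1 - q k) (fun x => Real.exp (f x) / c₀) x ≠ 0 :=
      (lt_of_lt_of_le hf.a0 (hspec.2.1 x)).ne'
    unfold toph
    unfold topW at h2
    simp only [one_mul]
    exact div_self h2
  unfold pv
  rw [h1]
  exact pairVal_one (fun l hl _ => mOf_pos hw hl) hf.a0 hspec.1 hspec.2.1 hspec.2.2 hl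

/-- The law of two replicas does not change when a pattern is added. -/
theorem same_two {U : Ultrafilter ℕ} {N M P : ℕ → ℕ} {s : ℕ → ℝ} {u : ∀ j, Fin (P j) → ℝ}
    (hGG : ∀ p : ℕ, AsympGG U (fun j => pS f hfm C hf.cb3.b0 (N j) (M j) (P j) (s j) (u j))
      (fun x => x ^ p))
    {Φ : ∀ j, (Fin (M j) → Fin (N j + 1) → ℝ) → (Fin 2 → Fin (N j + 1) → Bool) → ℝ}
    (hΦm : ∀ j x, Measurable fun t => Φ j t x) (hΦ : ∀ j t x, |Φ j t x| ≤ 1) :
    ∀ η > 0, ∀ᶠ j in (U : Filter ℕ),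
      |(pS f hfm C hf.cb3.b0 (N j) (M j + 1) (P j) (s j) (u j)).tav (n := 2)
          (fun t x => Φ j (fun a => t a.succ) x) -
        (pS f hfm C hf.cb3.b0 (N j) (M j) (P j) (s j) (u j)).tav (n := 2) (Φ j)| ≤ η := by
  intro η hη
  obtain ⟨p', p'', hp⟩ := CB2.const_fn 1
  obtain ⟨D, hD, hD'⟩ := add_two hf hfm hp
  obtain ⟨k, b, w, q, hL, hq, hq1, hoff⟩ := exists_mesh hGG (ε := η / (2 * (D + 1)))
    (by (clear * - hη hD; positivity))
  filter_upwards [hD' U N M P s u k b w q (η / (2 * (D + 1))) (by positivity) hL hq hq1 hoff Φ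
    hΦm hΦ (η / 2) (by positivity)] with j hj
  have h1 : (fun (t : Fin (M j + 1) → Fin (N j + 1) → ℝ) (x : Fin 2 → Fin (N j + 1) → Bool) =>
      Φ j (fun a => t a.succ) x * ∏ _i : Fin 2, (1 : ℝ)) =
      fun t x => Φ j (fun a => t a.succ) x := by
    funext t x
    simp
  have h2 : (fun (t : Fin (M j) → Fin (N j + 1) → ℝ) (x : Fin 2 → Fin (N j + 1) → Bool) =>
      Φ j t x * pv (fun x => Real.exp (f x) / c₀) (fun _ => 1) k w q
            (lev b ((pS f hfm C hf.cb3.b0 (N j) (M j) (P j) (s j) (u j)).R (x 0) (x 1)))) =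
      Φ j := by
    funext t x
    rw [pv_one hf hL.wpos q (by (clear * - hfm hf; omega)), mul_one]
  have h5 := congrArg (Sys.tav (pS f hfm C hf.cb3.b0 (N j) (M j + 1) (P j) (s j) (u j))
    (n := 2)) h1
  have h6 := congrArg (Sys.tav (pS f hfm C hf.cb3.b0 (N j) (M j) (P j) (s j) (u j))
    (n := 2)) h2
  refine (abs_sub_le_congr hj h5 h6).trans ?_
  have h3 : D * (η / (2 * (D + 1))) ≤ η / 2 := by
    rw [show D * (η / (2 * (D + 1))) = (D / (D + 1)) * (η / 2) by (clear * - hD hη; field_simp)]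
    apply mul_le_of_le_one_left (by positivity)
    rw [div_le_one (by (clear * - hD; positivity))]
    linarith only []
  linarith only [h3]

/-- The law of one replica does not change when a pattern is added. -/
theorem same_one {U : Ultrafilter ℕ} {N M P : ℕ → ℕ} {s : ℕ → ℝ} {u : ∀ j, Fin (P j) → ℝ}
    (hGG : ∀ p : ℕ, AsympGG U (fun j => pS f hfm C hf.cb3.b0 (N j) (M j) (P j) (s j) (u j))
      (fun x => x ^ p))
    {Φ : ∀ j, (Fin (M j) → Fin (N j + 1) → ℝ) → (Fin 1 → Fin (N j + 1) → Bool) → ℝ}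
    (hΦm : ∀ j x, Measurable fun t => Φ j t x) (hΦ : ∀ j t x, |Φ j t x| ≤ 1) :
    ∀ η > 0, ∀ᶠ j in (U : Filter ℕ),
      |(pS f hfm C hf.cb3.b0 (N j) (M j + 1) (P j) (s j) (u j)).tav (n := 1)
          (fun t x => Φ j (fun a => t a.succ) x) -
        (pS f hfm C hf.cb3.b0 (N j) (M j) (P j) (s j) (u j)).tav (n := 1) (Φ j)| ≤ η := by
  intro η hη
  have h1 := same_two hf hfm hGG (Φ := fun j t x => Φ j t (fun _ : Fin 1 => x 0))
    (fun j x => hΦm j _) (fun j t x => hΦ j _ _) η hη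
  filter_upwards [h1] with j hj
  have e1 := Sys.tav_comp (S := pS f hfm C hf.cb3.b0 (N j) (M j + 1) (P j) (s j) (u j))
    (fun _ : Fin 1 => (0 : Fin 2)) (fun _ _ _ => Subsingleton.elim _ _)
    (fun t x => Φ j (fun a => t a.succ) x)
  have e2 := Sys.tav_comp (S := pS f hfm C hf.cb3.b0 (N j) (M j) (P j) (s j) (u j))
    (fun _ : Fin 1 => (0 : Fin 2)) (fun _ _ _ => Subsingleton.elim _ _)
    (fun t x => Φ j t x)
  rw [← e1, ← e2]
  exact hj

/-- The limiting data of the system with one more pattern. -/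
theorem limData_succ {U : Ultrafilter ℕ} {N M P : ℕ → ℕ} {s : ℕ → ℝ} {u : ∀ j, Fin (P j) → ℝ}
    (hGG : ∀ p : ℕ, AsympGG U (fun j => pS f hfm C hf.cb3.b0 (N j) (M j) (P j) (s j) (u j))
      (fun x => x ^ p))
    (hGG1 : ∀ p : ℕ, AsympGG U
      (fun j => pS f hfm C hf.cb3.b0 (N j) (M j + 1) (P j) (s j) (u j)) (fun x => x ^ p))
    {k : ℕ} {b : Fin k → ℝ} {w : Fin (k + 1) → ℝ}
    (hL : LimData U (fun j => pS f hfm C hf.cb3.b0 (N j) (M j) (P j) (s j) (u j)) b w) :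
    LimData U (fun j => pS f hfm C hf.cb3.b0 (N j) (M j + 1) (P j) (s j) (u j)) b w := by
  refine ⟨hGG1, hL.mono, hL.b0, hL.b1, fun i δ hδ => ?_, fun l => ?_, hL.wpos, hL.wsum⟩
  · obtain ⟨η, hη, h1⟩ := hL.na i (δ / 2) (by positivity)
    refine ⟨η, hη, ?_⟩
    have h2 := same_two hf hfm hGG (Φ := fun j _ x =>
      if |(pS f hfm C hf.cb3.b0 (N j) (M j) (P j) (s j) (u j)).R (x 0) (x 1) - b i| ≤ η
        then 1 else 0) (fun j x => measurable_const)
      (fun j t x => by split_ifs <;> simp) (δ / 2) (by (clear * - hδ; positivity))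
    filter_upwards [h1, h2] with j h1 h2
    exact tri2 h1 h2
  · rw [Metric.tendsto_nhds]
    intro δ hδ
    have h1 := (Metric.tendsto_nhds.1 (hL.lim l)) (δ / 2) (by positivity)
    have h2 := same_two hf hfm hGG (Φ := fun j _ x => ind
      (lev b ((pS f hfm C hf.cb3.b0 (N j) (M j) (P j) (s j) (u j)).R (x 0) (x 1)) = l))
      (fun j x => measurable_const) (fun j t x => abs_ind_le_one _) (δ / 3) (by positivity)
    filter_upwards [h1, h2] with j h1 h2
    rw [Real.dist_eq] at h1 ⊢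
    exact tri1 h1 h2

end

end Vale.Agent.P157.Par
end

section

open MeasureTheory ProbabilityTheory Filter Topology Finset

namespace Vale.Agent.P157.Par

set_option linter.unusedSectionVars false

section

variable {W : ℝ → ℝ} {a : ℝ} (ha : 0 < a) (hW : ∃ W' W'', CB2 W W' W'') (hWa : ∀ x, a ≤ W x)
  (hW1 : ∀ x, W x ≤ 1)

include ha hW hWa hW1

lemma toph_abs_le {h h' h'' : ℝ → ℝ} (hh : CB2 h h' h'') {B : ℝ} (hB : ∀ x, |h x| ≤ B) (τ : ℝ)
    (x : ℝ) : |toph τ W h x| ≤ B := by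
  obtain ⟨W', W'', hW⟩ := hW
  have hB0 : 0 ≤ B := (abs_nonneg _).trans (hB 0)
  rw [toph_eq, abs_le]
  constructor
  · rw [← val_flowh_const (σ := τ) one_pos ha hW.cont.measurable hWa hW1 (-B) x]
    exact val_flowh_mono one_pos ha hW.cont.measurable hWa hW1 measurable_const
      hh.cont.measurable (fun _ => le_rfl) hB (fun y => (abs_le.1 (hB y)).1) x
  · rw [← val_flowh_const (σ := τ) one_pos ha hW.cont.measurable hWa hW1 B x]
    exact val_flowh_mono one_pos ha hW.cont.measurable hWa hW1 hh.cont.measurable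
      measurable_const hB (fun _ => le_rfl) (fun y => (abs_le.1 (hB y)).2) x

lemma toph_sq_le {h h' h'' : ℝ → ℝ} (hh : CB2 h h' h'') (τ x : ℝ) :
    toph τ W h x ^ 2 ≤ toph τ W (fun y => h y ^ 2) x := by
  obtain ⟨W', W'', hW⟩ := hW
  obtain ⟨B, hB⟩ := hh.b0
  rw [toph_eq, toph_eq]
  exact flowh_sq one_pos ha hW.cont.measurable hWa hW1 hh.cont.measurable hB x

variable {k : ℕ} {w : Fin (k + 1) → ℝ} (hw : ∀ l, 0 < w l) (q : ℕ → ℝ)

include hw

lemma pv_nonneg {h h' h'' : ℝ → ℝ} (hh : CB2 h h' h'') {l : ℕ} (hl : l ≤ k) :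
    0 ≤ pv W h k w q l := by
  have hspec := topW_spec (1 - q k) ha hW hWa hW1
  exact pairVal_nonneg (fun l hl _ => mOf_pos hw hl) ha hspec.1 hspec.2.1 hspec.2.2
    (toph_spec _ ha hW hWa hW1 ⟨h', h'', hh⟩) hl

lemma pv_mono {h h' h'' : ℝ → ℝ} (hh : CB2 h h' h'') {l : ℕ} (hl : l < k) :
    pv W h k w q l ≤ pv W h k w q (l + 1) := by
  have hspec := topW_spec (1 - q k) ha hW hWa hW1
  exact pairVal_mono (fun l hl _ => mOf_pos hw hl) ha hspec.1 hspec.2.1 hspec.2.2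
    (toph_spec _ ha hW hWa hW1 ⟨h', h'', hh⟩) hl

lemma pv_le {h h' h'' : ℝ → ℝ} (hh : CB2 h h' h'') {B : ℝ} (hB : ∀ x, |h x| ≤ B) {l : ℕ}
    (hl : l ≤ k) : pv W h k w q l ≤ B ^ 2 := by
  have hspec := topW_spec (1 - q k) ha hW hWa hW1
  exact pairVal_le (fun l hl _ => mOf_pos hw hl) ha hspec.1 hspec.2.1 hspec.2.2
    (toph_spec _ ha hW hWa hW1 ⟨h', h'', hh⟩) (toph_abs_le ha hW hWa hW1 hh hB _) hl

/-- The average of the observable, at the bottom level. -/
lemma lvh0_integrable {h h' h'' : ℝ → ℝ} (hh : CB2 h h' h'') (t : ℝ) :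
    Integrable (fun z => lvh (mOf w) (incr (stop k q))
    (lvW (mOf w) (incr (stop k q)) k (topW (1 - q k) W)) k h 0 (t * z)) (gaussianReal 0 1) := by
  have hspec := topW_spec (1 - q k) ha hW hWa hW1
  have hspec2 := lvW_spec (v := incr (stop k q)) (fun l hl (_ : l ≤ k) => mOf_pos hw hl) ha
    hspec.1 hspec.2.1 hspec.2.2
  obtain ⟨p', p'', hp⟩ := lvh_spec (v := incr (stop k q))
    (fun l hl (_ : l ≤ k) => mOf_pos hw hl) ha hspec2 le_rfl ⟨h', h'', hh⟩ 0 (Nat.zero_le k)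
  exact hp.integrable_fn t

lemma ov_abs_le {h h' h'' : ℝ → ℝ} (hh : CB2 h h' h'') {B : ℝ} (hB : ∀ x, |h x| ≤ B) :
    |ov W h k w q| ≤ B := by
  have hspec := topW_spec (1 - q k) ha hW hWa hW1
  have hm : ∀ l, 1 ≤ l → l ≤ k → 0 < mOf w l := fun l hl _ => mOf_pos hw hl
  have hspec2 := lvW_spec (v := incr (stop k q)) hm ha hspec.1 hspec.2.1 hspec.2.2
  obtain ⟨g', g'', hg⟩ := toph_spec (1 - q k) ha hW hWa hW1 ⟨h', h'', hh⟩
  have h1 := toph_abs_le ha hW hWa hW1 hh hB (1 - q k)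
  have h2 := lvh_mono (v := incr (stop k q)) hm ha hspec2 le_rfl ⟨g', g'', hg⟩ (CB2.const_fn B)
    (fun x => (abs_le.1 (h1 x)).2) 0 (Nat.zero_le k)
  have h3 := lvh_mono (v := incr (stop k q)) hm ha hspec2 le_rfl (CB2.const_fn (-B))
    ⟨g', g'', hg⟩ (fun x => (abs_le.1 (h1 x)).1) 0 (Nat.zero_le k)
  rw [lvh_const (v := incr (stop k q)) hm ha hspec2 le_rfl _ 0 (Nat.zero_le k)] at h2 h3
  have h4 := lvh0_integrable ha hW hWa hW1 hw q hg (√(incr (stop k q) 0))
  unfold ov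
  rw [abs_le]
  constructor
  · have := integral_mono (integrable_const (-B)) h4 (fun z => h3 _)
    simpa only [ge_iff_le, integral_const, probReal_univ, smul_eq_mul, mul_neg, one_mul] using this
  · have := integral_mono h4 (integrable_const B) (fun z => h2 _)
    simpa only [ge_iff_le, integral_const, probReal_univ, smul_eq_mul, one_mul] using this

lemma pv_le_ov {h h' h'' : ℝ → ℝ} (hh : CB2 h h' h'') :
    pv W h k w q k ≤ ov W (fun y => h y ^ 2) k w q := by
  have hspec := topW_spec (1 - q k) ha hW hWa hW1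
  have hm : ∀ l, 1 ≤ l → l ≤ k → 0 < mOf w l := fun l hl _ => mOf_pos hw hl
  have hspec2 := lvW_spec (v := incr (stop k q)) hm ha hspec.1 hspec.2.1 hspec.2.2
  obtain ⟨g', g'', hg⟩ := toph_spec (1 - q k) ha hW hWa hW1 ⟨h', h'', hh⟩
  obtain ⟨p', p'', hp⟩ := hh.sq_fn
  obtain ⟨r', r'', hr⟩ := toph_spec (1 - q k) ha hW hWa hW1 ⟨p', p'', hp⟩
  obtain ⟨s', s'', hs⟩ := hg.sq_fn
  have h2 := lvh_mono (v := incr (stop k q)) hm ha hspec2 le_rfl ⟨s', s'', hs⟩ ⟨r', r'', hr⟩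
    (fun x => toph_sq_le ha hW hWa hW1 hh (1 - q k) x) 0 (Nat.zero_le k)
  unfold pv Arr.pairVal ov
  have e1 : (fun x => lvh (mOf w) (incr (stop k q))
      (lvW (mOf w) (incr (stop k q)) k (topW (1 - q k) W)) k (toph (1 - q k) W h) k x ^ 2) =
      fun x => toph (1 - q k) W h x ^ 2 := by
    rw [lvh_top]
  rw [e1]
  exact integral_mono (lvh0_integrable ha hW hWa hW1 hw q hs _)
    (lvh0_integrable ha hW hWa hW1 hw q hr _) (fun z => h2 _)

end

end Vale.Agent.P157.Par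
end

section

open MeasureTheory ProbabilityTheory Filter Topology

namespace Vale.Agent.P157.Par

namespace Rho

lemma measurable_cubeS_apply {N M : ℕ} (a : Fin M) (x : Fin (N + 1) → Bool) :
    Measurable fun t : Fin M → Fin (N + 1) → ℝ => cubeS (t a) x := by
  unfold cubeS
  fun_prop

lemma abs_prod_le {ι : Type*} [Fintype ι] {h : ℝ → ℝ} {H : ℝ}
    (hhb : ∀ x, |h x| ≤ H) (y : ι → ℝ) : |∏ i, h (y i)| ≤ H ^ (Fintype.card ι) := by
  rw [Finset.abs_prod]
  calc ∏ i, |h (y i)| ≤ ∏ _i : ι, H := Finset.prod_le_prod (fun _ _ => abs_nonneg _)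
        fun i _ => hhb _
    _ = H ^ (Fintype.card ι) := by rw [Finset.prod_const, Finset.card_univ]

lemma abs_prod_le' {n : ℕ} {h : ℝ → ℝ} {H : ℝ}
    (hhb : ∀ x, |h x| ≤ H) (y : Fin n → ℝ) : |∏ i, h (y i)| ≤ H ^ n := by
  have := abs_prod_le hhb y
  rwa [Fintype.card_fin] at this

lemma measurable_one {N M n : ℕ} {h : ℝ → ℝ} (hh : Measurable h) (a : Fin M)
    (x : Fin n → Fin (N + 1) → Bool) :
    Measurable fun t : Fin M → Fin (N + 1) → ℝ => ∏ i, h (cubeS (t a) (x i)) :=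
  Finset.measurable_prod _ fun i _ => hh.comp (measurable_cubeS_apply a (x i))

lemma measurable_addF {N M n : ℕ} {h : ℝ → ℝ} (hh : Measurable h) (δ : ℝ)
    (x : Fin n → Fin (N + 1) → Bool) :
    Measurable fun t : Fin M → Fin (N + 1) → ℝ => addF δ h t x :=
  (Finset.measurable_sum _ fun a _ => measurable_one hh a x).const_mul δ

lemma abs_addF_le {N M n : ℕ} {h : ℝ → ℝ} {H : ℝ} (hhb : ∀ x, |h x| ≤ H) {δ : ℝ} (hδ : 0 ≤ δ)
    (t : Fin M → Fin (N + 1) → ℝ) (x : Fin n → Fin (N + 1) → Bool) :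
    |addF δ h t x| ≤ δ * M * H ^ n := by
  unfold addF
  rw [abs_mul, abs_of_nonneg hδ, mul_assoc]
  refine mul_le_mul_of_nonneg_left ?_ hδ
  refine (Finset.abs_sum_le_sum_abs _ _).trans ?_
  refine (Finset.sum_le_sum fun a _ => abs_prod_le' hhb _).trans ?_
  rw [Finset.sum_const, Finset.card_univ, Fintype.card_fin, nsmul_eq_mul]

lemma addF_succ {N M n : ℕ} {h : ℝ → ℝ} (δ : ℝ) (t : Fin (M + 1) → Fin (N + 1) → ℝ)
    (x : Fin n → Fin (N + 1) → Bool) :
    addF δ h t x = δ * ∏ i, h (cubeS (t 0) (x i)) + addF δ h (fun a => t a.succ) x := by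
  unfold addF
  rw [Fin.sum_univ_succ, mul_add]

lemma addF_swap {N M n : ℕ} {h : ℝ → ℝ} (δ : ℝ) (a b : Fin M) (t : Fin M → Fin (N + 1) → ℝ)
    (x : Fin n → Fin (N + 1) → Bool) :
    addF δ h (fun c => t (Equiv.swap a b c)) x = addF δ h t x := by
  unfold addF
  rw [Equiv.sum_comp (Equiv.swap a b) fun c => ∏ i, h (cubeS (t c) (x i))]

end Rho

open Rho

/-- The reduced algebra of `rho_conc` for one index. -/
theorem rho_one {f : ℝ → ℝ} (hf : Measurable f) (C : ℝ) (hC : ∀ x, |f x| ≤ C)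
    {N M P : ℕ} {s : ℝ} {u : Fin P → ℝ} {α : ℝ} (hα : 0 < α) {n : ℕ} {h : ℝ → ℝ}
    (hh : Measurable h) {H : ℝ} (hH : 1 ≤ H) (hhb : ∀ x, |h x| ≤ H)
    (V : (Fin n → Fin (N + 1) → Bool) → ℝ) (hV : ∀ x, |V x| ≤ H ^ n) {E : ℝ}
    (hE : 0 ≤ E) {ε : ℝ} (hε : 0 < ε) (hε1 : ε ≤ 1)
    (ha : |((M : ℝ) + 1) / (N + 2) - α| ≤ ε) (hδ : 1 / ((N : ℝ) + 2) ≤ ε)
    (e1 : |(pS f hf C hC N (M + 1) P s u).tav (n := n)
        (fun t x => addF (1 / ((N : ℝ) + 2)) h (fun a => t a.succ) x *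
          ∏ i, h (cubeS (t 0) (x i))) -
        (pS f hf C hC N M P s u).tav (n := n)
          (fun t x => addF (1 / ((N : ℝ) + 2)) h t x * V x)| ≤ (α + 1) * H ^ n * (E + ε))
    (e2 : |(pS f hf C hC N (M + 1) P s u).tav (n := n)
        (fun t x => addF (1 / ((N : ℝ) + 2)) h (fun a => t a.succ) x * V x) -
        (pS f hf C hC N M P s u).tav (n := n)
          (fun t x => addF (1 / ((N : ℝ) + 2)) h t x * V x)| ≤ (α + 1) * H ^ n * H ^ n * ε)
    (e3 : |(pS f hf C hC N (M + 1) P s u).tav (n := n)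
        (fun t x => V x * ∏ i, h (cubeS (t 0) (x i))) -
        (pS f hf C hC N M P s u).tav (n := n) (fun _ x => V x * V x)| ≤ H ^ n * (E + ε))
    (e4 : |(pS f hf C hC N (M + 1) P s u).tav (n := n) (fun _ x => V x * V x) -
        (pS f hf C hC N M P s u).tav (n := n) (fun _ x => V x * V x)| ≤ H ^ n * H ^ n * ε) :
      (pS f hf C hC N (M + 1) P s u).tav (n := n)
        (fun t x => (addF (1 / ((N : ℝ) + 2)) h t x - α * V x) ^ 2) ≤
      4 * (α + 1) ^ 2 * H ^ n * E + 7 * (α + 1) ^ 2 * (H ^ n * H ^ n) * ε := by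
  set δ : ℝ := 1 / ((N : ℝ) + 2) with hδdef
  have hN2 : (0 : ℝ) < (N : ℝ) + 2 := by (clear * -; positivity)
  have hδ0 : 0 < δ := by (clear * -; positivity)
  set a : ℝ := ((M : ℝ) + 1) / (N + 2) with hadef
  have haδ : a = δ * (M + 1) := by rw [hadef, hδdef]; ring
  have ha0 : 0 ≤ a := by (clear * -; positivity)
  have ha1 : a ≤ α + 1 := by
    have := (abs_le.mp ha).2
    linarith only [hε1, this]
  set K : ℝ := H ^ n with hKdef
  have hK1 : 1 ≤ K := one_le_pow₀ hH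
  have hK0 : 0 ≤ K := by linarith only [hK1]
  -- bounds
  let u0 : (Fin (M + 1) → Fin (N + 1) → ℝ) → (Fin n → Fin (N + 1) → Bool) → ℝ :=
    fun t x => ∏ i, h (cubeS (t 0) (x i))
  let r : (Fin (M + 1) → Fin (N + 1) → ℝ) → (Fin n → Fin (N + 1) → Bool) → ℝ :=
    fun t x => addF δ h t x
  let rm : (Fin (M + 1) → Fin (N + 1) → ℝ) → (Fin n → Fin (N + 1) → Bool) → ℝ :=
    fun t x => addF δ h (fun a => t a.succ) x
  let W : (Fin (M + 1) → Fin (N + 1) → ℝ) → (Fin n → Fin (N + 1) → Bool) → ℝ :=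
    fun _ x => V x
  let S : Sys := pS f hf C hC N (M + 1) P s u
  have bu : Sys.Bdd S (n := n) u0 K :=
    ⟨fun x => measurable_one hh 0 x, fun t x => abs_prod_le' hhb _⟩
  have br : Sys.Bdd S (n := n) r ((α + 1) * K) := by
    refine ⟨fun x => measurable_addF hh δ x, fun t x => ?_⟩
    refine (abs_addF_le hhb hδ0.le t x).trans ?_
    have : δ * ((M + 1 : ℕ) : ℝ) = a := by rw [haδ]; push_cast; ring
    rw [this]
    exact mul_le_mul_of_nonneg_right ha1 hK0
  have brm : Sys.Bdd S (n := n) rm ((α + 1) * K) := by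
    refine ⟨fun x => (measurable_addF hh δ x).comp (measurable_pi_lambda _ fun a =>
      measurable_pi_apply a.succ), fun t x => ?_⟩
    refine (abs_addF_le hhb hδ0.le _ x).trans ?_
    refine mul_le_mul_of_nonneg_right ?_ hK0
    refine le_trans ?_ ha1
    rw [haδ]
    exact mul_le_mul_of_nonneg_left (le_add_of_nonneg_right zero_le_one) hδ0.le
  have bW : Sys.Bdd S (n := n) W K := ⟨fun x => measurable_const, fun t x => hV x⟩
  -- averages
  have hr : ∀ t x, r t x = δ * u0 t x + rm t x := fun t x => addF_succ δ t x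
  -- (1)
  have q1 : S.tav (n := n) (fun t x => r t x * r t x) =
      a * S.tav (n := n) (fun t x => u0 t x * r t x) := by
    have h1 := tav_sum_patterns (n := n) hf C hC N M P s u
      (F := fun g x => ∏ i, h (cubeS g (x i)))
      (fun x => Finset.measurable_prod _ fun i _ => hh.comp (by unfold cubeS; fun_prop))
      (B := K) (fun g x => abs_prod_le' hhb _) (G := r) (fun x => measurable_addF hh δ x)
      (D := (α + 1) * K) br.bdd (fun a b t x => addF_swap δ a b t x)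
    have h2 : S.tav (n := n) (fun t x => r t x * r t x) =
        S.tav (n := n) (fun t x => δ * ((∑ a, ∏ i, h (cubeS (t a) (x i))) * r t x)) :=
      Sys.tav_congr fun t x => mul_assoc _ _ _
    rw [h2, Sys.tav_smul, haδ, mul_assoc]
    exact congrArg (δ * ·) h1
  have q2 : S.tav (n := n) (fun t x => r t x * W t x) =
      a * S.tav (n := n) (fun t x => u0 t x * W t x) := by
    have h1 := tav_sum_patterns (n := n) hf C hC N M P s u
      (F := fun g x => ∏ i, h (cubeS g (x i)))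
      (fun x => Finset.measurable_prod _ fun i _ => hh.comp (by unfold cubeS; fun_prop))
      (B := K) (fun g x => abs_prod_le' hhb _) (G := W) (fun x => measurable_const)
      (D := K) bW.bdd (fun a b t x => rfl)
    have h2 : S.tav (n := n) (fun t x => r t x * W t x) =
        S.tav (n := n) (fun t x => δ * ((∑ a, ∏ i, h (cubeS (t a) (x i))) * W t x)) :=
      Sys.tav_congr fun t x => mul_assoc _ _ _
    rw [h2, Sys.tav_smul, haδ, mul_assoc]
    exact congrArg (δ * ·) h1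
  have p3 : ∀ (t : Fin (M + 1) → Fin (N + 1) → ℝ) (x : Fin n → Fin (N + 1) → Bool),
      u0 t x * r t x = δ * (u0 t x * u0 t x) + rm t x * u0 t x := fun t x => by
    rw [hr]; ring
  have p4 : ∀ (t : Fin (M + 1) → Fin (N + 1) → ℝ) (x : Fin n → Fin (N + 1) → Bool),
      r t x * W t x = δ * (u0 t x * W t x) + rm t x * W t x := fun t x => by
    rw [hr]; ring
  have q3 : S.tav (n := n) (fun t x => u0 t x * r t x) =
      δ * S.tav (n := n) (fun t x => u0 t x * u0 t x) +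
        S.tav (n := n) (fun t x => rm t x * u0 t x) := by
    have h1 : S.tav (n := n) (fun t x => u0 t x * r t x) =
        S.tav (n := n) (fun t x => δ * (u0 t x * u0 t x) + rm t x * u0 t x) :=
      Sys.tav_congr p3
    rw [h1, Sys.tav_add (C := δ * (K * K)) (D := (α + 1) * K * K), Sys.tav_smul]
    · exact ⟨fun x => ((bu.mul bu).meas x).const_mul δ, fun t x => by
        rw [abs_mul, abs_of_pos hδ0]
        exact mul_le_mul_of_nonneg_left ((bu.mul bu).bdd t x) hδ0.le⟩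
    · exact brm.mul bu
  have q4 : S.tav (n := n) (fun t x => r t x * W t x) =
      δ * S.tav (n := n) (fun t x => u0 t x * W t x) +
        S.tav (n := n) (fun t x => rm t x * W t x) := by
    have h1 : S.tav (n := n) (fun t x => r t x * W t x) =
        S.tav (n := n) (fun t x => δ * (u0 t x * W t x) + rm t x * W t x) :=
      Sys.tav_congr p4
    rw [h1, Sys.tav_add (C := δ * (K * K)) (D := (α + 1) * K * K), Sys.tav_smul]
    · exact ⟨fun x => ((bu.mul bW).meas x).const_mul δ, fun t x => by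
        rw [abs_mul, abs_of_pos hδ0]
        exact mul_le_mul_of_nonneg_left ((bu.mul bW).bdd t x) hδ0.le⟩
    · exact brm.mul bW
  have q5 : S.tav (n := n) (fun t x => (r t x - α * W t x) ^ 2) =
      S.tav (n := n) (fun t x => r t x * r t x) - 2 * α * S.tav (n := n) (fun t x => r t x * W t x)
        + α ^ 2 * S.tav (n := n) (fun t x => W t x * W t x) := by
    have h1 : S.tav (n := n) (fun t x => (r t x - α * W t x) ^ 2) =
        S.tav (n := n) (fun t x => (r t x * r t x - 2 * α * (r t x * W t x)) +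
          α ^ 2 * (W t x * W t x)) := Sys.tav_congr fun t x => by ring
    have b1 : Sys.Bdd S (n := n) (fun t x => 2 * α * (r t x * W t x)) (2 * α * ((α + 1) * K * K)) :=
      ⟨fun x => ((br.mul bW).meas x).const_mul _, fun t x => by
        rw [abs_mul, abs_of_pos (by positivity : (0 : ℝ) < 2 * α)]
        exact mul_le_mul_of_nonneg_left ((br.mul bW).bdd t x) (by positivity)⟩
    have b2 : Sys.Bdd S (n := n) (fun t x => α ^ 2 * (W t x * W t x)) (α ^ 2 * (K * K)) :=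
      ⟨fun x => ((bW.mul bW).meas x).const_mul _, fun t x => by
        rw [abs_mul, abs_of_pos (by positivity : (0 : ℝ) < α ^ 2)]
        exact mul_le_mul_of_nonneg_left ((bW.mul bW).bdd t x) (by positivity)⟩
    have b3 : Sys.Bdd S (n := n) (fun t x => r t x * r t x - 2 * α * (r t x * W t x))
        ((α + 1) * K * ((α + 1) * K) + 2 * α * ((α + 1) * K * K)) :=
      ⟨fun x => ((br.mul br).meas x).sub (b1.meas x), fun t x =>
        (abs_sub _ _).trans (add_le_add ((br.mul br).bdd t x) (b1.bdd t x))⟩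
    rw [h1, Sys.tav_add b3 b2, Sys.tav_sub (br.mul br) b1, Sys.tav_smul, Sys.tav_smul]
  have cst : ∀ c : ℝ, 0 ≤ c → Sys.Bdd S (n := n) (fun _ _ => c) c := fun c hc =>
    ⟨fun x => measurable_const, fun t x => (abs_of_nonneg hc).le⟩
  have buu : |S.tav (n := n) (fun t x => u0 t x * u0 t x)| ≤ K * K := by
    have := Sys.tav_abs_le (bu.mul bu) (cst (K * K) (by positivity)) (bu.mul bu).bdd
    rwa [Sys.tav_const] at this
  have buV : |S.tav (n := n) (fun t x => u0 t x * W t x)| ≤ K * K := by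
    have := Sys.tav_abs_le (bu.mul bW) (cst (K * K) (by positivity)) (bu.mul bW).bdd
    rwa [Sys.tav_const] at this
  have bVV : |S.tav (n := n) (fun t x => W t x * W t x)| ≤ K * K := by
    have := Sys.tav_abs_le (bW.mul bW) (cst (K * K) (by positivity)) (bW.mul bW).bdd
    rwa [Sys.tav_const] at this
  have e3' : |S.tav (n := n) (fun t x => u0 t x * W t x) -
      (pS f hf C hC N M P s u).tav (n := n) (fun _ x => V x * V x)| ≤ K * (E + ε) := by
    have h1 : S.tav (n := n) (fun t x => u0 t x * W t x) =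
      S.tav (n := n) (fun t x => V x * ∏ i, h (cubeS (t 0) (x i))) :=
      Sys.tav_congr fun t x => mul_comm _ _
    rw [h1]
    exact e3
  have e1' : |S.tav (n := n) (fun t x => rm t x * u0 t x) -
        (pS f hf C hC N M P s u).tav (n := n)
          (fun t x => addF δ h t x * V x)| ≤ (α + 1) * K * (E + ε) := e1
  have e2' : |S.tav (n := n) (fun t x => rm t x * W t x) -
        (pS f hf C hC N M P s u).tav (n := n)
          (fun t x => addF δ h t x * V x)| ≤ (α + 1) * K * K * ε := e2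
  have e4' : |S.tav (n := n) (fun t x => W t x * W t x) -
        (pS f hf C hC N M P s u).tav (n := n) (fun _ x => V x * V x)| ≤ K * K * ε := e4
  show S.tav (n := n) (fun t x => (r t x - α * W t x) ^ 2) ≤ _
  rw [q5]
  -- abstract the averages
  generalize hq : S.tav (n := n) (fun t x => r t x * r t x) = q at *
  generalize hx : S.tav (n := n) (fun t x => r t x * W t x) = x at *
  generalize hv : S.tav (n := n) (fun t x => W t x * W t x) = v at *
  generalize hur : S.tav (n := n) (fun t x => u0 t x * r t x) = ur at *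
  generalize huu : S.tav (n := n) (fun t x => u0 t x * u0 t x) = uu at *
  generalize huV : S.tav (n := n) (fun t x => u0 t x * W t x) = uV at *
  generalize hru : S.tav (n := n) (fun t x => rm t x * u0 t x) = ru at *
  generalize hrV : S.tav (n := n) (fun t x => rm t x * W t x) = rV at *
  generalize hs1 : (pS f hf C hC N M P s u).tav (n := n)
          (fun t x => addF δ h t x * V x) = s1 at *
  generalize hw : (pS f hf C hC N M P s u).tav (n := n) (fun _ x => V x * V x) = w at *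
  clear e1 e2 e3 e4 hq hx hv hur huu huV hru hrV hs1 hw br brm bu bW hr cst
  -- the identity
  have key : q - 2 * α * x + α ^ 2 * v = (a - α) ^ 2 * v + a * δ * (uu - uV) +
      a * ((ru - s1) - (rV - s1)) + a * (a - 2 * α) * ((uV - w) - (v - w)) := by
    have h1 : rV = x - δ * uV := by linarith only [q4]
    rw [q1, q3, h1]
    have h2 : x = a * uV := q2
    rw [h2]
    ring
  rw [key]
  have hA0 : 0 ≤ α + 1 := by linarith only [hα]
  have t1 : (a - α) ^ 2 * v ≤ (α + 1) ^ 2 * (K * K) * ε := by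
    have h1 : (a - α) ^ 2 ≤ ε * 1 := by
      rw [← sq_abs, pow_two]
      exact mul_le_mul ha (ha.trans hε1) (abs_nonneg _) hε.le
    have h2 : v ≤ K * K := (le_abs_self v).trans bVV
    have h3 : (1 : ℝ) ≤ (α + 1) ^ 2 := one_le_pow₀ (by linarith only [hα])
    calc (a - α) ^ 2 * v ≤ (a - α) ^ 2 * (K * K) := mul_le_mul_of_nonneg_left h2 (sq_nonneg _)
      _ ≤ (ε * 1) * (K * K) := mul_le_mul_of_nonneg_right h1 (by positivity)
      _ = 1 * ((K * K) * ε) := by ring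
      _ ≤ (α + 1) ^ 2 * ((K * K) * ε) := mul_le_mul_of_nonneg_right h3 (by (clear * - hH hε; positivity))
      _ = (α + 1) ^ 2 * (K * K) * ε := by ring
  have t2 : a * δ * (uu - uV) ≤ 2 * (α + 1) ^ 2 * (K * K) * ε := by
    have h1 : uu - uV ≤ 2 * (K * K) := by
      have := (abs_le.mp buu).2
      have := (abs_le.mp buV).1
      (clear f hf C hC N M P s u α hα h hh hH hhb V E hE ε hε hε1 δ hδ hδdef hN2 hδ0 a ha hadef haδ ha0 ha1 hV hKdef hK1 hK0 u0 r rm W S p3 p4 q x v bVV q5 ur q1 q2 ru q3 rV q4 s1 e1' e2' w e4' e3' key hA0 t1; linarith)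
    have h3 : α + 1 ≤ (α + 1) ^ 2 :=
      le_self_pow₀ (le_add_of_nonneg_left hα.le) two_ne_zero
    calc a * δ * (uu - uV) ≤ a * δ * (2 * (K * K)) := mul_le_mul_of_nonneg_left h1 (by (clear * -; positivity))
      _ ≤ (α + 1) * ε * (2 * (K * K)) :=
        mul_le_mul_of_nonneg_right (mul_le_mul ha1 hδ hδ0.le hA0) (by positivity)
      _ = (α + 1) * (2 * (K * K) * ε) := by ring
      _ ≤ (α + 1) ^ 2 * (2 * (K * K) * ε) := mul_le_mul_of_nonneg_right h3 (by (clear * - hH hε; positivity))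
      _ = 2 * (α + 1) ^ 2 * (K * K) * ε := by ring
  have t3 : a * ((ru - s1) - (rV - s1)) ≤ (α + 1) ^ 2 * K * E + 2 * (α + 1) ^ 2 * (K * K) * ε := by
    have h1 : (ru - s1) - (rV - s1) ≤ (α + 1) * K * (E + ε) + (α + 1) * K * K * ε := by
      have := (abs_le.mp e1').2
      have := (abs_le.mp e2').1
      (clear f hf C hC N M P s u hα h hh hH hhb V hE hε hε1 δ hδ hδdef hN2 hδ0 a ha hadef haδ ha0 ha1 hV hKdef hK1 hK0 u0 r rm W S p3 p4 q x v bVV q5 ur q1 uu buu uV buV q2 q3 q4 w e4' e3' key hA0 t1 t2; linarith)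
    have h0 : 0 ≤ (α + 1) * K * (E + ε) + (α + 1) * K * K * ε := by (clear * - hα hH hE hε; positivity)
    calc a * ((ru - s1) - (rV - s1)) ≤ a * ((α + 1) * K * (E + ε) + (α + 1) * K * K * ε) :=
          mul_le_mul_of_nonneg_left h1 ha0
      _ ≤ (α + 1) * ((α + 1) * K * (E + ε) + (α + 1) * K * K * ε) :=
        mul_le_mul_of_nonneg_right ha1 h0
      _ = (α + 1) ^ 2 * K * E + (α + 1) ^ 2 * (K * 1) * ε + (α + 1) ^ 2 * (K * K) * ε := by ring
      _ ≤ (α + 1) ^ 2 * K * E + (α + 1) ^ 2 * (K * K) * ε + (α + 1) ^ 2 * (K * K) * ε := by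
        (clear * - hK1 hH hα hε; gcongr)
      _ = _ := by ring
  have t4 : a * (a - 2 * α) * ((uV - w) - (v - w)) ≤
      (α + 1) ^ 2 * K * E + 2 * (α + 1) ^ 2 * (K * K) * ε := by
    have h1 : |(uV - w) - (v - w)| ≤ K * (E + ε) + K * K * ε :=
      (abs_sub _ _).trans (add_le_add e3' e4')
    have h2 : |a - 2 * α| ≤ α + 1 := by
      have := abs_le.mp ha
      rw [abs_le]
      constructor <;> linarith only [hα, ha1, hε1, this]
    have h3 : |a * (a - 2 * α)| ≤ (α + 1) * (α + 1) := by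
      rw [abs_mul, abs_of_nonneg ha0]
      exact mul_le_mul ha1 h2 (abs_nonneg _) hA0
    calc a * (a - 2 * α) * ((uV - w) - (v - w)) ≤ |a * (a - 2 * α) * ((uV - w) - (v - w))| :=
          le_abs_self _
      _ = |a * (a - 2 * α)| * |(uV - w) - (v - w)| := abs_mul _ _
      _ ≤ ((α + 1) * (α + 1)) * (K * (E + ε) + K * K * ε) :=
        mul_le_mul h3 h1 (abs_nonneg _) (by positivity)
      _ = (α + 1) ^ 2 * K * E + (α + 1) ^ 2 * (K * 1) * ε + (α + 1) ^ 2 * (K * K) * ε := by ring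
      _ ≤ (α + 1) ^ 2 * K * E + (α + 1) ^ 2 * (K * K) * ε + (α + 1) ^ 2 * (K * K) * ε := by
        (clear * - hK1 hH hα hε; gcongr)
      _ = _ := by ring
  have t5 : 0 ≤ (α + 1) ^ 2 * K * E := by (clear * - hα hH hE; positivity)
  linarith only [t1, t2, t3, t4, t5]

/-- RHO-ALG: the additive functionals are close to functions of the overlap. -/
theorem rho_conc {f : ℝ → ℝ} (hf : Measurable f) (C : ℝ) (hC : ∀ x, |f x| ≤ C)
    {U : Ultrafilter ℕ} {N M P : ℕ → ℕ} {s : ℕ → ℝ} {u : ∀ j, Fin (P j) → ℝ} {α : ℝ}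
    (hα : 0 < α) (hMN : Tendsto (fun j => ((M j : ℝ) + 1) / (N j + 2)) U (𝓝 α))
    (hN : Tendsto N U atTop) {n : ℕ} {h : ℝ → ℝ} (hh : Measurable h) {H : ℝ} (hH : 1 ≤ H)
    (hhb : ∀ x, |h x| ≤ H)
    (V : ∀ j, (Fin n → Fin (N j + 1) → Bool) → ℝ) (hV : ∀ j x, |V j x| ≤ H ^ n) {E : ℝ}
    (hE : 0 ≤ E)
    (T0 : ∀ Φ : ∀ j, (Fin (M j) → Fin (N j + 1) → ℝ) → (Fin n → Fin (N j + 1) → Bool) → ℝ,
      (∀ j x, Measurable fun t => Φ j t x) → (∀ j t x, |Φ j t x| ≤ 1) → ∀ η > 0,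
      ∀ᶠ j in (U : Filter ℕ), |(pS f hf C hC (N j) (M j + 1) (P j) (s j) (u j)).tav (n := n)
        (fun t x => Φ j (fun a => t a.succ) x) -
        (pS f hf C hC (N j) (M j) (P j) (s j) (u j)).tav (n := n) (Φ j)| ≤ η)
    (T1 : ∀ Φ : ∀ j, (Fin (M j) → Fin (N j + 1) → ℝ) → (Fin n → Fin (N j + 1) → Bool) → ℝ,
      (∀ j x, Measurable fun t => Φ j t x) → (∀ j t x, |Φ j t x| ≤ 1) → ∀ η > 0,
      ∀ᶠ j in (U : Filter ℕ), |(pS f hf C hC (N j) (M j + 1) (P j) (s j) (u j)).tav (n := n)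
        (fun t x => Φ j (fun a => t a.succ) x * ∏ i, h (cubeS (t 0) (x i))) -
        (pS f hf C hC (N j) (M j) (P j) (s j) (u j)).tav (n := n)
          (fun t x => Φ j t x * V j x)| ≤ E + η) :
    ∀ η > 0, ∀ᶠ j in (U : Filter ℕ),
      (pS f hf C hC (N j) (M j + 1) (P j) (s j) (u j)).tav (n := n)
        (fun t x => (addF (1 / ((N j : ℝ) + 2)) h t x - α * V j x) ^ 2) ≤
      4 * (α + 1) ^ 2 * H ^ n * E + η := by
  intro η hη
  have hK1 : 1 ≤ H ^ n := one_le_pow₀ hH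
  have hK0 : 0 < H ^ n := by linarith
  have hA0 : 0 < α + 1 := by linarith only [hα]
  obtain ⟨ε, hε, hε1, hεη⟩ : ∃ ε : ℝ, 0 < ε ∧ ε ≤ 1 ∧
      7 * (α + 1) ^ 2 * (H ^ n * H ^ n) * ε ≤ η := by
    have hD : 0 < 7 * (α + 1) ^ 2 * (H ^ n * H ^ n) := by (clear * - hα hH; positivity)
    refine ⟨min 1 (η / (7 * (α + 1) ^ 2 * (H ^ n * H ^ n))), lt_min one_pos (div_pos hη hD),
      min_le_left _ _, ?_⟩
    calc 7 * (α + 1) ^ 2 * (H ^ n * H ^ n) * min 1 (η / (7 * (α + 1) ^ 2 * (H ^ n * H ^ n)))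
        ≤ 7 * (α + 1) ^ 2 * (H ^ n * H ^ n) * (η / (7 * (α + 1) ^ 2 * (H ^ n * H ^ n))) :=
          mul_le_mul_of_nonneg_left (min_le_right _ _) hD.le
      _ = η := by field_simp
  -- the cut-off coefficient
  let c : ℕ → ℝ := fun j => if ((M j : ℝ) + 1) / (N j + 2) ≤ α + 1 then 1 / ((α + 1) * H ^ n) else 0
  have hc0 : ∀ j, 0 ≤ c j := fun j => by
    show 0 ≤ ite _ _ _
    split_ifs
    · (clear * - hα hH; positivity)
    · exact le_rfl
  have hcb : ∀ j (t : Fin (M j) → Fin (N j + 1) → ℝ) (x : Fin n → Fin (N j + 1) → Bool),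
      |c j * addF (1 / ((N j : ℝ) + 2)) h t x| ≤ 1 := by
    intro j t x
    show |ite _ _ _ * _| ≤ 1
    split_ifs with hj
    · rw [abs_mul, abs_of_pos (by (clear * - hα hH; positivity) : (0 : ℝ) < 1 / ((α + 1) * H ^ n))]
      have h1 := abs_addF_le hhb (δ := 1 / ((N j : ℝ) + 2)) (by (clear * -; positivity)) t x
      have h2 : 1 / ((N j : ℝ) + 2) * M j ≤ α + 1 := by
        refine le_trans ?_ hj
        rw [one_div, inv_mul_eq_div]
        exact div_le_div_of_nonneg_right (by linarith only []) (by (clear * -; positivity))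
      have h3 : |addF (1 / ((N j : ℝ) + 2)) h t x| ≤ (α + 1) * H ^ n :=
        h1.trans (mul_le_mul_of_nonneg_right h2 hK0.le)
      calc 1 / ((α + 1) * H ^ n) * |addF (1 / ((N j : ℝ) + 2)) h t x|
          ≤ 1 / ((α + 1) * H ^ n) * ((α + 1) * H ^ n) :=
            mul_le_mul_of_nonneg_left h3 (by positivity)
        _ = 1 := by field_simp
    · simp only [one_div, zero_mul, abs_zero, zero_le_one]
  have hVb : ∀ j (x : Fin n → Fin (N j + 1) → Bool), |1 / H ^ n * V j x| ≤ 1 := by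
    intro j x
    rw [abs_mul, abs_of_pos (by positivity : (0 : ℝ) < 1 / H ^ n)]
    calc 1 / H ^ n * |V j x| ≤ 1 / H ^ n * H ^ n :=
          mul_le_mul_of_nonneg_left (hV j x) (by positivity)
      _ = 1 := by (clear * - hH; field_simp)
  have E1 := T1 (fun j t x => c j * addF (1 / ((N j : ℝ) + 2)) h t x)
    (fun j x => (measurable_addF hh _ x).const_mul _) hcb ε hε
  have E2 := T0 (fun j t x => (c j * addF (1 / ((N j : ℝ) + 2)) h t x) * (1 / H ^ n * V j x))
    (fun j x => ((measurable_addF hh _ x).const_mul _).mul_const _) (fun j t x => by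
      rw [abs_mul]
      exact mul_le_one₀ (hcb j t x) (abs_nonneg _) (hVb j x)) ε hε
  have E3 := T1 (fun j t x => 1 / H ^ n * V j x) (fun j x => measurable_const)
    (fun j t x => hVb j x) ε hε
  have E4 := T0 (fun j t x => (1 / H ^ n * V j x) * (1 / H ^ n * V j x))
    (fun j x => measurable_const) (fun j t x => by
      rw [abs_mul]
      exact mul_le_one₀ (hVb j x) (abs_nonneg _) (hVb j x)) ε hε
  have E5 : ∀ᶠ j in (U : Filter ℕ), |((M j : ℝ) + 1) / (N j + 2) - α| ≤ ε := by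
    have := (Metric.tendsto_nhds.mp hMN) ε hε
    filter_upwards [this] with j hj
    exact (Real.dist_eq _ _ ▸ hj).le
  have E6 : ∀ᶠ j in (U : Filter ℕ), 1 / ((N j : ℝ) + 2) ≤ ε := by
    have h1 := hN.eventually (eventually_ge_atTop ⌈1 / ε⌉₊)
    filter_upwards [h1] with j hj
    have h2 : 1 / ε ≤ (N j : ℝ) + 2 := by
      have h3 : 1 / ε ≤ (⌈1 / ε⌉₊ : ℝ) := Nat.le_ceil _
      have h4 : (⌈1 / ε⌉₊ : ℝ) ≤ N j := by exact_mod_cast hj
      linarith only [h3, h4]
    rw [div_le_iff₀ (by (clear * -; positivity))]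
    rw [div_le_iff₀ hε] at h2
    linarith only [h2]
  filter_upwards [E1, E2, E3, E4, E5, E6] with j f1 f2 f3 f4 f5 f6
  have hcj : c j = 1 / ((α + 1) * H ^ n) := by
    show ite _ _ _ = _
    rw [if_pos]
    have := (abs_le.mp f5).2
    linarith only [hε1, this]
  have hcj0 : 0 < c j := by rw [hcj]; positivity
  refine (rho_one hf C hC hα hh hH hhb (V j) (hV j) hE hε hε1 f5 f6 ?_ ?_ ?_ ?_).trans ?_
  · -- (1)
    have g1 : (pS f hf C hC (N j) (M j + 1) (P j) (s j) (u j)).tav (n := n)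
        (fun t x => (c j * addF (1 / ((N j : ℝ) + 2)) h (fun a => t a.succ) x) *
          ∏ i, h (cubeS (t 0) (x i))) =
        c j * (pS f hf C hC (N j) (M j + 1) (P j) (s j) (u j)).tav (n := n)
        (fun t x => addF (1 / ((N j : ℝ) + 2)) h (fun a => t a.succ) x *
          ∏ i, h (cubeS (t 0) (x i))) := by
      rw [← Sys.tav_smul]
      exact Sys.tav_congr fun t x => mul_assoc _ _ _
    have g2 : (pS f hf C hC (N j) (M j) (P j) (s j) (u j)).tav (n := n)
        (fun t x => (c j * addF (1 / ((N j : ℝ) + 2)) h t x) * V j x) =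
        c j * (pS f hf C hC (N j) (M j) (P j) (s j) (u j)).tav (n := n)
        (fun t x => addF (1 / ((N j : ℝ) + 2)) h t x * V j x) := by
      rw [← Sys.tav_smul]
      exact Sys.tav_congr fun t x => mul_assoc _ _ _
    have f1' := (congrArg₂ (fun a b : ℝ => |a - b|) g1 g2).symm.le.trans f1
    beta_reduce at f1'
    rw [← mul_sub, abs_mul, abs_of_pos hcj0, hcj, one_div, inv_mul_le_iff₀
      (by positivity)] at f1'
    exact f1'
  · -- (2)
    have g1 : (pS f hf C hC (N j) (M j + 1) (P j) (s j) (u j)).tav (n := n)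
        (fun t x => (c j * addF (1 / ((N j : ℝ) + 2)) h (fun a => t a.succ) x) *
          (1 / H ^ n * V j x)) =
        (c j * (1 / H ^ n)) * (pS f hf C hC (N j) (M j + 1) (P j) (s j) (u j)).tav (n := n)
        (fun t x => addF (1 / ((N j : ℝ) + 2)) h (fun a => t a.succ) x * V j x) := by
      rw [← Sys.tav_smul]
      exact Sys.tav_congr fun t x => mul_mul_mul_comm _ _ _ _
    have g2 : (pS f hf C hC (N j) (M j) (P j) (s j) (u j)).tav (n := n)
        (fun t x => (c j * addF (1 / ((N j : ℝ) + 2)) h t x) * (1 / H ^ n * V j x)) =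
        (c j * (1 / H ^ n)) * (pS f hf C hC (N j) (M j) (P j) (s j) (u j)).tav (n := n)
        (fun t x => addF (1 / ((N j : ℝ) + 2)) h t x * V j x) := by
      rw [← Sys.tav_smul]
      exact Sys.tav_congr fun t x => mul_mul_mul_comm _ _ _ _
    have f2' := (congrArg₂ (fun a b : ℝ => |a - b|) g1 g2).symm.le.trans f2
    beta_reduce at f2'
    have hd : c j * (1 / H ^ n) = 1 / ((α + 1) * H ^ n * H ^ n) := by
      rw [hcj]; (clear * - hH hα; field_simp)
    rw [← mul_sub, abs_mul, hd, abs_of_pos (by (clear * - hα hH; positivity)), one_div, inv_mul_le_iff₀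
      (by positivity)] at f2'
    exact f2'
  · -- (3)
    have g1 : (pS f hf C hC (N j) (M j + 1) (P j) (s j) (u j)).tav (n := n)
        (fun t x => (1 / H ^ n * V j x) * ∏ i, h (cubeS (t 0) (x i))) =
        (1 / H ^ n) * (pS f hf C hC (N j) (M j + 1) (P j) (s j) (u j)).tav (n := n)
        (fun t x => V j x * ∏ i, h (cubeS (t 0) (x i))) := by
      rw [← Sys.tav_smul]
      exact Sys.tav_congr fun t x => mul_assoc _ _ _
    have g2 : (pS f hf C hC (N j) (M j) (P j) (s j) (u j)).tav (n := n)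
        (fun t x => (1 / H ^ n * V j x) * V j x) =
        (1 / H ^ n) * (pS f hf C hC (N j) (M j) (P j) (s j) (u j)).tav (n := n)
        (fun _ x => V j x * V j x) := by
      rw [← Sys.tav_smul]
      exact Sys.tav_congr fun t x => mul_assoc _ _ _
    have f3' := (congrArg₂ (fun a b : ℝ => |a - b|) g1 g2).symm.le.trans f3
    beta_reduce at f3'
    rw [← mul_sub, abs_mul, abs_of_pos (by positivity), one_div, inv_mul_le_iff₀
      (by positivity)] at f3'
    exact f3'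
  · -- (4)
    have g1 : (pS f hf C hC (N j) (M j + 1) (P j) (s j) (u j)).tav (n := n)
        (fun t x => (1 / H ^ n * V j x) * (1 / H ^ n * V j x)) =
        (1 / H ^ n * (1 / H ^ n)) * (pS f hf C hC (N j) (M j + 1) (P j) (s j) (u j)).tav (n := n)
        (fun _ x => V j x * V j x) := by
      rw [← Sys.tav_smul]
      exact Sys.tav_congr fun t x => mul_mul_mul_comm _ _ _ _
    have g2 : (pS f hf C hC (N j) (M j) (P j) (s j) (u j)).tav (n := n)
        (fun t x => (1 / H ^ n * V j x) * (1 / H ^ n * V j x)) =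
        (1 / H ^ n * (1 / H ^ n)) * (pS f hf C hC (N j) (M j) (P j) (s j) (u j)).tav (n := n)
        (fun _ x => V j x * V j x) := by
      rw [← Sys.tav_smul]
      exact Sys.tav_congr fun t x => mul_mul_mul_comm _ _ _ _
    have f4' := (congrArg₂ (fun a b : ℝ => |a - b|) g1 g2).symm.le.trans f4
    beta_reduce at f4'
    have hd : 1 / H ^ n * (1 / H ^ n) = 1 / (H ^ n * H ^ n) := by field_simp
    rw [← mul_sub, abs_mul, hd, abs_of_pos (by positivity), one_div, inv_mul_le_iff₀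
      (by positivity)] at f4'
    exact f4'
  · linarith only [hεη]

end Vale.Agent.P157.Par
end

section

open MeasureTheory ProbabilityTheory Filter Topology Finset

namespace Vale.Agent.P157.Par

set_option linter.unusedSectionVars false

open Vale.Agent.P367.GT (gM)

/-- Levels with a small mesh for a sequence of systems. -/
structure Mesh (U : Ultrafilter ℕ) (S : ℕ → Sys) {k : ℕ} (b : Fin k → ℝ)
    (w : Fin (k + 1) → ℝ) (q : ℕ → ℝ) (ε : ℝ) : Prop where
  lim : LimData U S b w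
  path : Path k q
  le1 : q k ≤ 1
  eps : 0 ≤ ε
  off : ∀ᶠ j in (U : Filter ℕ), (S j).tav (n := 2) (fun _ x =>
        |(S j).R (x 0) (x 1) - q (lev b ((S j).R (x 0) (x 1)))|) ≤ ε

theorem exists_mesh' {U : Ultrafilter ℕ} {S : ℕ → Sys}
    (hGG : ∀ p : ℕ, AsympGG U S (fun x => x ^ p)) {ε : ℝ} (hε : 0 < ε) :
    ∃ (k : ℕ) (b : Fin k → ℝ) (w : Fin (k + 1) → ℝ) (q : ℕ → ℝ), Mesh U S b w q ε := by
  obtain ⟨k, b, w, q, h1, h2, h3, h4⟩ := exists_mesh hGG hε
  exact ⟨k, b, w, q, h1, h2, h3, hε.le, h4⟩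

/-- The sequence of systems and its parameters. -/
structure SeqOK (f : ℝ → ℝ) (hfm : Measurable f) (C : ℝ) (hC : ∀ x, |f x| ≤ C) (α : ℝ)
    (U : Ultrafilter ℕ) (N M P : ℕ → ℕ) (s : ℕ → ℝ) (u : ∀ j, Fin (P j) → ℝ) : Prop where
  hMN : Tendsto (fun j => ((M j : ℝ) + 1) / (N j + 2)) U (𝓝 α)
  hN : Tendsto N U atTop
  hb : ∃ A : ℝ, ∀ j, ((M j : ℝ) + 1) / (N j + 2) ≤ A
  hgg : ∀ p : ℕ, AsympGG U (fun j => pS f hfm C hC (N j) (M j) (P j) (s j) (u j)) (fun x => x ^ p)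
  hgg1 : ∀ p : ℕ, AsympGG U (fun j => pS f hfm C hC (N j) (M j + 1) (P j) (s j) (u j))
    (fun x => x ^ p)

section

variable {C c₀ a : ℝ} {f f1 f2 f3 : ℝ → ℝ} (hf : Pot C c₀ a f f1 f2 f3) (hfm : Measurable f)
  {α : ℝ} (hα : 0 < α)

include hα

/-- Additive functionals of two replicas. -/
theorem rhoC_two {h h' h'' : ℝ → ℝ} (hh : CB2 h h' h'') : ∃ D : ℝ, 0 ≤ D ∧
    ∀ (U : Ultrafilter ℕ) (N M P : ℕ → ℕ) (s : ℕ → ℝ) (u : ∀ j, Fin (P j) → ℝ),
      SeqOK f hfm C hf.cb3.b0 α U N M P s u →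
    ∀ (k : ℕ) (b : Fin k → ℝ) (w : Fin (k + 1) → ℝ) (q : ℕ → ℝ) (ε : ℝ),
      Mesh U (fun j => pS f hfm C hf.cb3.b0 (N j) (M j) (P j) (s j) (u j)) b w q ε → ∀ η > 0,
      ∀ᶠ j in (U : Filter ℕ),
        (pS f hfm C hf.cb3.b0 (N j) (M j + 1) (P j) (s j) (u j)).tav (n := 2)
          (fun t x => (addF (1 / ((N j : ℝ) + 2)) h t x -
            α * pv (fun x => Real.exp (f x) / c₀) h k w q
              (lev b ((pS f hfm C hf.cb3.b0 (N j) (M j) (P j) (s j) (u j)).R (x 0) (x 1)))) ^ 2) ≤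
          D * ε + η := by
  obtain ⟨B, hB⟩ := hh.b0
  obtain ⟨D, hD, hD'⟩ := add_two hf hfm hh
  set H := max 1 B with hH
  refine ⟨4 * (α + 1) ^ 2 * H ^ 2 * D, by positivity, ?_⟩
  intro U N M P s u hs k b w q ε hm η hη
  have h1 := rho_conc hfm C hf.cb3.b0 hα hs.hMN hs.hN (n := 2) hh.cont.measurable
    (le_max_left 1 B) (fun x => (hB x).trans (le_max_right 1 B))
    (fun j x => pv (fun x => Real.exp (f x) / c₀) h k w q
              (lev b ((pS f hfm C hf.cb3.b0 (N j) (M j) (P j) (s j) (u j)).R (x 0) (x 1))))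
    (fun j x => by
      rw [abs_of_nonneg (pv_nonneg hf.a0 hf.cb2W hf.Wa hf.W1 hm.lim.wpos q hh (by omega))]
      exact pv_le hf.a0 hf.cb2W hf.Wa hf.W1 hm.lim.wpos q hh
        (fun x => (hB x).trans (le_max_right 1 B)) (by omega))
    (mul_nonneg hD hm.eps)
    (fun Φ hΦm hΦ η hη => same_two hf hfm hs.hgg hΦm hΦ η hη)
    (fun Φ hΦm hΦ η hη => hD' U N M P s u k b w q ε hm.eps hm.lim hm.path hm.le1 hm.off Φ hΦm hΦ
      η hη) η hη
  filter_upwards [h1] with j hj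
  refine hj.trans (le_of_eq ?_)
  ring

/-- Additive functionals of one replica. -/
theorem rhoC_one {h h' h'' : ℝ → ℝ} (hh : CB2 h h' h'') : ∃ D : ℝ, 0 ≤ D ∧
    ∀ (U : Ultrafilter ℕ) (N M P : ℕ → ℕ) (s : ℕ → ℝ) (u : ∀ j, Fin (P j) → ℝ),
      SeqOK f hfm C hf.cb3.b0 α U N M P s u →
    ∀ (k : ℕ) (b : Fin k → ℝ) (w : Fin (k + 1) → ℝ) (q : ℕ → ℝ) (ε : ℝ),
      Mesh U (fun j => pS f hfm C hf.cb3.b0 (N j) (M j) (P j) (s j) (u j)) b w q ε → ∀ η > 0,
      ∀ᶠ j in (U : Filter ℕ),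
        (pS f hfm C hf.cb3.b0 (N j) (M j + 1) (P j) (s j) (u j)).tav (n := 1)
          (fun t x => (addF (1 / ((N j : ℝ) + 2)) h t x -
            α * ov (fun x => Real.exp (f x) / c₀) h k w q) ^ 2) ≤
          D * ε + η := by
  obtain ⟨B, hB⟩ := hh.b0
  obtain ⟨D, hD, hD'⟩ := add_one hf hfm hh
  set H := max 1 B with hH
  refine ⟨4 * (α + 1) ^ 2 * H ^ 1 * D, by positivity, ?_⟩
  intro U N M P s u hs k b w q ε hm η hη
  have h1 := rho_conc hfm C hf.cb3.b0 hα hs.hMN hs.hN (n := 1) hh.cont.measurable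
    (le_max_left 1 B) (fun x => (hB x).trans (le_max_right 1 B))
    (fun j x => ov (fun x => Real.exp (f x) / c₀) h k w q)
    (fun j x => by
      rw [pow_one]
      exact ov_abs_le hf.a0 hf.cb2W hf.Wa hf.W1 hm.lim.wpos q hh
        (fun x => (hB x).trans (le_max_right 1 B)))
    (mul_nonneg hD hm.eps)
    (fun Φ hΦm hΦ η hη => same_one hf hfm hs.hgg hΦm hΦ η hη)
    (fun Φ hΦm hΦ η hη => hD' U N M P s u k b w q ε hm.eps hm.lim hm.path hm.le1 hm.off Φ hΦm hΦ
      η hη) η hη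
  filter_upwards [h1] with j hj
  refine hj.trans (le_of_eq ?_)
  ring

end

/-! ### Grams of the two kernels -/

lemma gram_ker1 {M N : ℕ} {δ : ℝ} (hδ : 0 ≤ δ) (f1 : ℝ → ℝ) (t : Fin M → Fin (N + 1) → ℝ)
    (x y : Fin (N + 1) → Bool) :
    gram (ker1 δ f1 t) (ker1 δ f1 t) x y = addF δ f1 t ![x, y] := by
  unfold gram ker1 addF
  rw [Finset.mul_sum]
  refine Finset.sum_congr rfl fun a _ => ?_
  rw [Fin.prod_univ_two]
  simp only [Matrix.cons_val_zero, Matrix.cons_val_one]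
  have h := Real.mul_self_sqrt hδ
  calc √δ * f1 (cubeS (t a) x) * (√δ * f1 (cubeS (t a) y)) =
      (√δ * √δ) * (f1 (cubeS (t a) x) * f1 (cubeS (t a) y)) := by ring
    _ = _ := by rw [h]

lemma gram_ker1_self {M N : ℕ} {δ : ℝ} (hδ : 0 ≤ δ) (f1 : ℝ → ℝ) (t : Fin M → Fin (N + 1) → ℝ)
    (x : Fin (N + 1) → Bool) :
    gram (ker1 δ f1 t) (ker1 δ f1 t) x x = addF δ (fun y => f1 y ^ 2) t ![x] := by
  rw [gram_ker1 hδ]
  unfold addF
  congr 1
  refine Finset.sum_congr rfl fun a _ => ?_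
  rw [Fin.prod_univ_two, Fin.prod_univ_one]
  simp only [Matrix.cons_val_zero, Matrix.cons_val_one]
  ring

lemma gram_ker2 {M N : ℕ} (δ : ℝ) (f1 : ℝ → ℝ) (t : Fin M → Fin (N + 1) → ℝ)
    (x y : Fin (N + 1) → Bool) :
    gram (ker2 δ f1 t) (ker2 δ f1 t) x y =
      gram (ker1 δ f1 t) (ker1 δ f1 t) x y * ∑ i, cubeφ N x i * cubeφ N y i := by
  unfold gram ker1 ker2
  rw [Fintype.sum_prod_type, Finset.sum_mul]
  refine Finset.sum_congr rfl fun a _ => ?_
  rw [Finset.mul_sum]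
  exact Finset.sum_congr rfl fun i _ => by ring

lemma pS_R {f : ℝ → ℝ} (hfm : Measurable f) (C : ℝ) (hC : ∀ x, |f x| ≤ C) (N M P : ℕ) (s : ℝ)
    (u : Fin P → ℝ) (x y : Fin (N + 1) → Bool) :
    (pS f hfm C hC N M P s u).R x y = ∑ i, cubeφ N x i * cubeφ N y i := by
  have h : (pS f hfm C hC N M P s u).R x y = inner ℝ (cubeφ N x) (cubeφ N y) := rfl
  rw [h, PiLp.inner_apply]
  exact Finset.sum_congr rfl fun i _ => by simp [mul_comm]

lemma sum_ker1_sq {M N : ℕ} {δ : ℝ} (hδ : 0 ≤ δ) {f1 : ℝ → ℝ} {C : ℝ} (hC : ∀ x, |f1 x| ≤ C)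
    (t : Fin M → Fin (N + 1) → ℝ) (x : Fin (N + 1) → Bool) :
    ∑ i, ker1 δ f1 t x i ^ 2 ≤ δ * M * C ^ 2 := by
  have h : ∀ i, ker1 δ f1 t x i ^ 2 ≤ δ * C ^ 2 := by
    intro i
    unfold ker1
    rw [mul_pow, Real.sq_sqrt hδ]
    apply mul_le_mul_of_nonneg_left _ hδ
    exact sq_le_sq' (abs_le.1 (hC _)).1 (abs_le.1 (hC _)).2
  refine (Finset.sum_le_sum fun i _ => h i).trans (le_of_eq ?_)
  rw [Finset.sum_const, Finset.card_univ, Fintype.card_fin, nsmul_eq_mul]
  ring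

lemma sum_ker2_sq {M N : ℕ} {δ : ℝ} (hδ : 0 ≤ δ) {f1 : ℝ → ℝ} {C : ℝ} (hC : ∀ x, |f1 x| ≤ C)
    (t : Fin M → Fin (N + 1) → ℝ) (x : Fin (N + 1) → Bool) :
    ∑ i, ker2 δ f1 t x i ^ 2 ≤ δ * M * C ^ 2 := by
  have h := gram_ker2 δ f1 t x x
  have h1 : ∑ i, ker2 δ f1 t x i ^ 2 = gram (ker2 δ f1 t) (ker2 δ f1 t) x x := by
    unfold gram
    exact Finset.sum_congr rfl fun i _ => by ring
  have h2 : ∑ i, ker1 δ f1 t x i ^ 2 = gram (ker1 δ f1 t) (ker1 δ f1 t) x x := by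
    unfold gram
    exact Finset.sum_congr rfl fun i _ => by ring
  have h3 : ∑ i, cubeφ N x i * cubeφ N x i = 1 := by
    rw [← Cube.sum_cubeφ_sq N x]
    exact Finset.sum_congr rfl fun i _ => by ring
  rw [h1, h, h3, mul_one, ← h2]
  exact sum_ker1_sq hδ hC t x

/-- Cauchy-Schwarz for the averages. -/
lemma Sys.tav_abs_le_sqrt (S : Sys) {n : ℕ} {F : S.T → (Fin n → S.X) → ℝ} {B : ℝ}
    (hF : Sys.Bdd S F B) : S.tav (fun t x => |F t x|) ≤ √(S.tav fun t x => F t x ^ 2) := by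
  have hB0 : Sys.Bdd S (fun t x => |F t x|) B :=
    ⟨fun x => (hF.meas x).abs, fun t x => by rw [abs_abs]; exact hF.bdd t x⟩
  have hB1 : Sys.Bdd S (fun t x => F t x ^ 2) (B * B) :=
    ⟨fun x => (hF.meas x).pow_const 2, fun t x => by
      rw [abs_pow, sq]
      exact mul_le_mul (hF.bdd t x) (hF.bdd t x) (abs_nonneg _)
        ((abs_nonneg _).trans (hF.bdd t x))⟩
  have h0 : 0 ≤ S.tav (fun t x => |F t x|) := Sys.tav_nonneg fun t x => abs_nonneg _
  set m := S.tav (fun t x => |F t x|) with hm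
  have h1 : ∀ t x, 2 * m * |F t x| ≤ m ^ 2 + F t x ^ 2 := by
    intro t x
    have h2 : (0 : ℝ) ≤ (m - |F t x|) ^ 2 := sq_nonneg _
    have h3 : |F t x| ^ 2 = F t x ^ 2 := sq_abs _
    linarith
  have hB2 : Sys.Bdd S (n := n) (fun _ _ => m ^ 2) (m ^ 2) :=
    ⟨fun x => measurable_const, fun t x => by rw [abs_of_nonneg (sq_nonneg m)]⟩
  have hB3 : Sys.Bdd S (fun t x => 2 * m * |F t x|) (2 * m * B) :=
    ⟨fun x => (hF.meas x).abs.const_mul _, fun t x => by
      rw [abs_mul, abs_abs, abs_of_nonneg (by (clear * - h0; positivity) : 0 ≤ 2 * m)]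
      exact mul_le_mul_of_nonneg_left (hF.bdd t x) (by (clear * - h0; positivity))⟩
  have hB4 : Sys.Bdd S (fun t x => m ^ 2 + F t x ^ 2) (m ^ 2 + B * B) :=
    ⟨fun x => (hB1.meas x).const_add _, fun t x =>
      (abs_add_le _ _).trans (add_le_add (hB2.bdd t x) (hB1.bdd t x))⟩
  have h4 := Sys.tav_mono hB3 hB4 h1
  rw [Sys.tav_smul, Sys.tav_add hB2 hB1, Sys.tav_const, ← hm] at h4
  apply Real.le_sqrt_of_sq_le
  linarith only [h4]

lemma addF_meas {M N n : ℕ} (δ : ℝ) {h : ℝ → ℝ} (hh : Measurable h)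
    (x : Fin n → Fin (N + 1) → Bool) :
    Measurable fun t : Fin M → Fin (N + 1) → ℝ => addF δ h t x := by
  unfold addF
  refine (Finset.measurable_sum _ fun a _ => Finset.measurable_prod _ fun i _ =>
    hh.comp ?_).const_mul δ
  unfold cubeS
  fun_prop

lemma addF_bdd {M N n : ℕ} {δ : ℝ} (hδ : 0 ≤ δ) {h : ℝ → ℝ} {B : ℝ} (hB : ∀ x, |h x| ≤ B)
    (t : Fin M → Fin (N + 1) → ℝ) (x : Fin n → Fin (N + 1) → Bool) :
    |addF δ h t x| ≤ δ * (M * B ^ n) := by
  unfold addF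
  rw [abs_mul, abs_of_nonneg hδ]
  apply mul_le_mul_of_nonneg_left _ hδ
  refine (Finset.abs_sum_le_sum_abs _ _).trans ?_
  have h1 : ∀ a, |∏ i, h (cubeS (t a) (x i))| ≤ B ^ n := by
    intro a
    have h2 : |∏ i, h (cubeS (t a) (x i))| ≤ B ^ (univ : Finset (Fin n)).card :=
      abs_prod_le fun i _ => hB _
    rwa [Finset.card_univ, Fintype.card_fin] at h2
  refine (Finset.sum_le_sum fun a _ => h1 a).trans (le_of_eq ?_)
  rw [Finset.sum_const, Finset.card_univ, Fintype.card_fin, nsmul_eq_mul]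

lemma vec2 {X : Type} (x : Fin 2 → X) : ![x 0, x 1] = x := by
  funext i
  fin_cases i <;> rfl

lemma vec1 {X : Type} (x : Fin 1 → X) : ![x 0] = x := by
  funext i
  fin_cases i
  rfl

section

variable {C c₀ a : ℝ} {f f1 f2 f3 : ℝ → ℝ} (hf : Pot C c₀ a f f1 f2 f3) (hfm : Measurable f)
  {α : ℝ} (hα : 0 < α)

/-- The dual path. -/
noncomputable def rr (α : ℝ) (W f1 : ℝ → ℝ) (k : ℕ) (w : Fin (k + 1) → ℝ) (q : ℕ → ℝ) (l : ℕ) : ℝ :=
  α * pv W f1 k w q l

include hf hα in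
lemma rr_path {k : ℕ} {w : Fin (k + 1) → ℝ} (hw : ∀ l, 0 < w l) (q : ℕ → ℝ) :
    Path k (rr α (fun x => Real.exp (f x) / c₀) f1 k w q) := by
  obtain ⟨g', g'', hg⟩ := hf.cf1
  refine ⟨mul_nonneg hα.le (pv_nonneg hf.a0 hf.cb2W hf.Wa hf.W1 hw q hg (Nat.zero_le k)),
    fun l hl => mul_le_mul_of_nonneg_left (pv_mono hf.a0 hf.cb2W hf.Wa hf.W1 hw q hg hl) hα.le⟩

include hf hα in
lemma rr_nonneg {k : ℕ} {w : Fin (k + 1) → ℝ} (hw : ∀ l, 0 < w l) (q : ℕ → ℝ) {l : ℕ}
    (hl : l ≤ k) : 0 ≤ rr α (fun x => Real.exp (f x) / c₀) f1 k w q l := by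
  obtain ⟨g', g'', hg⟩ := hf.cf1
  exact mul_nonneg hα.le (pv_nonneg hf.a0 hf.cb2W hf.Wa hf.W1 hw q hg hl)

include hf hα in
lemma rr_le {k : ℕ} {w : Fin (k + 1) → ℝ} (hw : ∀ l, 0 < w l) (q : ℕ → ℝ) {l : ℕ}
    (hl : l ≤ k) : rr α (fun x => Real.exp (f x) / c₀) f1 k w q l ≤ α * C ^ 2 := by
  obtain ⟨g', g'', hg⟩ := hf.cf1
  exact mul_le_mul_of_nonneg_left (pv_le hf.a0 hf.cb2W hf.Wa hf.W1 hw q hg hf.cb3.b1 hl) hα.le

include hf hα in
lemma rr_le_ov {k : ℕ} {w : Fin (k + 1) → ℝ} (hw : ∀ l, 0 < w l) (q : ℕ → ℝ) :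
    rr α (fun x => Real.exp (f x) / c₀) f1 k w q k ≤
      α * ov (fun x => Real.exp (f x) / c₀) (fun y => f1 y ^ 2) k w q := by
  obtain ⟨g', g'', hg⟩ := hf.cf1
  exact mul_le_mul_of_nonneg_left (pv_le_ov hf.a0 hf.cb2W hf.Wa hf.W1 hw q hg) hα.le

include hα in
/-- The kernel of the new spin. -/
theorem kerClose_ker1 : ∃ D : ℝ, 0 ≤ D ∧
    ∀ (U : Ultrafilter ℕ) (N M P : ℕ → ℕ) (s : ℕ → ℝ) (u : ∀ j, Fin (P j) → ℝ),
      SeqOK f hfm C hf.cb3.b0 α U N M P s u →
    ∀ (k : ℕ) (b : Fin k → ℝ) (w : Fin (k + 1) → ℝ) (q : ℕ → ℝ) (ε : ℝ),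
      Mesh U (fun j => pS f hfm C hf.cb3.b0 (N j) (M j) (P j) (s j) (u j)) b w q ε →
      ∀ ε' > 0, D * ε < ε' ^ 2 → ∃ B,
      KerClose U (fun j => pS f hfm C hf.cb3.b0 (N j) (M j + 1) (P j) (s j) (u j)) b
        (cut (incr (stop k (rr α (fun x => Real.exp (f x) / c₀) f1 k w q))) k)
        (α * ov (fun x => Real.exp (f x) / c₀) (fun y => f1 y ^ 2) k w q -
          rr α (fun x => Real.exp (f x) / c₀) f1 k w q k) ε' B
        (fun j t x => ker1 (1 / ((N j : ℝ) + 2)) f1 t x) := by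
  obtain ⟨g', g'', hg⟩ := hf.cf1
  obtain ⟨p', p'', hp⟩ := hg.sq_fn
  obtain ⟨D1, hD1, hD1'⟩ := rhoC_two hf hfm hα hg
  obtain ⟨D2, hD2, hD2'⟩ := rhoC_one hf hfm hα hp
  refine ⟨max D1 D2, hD1.trans (le_max_left _ _), ?_⟩
  intro U N M P s u hs k b w q ε hm ε' hε' hlt
  obtain ⟨A, hA⟩ := hs.hb
  have hδ : ∀ j, (0 : ℝ) ≤ 1 / ((N j : ℝ) + 2) := fun j => by (clear * -; positivity)
  have hlt1 : D1 * ε < ε' ^ 2 :=
    lt_of_le_of_lt (mul_le_mul_of_nonneg_right (le_max_left _ _) hm.eps) hlt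
  have hlt2 : D2 * ε < ε' ^ 2 :=
    lt_of_le_of_lt (mul_le_mul_of_nonneg_right (le_max_right _ _) hm.eps) hlt
  refine ⟨A * C ^ 2, fun j x c => ?_, fun j t x => ?_, ?_, ?_⟩
  · unfold ker1
    refine (hg.cont.measurable.comp ?_).const_mul _
    unfold cubeS
    fun_prop
  · refine (sum_ker1_sq (hδ j) hf.cb3.b1 t x).trans ?_
    apply mul_le_mul_of_nonneg_right _ (sq_nonneg C)
    refine le_trans (le_of_eq ?_) (hA j)
    push_cast
    ring
  · filter_upwards [hD1' U N M P s u hs k b w q ε hm (ε' ^ 2 - D1 * ε) (by linarith only [hlt1])] with j hj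
    have h1 : Sys.Bdd (pS f hfm C hf.cb3.b0 (N j) (M j + 1) (P j) (s j) (u j)) (n := 2)
        (fun t x => addF (1 / ((N j : ℝ) + 2)) f1 t x -
            rr α (fun x => Real.exp (f x) / c₀) f1 k w q
              (lev b ((pS f hfm C hf.cb3.b0 (N j) (M j) (P j) (s j) (u j)).R (x 0) (x 1))))
        (1 / ((N j : ℝ) + 2) * (((M j + 1 : ℕ) : ℝ) * C ^ 2) + α * C ^ 2) :=
      ⟨fun x => (addF_meas _ hg.cont.measurable x).sub_const _, fun t x =>
        (abs_sub _ _).trans (add_le_add (addF_bdd (hδ j) hf.cb3.b1 t x) (by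
          rw [abs_of_nonneg (rr_nonneg hf hα hm.lim.wpos q (by omega))]
          exact rr_le hf hα hm.lim.wpos q (by omega)))⟩
    have h2 := Sys.tav_abs_le_sqrt _ h1
    have h3 : √((pS f hfm C hf.cb3.b0 (N j) (M j + 1) (P j) (s j) (u j)).tav (n := 2)
        fun t x => (addF (1 / ((N j : ℝ) + 2)) f1 t x -
            rr α (fun x => Real.exp (f x) / c₀) f1 k w q
              (lev b ((pS f hfm C hf.cb3.b0 (N j) (M j) (P j) (s j) (u j)).R (x 0) (x 1)))) ^ 2) ≤
        ε' := by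
      rw [Real.sqrt_le_left hε'.le]
      refine le_trans hj (le_of_eq ?_)
      ring
    refine le_trans (le_of_eq ?_) (h2.trans h3)
    refine Sys.tav_congr fun t x => ?_
    rw [cumul_incr]
    have e1 : gram (ker1 (1 / ((N j : ℝ) + 2)) f1 t) (ker1 (1 / ((N j : ℝ) + 2)) f1 t) (x 0)
        (x 1) = addF (1 / ((N j : ℝ) + 2)) f1 t x :=
      (gram_ker1 (hδ j) f1 t (x 0) (x 1)).trans
        (congrArg (addF (1 / ((N j : ℝ) + 2)) f1 t) (vec2 x))
    exact congrArg (fun y => |y - rr α (fun x => Real.exp (f x) / c₀) f1 k w q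
          (lev b ((pS f hfm C hf.cb3.b0 (N j) (M j + 1) (P j) (s j) (u j)).R (x 0) (x 1)))|) e1
  · filter_upwards [hD2' U N M P s u hs k b w q ε hm (ε' ^ 2 - D2 * ε) (by linarith only [hlt2])] with j hj
    have h1 : Sys.Bdd (pS f hfm C hf.cb3.b0 (N j) (M j + 1) (P j) (s j) (u j)) (n := 1)
        (fun t x => addF (1 / ((N j : ℝ) + 2)) (fun y => f1 y ^ 2) t x -
            α * ov (fun x => Real.exp (f x) / c₀) (fun y => f1 y ^ 2) k w q)
        (1 / ((N j : ℝ) + 2) * (((M j + 1 : ℕ) : ℝ) * (C ^ 2) ^ 1) + α * C ^ 2) :=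
      ⟨fun x => (addF_meas _ hp.cont.measurable x).sub_const _, fun t x =>
        (abs_sub _ _).trans (add_le_add (addF_bdd (hδ j) (fun y => by
          rw [abs_pow]
          exact pow_le_pow_left₀ (abs_nonneg _) (hf.cb3.b1 y) 2) t x) (by
          rw [abs_mul, abs_of_pos hα]
          apply mul_le_mul_of_nonneg_left _ hα.le
          exact ov_abs_le hf.a0 hf.cb2W hf.Wa hf.W1 hm.lim.wpos q hp (fun y => by
            rw [abs_pow]
            exact pow_le_pow_left₀ (abs_nonneg _) (hf.cb3.b1 y) 2)))⟩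
    have h2 := Sys.tav_abs_le_sqrt _ h1
    have h3 : √((pS f hfm C hf.cb3.b0 (N j) (M j + 1) (P j) (s j) (u j)).tav (n := 1)
        fun t x => (addF (1 / ((N j : ℝ) + 2)) (fun y => f1 y ^ 2) t x -
            α * ov (fun x => Real.exp (f x) / c₀) (fun y => f1 y ^ 2) k w q) ^ 2) ≤ ε' := by
      rw [Real.sqrt_le_left hε'.le]
      refine le_trans hj (le_of_eq ?_)
      ring
    refine le_trans (le_of_eq ?_) (h2.trans h3)
    refine Sys.tav_congr fun t x => ?_
    rw [cumul_incr, Fin.val_last]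
    have e1 : gram (ker1 (1 / ((N j : ℝ) + 2)) f1 t) (ker1 (1 / ((N j : ℝ) + 2)) f1 t) (x 0)
        (x 0) = addF (1 / ((N j : ℝ) + 2)) (fun y => f1 y ^ 2) t x :=
      (gram_ker1_self (hδ j) f1 t (x 0)).trans
        (congrArg (addF (1 / ((N j : ℝ) + 2)) (fun y => f1 y ^ 2) t) (vec1 x))
    have e2 : rr α (fun x => Real.exp (f x) / c₀) f1 k w q k +
        (α * ov (fun x => Real.exp (f x) / c₀) (fun y => f1 y ^ 2) k w q -
          rr α (fun x => Real.exp (f x) / c₀) f1 k w q k) =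
        α * ov (fun x => Real.exp (f x) / c₀) (fun y => f1 y ^ 2) k w q := by ring
    rw [e2]
    exact congrArg (fun y => |y - α * ov (fun x => Real.exp (f x) / c₀)
      (fun y => f1 y ^ 2) k w q|) e1

lemma pS_R_abs {f : ℝ → ℝ} (hfm : Measurable f) (C : ℝ) (hC : ∀ x, |f x| ≤ C) (N M P : ℕ)
    (s : ℝ) (u : Fin P → ℝ) (x y : Fin (N + 1) → Bool) :
    |(pS f hfm C hC N M P s u).R x y| ≤ 1 := by
  have := Sys.R_mem (S := pS f hfm C hC N M P s u) x y
  rw [abs_le]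
  exact this

/-- The overlap under the system with one more pattern. -/
theorem off_succ {U : Ultrafilter ℕ} {N M P : ℕ → ℕ} {s : ℕ → ℝ} {u : ∀ j, Fin (P j) → ℝ}
    (hs : SeqOK f hfm C hf.cb3.b0 α U N M P s u) {k : ℕ} {b : Fin k → ℝ}
    {w : Fin (k + 1) → ℝ} {q : ℕ → ℝ} {ε : ℝ}
    (hm : Mesh U (fun j => pS f hfm C hf.cb3.b0 (N j) (M j) (P j) (s j) (u j)) b w q ε) :
    ∀ η > 0, ∀ᶠ j in (U : Filter ℕ),
      (pS f hfm C hf.cb3.b0 (N j) (M j + 1) (P j) (s j) (u j)).tav (n := 2) (fun _ x =>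
        |(pS f hfm C hf.cb3.b0 (N j) (M j) (P j) (s j) (u j)).R (x 0) (x 1) -
          q (lev b ((pS f hfm C hf.cb3.b0 (N j) (M j) (P j) (s j) (u j)).R (x 0) (x 1)))|) ≤
        ε + η := by
  intro η hη
  have hq0 : ∀ l : Fin (k + 1), |q l| ≤ 1 := by
    intro l
    have h1 := path_mono hm.path.2 0 l (Nat.zero_le _) (by omega)
    have h2 := path_mono hm.path.2 l k (by omega) le_rfl
    rw [abs_of_nonneg (hm.path.1.trans h1)]
    exact h2.trans hm.le1
  have h1 := same_two hf hfm hs.hgg (Φ := fun j _ x =>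
    1 / 2 * |(pS f hfm C hf.cb3.b0 (N j) (M j) (P j) (s j) (u j)).R (x 0) (x 1) -
          q (lev b ((pS f hfm C hf.cb3.b0 (N j) (M j) (P j) (s j) (u j)).R (x 0) (x 1)))|)
    (fun j x => measurable_const) (fun j t x => by
      rw [abs_mul, abs_abs, abs_of_pos (by norm_num : (0 : ℝ) < 1 / 2)]
      have h2 := pS_R_abs hfm C hf.cb3.b0 (N j) (M j) (P j) (s j) (u j) (x 0) (x 1)
      have h3 := abs_sub ((pS f hfm C hf.cb3.b0 (N j) (M j) (P j) (s j) (u j)).R (x 0) (x 1))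
          (q (lev b ((pS f hfm C hf.cb3.b0 (N j) (M j) (P j) (s j) (u j)).R (x 0) (x 1))))
      have h4 := hq0 (lev b ((pS f hfm C hf.cb3.b0 (N j) (M j) (P j) (s j) (u j)).R (x 0) (x 1)))
      linarith only [h4, h3, h2]) (η / 2) (by positivity)
  filter_upwards [h1, hm.off] with j h1 h2
  have e1 := Sys.tav_smul (S := pS f hfm C hf.cb3.b0 (N j) (M j + 1) (P j) (s j) (u j)) (n := 2)
    (1 / 2) (fun _ x =>
    |(pS f hfm C hf.cb3.b0 (N j) (M j) (P j) (s j) (u j)).R (x 0) (x 1) -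
          q (lev b ((pS f hfm C hf.cb3.b0 (N j) (M j) (P j) (s j) (u j)).R (x 0) (x 1)))|)
  have e2 := Sys.tav_smul (S := pS f hfm C hf.cb3.b0 (N j) (M j) (P j) (s j) (u j)) (n := 2)
    (1 / 2) (fun _ x =>
    |(pS f hfm C hf.cb3.b0 (N j) (M j) (P j) (s j) (u j)).R (x 0) (x 1) -
          q (lev b ((pS f hfm C hf.cb3.b0 (N j) (M j) (P j) (s j) (u j)).R (x 0) (x 1)))|)
  have h3 := (abs_le.1 (abs_sub_le_congr h1 e1 e2)).2
  generalize (pS f hfm C hf.cb3.b0 (N j) (M j + 1) (P j) (s j) (u j)).tav (n := 2) (fun _ x =>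
        |(pS f hfm C hf.cb3.b0 (N j) (M j) (P j) (s j) (u j)).R (x 0) (x 1) -
          q (lev b ((pS f hfm C hf.cb3.b0 (N j) (M j) (P j) (s j) (u j)).R (x 0) (x 1)))|) = A at *
  generalize (pS f hfm C hf.cb3.b0 (N j) (M j) (P j) (s j) (u j)).tav (n := 2) (fun _ x =>
        |(pS f hfm C hf.cb3.b0 (N j) (M j) (P j) (s j) (u j)).R (x 0) (x 1) -
          q (lev b ((pS f hfm C hf.cb3.b0 (N j) (M j) (P j) (s j) (u j)).R (x 0) (x 1)))|) = A' at *
  linarith only [h3, h2]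

include hα in
/-- The kernel of the rescaling. -/
theorem kerClose_ker2 {U : Ultrafilter ℕ} {N M P : ℕ → ℕ} {s : ℕ → ℝ} {u : ∀ j, Fin (P j) → ℝ}
    (hs : SeqOK f hfm C hf.cb3.b0 α U N M P s u) {k : ℕ} {b : Fin k → ℝ}
    {w : Fin (k + 1) → ℝ} {q : ℕ → ℝ} {ε : ℝ}
    (hm : Mesh U (fun j => pS f hfm C hf.cb3.b0 (N j) (M j) (P j) (s j) (u j)) b w q ε)
    {ε' B : ℝ} (h1 : KerClose U
        (fun j => pS f hfm C hf.cb3.b0 (N j) (M j + 1) (P j) (s j) (u j)) b
        (cut (incr (stop k (rr α (fun x => Real.exp (f x) / c₀) f1 k w q))) k)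
        (α * ov (fun x => Real.exp (f x) / c₀) (fun y => f1 y ^ 2) k w q -
          rr α (fun x => Real.exp (f x) / c₀) f1 k w q k) ε' B
        (fun j t x => ker1 (1 / ((N j : ℝ) + 2)) f1 t x)) {ε₂ : ℝ}
    (hlt : ε' + α * C ^ 2 * ε < ε₂) : ∃ B,
      KerClose U (fun j => pS f hfm C hf.cb3.b0 (N j) (M j + 1) (P j) (s j) (u j)) b
        (cut (incr (stop k fun l => rr α (fun x => Real.exp (f x) / c₀) f1 k w q l * q l)) k)
        (α * ov (fun x => Real.exp (f x) / c₀) (fun y => f1 y ^ 2) k w q -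
          rr α (fun x => Real.exp (f x) / c₀) f1 k w q k * q k) ε₂ B
        (fun j t x => ker2 (1 / ((N j : ℝ) + 2)) f1 t x) := by
  obtain ⟨g', g'', hg⟩ := hf.cf1
  obtain ⟨A, hA⟩ := hs.hb
  have hC0 : 0 ≤ C := (abs_nonneg _).trans (hf.cb3.b0 0)
  have hδ : ∀ j, (0 : ℝ) ≤ 1 / ((N j : ℝ) + 2) := fun j => by (clear * -; positivity)
  have hbd : ∀ j t x, ∑ i, ker2 (M := M j + 1) (N := N j) (1 / ((N j : ℝ) + 2)) f1 t x i ^ 2 ≤
      A * C ^ 2 := by
    intro j t x
    refine (sum_ker2_sq (hδ j) hf.cb3.b1 t x).trans ?_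
    apply mul_le_mul_of_nonneg_right _ (sq_nonneg C)
    refine le_trans (le_of_eq ?_) (hA j)
    push_cast
    ring
  have hbd1 : ∀ j t x, ∑ i, ker1 (M := M j + 1) (N := N j) (1 / ((N j : ℝ) + 2)) f1 t x i ^ 2 ≤
      A * C ^ 2 := by
    intro j t x
    refine (sum_ker1_sq (hδ j) hf.cb3.b1 t x).trans ?_
    apply mul_le_mul_of_nonneg_right _ (sq_nonneg C)
    refine le_trans (le_of_eq ?_) (hA j)
    push_cast
    ring
  have hgm1 : ∀ j x y, Measurable fun t : Fin (M j + 1) → Fin (N j + 1) → ℝ =>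
      gram (ker1 (1 / ((N j : ℝ) + 2)) f1 t) (ker1 (1 / ((N j : ℝ) + 2)) f1 t) x y := by
    intro j x y
    simp only [gram_ker1 (hδ j)]
    exact addF_meas _ hg.cont.measurable _
  have hgm2 : ∀ j x y, Measurable fun t : Fin (M j + 1) → Fin (N j + 1) → ℝ =>
      gram (ker2 (1 / ((N j : ℝ) + 2)) f1 t) (ker2 (1 / ((N j : ℝ) + 2)) f1 t) x y := by
    intro j x y
    simp only [gram_ker2]
    exact (hgm1 j x y).mul_const _
  have hrn := fun l : Fin (k + 1) => rr_nonneg (α := α) hf hα hm.lim.wpos q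
    (l := l) (by omega)
  have hrl := fun l : Fin (k + 1) => rr_le (α := α) hf hα hm.lim.wpos q (l := l) (by omega)
  have hq0 : ∀ l : Fin (k + 1), |q l| ≤ 1 := by
    intro l
    have h1 := path_mono hm.path.2 0 l (Nat.zero_le _) (by omega)
    have h2 := path_mono hm.path.2 l k (by omega) le_rfl
    rw [abs_of_nonneg (hm.path.1.trans h1)]
    exact h2.trans hm.le1
  set r := rr α (fun x => Real.exp (f x) / c₀) f1 k w q with hr
  set ν := ε₂ - ε' - α * C ^ 2 * ε with hν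
  have hν0 : 0 < ν := by linarith only [hlt]
  have hαC : 0 ≤ α * C ^ 2 := by (clear * - hα; positivity)
  refine ⟨A * C ^ 2, fun j x c => ?_, hbd, ?_, ?_⟩
  · unfold ker2
    refine ((hg.cont.measurable.comp ?_).const_mul _).mul_const _
    unfold cubeS
    fun_prop
  · filter_upwards [h1.off, off_succ hf hfm hs hm (ν / (α * C ^ 2 + 1)) (by (clear * - hν0 hα; positivity))]
      with j h2 h3
    simp only [cumul_incr] at h2 ⊢
    have hρ : ∀ (t : Fin (M j + 1) → Fin (N j + 1) → ℝ) (x y : Fin (N j + 1) → Bool),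
        |gram (ker1 (1 / ((N j : ℝ) + 2)) f1 t) (ker1 (1 / ((N j : ℝ) + 2)) f1 t) x y| ≤
          A * C ^ 2 := fun t x y => abs_gram_le (hbd1 j t) x y
    have hρ2 : ∀ (t : Fin (M j + 1) → Fin (N j + 1) → ℝ) (x y : Fin (N j + 1) → Bool),
        |gram (ker2 (1 / ((N j : ℝ) + 2)) f1 t) (ker2 (1 / ((N j : ℝ) + 2)) f1 t) x y| ≤
          A * C ^ 2 := fun t x y => abs_gram_le (hbd j t) x y
    have hpt : ∀ (t : Fin (M j + 1) → Fin (N j + 1) → ℝ) (x : Fin 2 → Fin (N j + 1) → Bool),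
        |gram (ker2 (1 / ((N j : ℝ) + 2)) f1 t) (ker2 (1 / ((N j : ℝ) + 2)) f1 t) (x 0) (x 1) -
          r (lev b ((pS f hfm C hf.cb3.b0 (N j) (M j) (P j) (s j) (u j)).R (x 0) (x 1))) *
          q (lev b ((pS f hfm C hf.cb3.b0 (N j) (M j) (P j) (s j) (u j)).R (x 0) (x 1)))| ≤
        |gram (ker1 (1 / ((N j : ℝ) + 2)) f1 t) (ker1 (1 / ((N j : ℝ) + 2)) f1 t) (x 0) (x 1) -
          r (lev b ((pS f hfm C hf.cb3.b0 (N j) (M j) (P j) (s j) (u j)).R (x 0) (x 1)))| +
        α * C ^ 2 * |(pS f hfm C hf.cb3.b0 (N j) (M j) (P j) (s j) (u j)).R (x 0) (x 1) -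
          q (lev b ((pS f hfm C hf.cb3.b0 (N j) (M j) (P j) (s j) (u j)).R (x 0) (x 1)))| := by
      intro t x
      have e1 := pS_R hfm C hf.cb3.b0 (N j) (M j) (P j) (s j) (u j) (x 0) (x 1)
      rw [gram_ker2, ← e1]
      set R := (pS f hfm C hf.cb3.b0 (N j) (M j) (P j) (s j) (u j)).R (x 0) (x 1) with hR
      set ρ := gram (ker1 (1 / ((N j : ℝ) + 2)) f1 t) (ker1 (1 / ((N j : ℝ) + 2)) f1 t) (x 0)
        (x 1) with hρd
      have e2 : ρ * R - r (lev b R) * q (lev b R) =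
          (ρ - r (lev b R)) * R + r (lev b R) * (R - q (lev b R)) := by ring
      rw [e2]
      refine (abs_add_le _ _).trans (add_le_add ?_ ?_)
      · rw [abs_mul]
        exact mul_le_of_le_one_right (abs_nonneg _)
          (pS_R_abs hfm C hf.cb3.b0 (N j) (M j) (P j) (s j) (u j) (x 0) (x 1))
      · rw [abs_mul, abs_of_nonneg (hrn _)]
        exact mul_le_mul_of_nonneg_right (hrl _) (abs_nonneg _)
    have b1 : Sys.Bdd (pS f hfm C hf.cb3.b0 (N j) (M j + 1) (P j) (s j) (u j)) (n := 2)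
        (fun t x => |gram (ker2 (1 / ((N j : ℝ) + 2)) f1 t) (ker2 (1 / ((N j : ℝ) + 2)) f1 t)
          (x 0) (x 1) -
          r (lev b ((pS f hfm C hf.cb3.b0 (N j) (M j) (P j) (s j) (u j)).R (x 0) (x 1))) *
          q (lev b ((pS f hfm C hf.cb3.b0 (N j) (M j) (P j) (s j) (u j)).R (x 0) (x 1)))|)
        (A * C ^ 2 + α * C ^ 2) :=
      ⟨fun x => ((hgm2 j _ _).sub_const _).abs, fun t x => by
        rw [abs_abs]
        refine (abs_sub _ _).trans (add_le_add (hρ2 t _ _) ?_)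
        rw [abs_mul, abs_of_nonneg (hrn _)]
        calc _ ≤ (α * C ^ 2) * 1 := mul_le_mul (hrl _) (hq0 _) (abs_nonneg _) hαC
          _ = _ := mul_one _⟩
    have b2 : Sys.Bdd (pS f hfm C hf.cb3.b0 (N j) (M j + 1) (P j) (s j) (u j)) (n := 2)
        (fun t x => |gram (ker1 (1 / ((N j : ℝ) + 2)) f1 t) (ker1 (1 / ((N j : ℝ) + 2)) f1 t)
          (x 0) (x 1) -
          r (lev b ((pS f hfm C hf.cb3.b0 (N j) (M j) (P j) (s j) (u j)).R (x 0) (x 1)))|)
        (A * C ^ 2 + α * C ^ 2) :=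
      ⟨fun x => ((hgm1 j _ _).sub_const _).abs, fun t x => by
        rw [abs_abs]
        refine (abs_sub _ _).trans (add_le_add (hρ t _ _) ?_)
        rw [abs_of_nonneg (hrn _)]
        exact hrl _⟩
    have b3 : Sys.Bdd (pS f hfm C hf.cb3.b0 (N j) (M j + 1) (P j) (s j) (u j)) (n := 2)
        (fun _ x => α * C ^ 2 *
          |(pS f hfm C hf.cb3.b0 (N j) (M j) (P j) (s j) (u j)).R (x 0) (x 1) -
          q (lev b ((pS f hfm C hf.cb3.b0 (N j) (M j) (P j) (s j) (u j)).R (x 0) (x 1)))|)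
        (α * C ^ 2 * 2) :=
      ⟨fun x => measurable_const, fun t x => by
        rw [abs_mul, abs_abs, abs_of_nonneg hαC]
        apply mul_le_mul_of_nonneg_left _ hαC
        have h2 := pS_R_abs hfm C hf.cb3.b0 (N j) (M j) (P j) (s j) (u j) (x 0) (x 1)
        have h3 := abs_sub ((pS f hfm C hf.cb3.b0 (N j) (M j) (P j) (s j) (u j)).R (x 0) (x 1))
          (q (lev b ((pS f hfm C hf.cb3.b0 (N j) (M j) (P j) (s j) (u j)).R (x 0) (x 1))))
        have h4 := hq0 (lev b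
          ((pS f hfm C hf.cb3.b0 (N j) (M j) (P j) (s j) (u j)).R (x 0) (x 1)))
        linarith only [h2, h3, h4]⟩
    have b4 : Sys.Bdd (pS f hfm C hf.cb3.b0 (N j) (M j + 1) (P j) (s j) (u j)) (n := 2)
        (fun t x => |gram (ker1 (1 / ((N j : ℝ) + 2)) f1 t) (ker1 (1 / ((N j : ℝ) + 2)) f1 t)
          (x 0) (x 1) -
          r (lev b ((pS f hfm C hf.cb3.b0 (N j) (M j) (P j) (s j) (u j)).R (x 0) (x 1)))| +
          α * C ^ 2 *
          |(pS f hfm C hf.cb3.b0 (N j) (M j) (P j) (s j) (u j)).R (x 0) (x 1) -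
          q (lev b ((pS f hfm C hf.cb3.b0 (N j) (M j) (P j) (s j) (u j)).R (x 0) (x 1)))|)
        (A * C ^ 2 + α * C ^ 2 + α * C ^ 2 * 2) :=
      ⟨fun x => (b2.meas x).add (b3.meas x), fun t x =>
        (abs_add_le _ _).trans (add_le_add (b2.bdd t x) (b3.bdd t x))⟩
    have h4 := Sys.tav_mono b1 b4 hpt
    have h5 := Sys.tav_add b2 b3
    have h6 := Sys.tav_smul (S := pS f hfm C hf.cb3.b0 (N j) (M j + 1) (P j) (s j) (u j))
      (n := 2) (α * C ^ 2) (fun _ x =>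
          |(pS f hfm C hf.cb3.b0 (N j) (M j) (P j) (s j) (u j)).R (x 0) (x 1) -
          q (lev b ((pS f hfm C hf.cb3.b0 (N j) (M j) (P j) (s j) (u j)).R (x 0) (x 1)))|)
    have h7 : α * C ^ 2 * (ε + ν / (α * C ^ 2 + 1)) ≤ α * C ^ 2 * ε + ν := by
      have : α * C ^ 2 * (ν / (α * C ^ 2 + 1)) ≤ ν := by
        rw [← mul_div_assoc, div_le_iff₀ (by (clear * - hα; positivity))]
        linarith only [hlt]
      linarith only [this]
    have h8 := mul_le_mul_of_nonneg_left h3 hαC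
    exact (h4.trans (le_of_eq (h5.trans (congrArg₂ (· + ·) rfl h6)))).trans
      ((add_le_add h2 h8).trans (by linarith only [h7]))
  · filter_upwards [h1.diag] with j h2
    have hν1 : 0 ≤ α * C ^ 2 * ε := mul_nonneg hαC hm.eps
    refine le_trans (le_of_eq ?_) (h2.trans (by linarith only [hlt, hν1]))
    simp only [cumul_incr, Fin.val_last]
    refine Sys.tav_congr fun t x => ?_
    have e1 : gram (ker2 (1 / ((N j : ℝ) + 2)) f1 t) (ker2 (1 / ((N j : ℝ) + 2)) f1 t) (x 0)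
        (x 0) = gram (ker1 (1 / ((N j : ℝ) + 2)) f1 t) (ker1 (1 / ((N j : ℝ) + 2)) f1 t) (x 0)
        (x 0) := by
      refine (gram_ker2 _ f1 t (x 0) (x 0)).trans ?_
      have h3 : ∑ i, cubeφ (N j) (x 0) i * cubeφ (N j) (x 0) i = 1 := by
        rw [← Cube.sum_cubeφ_sq (N j) (x 0)]
        exact Finset.sum_congr rfl fun i _ => by ring
      rw [h3, mul_one]
    have e2 : r k * q k + (α * ov (fun x => Real.exp (f x) / c₀) (fun y => f1 y ^ 2) k w q -
          r k * q k) = r k + (α * ov (fun x => Real.exp (f x) / c₀) (fun y => f1 y ^ 2) k w q -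
          r k) := by ring
    rw [e2]
    exact congrArg (fun y => |y - (r k + (α * ov (fun x => Real.exp (f x) / c₀)
      (fun y => f1 y ^ 2) k w q - r k))|) e1

end

end Vale.Agent.P157.Par
end

section

open MeasureTheory ProbabilityTheory Filter Topology Finset

namespace Vale.Agent.P157.Par

set_option linter.unusedSectionVars false

open Vale.Agent.P367.GT (gM)

/-! ### Stopped paths -/

lemma cascade_congr (m : ℕ → ℝ) {q q' : ℕ → ℝ} {k : ℕ} (h : ∀ l ≤ k, q l = q' l) :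
    ∀ F, cascade m q k F = cascade m q' k F := by
  induction k with
  | zero => intro F; rfl
  | succ k ih =>
    intro F
    rw [cascade, cascade, h (k + 1) le_rfl, h k (by omega)]
    exact ih (fun l hl => h l (by omega)) _

lemma patternPart_congr (f : ℝ → ℝ) {k : ℕ} (m : ℕ → ℝ) {q q' : ℕ → ℝ} (h : ∀ l ≤ k, q l = q' l) :
    patternPart f k m q = patternPart f k m q' := by
  unfold patternPart
  rw [cascade_congr m h, h k le_rfl, h 0 (Nat.zero_le k)]

lemma abel (m x : ℕ → ℝ) (k : ℕ) :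
    ∑ l ∈ Finset.range (k + 1), (m (l + 1) - m l) * x l =
      m (k + 1) * x k - m 0 * x 0 - ∑ l ∈ Finset.range k, m (l + 1) * (x (l + 1) - x l) := by
  induction k with
  | zero => simp only [zero_add, range_one, sum_singleton, range_zero, sum_empty, sub_zero]; ring
  | succ k ih =>
    rw [Finset.sum_range_succ, ih, Finset.sum_range_succ (n := k)]
    ring

section

variable {C c₀ a : ℝ} {f f1 f2 f3 : ℝ → ℝ} (hf : Pot C c₀ a f f1 f2 f3) (hfm : Measurable f)

/-- The increment for one more pattern. -/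
theorem dM_lim : ∃ D : ℝ, 0 ≤ D ∧
    ∀ (U : Ultrafilter ℕ) (N M P : ℕ → ℕ) (s : ℕ → ℝ) (u : ∀ j, Fin (P j) → ℝ)
    (k : ℕ) (b : Fin k → ℝ) (w : Fin (k + 1) → ℝ) (q : ℕ → ℝ) (ε : ℝ),
      Mesh U (fun j => pS f hfm C hf.cb3.b0 (N j) (M j) (P j) (s j) (u j)) b w q ε → ∀ η > 0,
      ∀ᶠ j in (U : Filter ℕ),
        |(pS f hfm C hf.cb3.b0 (N j) (M j) (P j) (s j) (u j)).dM f -
          patternPart f k (mOf w) q| ≤ D * ε + η := by
  obtain ⟨W', W'', hW⟩ := hf.cb2W
  obtain ⟨C1, hC1, hC1'⟩ := exists_SB hW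
  set α := max (1 - a) (1 / 2) with hα
  have hα1 : α < 1 := max_lt (by linarith only [hf.a0]) (by norm_num)
  have hα0 : 0 < α := lt_of_lt_of_le (by norm_num) (le_max_right _ _)
  refine ⟨Dl C1 α, tsum_nonneg fun n => by positivity, ?_⟩
  intro U N M P s u k b w q ε hm η hη
  have hker := kerClose_phi (q := q) hm.eps hm.off
  have h1 := trans_log hm.lim (m := mOf w) (v := incr (stop k q)) (incr_stop_nonneg hm.path)
    (fun l hl _ => mOf_pos hm.lim.wpos hl) (fun l => up_eq_mOf hm.lim.wsum l)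
    (sub_nonneg.2 hm.le1) hm.eps hker hC1 hf.a0 (le_max_left (1 - a) (1 / 2)) hα0 hα1
    hC1' hf.Wa hf.W1 η hη
  have h2 : patternPart f k (mOf w) q = Real.log c₀ +
      ∫ z, Real.log (lvW (mOf w) (incr (stop k q)) k
        (topW (1 - q k) (fun x => Real.exp (f x) / c₀)) 0
        (√(incr (stop k q) 0) * z)) ∂(gaussianReal 0 1) := by
    rw [patternPart_congr f (mOf w) (q' := stop k q) (fun l hl => (stop_le hl).symm)]
    have h3 := patternPart_eq (m := mOf w) (q := stop k q) (k := k) (f := f)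
      (fun l hl _ => mOf_pos hm.lim.wpos hl) hf.c0 hf.a0 hf.cb2W hf.Wa hf.W1
      (by rw [stop_le le_rfl]; exact hm.le1)
    rw [h3, stop_le le_rfl, ← topW_eq]
  filter_upwards [h1] with j hj
  -- the two forms of the increment
  set S := pS f hfm C hf.cb3.b0 (N j) (M j) (P j) (s j) (u j) with hS
  have h3 : S.dM f = Real.log c₀ + ∫ z : S.Ω × (Fin S.d → ℝ), Real.log
        (∑ x, S.w z.1 x * (Real.exp (f (lin (fun x i => S.φ x i) z.2 x)) / c₀))
          ∂(S.P.prod (gM (Fin S.d))) := by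
    have h4 : ∀ z : S.Ω × (Fin S.d → ℝ), Real.log
        (∑ x, S.w z.1 x * Real.exp (f (∑ i, z.2 i * S.φ x i))) = Real.log c₀ + Real.log
        (∑ x, S.w z.1 x * (Real.exp (f (lin (fun x i => S.φ x i) z.2 x)) / c₀)) := by
      intro z
      have h5 : ∑ x, S.w z.1 x * Real.exp (f (∑ i, z.2 i * S.φ x i)) = c₀ *
          ∑ x, S.w z.1 x * (Real.exp (f (lin (fun x i => S.φ x i) z.2 x)) / c₀) := by
        rw [Finset.mul_sum]
        refine Finset.sum_congr rfl fun x _ => ?_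
        have h6 : lin (fun x i => S.φ x i) z.2 x = ∑ i, z.2 i * S.φ x i := by
          unfold lin
          exact Finset.sum_congr rfl fun i _ => mul_comm _ _
        have hc := hf.c0.ne'
        rw [h6]
        (clear * - hc; field_simp)
      have h7 : 0 < ∑ x, S.w z.1 x * (Real.exp (f (lin (fun x i => S.φ x i) z.2 x)) / c₀) := by
        have h8 : a * ∑ x, S.w z.1 x ≤
            ∑ x, S.w z.1 x * (Real.exp (f (lin (fun x i => S.φ x i) z.2 x)) / c₀) := by
          rw [Finset.mul_sum]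
          refine Finset.sum_le_sum fun x _ => ?_
          rw [mul_comm a]
          exact mul_le_mul_of_nonneg_left (hf.Wa _) (S.w0 _ _)
        rw [S.w1, mul_one] at h8
        exact hf.a0.trans_le h8
      rw [h5, Real.log_mul hf.c0.ne' h7.ne']
    unfold Sys.dM
    simp only [h4]
    have h9 : Integrable (fun z : S.Ω × (Fin S.d → ℝ) => Real.log
        (∑ x, S.w z.1 x * (Real.exp (f (lin (fun x i => S.φ x i) z.2 x)) / c₀)))
        (S.P.prod (gM (Fin S.d))) := by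
      have hmem : ∀ z : S.Ω × (Fin S.d → ℝ),
          a ≤ ∑ x, S.w z.1 x * (Real.exp (f (lin (fun x i => S.φ x i) z.2 x)) / c₀) ∧
          ∑ x, S.w z.1 x * (Real.exp (f (lin (fun x i => S.φ x i) z.2 x)) / c₀) ≤ 1 := by
        intro z
        constructor
        · calc a = ∑ x, S.w z.1 x * a := by rw [← Finset.sum_mul, S.w1, one_mul]
            _ ≤ _ := Finset.sum_le_sum fun x _ =>
              mul_le_mul_of_nonneg_left (hf.Wa _) (S.w0 _ _)
        · calc _ ≤ ∑ x, S.w z.1 x * 1 := Finset.sum_le_sum fun x _ =>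
              mul_le_mul_of_nonneg_left (hf.W1 _) (S.w0 _ _)
            _ = 1 := by rw [← Finset.sum_mul, S.w1, one_mul]
      refine Integrable.of_bound (C := -Real.log a) ?_ (Eventually.of_forall fun z => ?_)
      · apply Measurable.aestronglyMeasurable
        apply Real.measurable_log.comp
        apply Finset.measurable_sum
        intro x _
        refine ((S.hw x).comp measurable_fst).mul ?_
        refine ((Real.measurable_exp.comp (hfm.comp ?_)).div_const _)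
        unfold lin
        fun_prop
      · rw [Real.norm_eq_abs, abs_le]
        obtain ⟨h10, h11⟩ := hmem z
        have h12 := Real.log_le_log hf.a0 h10
        have h13 := Real.log_nonpos (hf.a0.le.trans h10) h11
        constructor
        · linarith only [h12]
        · linarith only [h12, h13]
    rw [integral_add (integrable_const _) h9]
    simp only [integral_const, probReal_univ, smul_eq_mul, one_mul]
  rw [h2, h3]
  have e1 : ∀ X Y Z : ℝ, X + Y - (X + Z) = Y - Z := fun X Y Z => by ring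
  rw [e1]
  exact hj

end

end Vale.Agent.P157.Par
end

section

/-! Exponential moments of `∑ |S_a|` under the perceptron Gibbs measure. -/

open MeasureTheory ProbabilityTheory Filter Topology

namespace Vale.Agent.P157.Par

open Vale.Agent.P367.GT (gM)

lemma expm_gauss : ∫ z, Real.exp (1 / 4 * z ^ 2) ∂(gaussianReal 0 1) = √2 := by
  rw [integral_gaussianReal_eq_integral_smul one_ne_zero]
  have h1 : ∀ x : ℝ, gaussianPDFReal 0 1 x • Real.exp (1 / 4 * x ^ 2) =
      (√(2 * Real.pi))⁻¹ * Real.exp (-(1 / 4) * x ^ 2) := by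
    intro x
    rw [gaussianPDFReal_def]
    simp only [NNReal.coe_one, mul_one, sub_zero, smul_eq_mul]
    rw [mul_assoc, ← Real.exp_add]
    congr 2
    ring
  simp_rw [h1]
  rw [integral_const_mul, integral_gaussian]
  have h2 : Real.pi / (1 / 4) = 2 * (2 * Real.pi) := by ring
  rw [h2, Real.sqrt_mul (by norm_num) (2 * Real.pi)]
  have h3 : √(2 * Real.pi) ≠ 0 := (Real.sqrt_pos.2 (by positivity)).ne'
  field_simp

lemma expm_field (N : ℕ) (x : Fin (N + 1) → Bool) :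
    ∫ g : Fin (N + 1) → ℝ, Real.exp (1 / 4 * cubeS g x ^ 2) ∂(gM (Fin (N + 1))) = √2 := by
  have h := integral_lin_congr (J := Unit) (U := fun (_ : Unit) (i : Fin (N + 1)) => cubeφ N x i)
    (V := fun (_ : Unit) (_ : Unit) => (1 : ℝ)) (F := fun z => Real.exp (1 / 4 * z () ^ 2))
    (by
      intro a b
      unfold gram
      have h1 : ∀ i, cubeφ N x i * cubeφ N x i = 1 / ((N : ℝ) + 1) := fun i => by
        rw [← sq, cubeφ_sq]
      simp only [h1]
      simp only [Finset.sum_const, Finset.card_univ, Fintype.card_fin, nsmul_eq_mul, mul_one,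
        Fintype.card_unit, Nat.cast_one]
      push_cast
      field_simp) (by fun_prop)
  have h2 : ∀ g : Fin (N + 1) → ℝ, lin (fun (_ : Unit) (i : Fin (N + 1)) => cubeφ N x i) g () =
      cubeS g x := by
    intro g
    unfold lin cubeS
    exact Finset.sum_congr rfl fun i _ => mul_comm _ _
  have h3 : ∀ g : Unit → ℝ, lin (fun (_ : Unit) (_ : Unit) => (1 : ℝ)) g () = g () := by
    intro g
    unfold lin
    simp
  simp only [h2, h3] at h
  rw [h]
  have ev : MeasurePreserving (fun η : Unit → ℝ => η ()) (gM Unit) (gaussianReal 0 1) :=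
    measurePreserving_eval (fun _ : Unit => gaussianReal 0 1) ()
  have h4 := ev.integral_comp' (f := MeasurableEquiv.funUnique Unit ℝ)
    (g := fun z => Real.exp (1 / 4 * z ^ 2))
  rw [← expm_gauss]
  exact h4

lemma expm_prod (N M : ℕ) (x : Fin (N + 1) → Bool) :
    ∫ t : Fin M → Fin (N + 1) → ℝ, Real.exp (1 / 4 * ∑ a, cubeS (t a) x ^ 2)
      ∂(Measure.pi fun _ => gM (Fin (N + 1))) = √2 ^ M := by
  have e1 : ∀ t : Fin M → Fin (N + 1) → ℝ, Real.exp (1 / 4 * ∑ a, cubeS (t a) x ^ 2) =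
      ∏ a, Real.exp (1 / 4 * cubeS (t a) x ^ 2) := by
    intro t
    rw [← Real.exp_sum, Finset.mul_sum]
  simp_rw [e1]
  rw [integral_fintype_prod_eq_prod (μ := fun _ : Fin M => gM (Fin (N + 1)))
    (f := fun _ (g : Fin (N + 1) → ℝ) => Real.exp (1 / 4 * cubeS g x ^ 2))]
  simp_rw [expm_field]
  rw [Finset.prod_const, Finset.card_univ, Fintype.card_fin]

lemma expm_prod_int (N M : ℕ) (x : Fin (N + 1) → Bool) :
    Integrable (fun t : Fin M → Fin (N + 1) → ℝ => Real.exp (1 / 4 * ∑ a, cubeS (t a) x ^ 2))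
      (Measure.pi fun _ => gM (Fin (N + 1))) := by
  by_contra h
  have h1 := expm_prod N M x
  rw [integral_undef h] at h1
  have h2 : (0 : ℝ) < √2 ^ M := by (clear * -; positivity)
  exact h2.ne h1

/-- The exponential partition function. -/
noncomputable def expmZ (N M : ℕ) (t : Fin M → Fin (N + 1) → ℝ) : ℝ :=
  ∑ x : Fin (N + 1) → Bool, Real.exp (1 / 4 * ∑ a, cubeS (t a) x ^ 2)

/-- Its mean. -/
noncomputable def expmA (N M : ℕ) : ℝ := 2 ^ (N + 1) * √2 ^ M

lemma expmA_pos (N M : ℕ) : 0 < expmA N M := by unfold expmA; positivity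

lemma expmZ_nonneg (N M : ℕ) (t : Fin M → Fin (N + 1) → ℝ) : 0 ≤ expmZ N M t :=
  Finset.sum_nonneg fun _ _ => (Real.exp_pos _).le

lemma expmZ_int (N M : ℕ) : Integrable (expmZ N M) (Measure.pi fun _ => gM (Fin (N + 1))) :=
  integrable_finsetSum _ fun x _ => expm_prod_int N M x

lemma expmZ_integral (N M : ℕ) :
    ∫ t, expmZ N M t ∂(Measure.pi fun _ => gM (Fin (N + 1))) = expmA N M := by
  unfold expmZ expmA
  rw [integral_finsetSum _ fun x _ => expm_prod_int N M x]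
  simp_rw [expm_prod]
  rw [Finset.sum_const, Finset.card_univ, Fintype.card_fun, Fintype.card_bool, Fintype.card_fin,
    nsmul_eq_mul]
  push_cast
  rfl

/-- The dominating function. -/
noncomputable def expmB (N M : ℕ) (K : ℝ) (t : Fin M → Fin (N + 1) → ℝ) : ℝ :=
  K * (1 + 1 / ((N : ℝ) + 2) * (expmZ N M t / expmA N M - 1))

lemma expmB_int (N M : ℕ) (K : ℝ) :
    Integrable (expmB N M K) (Measure.pi fun _ => gM (Fin (N + 1))) := by
  unfold expmB
  exact ((integrable_const _).add ((((expmZ_int N M).div_const _).sub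
    (integrable_const _)).const_mul _)).const_mul _

lemma expmB_integral (N M : ℕ) (K : ℝ) :
    ∫ t, expmB N M K t ∂(Measure.pi fun _ => gM (Fin (N + 1))) = K := by
  unfold expmB
  have hi : Integrable (fun t => expmZ N M t / expmA N M - 1)
      (Measure.pi fun _ => gM (Fin (N + 1))) :=
    ((expmZ_int N M).div_const _).sub (integrable_const _)
  rw [integral_const_mul, integral_add (integrable_const _) (hi.const_mul _), integral_const_mul,
    integral_sub ((expmZ_int N M).div_const _) (integrable_const _), integral_div, expmZ_integral,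
    div_self (expmA_pos N M).ne']
  simp

/-- The power of the mean. -/
lemma expmA_rpow {α : ℝ} (N M : ℕ) (hM : (M : ℝ) ≤ (α + 1) * (N + 2)) :
    expmA N M ^ (1 / ((N : ℝ) + 2)) ≤ 2 ^ (1 + (α + 1) / 2) := by
  have h1 : expmA N M = (2 : ℝ) ^ (((N : ℝ) + 1) + (M : ℝ) / 2) := by
    unfold expmA
    rw [Real.rpow_add (by norm_num), Real.sqrt_eq_rpow, ← Real.rpow_mul_natCast (by norm_num)]
    congr 1
    · rw [← Real.rpow_natCast]
      push_cast
      rfl
    · congr 1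
      ring
  rw [h1, ← Real.rpow_mul (by norm_num)]
  refine Real.rpow_le_rpow_of_exponent_le (by norm_num) ?_
  rw [mul_one_div, div_le_iff₀ (by (clear * -; positivity))]
  linarith only [hM]

/-- The pointwise bound. -/
lemma expm_le {α c : ℝ} (N M : ℕ) (hM : (M : ℝ) ≤ (α + 1) * (N + 2))
    (t : Fin M → Fin (N + 1) → ℝ) (x : Fin (N + 1) → Bool) :
    Real.exp (c * (1 / ((N : ℝ) + 2) * ∑ a, |cubeS (t a) x|)) ≤
      expmB N M (Real.exp ((α + 1) * c ^ 2) * 2 ^ (1 + (α + 1) / 2)) t := by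
  set d : ℝ := 1 / ((N : ℝ) + 2) with hd
  have hd0 : 0 < d := by rw [hd]; (clear * -; positivity)
  have hd1 : d ≤ 1 := by
    rw [hd, div_le_one (by positivity)]
    have : (0 : ℝ) ≤ N := Nat.cast_nonneg N
    linarith only []
  set Q : ℝ := 1 / 4 * ∑ a, cubeS (t a) x ^ 2 with hQ
  have hA := expmA_pos N M
  have hZ : Real.exp Q ≤ expmZ N M t :=
    Finset.single_le_sum (f := fun x => Real.exp (1 / 4 * ∑ a, cubeS (t a) x ^ 2))
      (fun y _ => (Real.exp_pos _).le) (Finset.mem_univ x)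
  have hZ0 : 0 ≤ expmZ N M t := expmZ_nonneg N M t
  have h1 : c * (d * ∑ a, |cubeS (t a) x|) ≤ (α + 1) * c ^ 2 + d * Q := by
    have h2 : c * ∑ a, |cubeS (t a) x| ≤ Q + M * c ^ 2 := by
      rw [hQ, Finset.mul_sum, Finset.mul_sum]
      have h3 : ∀ a ∈ (Finset.univ : Finset (Fin M)), c * |cubeS (t a) x| ≤
          1 / 4 * cubeS (t a) x ^ 2 + c ^ 2 := by
        intro a _
        linarith only [sq_abs (cubeS (t a) x), sq_nonneg (1 / 2 * |cubeS (t a) x| - c)]
      refine (Finset.sum_le_sum h3).trans (le_of_eq ?_)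
      rw [Finset.sum_add_distrib, Finset.sum_const, Finset.card_univ, Fintype.card_fin,
        nsmul_eq_mul]
    have h4 : d * M ≤ α + 1 := by
      rw [hd, one_div_mul_eq_div, div_le_iff₀ (by (clear * -; positivity))]
      exact hM
    have h5 := mul_le_mul_of_nonneg_left h2 hd0.le
    have h6 := mul_le_mul_of_nonneg_right h4 (sq_nonneg c)
    linarith only [h5, h6]
  have h2 : Real.exp (c * (d * ∑ a, |cubeS (t a) x|)) ≤
      Real.exp ((α + 1) * c ^ 2) * expmZ N M t ^ d := by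
    refine (Real.exp_le_exp.2 h1).trans ?_
    rw [Real.exp_add]
    refine mul_le_mul_of_nonneg_left ?_ (Real.exp_pos _).le
    have h3 := Real.rpow_le_rpow (Real.exp_pos Q).le hZ hd0.le
    rw [← Real.exp_mul] at h3
    rwa [mul_comm d Q]
  have h3 : expmZ N M t ^ d ≤ expmA N M ^ d * (1 + d * (expmZ N M t / expmA N M - 1)) := by
    have h4 := rpow_one_add_le_one_add_mul_self (s := expmZ N M t / expmA N M - 1)
      (by have := div_nonneg hZ0 hA.le; linarith only [this]) hd0.le hd1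
    rw [add_sub_cancel, Real.div_rpow hZ0 hA.le] at h4
    rw [div_le_iff₀ (Real.rpow_pos_of_pos hA d)] at h4
    rw [mul_comm]
    exact h4
  have hn : 0 ≤ 1 + d * (expmZ N M t / expmA N M - 1) := by
    have h4 : 0 ≤ d * (expmZ N M t / expmA N M) := mul_nonneg hd0.le (div_nonneg hZ0 hA.le)
    linarith only [hd1, h4]
  have h4 := expmA_rpow (α := α) N M hM
  rw [← hd] at h4
  unfold expmB
  rw [← hd]
  calc Real.exp (c * (d * ∑ a, |cubeS (t a) x|))
      ≤ Real.exp ((α + 1) * c ^ 2) * expmZ N M t ^ d := h2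
    _ ≤ Real.exp ((α + 1) * c ^ 2) *
        (expmA N M ^ d * (1 + d * (expmZ N M t / expmA N M - 1))) :=
        mul_le_mul_of_nonneg_left h3 (Real.exp_pos _).le
    _ ≤ Real.exp ((α + 1) * c ^ 2) *
        (2 ^ (1 + (α + 1) / 2) * (1 + d * (expmZ N M t / expmA N M - 1))) :=
        mul_le_mul_of_nonneg_left (mul_le_mul_of_nonneg_right h4 hn) (Real.exp_pos _).le
    _ = _ := by rw [mul_assoc]

/-- Exponential moments of the additive functionals with linear growth. -/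
theorem exp_moment {f : ℝ → ℝ} (hf : Measurable f) (C : ℝ) (hC : ∀ x, |f x| ≤ C) (α c : ℝ)
    (hc : 0 ≤ c) :
    ∃ K : ℝ, ∀ (N M P : ℕ) (s : ℝ) (u : Fin P → ℝ), (M : ℝ) ≤ (α + 1) * (N + 2) →
      (∀ x : Fin 1 → Fin (N + 1) → Bool, Integrable (fun ω : (Fin M → Fin (N + 1) → ℝ) ×
        (GI P (N + 1) → ℝ) => (∏ i, (pS f hf C hC N M P s u).w ω (x i)) *
          Real.exp (c * (1 / ((N : ℝ) + 2) * ∑ a, |cubeS (ω.1 a) (x 0)|)))
        (pS f hf C hC N M P s u).P) ∧
      (pS f hf C hC N M P s u).tav (n := 1) (fun t x =>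
        Real.exp (c * (1 / ((N : ℝ) + 2) * ∑ a, |cubeS (t a) (x 0)|))) ≤ K := by
  refine ⟨Real.exp ((α + 1) * c ^ 2) * 2 ^ (1 + (α + 1) / 2), fun N M P s u hM => ?_⟩
  set K : ℝ := Real.exp ((α + 1) * c ^ 2) * 2 ^ (1 + (α + 1) / 2) with hK
  set S := pS f hf C hC N M P s u with hS
  have hBi' : Integrable (fun ω : (Fin M → Fin (N + 1) → ℝ) × (GI P (N + 1) → ℝ) =>
      expmB N M K ω.1) ((Measure.pi fun _ : Fin M => gM (Fin (N + 1))).prod
        (gM (GI P (N + 1)))) := (expmB_int N M K).comp_fst _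
  have hBi : Integrable (fun ω : (Fin M → Fin (N + 1) → ℝ) × (GI P (N + 1) → ℝ) =>
      expmB N M K ω.1) S.P := hBi'
  have hBe : ∫ ω : (Fin M → Fin (N + 1) → ℝ) × (GI P (N + 1) → ℝ), expmB N M K ω.1 ∂S.P = K := by
    have h1 := integral_fun_fst (μ := Measure.pi fun _ : Fin M => gM (Fin (N + 1)))
      (ν := gM (GI P (N + 1))) (expmB N M K)
    rw [expmB_integral, probReal_univ, one_smul] at h1
    exact h1
  have hw1 : ∀ ω y, S.w ω y ≤ 1 := fun ω y => by
    rw [← S.w1 ω]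
    exact Finset.single_le_sum (f := fun y => S.w ω y) (fun y _ => S.w0 ω y) (Finset.mem_univ y)
  have hp1 : ∀ ω (x : Fin 1 → Fin (N + 1) → Bool), (∏ i, S.w ω (x i)) ≤ 1 := fun ω x =>
    Finset.prod_le_one (fun i _ => S.w0 ω (x i)) fun i _ => hw1 ω (x i)
  have hp0 : ∀ ω (x : Fin 1 → Fin (N + 1) → Bool), 0 ≤ ∏ i, S.w ω (x i) := fun ω x =>
    Finset.prod_nonneg fun i _ => S.w0 ω (x i)
  have hint : ∀ x : Fin 1 → Fin (N + 1) → Bool, Integrable (fun ω : (Fin M → Fin (N + 1) → ℝ) ×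
        (GI P (N + 1) → ℝ) => (∏ i, S.w ω (x i)) *
          Real.exp (c * (1 / ((N : ℝ) + 2) * ∑ a, |cubeS (ω.1 a) (x 0)|))) S.P := by
    intro x
    refine hBi.mono' ?_ ?_
    · have hm1 : Measurable fun ω : (Fin M → Fin (N + 1) → ℝ) × (GI P (N + 1) → ℝ) =>
          ∏ i, S.w ω (x i) := Finset.measurable_prod _ fun i _ => S.hw (x i)
      have hm2 : Measurable fun ω : (Fin M → Fin (N + 1) → ℝ) × (GI P (N + 1) → ℝ) =>
          Real.exp (c * (1 / ((N : ℝ) + 2) * ∑ a, |cubeS (ω.1 a) (x 0)|)) := by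
        unfold cubeS
        (clear * -; fun_prop)
      exact (hm1.mul hm2).aestronglyMeasurable
    · refine Filter.Eventually.of_forall fun ω => ?_
      rw [Real.norm_eq_abs, abs_of_nonneg (mul_nonneg (hp0 ω x) (Real.exp_pos _).le)]
      calc (∏ i, S.w ω (x i)) * Real.exp (c * (1 / ((N : ℝ) + 2) * ∑ a, |cubeS (ω.1 a) (x 0)|))
          ≤ 1 * Real.exp (c * (1 / ((N : ℝ) + 2) * ∑ a, |cubeS (ω.1 a) (x 0)|)) :=
            mul_le_mul_of_nonneg_right (hp1 ω x) (Real.exp_pos _).le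
        _ = Real.exp (c * (1 / ((N : ℝ) + 2) * ∑ a, |cubeS (ω.1 a) (x 0)|)) := one_mul _
        _ ≤ expmB N M K ω.1 := expm_le N M hM ω.1 (x 0)
  refine ⟨hint, ?_⟩
  rw [← hBe]
  refine integral_mono (integrable_finsetSum _ fun x _ => hint x) hBi fun ω => ?_
  have h1 : ∀ x ∈ (Finset.univ : Finset (Fin 1 → Fin (N + 1) → Bool)), (∏ i, S.w ω (x i)) *
      Real.exp (c * (1 / ((N : ℝ) + 2) * ∑ a, |cubeS (ω.1 a) (x 0)|)) ≤
      (∏ i, S.w ω (x i)) * expmB N M K ω.1 := fun x _ =>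
    mul_le_mul_of_nonneg_left (expm_le N M hM ω.1 (x 0)) (hp0 ω x)
  refine (Finset.sum_le_sum h1).trans (le_of_eq ?_)
  rw [← Finset.sum_mul]
  have h2 : ∑ x : Fin 1 → Fin (N + 1) → Bool, ∏ i, S.w ω (x i) = 1 := by
    have h3 := Fintype.sum_pow (fun y : Fin (N + 1) → Bool => S.w ω y) 1
    rw [← h3, pow_one]
    exact S.w1 ω
  rw [h2, one_mul]

end Vale.Agent.P157.Par
end

section

/-! The dual path is Lipschitz in the path (PVL). -/

open MeasureTheory ProbabilityTheory Filter Topology Finset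

namespace Vale.Agent.P157.Par

section

variable {m v a : ℝ} (hm : 0 < m) (ha : 0 < a) {W : ℝ → ℝ} (hWm : Measurable W)
  (hWa : ∀ x, a ≤ W x) (hW1 : ∀ x, W x ≤ 1)

include hm ha hWm hWa hW1

lemma pvl_den_pos (x : ℝ) : 0 < heat (v - 0) (fun y => W y ^ m) x :=
  (Real.rpow_pos_of_pos ha m).trans_le
    (heat_mem_Icc (g := fun y => W y ^ m) (hWm.pow_const m) (pow_mem_Icc hm ha hWa hW1) _ x).1

lemma pvl_mul_int {h : ℝ → ℝ} (hh : Measurable h) {B : ℝ} (hB : ∀ x, |h x| ≤ B) (x : ℝ) :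
    Integrable (fun z => h (x + √(v - 0) * z) * W (x + √(v - 0) * z) ^ m) (gaussianReal 0 1) := by
  have hB0 : 0 ≤ B := (abs_nonneg _).trans (hB 0)
  have hpow := pow_mem_Icc hm ha hWa hW1
  have ham : 0 < a ^ m := Real.rpow_pos_of_pos ha m
  refine integrable_heat (g := fun y => h y * W y ^ m) (hh.mul (hWm.pow_const m)) (C := B)
    (fun y => ?_) _ _
  have h2 := (hpow y).1
  have h3 := (hpow y).2
  rw [Real.one_rpow] at h3
  rw [abs_mul, abs_of_nonneg (ham.le.trans h2)]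
  calc |h y| * W y ^ m ≤ |h y| * 1 := mul_le_mul_of_nonneg_left h3 (abs_nonneg _)
    _ ≤ B := by rw [mul_one]; exact hB y

/-- linearity of the tilted average -/
lemma pvl_flowh_lin {h g : ℝ → ℝ} (hh : Measurable h) (hg : Measurable g) {B C : ℝ}
    (hB : ∀ x, |h x| ≤ B) (hC : ∀ x, |g x| ≤ C) (α β x : ℝ) :
    flowh m v W (fun y => α * h y + β * g y) 0 x =
      α * flowh m v W h 0 x + β * flowh m v W g 0 x := by
  have hd := pvl_den_pos (v := v) hm ha hWm hWa hW1 x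
  have e : heat (v - 0) (fun y => (α * h y + β * g y) * W y ^ m) x =
      α * heat (v - 0) (fun y => h y * W y ^ m) x +
        β * heat (v - 0) (fun y => g y * W y ^ m) x := by
    unfold heat
    rw [← integral_const_mul, ← integral_const_mul,
      ← integral_add ((pvl_mul_int hm ha hWm hWa hW1 hh hB x).const_mul _)
        ((pvl_mul_int hm ha hWm hWa hW1 hg hC x).const_mul _)]
    refine integral_congr_ae (Filter.Eventually.of_forall fun z => ?_)
    simp only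
    ring
  unfold flowh
  rw [e]
  (clear * - hd; field_simp)

/-- the tilted average of `A ^ 2` -/
lemma pvl_var (hm1 : m ≤ 1) (hv : 0 ≤ v) {A : ℝ → ℝ} (hA : Measurable A) {B : ℝ}
    (hB : ∀ x, |A x| ≤ B) {L : ℝ} (hL : ∀ x y, |A x - A y| ≤ L * |x - y|) (x : ℝ) :
    flowh m v W (fun y => A y ^ 2) 0 x ≤ flowh m v W A 0 x ^ 2 + L ^ 2 / a * v := by
  have hB0 : 0 ≤ B := (abs_nonneg _).trans (hB 0)
  have hpow := pow_mem_Icc hm ha hWa hW1
  have ham : 0 < a ^ m := Real.rpow_pos_of_pos ha m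
  have ha1 : a ≤ 1 := (hWa 0).trans (hW1 0)
  have ham1 : a ≤ a ^ m := by
    have := Real.rpow_le_rpow_of_exponent_ge ha ha1 hm1
    rwa [Real.rpow_one] at this
  have hd := heat_mem_Icc (g := fun y => W y ^ m) (hWm.pow_const m) hpow (v - 0) x
  -- the centered second moment
  have hcen : flowh m v W (fun y => (A y - A x) ^ 2) 0 x ≤ L ^ 2 / a * v := by
    have hBc : ∀ y, |(A y - A x) ^ 2| ≤ (B + B) ^ 2 := by
      intro y
      rw [abs_pow]
      exact pow_le_pow_left₀ (abs_nonneg _)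
        ((abs_sub _ _).trans (add_le_add (hB y) (hB x))) 2
    have hint := pvl_mul_int (v := v) hm ha hWm hWa hW1 ((hA.sub_const (A x)).pow_const 2) hBc x
    have hsq : Integrable (fun z : ℝ => L ^ 2 * v * z ^ 2) (gaussianReal 0 1) := by
      have := (memLp_id_gaussianReal (μ := 0) (v := 1) 2).integrable_sq
      exact this.const_mul _
    have hnum : heat (v - 0) (fun y => (A y - A x) ^ 2 * W y ^ m) x ≤ L ^ 2 * v := by
      have h1 : heat (v - 0) (fun y => (A y - A x) ^ 2 * W y ^ m) x ≤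
          ∫ z : ℝ, L ^ 2 * v * z ^ 2 ∂(gaussianReal 0 1) := by
        unfold heat
        refine integral_mono hint hsq fun z => ?_
        simp only
        have h2 := hL (x + √(v - 0) * z) x
        have e1 : x + √(v - 0) * z - x = √v * z := by rw [sub_zero]; ring
        rw [e1] at h2
        have h3 : (A (x + √(v - 0) * z) - A x) ^ 2 ≤ L ^ 2 * v * z ^ 2 := by
          have h4 := pow_le_pow_left₀ (abs_nonneg _) h2 2
          rw [sq_abs, mul_pow, sq_abs, mul_pow, Real.sq_sqrt hv] at h4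
          linarith only [h4]
        have h5 := (hpow (x + √(v - 0) * z)).2
        rw [Real.one_rpow] at h5
        calc (A (x + √(v - 0) * z) - A x) ^ 2 * W (x + √(v - 0) * z) ^ m
            ≤ (A (x + √(v - 0) * z) - A x) ^ 2 * 1 := mul_le_mul_of_nonneg_left h5 (sq_nonneg _)
          _ ≤ _ := by rw [mul_one]; exact h3
      have h6 : ∫ z : ℝ, L ^ 2 * v * z ^ 2 ∂(gaussianReal 0 1) = L ^ 2 * v := by
        rw [integral_const_mul]
        have h7 : ∫ x : ℝ, x ^ 2 ∂(gaussianReal 0 1) = 1 := by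
          have h3 := variance_eq_sub (μ := gaussianReal 0 1) (X := id)
            (memLp_id_gaussianReal (μ := 0) (v := 1) 2)
          rw [variance_id_gaussianReal] at h3
          simp only [id_eq, Pi.pow_apply, integral_id_gaussianReal] at h3
          simpa using h3.symm
        rw [h7, mul_one]
      rwa [h6] at h1
    unfold flowh
    rw [div_le_iff₀ (ham.trans_le hd.1)]
    have h8 : 0 ≤ L ^ 2 / a * v := by (clear * - ha hv; positivity)
    calc heat (v - 0) (fun y => (A y - A x) ^ 2 * W y ^ m) x ≤ L ^ 2 * v := hnum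
      _ = L ^ 2 / a * v * a := by (clear * - ha; field_simp)
      _ ≤ L ^ 2 / a * v * heat (v - 0) (fun y => W y ^ m) x :=
        mul_le_mul_of_nonneg_left (ham1.trans hd.1) h8
  have hA2 : ∀ y, |A y ^ 2| ≤ B ^ 2 := fun y => by
    rw [abs_pow]; exact pow_le_pow_left₀ (abs_nonneg _) (hB y) 2
  have e2 : flowh m v W (fun y => (A y - A x) ^ 2) 0 x =
      flowh m v W (fun y => A y ^ 2) 0 x - 2 * A x * flowh m v W A 0 x + A x ^ 2 := by
    have h9 : (fun y => (A y - A x) ^ 2) = fun y => 1 * (1 * A y ^ 2 + (-(2 * A x)) * A y) +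
        A x ^ 2 * 1 := by
      funext y; ring
    have h10 : ∀ y, |1 * A y ^ 2 + (-(2 * A x)) * A y| ≤ B ^ 2 + 2 * B * B := by
      intro y
      refine (abs_add_le _ _).trans (add_le_add ?_ ?_)
      · rw [one_mul]; exact hA2 y
      · rw [abs_mul, abs_neg, abs_mul, abs_two]
        exact mul_le_mul (mul_le_mul_of_nonneg_left (hB x) (by norm_num)) (hB y) (abs_nonneg _)
          (by (clear * - hB0; positivity))
    rw [h9, pvl_flowh_lin hm ha hWm hWa hW1
      (h := fun y => 1 * A y ^ 2 + (-(2 * A x)) * A y) (g := fun _ => 1)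
      (((hA.pow_const 2).const_mul 1).add (hA.const_mul _)) measurable_const h10
      (fun _ => (abs_one (α := ℝ)).le),
      pvl_flowh_lin hm ha hWm hWa hW1 (hA.pow_const 2) hA hA2 hB,
      flowh_one hm ha hWm hWa hW1]
    ring
  rw [e2] at hcen
  linarith only [hcen, sq_nonneg (flowh m v W A 0 x - A x)]

end

/-- One step of the cascade preserves the one-sided bounds of the derivatives. -/
lemma pvl_step {m v a K L1 : ℝ} (hm : 0 < m) (hm1 : m ≤ 1) (ha : 0 < a) {W W' W'' : ℝ → ℝ}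
    (hW : CB2 W W' W'') (hWa : ∀ x, a ≤ W x) (hW1 : ∀ x, W x ≤ 1)
    (hK : ∀ x, W'' x / W x ≤ K) (hL : ∀ x, -L1 ≤ W'' x / W x - (W' x / W x) ^ 2) :
    ∃ V' V'', CB2 (flowW m v W 0) V' V'' ∧
      (∀ x, V' x / flowW m v W 0 x = flowh m v W (fun y => W' y / W y) 0 x) ∧
      (∀ x, V'' x / flowW m v W 0 x ≤ K) ∧
      ∀ x, -L1 ≤ V'' x / flowW m v W 0 x - (V' x / flowW m v W 0 x) ^ 2 := by
  have hWm := hW.cont.measurable
  have hW0 : ∀ x, 0 < W x := fun x => ha.trans_le (hWa x)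
  have hg : CB2 (fun x => W x ^ m) (fun x => m * W x ^ (m - 1) * W' x)
      (fun x => m * ((m - 1) * W x ^ (m - 1 - 1)) * W' x * W' x + m * W x ^ (m - 1) * W'' x) :=
    hW.outer (fun x => ⟨hWa x, hW1 x⟩) (outer_rpow ha m)
  have hmem : ∀ x, heat (v - 0) (fun y => W y ^ m) x ∈ Set.Icc (a ^ m) (1 ^ m) :=
    heat_mem_Icc hg.cont.measurable (pow_mem_Icc hm ha hWa hW1) (v - 0)
  have ham : 0 < a ^ m := Real.rpow_pos_of_pos ha m
  have hV := (hg.heat (v - 0)).outer hmem (outer_rpow ham (1 / m))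
  have hA : Continuous fun y => W' y / W y := hW.cont1.div hW.cont fun y => (hW0 y).ne'
  have hQ : Continuous fun y => W'' y / W y := hW.c2.div hW.cont fun y => (hW0 y).ne'
  obtain ⟨C1, h1⟩ := hW.b1
  obtain ⟨C2, h2⟩ := hW.b2
  have hAb : ∀ y, |W' y / W y| ≤ C1 / a := fun y => by
    rw [abs_div, abs_of_pos (hW0 y)]
    exact div_le_div₀ ((abs_nonneg _).trans (h1 0)) (h1 y) ha (hWa y)
  have hQb : ∀ y, |W'' y / W y| ≤ C2 / a := fun y => by
    rw [abs_div, abs_of_pos (hW0 y)]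
    exact div_le_div₀ ((abs_nonneg _).trans (h2 0)) (h2 y) ha (hWa y)
  have hA2b : ∀ y, |(W' y / W y) ^ 2| ≤ (C1 / a) ^ 2 := fun y => by
    rw [abs_pow]; exact pow_le_pow_left₀ (abs_nonneg _) (hAb y) 2
  have hp1 : ∀ y, m * W y ^ (m - 1) * W' y = m * ((W' y / W y) * W y ^ m) := by
    intro y
    rw [Real.rpow_sub_one (hW0 y).ne']
    have := (hW0 y).ne'
    (clear * - this hm; field_simp)
  have hp2 : ∀ y, m * ((m - 1) * W y ^ (m - 1 - 1)) * W' y * W' y + m * W y ^ (m - 1) * W'' y =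
      (m * (m - 1) * (W' y / W y) ^ 2 + m * (W'' y / W y)) * W y ^ m := by
    intro y
    rw [Real.rpow_sub_one (hW0 y).ne', Real.rpow_sub_one (hW0 y).ne']
    have := (hW0 y).ne'
    (clear * - this hm; field_simp)
  refine ⟨_, _, hV, ?_⟩
  have key : ∀ x,
      (1 / m * heat (v - 0) (fun y => W y ^ m) x ^ (1 / m - 1) *
        heat (v - 0) (fun x => m * W x ^ (m - 1) * W' x) x) / flowW m v W 0 x =
          flowh m v W (fun y => W' y / W y) 0 x ∧
      (1 / m * ((1 / m - 1) * heat (v - 0) (fun y => W y ^ m) x ^ (1 / m - 1 - 1)) *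
        heat (v - 0) (fun x => m * W x ^ (m - 1) * W' x) x *
        heat (v - 0) (fun x => m * W x ^ (m - 1) * W' x) x +
        1 / m * heat (v - 0) (fun y => W y ^ m) x ^ (1 / m - 1) *
        heat (v - 0) (fun x => m * ((m - 1) * W x ^ (m - 1 - 1)) * W' x * W' x +
          m * W x ^ (m - 1) * W'' x) x) / flowW m v W 0 x =
      (1 - m) * flowh m v W (fun y => W' y / W y) 0 x ^ 2 -
        (1 - m) * flowh m v W (fun y => (W' y / W y) ^ 2) 0 x +
        flowh m v W (fun y => W'' y / W y) 0 x := by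
    intro x
    have hH := pvl_den_pos (v := v) hm ha hWm hWa hW1 x
    have e1 : heat (v - 0) (fun x => m * W x ^ (m - 1) * W' x) x =
        m * flowh m v W (fun y => W' y / W y) 0 x * heat (v - 0) (fun y => W y ^ m) x := by
      have e3 : heat (v - 0) (fun x => m * W x ^ (m - 1) * W' x) x =
          m * heat (v - 0) (fun y => (W' y / W y) * W y ^ m) x := by
        unfold heat
        rw [← integral_const_mul]
        exact integral_congr_ae (Filter.Eventually.of_forall fun z => hp1 _)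
      rw [e3]
      unfold flowh
      (clear * - hH hm; field_simp)
    have e2 : heat (v - 0) (fun x => m * ((m - 1) * W x ^ (m - 1 - 1)) * W' x * W' x +
          m * W x ^ (m - 1) * W'' x) x =
        (m * (m - 1) * flowh m v W (fun y => (W' y / W y) ^ 2) 0 x +
          m * flowh m v W (fun y => W'' y / W y) 0 x) * heat (v - 0) (fun y => W y ^ m) x := by
      rw [← pvl_flowh_lin hm ha hWm hWa hW1 (hA.measurable.pow_const 2) hQ.measurable hA2b hQb]
      have e3 : heat (v - 0) (fun x => m * ((m - 1) * W x ^ (m - 1 - 1)) * W' x * W' x +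
          m * W x ^ (m - 1) * W'' x) x = heat (v - 0) (fun y =>
            (m * (m - 1) * (W' y / W y) ^ 2 + m * (W'' y / W y)) * W y ^ m) x := by
        unfold heat
        exact integral_congr_ae (Filter.Eventually.of_forall fun z => hp2 _)
      rw [e3]
      unfold flowh
      (clear * - hH; field_simp)
    have r1 : heat (v - 0) (fun y => W y ^ m) x ^ (1 / m - 1) =
        heat (v - 0) (fun y => W y ^ m) x ^ (1 / m) / heat (v - 0) (fun y => W y ^ m) x :=
      Real.rpow_sub_one hH.ne' _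
    have r2 : heat (v - 0) (fun y => W y ^ m) x ^ (1 / m - 1 - 1) =
        heat (v - 0) (fun y => W y ^ m) x ^ (1 / m) / heat (v - 0) (fun y => W y ^ m) x /
          heat (v - 0) (fun y => W y ^ m) x := by
      rw [Real.rpow_sub_one hH.ne' (1 / m - 1), r1]
    have hP : 0 < heat (v - 0) (fun y => W y ^ m) x ^ (1 / m) := Real.rpow_pos_of_pos hH _
    have hWd : flowW m v W 0 x = heat (v - 0) (fun y => W y ^ m) x ^ (1 / m) := rfl
    rw [e1, e2, r2, r1, hWd]
    generalize heat (v - 0) (fun y => W y ^ m) x ^ (1 / m) = P at hP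
    generalize heat (v - 0) (fun y => W y ^ m) x = H at hH
    generalize flowh m v W (fun y => W' y / W y) 0 x = T1
    generalize flowh m v W (fun y => (W' y / W y) ^ 2) 0 x = T2
    generalize flowh m v W (fun y => W'' y / W y) 0 x = T3
    constructor
    · (clear * - hm hP hH; field_simp)
    · field_simp
      ring
  have hT2 : ∀ x, flowh m v W (fun y => W' y / W y) 0 x ^ 2 ≤
      flowh m v W (fun y => (W' y / W y) ^ 2) 0 x := fun x =>
    flowh_sq hm ha hWm hWa hW1 hA.measurable hAb x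
  refine ⟨fun x => (key x).1, fun x => ?_, fun x => ?_⟩
  · rw [(key x).2]
    have hT : flowh m v W (fun y => W'' y / W y) 0 x ≤ K := by
      have h3 := val_flowh_mono (σ := v) hm ha hWm hWa hW1 hQ.measurable measurable_const hQb
        (C := |K|) (g := fun _ => K) (fun _ => le_rfl) hK x
      rwa [val_flowh_const hm ha hWm hWa hW1] at h3
    linarith only [mul_nonneg (sub_nonneg.2 hm1) (sub_nonneg.2 (hT2 x)), mul_nonneg (mul_self_nonneg (1 : ℝ)) (sub_nonneg.2 hT)]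
  · rw [(key x).2, (key x).1]
    have hT : flowh m v W (fun y => (W' y / W y) ^ 2) 0 x - L1 ≤
        flowh m v W (fun y => W'' y / W y) 0 x := by
      have h3 := val_flowh_mono (σ := v) hm ha hWm hWa hW1
        (h := fun y => 1 * (W' y / W y) ^ 2 + (-L1) * 1) (g := fun y => W'' y / W y)
        (((hA.measurable.pow_const 2).const_mul 1).add_const _) hQ.measurable
        (B := (C1 / a) ^ 2 + |L1|) (fun y => (abs_add_le _ _).trans (add_le_add
          (by rw [one_mul]; exact hA2b y) (by rw [mul_one, abs_neg]))) hQb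
        (fun y => by have := hL y; linarith only [this]) x
      rw [pvl_flowh_lin hm ha hWm hWa hW1 (hA.measurable.pow_const 2) measurable_const hA2b
        (C := 1) (fun _ => (abs_one (α := ℝ)).le), flowh_one hm ha hWm hWa hW1] at h3
      linarith only [h3]
    nlinarith only [hT, hm, hT2 x]

section levels

variable {m v : ℕ → ℝ} {k : ℕ} (hm : ∀ l, 1 ≤ l → l ≤ k → 0 < m l)
  (hm1 : ∀ l, 1 ≤ l → l ≤ k → m l ≤ 1) {a K L1 : ℝ} (ha : 0 < a) {W W' W'' : ℝ → ℝ}
  (hW : CB2 W W' W'') (hWa : ∀ x, a ≤ W x) (hW1 : ∀ x, W x ≤ 1)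
  (hK : ∀ x, W'' x / W x ≤ K) (hL : ∀ x, -L1 ≤ W'' x / W x - (W' x / W x) ^ 2)
  {h : ℝ → ℝ} (hh : ∀ x, W' x / W x = h x)

include hm hm1 ha hW hWa hW1 hK hL hh

/-- The weights of all levels. -/
lemma pvl_levels : ∀ l ≤ k, ∃ V' V'', CB2 (lvW m v k W l) V' V'' ∧
    (∀ x, V' x / lvW m v k W l x = lvh m v (lvW m v k W) k h l x) ∧
    (∀ x, V'' x / lvW m v k W l x ≤ K) ∧
    ∀ x, -L1 ≤ V'' x / lvW m v k W l x - (V' x / lvW m v k W l x) ^ 2 := by
  have hspec := lvW_spec (v := v) hm ha ⟨W', W'', hW⟩ hWa hW1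
  apply down_ind
  · rw [lvW_top, lvh_top]
    exact ⟨W', W'', hW, hh, hK, hL⟩
  · intro l hl ih
    obtain ⟨V', V'', hV, h1, h2, h3⟩ := ih
    obtain ⟨-, h4, h5⟩ := hspec (l + 1) (by omega)
    obtain ⟨U', U'', hU, h6, h7, h8⟩ := pvl_step (v := v (l + 1)) (hm (l + 1) (by omega) (by omega))
      (hm1 (l + 1) (by omega) (by omega)) ha hV h4 h5 h2 h3
    rw [lvW_succ hl, lvh_succ hl]
    refine ⟨U', U'', hU, fun x => ?_, h7, h8⟩
    rw [h6 x, funext h1]

/-- The observables are Lipschitz. -/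
lemma pvl_lip {L : ℝ} (hKL : K ≤ L) (hL1 : L1 ≤ L) {l : ℕ} (hl : l ≤ k) (x y : ℝ) :
    |lvh m v (lvW m v k W) k h l x - lvh m v (lvW m v k W) k h l y| ≤ L * |x - y| := by
  obtain ⟨V', V'', hV, h1, h2, h3⟩ := pvl_levels (v := v) hm hm1 ha hW hWa hW1 hK hL hh l hl
  obtain ⟨-, h4, -⟩ := lvW_spec (v := v) hm ha ⟨W', W'', hW⟩ hWa hW1 l hl
  rw [← funext h1]
  have hd : ∀ z, HasDerivAt (fun x => V' x / lvW m v k W l x)
      (V'' z / lvW m v k W l z - (V' z / lvW m v k W l z) ^ 2) z := by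
    intro z
    have h5 : lvW m v k W l z ≠ 0 := (ha.trans_le (h4 z)).ne'
    refine ((hV.d2 z).div (hV.d1 z) h5).congr_deriv ?_
    (clear * - h5; field_simp)
  have hb : ∀ z, ‖V'' z / lvW m v k W l z - (V' z / lvW m v k W l z) ^ 2‖ ≤ L := by
    intro z
    rw [Real.norm_eq_abs, abs_le]
    constructor
    · have := h3 z
      linarith only [hL1, this]
    · have := h2 z
      have := sq_nonneg (V' z / lvW m v k W l z)
      linarith
  have h6 := Convex.norm_image_sub_le_of_norm_hasDerivWithin_le (s := Set.univ)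
    (fun z _ => (hd z).hasDerivWithinAt) (fun z _ => hb z) convex_univ
    (Set.mem_univ y) (Set.mem_univ x)
  simpa only [Real.norm_eq_abs] using h6

end levels

lemma pvl_lvh_add {m v : ℕ → ℝ} {k : ℕ} {V : ℕ → ℝ → ℝ} {s : ℕ}
    (hm : ∀ l, 1 ≤ l → l ≤ k → 0 < m l) {a : ℝ} (ha : 0 < a)
    (hV : ∀ l ≤ k, (∃ V' V'', CB2 (V l) V' V'') ∧ (∀ x, a ≤ V l x) ∧ ∀ x, V l x ≤ 1)
    (hs : s ≤ k) {h : ℝ → ℝ} (hh : ∃ h' h'', CB2 h h' h'') (c : ℝ) :
    ∀ l ≤ s, lvh m v V s (fun x => 1 * h x + c * 1) l = fun x => 1 * lvh m v V s h l x + c * 1 := by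
  have hh1 := lvh_spec (v := v) hm ha hV hs hh
  apply down_ind
  · rw [lvh_top, lvh_top]
  · intro l hl ih
    have hm' := hm (l + 1) (by omega) (by omega)
    obtain ⟨⟨V', V'', hV0⟩, h1, h2⟩ := hV (l + 1) (by omega)
    obtain ⟨p', p'', hp⟩ := hh1 (l + 1) (by omega)
    obtain ⟨B, hB⟩ := hp.b0
    rw [lvh_succ hl, lvh_succ hl, ih]
    funext x
    rw [pvl_flowh_lin hm' ha hV0.cont.measurable h1 h2 hp.cont.measurable measurable_const hB
      (C := 1) (fun _ => (abs_one (α := ℝ)).le), flowh_one hm' ha hV0.cont.measurable h1 h2]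

/-- The increments of the pair values. -/
theorem pvl_pairVal {m v : ℕ → ℝ} {k : ℕ} (hm : ∀ l, 1 ≤ l → l ≤ k → 0 < m l)
    (hm1 : ∀ l, 1 ≤ l → l ≤ k → m l ≤ 1) {a K L1 : ℝ} (ha : 0 < a) {W W' W'' : ℝ → ℝ}
    (hW : CB2 W W' W'') (hWa : ∀ x, a ≤ W x) (hW1 : ∀ x, W x ≤ 1)
    (hK : ∀ x, W'' x / W x ≤ K) (hL : ∀ x, -L1 ≤ W'' x / W x - (W' x / W x) ^ 2)
    {h : ℝ → ℝ} (hh : ∀ x, W' x / W x = h x) (hhc : ∃ h' h'', CB2 h h' h'') {L : ℝ}
    (hKL : K ≤ L) (hL1 : L1 ≤ L) {l : ℕ} (hl : l < k) (hv : 0 ≤ v (l + 1)) :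
    Arr.pairVal m v k W h (l + 1) - Arr.pairVal m v k W h l ≤ L ^ 2 / a * v (l + 1) := by
  have hWe : ∃ W' W'', CB2 W W' W'' := ⟨W', W'', hW⟩
  have hspec := lvW_spec (v := v) hm ha hWe hWa hW1
  obtain ⟨h1, g', g'', hg⟩ := pair_spec (v := v) hm ha hWe hWa hW1 hhc (l := l) (by omega)
  obtain ⟨h2, r', r'', hr⟩ := pair_spec (v := v) hm ha hWe hWa hW1 hhc (l := l + 1) (by omega)
  have hlip := fun x y => pvl_lip (v := v) hm hm1 ha hW hWa hW1 hK hL hh hKL hL1
    (show l + 1 ≤ k by omega) x y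
  set V := lvW m v k W with hV
  have hm' := hm (l + 1) (by omega) (by (clear * - hl; omega))
  obtain ⟨⟨V', V'', hV0⟩, h3, h4⟩ := hspec (l + 1) (by omega)
  obtain ⟨u', u'', hu⟩ := lvh_spec (v := v) hm ha hspec le_rfl hhc (l + 1) (by omega)
  obtain ⟨C, hC⟩ := hu.b0
  set c : ℝ := L ^ 2 / a * v (l + 1) with hc
  have h5 : ∀ x, lvh m v V (l + 1) (fun x => lvh m v V k h (l + 1) x ^ 2) l x ≤
      1 * lvh m v V k h l x ^ 2 + c * 1 := by
    intro x
    rw [lvh_succ hl, lvh_succ (Nat.lt_succ_self l), lvh_top, one_mul, mul_one]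
    exact pvl_var hm' ha hV0.cont.measurable h3 h4 (hm1 (l + 1) (by omega) (by omega)) hv
      hu.cont.measurable hC hlip x
  have h6 : ∃ h' h'', CB2 (lvh m v V (l + 1) (fun x => lvh m v V k h (l + 1) x ^ 2) l) h' h'' :=
    lvh_spec (v := v) hm ha hspec (by omega) h2 l (by omega)
  have h8 : ∃ p' p'', CB2 (fun x => 1 * lvh m v V k h l x ^ 2 + c * 1) p' p'' := by
    obtain ⟨p', p'', hp⟩ := h1
    refine ⟨p', p'', fun x => ?_, hp.d2, hp.c2, ?_, hp.b1, hp.b2⟩
    · have := (hp.d1 x).add_const c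
      simpa using this
    · obtain ⟨B, hB⟩ := hp.b0
      refine ⟨B + |c|, fun x => (abs_add_le _ _).trans (add_le_add ?_ ?_)⟩
      · rw [one_mul]; exact hB x
      · rw [mul_one]
  have h7 := lvh_mono (v := v) hm ha hspec (s := l) (by omega) h6 h8 h5 0 (Nat.zero_le l)
  rw [lvh_lvh (Nat.le_succ l) 0 (Nat.zero_le l),
    pvl_lvh_add (v := v) hm ha hspec (s := l) (by omega) h1 c 0 (Nat.zero_le l)] at h7
  have h9 : Arr.pairVal m v k W h (l + 1) ≤ ∫ z, (1 * lvh m v (lvW m v k W) l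
      (fun x => lvh m v (lvW m v k W) k h l x ^ 2) 0 (√(v 0) * z) + c * 1)
      ∂(gaussianReal 0 1) := by
    refine integral_mono (hr.integrable_fn _) ?_ fun z => h7 _
    exact ((hg.integrable_fn (√(v 0))).const_mul 1).add (integrable_const _)
  have h10 : ∫ z, (1 * lvh m v (lvW m v k W) l
      (fun x => lvh m v (lvW m v k W) k h l x ^ 2) 0 (√(v 0) * z) + c * 1)
      ∂(gaussianReal 0 1) = Arr.pairVal m v k W h l + c := by
    simp only [one_mul, mul_one]
    rw [integral_add (hg.integrable_fn (√(v 0))) (integrable_const _), integral_const]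
    simp only [probReal_univ, one_smul]
    rfl
  rw [h10] at h9
  linarith only [h9]

/-- The dual path is Lipschitz in the path. -/
theorem pv_lip {C c₀ a : ℝ} {f f1 f2 f3 : ℝ → ℝ} (hf : Pot C c₀ a f f1 f2 f3) :
    ∃ D : ℝ, 0 ≤ D ∧ ∀ (k : ℕ) (w : Fin (k + 1) → ℝ), (∀ l, 0 < w l) → ∑ l, w l = 1 →
      ∀ q : ℕ → ℝ, Path k q → q k ≤ 1 → ∀ l < k,
        pv (fun x => Real.exp (f x) / c₀) f1 k w q (l + 1) -
          pv (fun x => Real.exp (f x) / c₀) f1 k w q l ≤ D * (q (l + 1) - q l) := by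
  have hC0 : 0 ≤ C := (abs_nonneg _).trans (hf.cb3.b0 0)
  have ha := hf.a0
  refine ⟨(C ^ 2 + C) ^ 2 / a, by positivity, fun k w hw hw1 q hq hq1 l hl => ?_⟩
  obtain ⟨W', W'', hW⟩ := hf.cb2W
  set W : ℝ → ℝ := fun x => Real.exp (f x) / c₀ with hWdef
  have hWa : ∀ x, a ≤ W x := hf.Wa
  have hW1 : ∀ x, W x ≤ 1 := hf.W1
  have hW0 : ∀ x, W x ≠ 0 := fun x => (ha.trans_le (hWa x)).ne'
  have hd : ∀ x, HasDerivAt W (W x * f1 x) x := by
    intro x
    have h1 := ((hf.cb3.d1 x).exp).div_const c₀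
    refine h1.congr_deriv ?_
    simp only [hWdef]
    ring
  have hW'x : ∀ x, W' x = W x * f1 x := fun x => (hW.d1 x).unique (hd x)
  have hW''x : ∀ x, W'' x = W x * (f1 x ^ 2 + f2 x) := by
    intro x
    have h1 := hW.d2 x
    rw [funext hW'x] at h1
    have h2 := (hd x).mul (hf.cb3.d2 x)
    rw [h1.unique h2]
    ring
  have hA : ∀ x, W' x / W x = f1 x := fun x => by
    rw [hW'x, mul_div_assoc, mul_comm, div_mul_cancel₀ _ (hW0 x)]
  have hQ : ∀ x, W'' x / W x = f1 x ^ 2 + f2 x := fun x => by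
    rw [hW''x, mul_div_assoc, mul_comm, div_mul_cancel₀ _ (hW0 x)]
  have hK : ∀ x, W'' x / W x ≤ C ^ 2 + C := fun x => by
    rw [hQ]
    have h1 := pow_le_pow_left₀ (abs_nonneg _) (hf.cb3.b1 x) 2
    rw [sq_abs] at h1
    have h2 := (abs_le.1 (hf.cb3.b2 x)).2
    linarith only [h1, h2]
  have hL : ∀ x, -C ≤ W'' x / W x - (W' x / W x) ^ 2 := fun x => by
    rw [hQ, hA]
    have h2 := (abs_le.1 (hf.cb3.b2 x)).1
    linarith only [h2]
  obtain ⟨V', V'', hV, h1, h2, h3⟩ := pvl_step (v := 1 - q k) one_pos le_rfl ha hW hWa hW1 hK hL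
  rw [funext hA, ← toph_eq] at h1
  rw [← topW_eq] at hV h1 h2 h3
  have hspec := topW_spec (1 - q k) ha ⟨W', W'', hW⟩ hWa hW1
  have h4 := pvl_pairVal (v := incr (stop k q)) (fun l hl _ => mOf_pos hw hl)
    (fun l _ _ => mOf_le_one hw hw1 l) ha hV hspec.2.1 hspec.2.2 h2 h3 h1
    (toph_spec _ ha ⟨W', W'', hW⟩ hWa hW1 hf.cf1) (L := C ^ 2 + C) le_rfl
    (by linarith only [sq_nonneg C]) hl (incr_stop_nonneg hq (l + 1))
  rw [incr_stop (show l + 1 ≤ k by omega)] at h4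
  exact h4

end Vale.Agent.P157.Par
end
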