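import Mathlib
import Vale.Agent.P157.Bdl.B3
import Vale.Agent.P157.Bdl.B4
import Vale.Agent.P157.Bdl.B1

set_option linter.all false

section

/-!
Tensorization of the spin cascade (module U of the Parisi plan).
-/

open MeasureTheory ProbabilityTheory Filter Topology

namespace Vale.Agent.P157.Par

variable {N : ℕ}

/-- Lipschitz functions of one real variable. -/
def Lip1 (F : ℝ → ℝ) : Prop := ∃ L : ℝ, 0 ≤ L ∧ ∀ x x', |F x - F x'| ≤ L * |x - x'|

lemma Lip1.continuous {F : ℝ → ℝ} (h : Lip1 F) : Continuous F := by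
  obtain ⟨L, hL, h⟩ := h
  refine (LipschitzWith.of_dist_le_mul (K := ⟨L, hL⟩) fun y y' => ?_).continuous
  rw [Real.dist_eq, Real.dist_eq]; exact h y y'

lemma integrable_exp_abs (a : ℝ) :
    Integrable (fun x : ℝ => Real.exp (a * |x|)) (gaussianReal 0 1) :=
  ProbabilityTheory.integrable_exp_mul_abs (X := fun x => x) (t := a)
    (by simpa only using integrable_exp_mul_gaussianReal (μ := 0) (v := 1) a)
    (by simpa only [neg_mul] using integrable_exp_mul_gaussianReal (μ := 0) (v := 1) (-a))

lemma Lip1.abs_le {F : ℝ → ℝ} {L : ℝ} (_hL : 0 ≤ L) (h : ∀ x x', |F x - F x'| ≤ L * |x - x'|)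
    (x s z : ℝ) : |F (x + s * z)| ≤ |F x| + L * |s| * |z| := by
  have h1 := h (x + s * z) x
  rw [add_sub_cancel_left, abs_mul] at h1
  calc |F (x + s * z)| = |(F (x + s * z) - F x) + F x| := by ring_nf
    _ ≤ |F (x + s * z) - F x| + |F x| := abs_add_le _ _
    _ ≤ _ := by linarith only [h1]

lemma Lip1.integrable {F : ℝ → ℝ} (h : Lip1 F) (x s : ℝ) :
    Integrable (fun z => F (x + s * z)) (gaussianReal 0 1) := by
  obtain ⟨L, hL, hl⟩ := id h
  have hz : Integrable (fun z : ℝ => z) (gaussianReal 0 1) :=
    (memLp_id_gaussianReal 1).integrable le_rfl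
  refine ((integrable_const |F x|).add (hz.abs.const_mul (L * |s|))).mono'
    (h.continuous.comp (by fun_prop)).aestronglyMeasurable (Filter.Eventually.of_forall fun z => ?_)
  rw [Real.norm_eq_abs]
  exact Lip1.abs_le hL hl x s z

lemma Lip1.integrable_exp {F : ℝ → ℝ} (h : Lip1 F) (m x s : ℝ) :
    Integrable (fun z => Real.exp (m * F (x + s * z))) (gaussianReal 0 1) := by
  obtain ⟨L, hL, hl⟩ := id h
  refine ((integrable_exp_abs (|m| * (L * |s|))).const_mul (Real.exp (|m| * |F x|))).mono'
    ((Real.continuous_exp.comp (continuous_const.mul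
      (h.continuous.comp (by (clear * -; fun_prop))))).aestronglyMeasurable)
    (Filter.Eventually.of_forall fun z => ?_)
  rw [Real.norm_eq_abs, abs_of_pos (Real.exp_pos _), ← Real.exp_add, Real.exp_le_exp]
  have h1 := Lip1.abs_le hL hl x s z
  calc m * F (x + s * z) ≤ |m * F (x + s * z)| := le_abs_self _
    _ = |m| * |F (x + s * z)| := abs_mul _ _
    _ ≤ |m| * (|F x| + L * |s| * |z|) := mul_le_mul_of_nonneg_left h1 (abs_nonneg m)
    _ = _ := by ring

lemma Lip1.int_exp_pos {F : ℝ → ℝ} (h : Lip1 F) (m x s : ℝ) :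
    0 < ∫ z, Real.exp (m * F (x + s * z)) ∂(gaussianReal 0 1) :=
  integral_exp_pos (h.integrable_exp m x s)

lemma Lip1.gstep {F : ℝ → ℝ} (h : Lip1 F) {m : ℝ} (hm : 0 < m) (v : ℝ) : Lip1 (gstep m v F) := by
  obtain ⟨L, hL, hl⟩ := id h
  have key : ∀ y y', Par.gstep m v F y ≤ Par.gstep m v F y' + L * |y - y'| := by
    intro y y'
    unfold Par.gstep
    have h1 : ∫ z, Real.exp (m * F (y + √v * z)) ∂(gaussianReal 0 1) ≤
        Real.exp (m * (L * |y - y'|)) * ∫ z, Real.exp (m * F (y' + √v * z)) ∂(gaussianReal 0 1) := by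
      rw [← integral_const_mul]
      refine integral_mono (h.integrable_exp m y (√v))
        ((h.integrable_exp m y' (√v)).const_mul _) fun z => ?_
      dsimp only
      rw [← Real.exp_add, Real.exp_le_exp, ← mul_add]
      refine mul_le_mul_of_nonneg_left ?_ hm.le
      have := (_root_.abs_le.1 (hl (y + √v * z) (y' + √v * z))).2
      rw [add_sub_add_right_eq_sub] at this
      linarith
    have h2 := Real.log_le_log (h.int_exp_pos m y (√v)) h1
    rw [Real.log_mul (Real.exp_pos _).ne' (h.int_exp_pos m y' (√v)).ne', Real.log_exp] at h2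
    calc 1 / m * Real.log (∫ z, Real.exp (m * F (y + √v * z)) ∂(gaussianReal 0 1)) ≤
        1 / m * (m * (L * |y - y'|) +
          Real.log (∫ z, Real.exp (m * F (y' + √v * z)) ∂(gaussianReal 0 1))) :=
          mul_le_mul_of_nonneg_left h2 (by (clear * - hm; positivity))
      _ = _ := by field_simp; ring
  refine ⟨L, hL, fun y y' => _root_.abs_le.2 ⟨?_, ?_⟩⟩
  · have := key y' y
    rw [abs_sub_comm] at this
    linarith only [this]
  · have := key y y'
    linarith only [this]

/-- One cascade step of a sum of functions of the coordinates. -/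
lemma gstepN_sum {F : ℝ → ℝ} (hF : Lip1 F) (m v : ℝ) :
    gstepN (N := N) m v (fun y => ∑ i, F (y i)) = fun y => ∑ i, gstep m v F (y i) := by
  funext y
  unfold gstepN gstep
  have h1 : ∀ z : Fin N → ℝ, Real.exp (m * ∑ i, F ((y + √v • z) i)) =
      ∏ i, Real.exp (m * F (y i + √v * z i)) := by
    intro z
    rw [← Real.exp_sum, Finset.mul_sum]
    simp only [Pi.add_apply, Pi.smul_apply, smul_eq_mul]
  simp only [h1]
  rw [integral_fintype_prod_eq_prod (fun (i : Fin N) (x : ℝ) => Real.exp (m * F (y i + √v * x))),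
    Real.log_prod (fun i _ => (hF.int_exp_pos m (y i) (√v)).ne'), Finset.mul_sum]

lemma topN_sum {m r : ℕ → ℝ} {l : ℕ} (hm : ∀ j < l, 0 < m (j + 1)) {F : ℝ → ℝ} (hF : Lip1 F) :
    topN (N := N) m r l (fun y => ∑ i, F (y i)) =
      N * ∫ z, cascade m r l F (√(r 0) * z) ∂(gaussianReal 0 1) := by
  induction l generalizing F with
  | zero =>
    unfold topN cascade
    have h0 : Integrable (fun x => F (√(r 0) * x)) (gaussianReal 0 1) := by
      simpa only [zero_add] using hF.integrable 0 (√(r 0))
    have hi : ∀ i : Fin N, ∫ z : Fin N → ℝ, F (√(r 0) * z i) ∂(gN N) =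
        ∫ x, F (√(r 0) * x) ∂(gaussianReal 0 1) := fun i =>
      integral_comp_eval (μ := fun _ : Fin N => gaussianReal 0 1) (i := i)
        (f := fun x => F (√(r 0) * x)) h0.aestronglyMeasurable
    simp only [Pi.smul_apply, smul_eq_mul]
    rw [integral_finsetSum _ (fun i _ => integrable_comp_eval
      (μ := fun _ : Fin N => gaussianReal 0 1) (i := i) (f := fun x => F (√(r 0) * x)) h0)]
    simp only [hi]
    simp only [Finset.sum_const, Finset.card_univ, Fintype.card_fin, nsmul_eq_mul]
  | succ l ih =>
    unfold topN cascade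
    rw [gstepN_sum hF]
    exact ih (fun j hj => hm j (by omega)) (hF.gstep (hm l (by omega)) _)

/-- `log cosh` is Lipschitz. -/
lemma lip1_log_cosh : Lip1 (fun x => Real.log (Real.cosh x)) := by
  have key : ∀ x x' : ℝ, Real.log (Real.cosh x) ≤ Real.log (Real.cosh x') + |x - x'| := by
    intro x x'
    rw [← Real.log_exp |x - x'|, ← Real.log_mul (Real.cosh_pos x').ne' (Real.exp_pos _).ne']
    refine Real.log_le_log (Real.cosh_pos x) ?_
    rw [Real.cosh_eq, Real.cosh_eq]
    have h1 : Real.exp x ≤ Real.exp x' * Real.exp |x - x'| := by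
      rw [← Real.exp_add, Real.exp_le_exp]
      linarith only [le_abs_self (x - x')]
    have h2 : Real.exp (-x) ≤ Real.exp (-x') * Real.exp |x - x'| := by
      rw [← Real.exp_add, Real.exp_le_exp]
      linarith only [neg_abs_le (x - x')]
    calc (Real.exp x + Real.exp (-x)) / 2 ≤
        (Real.exp x' * Real.exp |x - x'| + Real.exp (-x') * Real.exp |x - x'|) / 2 := by linarith only [h1, h2]
      _ = _ := by ring
  refine ⟨1, zero_le_one, fun x x' => _root_.abs_le.2 ⟨?_, ?_⟩⟩
  · have := key x' x
    rw [abs_sub_comm] at this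
    linarith only [this]
  · have := key x x'
    linarith

lemma lw_spin (y : Fin N → ℝ) :
    lw (X := Fin N → Bool) spin 1 (fun _ => -(N * Real.log 2)) y =
      ∑ i, Real.log (Real.cosh (y i)) := by
  unfold lw
  have h1 : ∀ x : Fin N → Bool, Real.exp (-(N * Real.log 2) + 1 * ∑ i, y i * spin x i) =
      ∏ i, (Real.exp (y i * (if x i then 1 else -1)) / 2) := by
    intro x
    rw [Real.exp_add, one_mul, Real.exp_sum, Finset.prod_div_distrib, Real.exp_neg]
    have : Real.exp (N * Real.log 2) = ∏ _i : Fin N, (2 : ℝ) := by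
      rw [Finset.prod_const, Finset.card_univ, Fintype.card_fin, Real.exp_nat_mul,
        Real.exp_log (by norm_num)]
    rw [this]
    unfold spin
    field_simp
  simp only [h1]
  have h2 := Finset.prod_univ_sum (fun _ : Fin N => (Finset.univ : Finset Bool))
    (fun (i : Fin N) (b : Bool) => Real.exp (y i * (if b then 1 else -1)) / 2)
  rw [Fintype.piFinset_univ] at h2
  rw [← h2, Real.log_prod]
  · refine Finset.sum_congr rfl fun i _ => ?_
    congr 1
    rw [Real.cosh_eq, Fintype.sum_bool]
    simp only [↓reduceIte, mul_one, Bool.false_eq_true, mul_neg]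
    ring
  · intro i _
    refine (Finset.sum_pos (fun b _ => by positivity) Finset.univ_nonempty).ne'

lemma Exponents.pos {k : ℕ} {m : ℕ → ℝ} (hm : Exponents k m) : ∀ j ≤ k, 0 < m (j + 1) := by
  intro j hj
  induction j with
  | zero => have := hm.2.2 0 hj; rw [hm.1] at this; exact this
  | succ j ih => exact (ih (by omega)).trans (hm.2.2 (j + 1) hj)

theorem topN_spin {k : ℕ} {m r : ℕ → ℝ} (hm : Exponents k m) (N : ℕ) :
    topN m r k (lw (X := Fin N → Bool) spin 1 (fun _ => -(N * Real.log 2))) =
      N * (spinPart k m r + r k / 2) := by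
  rw [funext (lw_spin (N := N)), topN_sum (fun j hj => hm.pos j hj.le) lip1_log_cosh]
  unfold spinPart
  ring

end Vale.Agent.P157.Par
end

section

open MeasureTheory ProbabilityTheory

namespace Vale.Agent.P157

end Vale.Agent.P157
end

section

open MeasureTheory ProbabilityTheory

namespace Vale.Agent.P157

section
variable {E : Type*} [MeasurableSpace E] (μ : Measure E) [IsProbabilityMeasure μ]

end

end Vale.Agent.P157
end

section

open MeasureTheory ProbabilityTheory

namespace Vale.Agent.P157

end Vale.Agent.P157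
end

section

open MeasureTheory ProbabilityTheory

namespace Vale.Agent.P157

end Vale.Agent.P157
end

section

open MeasureTheory ProbabilityTheory

namespace Vale.Agent.P157

end Vale.Agent.P157
end

section

open MeasureTheory ProbabilityTheory Filter Topology

namespace Vale.Agent.P157

end Vale.Agent.P157
end

section

/-!
Telescoping and assembly of the Guerra upper bound (module U of the Parisi plan).
-/

open MeasureTheory ProbabilityTheory Filter Topology

namespace Vale.Agent.P157.Par

variable {N : ℕ}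

/-! ### Bounds on the pattern part -/

lemma gstep_bdd {F : ℝ → ℝ} (hF : Measurable F) {K : ℝ} (hK : ∀ x, |F x| ≤ K) {m : ℝ}
    (hm : 0 < m) (v : ℝ) : Measurable (gstep m v F) ∧ ∀ x, |gstep m v F x| ≤ K := by
  have hmeas : Measurable (Function.uncurry fun (x z : ℝ) => Real.exp (m * F (x + √v * z))) :=
    Real.measurable_exp.comp ((hF.comp (by fun_prop)).const_mul m)
  constructor
  · unfold gstep
    refine Measurable.const_mul (Real.measurable_log.comp ?_) _
    exact (hmeas.stronglyMeasurable.integral_prod_right).measurable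
  · intro x
    have hb : ∀ z, Real.exp (-(m * K)) ≤ Real.exp (m * F (x + √v * z)) ∧
        Real.exp (m * F (x + √v * z)) ≤ Real.exp (m * K) := by
      intro z
      have h1 := abs_le.1 (hK (x + √v * z))
      rw [Real.exp_le_exp, Real.exp_le_exp]
      constructor <;> nlinarith only [hm, h1]
    have hint : Integrable (fun z => Real.exp (m * F (x + √v * z))) (gaussianReal 0 1) := by
      refine (integrable_const (Real.exp (m * K))).mono'
        (Real.measurable_exp.comp ((hF.comp (by fun_prop)).const_mul m)).aestronglyMeasurable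
        (Filter.Eventually.of_forall fun z => ?_)
      rw [Real.norm_eq_abs, abs_of_pos (Real.exp_pos _)]
      exact (hb z).2
    have h1 : Real.exp (-(m * K)) ≤ ∫ z, Real.exp (m * F (x + √v * z)) ∂(gaussianReal 0 1) := by
      calc _ = ∫ _z, Real.exp (-(m * K)) ∂(gaussianReal 0 1) := by simp
        _ ≤ _ := integral_mono (integrable_const _) hint fun z => (hb z).1
    have h2 : ∫ z, Real.exp (m * F (x + √v * z)) ∂(gaussianReal 0 1) ≤ Real.exp (m * K) := by
      calc _ ≤ ∫ _z, Real.exp (m * K) ∂(gaussianReal 0 1) :=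
            integral_mono hint (integrable_const _) fun z => (hb z).2
        _ = _ := by simp
    have h3 := Real.log_le_log (Real.exp_pos _) h1
    have h4 := Real.log_le_log (lt_of_lt_of_le (Real.exp_pos _) h1) h2
    rw [Real.log_exp] at h3 h4
    unfold gstep
    rw [abs_le]
    constructor
    · rw [one_div, ← div_eq_inv_mul, le_div_iff₀ hm]; linarith only [h3]
    · rw [one_div, ← div_eq_inv_mul, div_le_iff₀ hm]; linarith only [h4]

lemma cascade_bdd {m q : ℕ → ℝ} {l : ℕ} (hm : ∀ j < l, 0 < m (j + 1)) {F : ℝ → ℝ}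
    (hF : Measurable F) {K : ℝ} (hK : ∀ x, |F x| ≤ K) (x : ℝ) : |cascade m q l F x| ≤ K := by
  induction l generalizing F with
  | zero => exact hK x
  | succ l ih =>
    have h := gstep_bdd hF hK (hm l (by omega)) (q (l + 1) - q l)
    exact ih (fun j hj => hm j (by omega)) h.1 h.2

/-! ### The interpolation -/

section

variable {k : ℕ} {m r : ℕ → ℝ} {f : ℝ → ℝ} {K : ℝ}

end

/-! ### Sums -/

/-! ### The upper bound -/

end Vale.Agent.P157.Par
end

section

/-!
The free energy of the fields alone, and of energies of the level zero.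
-/

open MeasureTheory ProbabilityTheory Filter Topology

namespace Vale.Agent.P157.Lv

set_option linter.unusedSectionVars false

open Par (Path Exponents cascade gstep patternPart spinPart topN lw)

variable {ι X : Type} [Fintype ι] [DecidableEq ι] [Fintype X] [Nonempty X]
  {S : Sy ι X} {D : ι → (ι → ℝ) → X → ℝ}

/-- The coordinates at distinct places are independent standard Gaussian. -/
lemma lf_map {N : ℕ} {c : Fin N → ι} (hc : Function.Injective c) :
    MeasurePreserving (fun (z : ι → ℝ) (i : Fin N) => z (c i)) (gI ι) (Par.gN N) := by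
  have hm : Measurable (fun (z : ι → ℝ) (i : Fin N) => z (c i)) :=
    measurable_pi_iff.2 fun i => measurable_pi_apply (c i)
  refine ⟨hm, ?_⟩
  have h : iIndepFun (fun (i : ι) (z : ι → ℝ) => z i) (gI ι) :=
    iIndepFun_pi (μ := fun _ : ι => gaussianReal 0 1) (X := fun _ x => x) fun _ => aemeasurable_id
  have h2 : iIndepFun (fun (i : Fin N) (z : ι → ℝ) => z (c i)) (gI ι) := h.precomp hc
  have h3 := (iIndepFun_iff_map_fun_eq_pi_map
    (fun i => (measurable_pi_apply (c i)).aemeasurable)).1 h2
  rw [h3]
  unfold Par.gN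
  congr 1
  funext i
  exact (measurePreserving_eval (fun _ : ι => gaussianReal 0 1) (c i)).map_eq

/-- The field at the level `l`. -/
def lfY {N : ℕ} (zc : ℕ → Fin N → ι) (s : ℕ → ℝ) (l : ℕ) (z : ι → ℝ) : Fin N → ℝ :=
  fun i => ∑ j ∈ Finset.range (l + 1), s j * z (zc j i)

lemma lf_measurable_gstepN {N : ℕ} (m v : ℝ) {G : (Fin N → ℝ) → ℝ} (hG : Measurable G) :
    Measurable (Par.gstepN m v G) := by
  unfold Par.gstepN
  have h : StronglyMeasurable (fun p : (Fin N → ℝ) × (Fin N → ℝ) =>
      Real.exp (m * G (p.1 + √v • p.2))) := by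
    apply Measurable.stronglyMeasurable
    exact Real.measurable_exp.comp ((hG.comp
      (measurable_fst.add (measurable_snd.const_smul (√v)))).const_mul m)
  have h2 : StronglyMeasurable fun y : Fin N → ℝ =>
      ∫ z, Real.exp (m * G (y + √v • z)) ∂(Par.gN N) :=
    h.integral_prod_right' (ν := Par.gN N)
  exact (Real.measurable_log.comp h2.measurable).const_mul _

/-- The values of the recursion are the iterated steps of `topN`. -/
lemma lf_key {N : ℕ} {φ : X → Fin N → ℝ} {u : X → ℝ} {zc : ℕ → Fin N → ι}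
    (hz : ∀ l ≤ S.K, ∀ i, S.lev (zc l i) = l) (hi : ∀ l ≤ S.K, Function.Injective (zc l))
    {s : ℕ → ℝ} (hs : ∀ l ≤ S.K, 0 ≤ s l)
    (hH : ∀ z x, S.H z x = u x + ∑ l ∈ Finset.range (S.K + 1), s l * ∑ i, z (zc l i) * φ x i)
    {l : ℕ} (hl : l ≤ S.K) :
    ∃ G : (Fin N → ℝ) → ℝ, Measurable G ∧ (∀ z, S.lg l z = G (lfY zc s l z)) ∧
      topN S.m (fun l => ∑ j ∈ Finset.range (l + 1), s j ^ 2) S.K (lw φ 1 u) =
        topN S.m (fun l => ∑ j ∈ Finset.range (l + 1), s j ^ 2) l G := by
  refine Sy.down_ind (P := fun l => ∃ G : (Fin N → ℝ) → ℝ, Measurable G ∧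
      (∀ z, S.lg l z = G (lfY zc s l z)) ∧
      topN S.m (fun l => ∑ j ∈ Finset.range (l + 1), s j ^ 2) S.K (lw φ 1 u) =
        topN S.m (fun l => ∑ j ∈ Finset.range (l + 1), s j ^ 2) l G) ?_ ?_ l hl
  · refine ⟨lw φ 1 u, ?_, fun z => ?_, rfl⟩
    · unfold lw
      refine Real.measurable_log.comp (Finset.measurable_sum _ fun x _ => ?_)
      refine Real.measurable_exp.comp (measurable_const.add (Measurable.const_mul ?_ _))
      exact Finset.measurable_sum _ fun i _ => (measurable_pi_apply i).mul_const _
    · rw [Sy.lg_top]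
      unfold Sy.top lw
      congr 1
      refine Finset.sum_congr rfl fun x _ => ?_
      rw [hH]
      congr 2
      rw [one_mul]
      simp only [Finset.mul_sum, lfY, Finset.sum_mul]
      rw [Finset.sum_comm]
      refine Finset.sum_congr rfl fun i _ => Finset.sum_congr rfl fun j _ => ?_
      ring
  · rintro l hl ⟨G, hG, hG1, hG2⟩
    have hv : (∑ j ∈ Finset.range (l + 1 + 1), s j ^ 2) - ∑ j ∈ Finset.range (l + 1), s j ^ 2 =
        s (l + 1) ^ 2 := by
      rw [Finset.sum_range_succ _ (l + 1)]; ring
    refine ⟨Par.gstepN (S.m (l + 1)) (s (l + 1) ^ 2) G, lf_measurable_gstepN _ _ hG,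
      fun z => ?_, ?_⟩
    · rw [Sy.lg_step S hl]
      unfold Sy.stp Par.gstepN J
      congr 2
      rw [Real.sqrt_sq (hs _ (by omega)), ← (lf_map (hi (l + 1) (by omega))).map_eq,
        integral_map (lf_map (hi (l + 1) (by omega))).measurable.aemeasurable]
      · refine integral_congr_ae (Filter.Eventually.of_forall fun w => ?_)
        simp only
        rw [hG1]
        congr 3
        funext i
        simp only [lfY, Pi.add_apply, Pi.smul_apply, smul_eq_mul]
        rw [Finset.sum_range_succ]
        congr 1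
        · refine Finset.sum_congr rfl fun j hj => ?_
          have hj' : j < l + 1 := Finset.mem_range.1 hj
          simp only [mix]
          rw [if_pos (by rw [hz j (by omega)]; omega)]
        · simp only [mix]
          rw [if_neg (by rw [hz (l + 1) (by omega)]; omega)]
      · apply Measurable.aestronglyMeasurable
        exact Real.measurable_exp.comp ((hG.comp
          (measurable_const.add (measurable_id.const_smul (s (l + 1))))).const_mul _)
    · rw [hG2, Par.topN_succ_def, hv]

/-- The free energy of the fields alone. Proof: downward induction, `lg l z` is the iterated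
`gstepN` of `lw φ 1 u` at the point `∑_{j ≤ l} s_j z_j` (the coordinates `zc l i` of the level `l`
are independent standard Gaussian). -/
theorem fe_field {N : ℕ} (hS : S.RegD D) {φ : X → Fin N → ℝ} {u : X → ℝ} {zc : ℕ → Fin N → ι}
    (hz : ∀ l ≤ S.K, ∀ i, S.lev (zc l i) = l) (hi : ∀ l ≤ S.K, Function.Injective (zc l))
    {s : ℕ → ℝ} (hs : ∀ l ≤ S.K, 0 ≤ s l)
    (hH : ∀ z x, S.H z x = u x + ∑ l ∈ Finset.range (S.K + 1), s l * ∑ i, z (zc l i) * φ x i) :
    S.fe = topN S.m (fun l => ∑ j ∈ Finset.range (l + 1), s j ^ 2) S.K (lw φ 1 u) := by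
  obtain ⟨G, hG, hG1, hG2⟩ := lf_key hz hi hs hH (Nat.zero_le S.K)
  rw [hG2]
  unfold Sy.fe topN
  rw [show (∑ j ∈ Finset.range (0 + 1), s j ^ 2) = s 0 ^ 2 by simp,
    Real.sqrt_sq (hs 0 (Nat.zero_le _)), ← (lf_map (hi 0 (Nat.zero_le _))).map_eq,
    integral_map (lf_map (hi 0 (Nat.zero_le _))).measurable.aemeasurable]
  · refine integral_congr_ae (Filter.Eventually.of_forall fun z => ?_)
    simp only
    rw [hG1]
    congr 1
    funext i
    simp [lfY]
  · apply Measurable.aestronglyMeasurable
    exact hG.comp (measurable_id.const_smul (s 0))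

/-- If the energy depends only on the coordinates of level zero, the levels disappear. -/
theorem fe_level_zero (hS : S.Reg) (h : ∀ x, Dep S.lev 0 fun z => S.H z x) :
    S.fe = ∫ z, S.top z ∂(gI ι) := by
  have key : S.lg 0 = S.top := by
    refine Sy.down_ind (P := fun l => S.lg l = S.top) (Sy.lg_top S) (fun l hl ih => ?_) 0 (Nat.zero_le _)
    rw [Sy.lg_step S hl, ih]
    funext z
    have hd : Dep S.lev l (fun z => Real.exp (S.m (l + 1) * S.top z)) := by
      intro z w
      simp only
      congr 2
      unfold Sy.top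
      congr 1
      refine Finset.sum_congr rfl fun x _ => ?_
      exact congrArg Real.exp ((h x).mono (Nat.zero_le l) z w)
    have hm : S.m (l + 1) ≠ 0 := (hS.m_pos (by omega) (by omega)).ne'
    unfold Sy.stp
    rw [hd.J_eq, Real.log_exp]
    (clear * - hm; field_simp)
  unfold Sy.fe
  rw [key]

end Vale.Agent.P157.Lv
end
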