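import Mathlib
import Vale.Agent.P157.Bdl.B3
attribute [-instance] ProperSMul.toContinuousSMul IsTopologicalTorsor.toContinuousSMul IdemSemiring.toCanonicallyOrderedAdd IdemSemiring.toMulLeftMono IdemSemiring.toMulRightMono AddQuantale.instAddLeftMono AddQuantale.instAddRightMono Quantale.instMulLeftMono Quantale.instMulRightMono FiniteDimensional.rclike_to_real IsScalarTower.complexToReal FiniteDimensional.complexToReal

set_option linter.all false

section

/-! Selection of the parameters: the deterministic part. -/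

open MeasureTheory Filter Topology

namespace Vale.Agent.P157.Par

/-- A step function is integrable on bounded intervals. -/
lemma floor_intervalIntegrable (g : ℕ → ℝ) (a b : ℝ) :
    IntervalIntegrable (fun t : ℝ => g ⌊t⌋₊) volume a b := by
  rw [intervalIntegrable_iff]
  refine Measure.integrableOn_of_bounded (M := ∑ k ∈ Finset.range (⌊max a b⌋₊ + 1), |g k|)
    (by rw [Set.uIoc, Real.volume_Ioc]; exact ENNReal.ofReal_ne_top)
    ((measurable_from_nat (f := g)).comp Nat.measurable_floor).aestronglyMeasurable ?_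
  refine (ae_restrict_iff' measurableSet_uIoc).2 (Filter.Eventually.of_forall fun t ht => ?_)
  rw [Real.norm_eq_abs]
  have h1 : ⌊t⌋₊ ≤ ⌊max a b⌋₊ := Nat.floor_le_floor ht.2
  exact Finset.single_le_sum (f := fun k => |g k|) (fun k _ => abs_nonneg _)
    (Finset.mem_range.2 (by omega))

lemma floor_intervalIntegrable_add (g : ℕ → ℝ) (y a b : ℝ) :
    IntervalIntegrable (fun t : ℝ => g ⌊y + t⌋₊) volume a b := by
  have h := (floor_intervalIntegrable g (y + a) (y + b)).comp_add_left y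
  simpa using h

lemma abs_sub_le_of_step {g : ℕ → ℝ} {C : ℝ} (hg : ∀ m, |g (m + 1) - g m| ≤ C) (m n : ℕ) :
    |g m - g n| ≤ C * |(m : ℝ) - n| := by
  have key : ∀ (n k : ℕ), |g (n + k) - g n| ≤ C * k := by
    intro n k
    induction k with
    | zero => simp
    | succ k ih =>
      have h1 := hg (n + k)
      have h2 := abs_sub_le (g (n + k + 1)) (g (n + k)) (g n)
      push_cast
      rw [← add_assoc]
      linarith
  rcases le_total n m with h | h
  · obtain ⟨k, rfl⟩ := Nat.exists_eq_add_of_le h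
    have h1 := key n k
    have h2 : |((n + k : ℕ) : ℝ) - n| = k := by push_cast; simp
    rw [h2]; exact h1
  · obtain ⟨k, rfl⟩ := Nat.exists_eq_add_of_le h
    have h1 := key m k
    have h2 : |(m : ℝ) - ((m + k : ℕ) : ℝ)| = k := by
      push_cast; rw [sub_add_cancel_left, abs_neg]; simp
    rw [h2, abs_sub_comm]; exact h1

lemma abs_floor_sub_le (t t' : ℝ) : |((⌊t⌋₊ : ℕ) : ℝ) - (⌊t'⌋₊ : ℕ)| ≤ |t - t'| + 1 := by
  have h : ∀ t t' : ℝ, ((⌊t⌋₊ : ℕ) : ℝ) - (⌊t'⌋₊ : ℕ) ≤ |t - t'| + 1 := by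
    intro t t'
    have h1 := le_abs_self (t - t')
    have h2 := Nat.lt_floor_add_one t'
    have h3 : (0 : ℝ) ≤ ((⌊t'⌋₊ : ℕ) : ℝ) := Nat.cast_nonneg _
    have h4 := abs_nonneg (t - t')
    rcases le_total 0 t with ht | ht
    · have h5 := Nat.floor_le ht
      linarith
    · rw [Nat.floor_of_nonpos ht, Nat.cast_zero]
      linarith
  refine abs_le.2 ⟨?_, h t t'⟩
  have := h t' t
  rw [abs_sub_comm] at this
  linarith

lemma abs_floor_step {g : ℕ → ℝ} {C : ℝ} (hC : 0 ≤ C) (hg : ∀ m, |g (m + 1) - g m| ≤ C)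
    (t t' : ℝ) : |g ⌊t⌋₊ - g ⌊t'⌋₊| ≤ C * (|t - t'| + 1) :=
  (abs_sub_le_of_step hg _ _).trans (mul_le_mul_of_nonneg_left (abs_floor_sub_le t t') hC)

/-- A short integral of a step function. -/
lemma short_integral {g : ℕ → ℝ} {C : ℝ} (hC : 0 ≤ C) (hg : ∀ m, |g (m + 1) - g m| ≤ C)
    {a b y r : ℝ} (hab : a ≤ b) (hr : ∀ t ∈ Set.Icc a b, |t - y| ≤ r) :
    |(∫ t in a..b, g ⌊t⌋₊) - (b - a) * g ⌊y⌋₊| ≤ (b - a) * (C * (r + 1)) := by
  have h1 : (∫ t in a..b, g ⌊t⌋₊) - (b - a) * g ⌊y⌋₊ = ∫ t in a..b, (g ⌊t⌋₊ - g ⌊y⌋₊) := by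
    rw [intervalIntegral.integral_sub (floor_intervalIntegrable g a b)
      intervalIntegrable_const, intervalIntegral.integral_const, smul_eq_mul]
  rw [h1]
  have h2 := intervalIntegral.norm_integral_le_of_norm_le_const (a := a) (b := b)
    (f := fun t => g ⌊t⌋₊ - g ⌊y⌋₊) (C := C * (r + 1)) (fun t ht => by
      rw [Set.uIoc_of_le hab] at ht
      rw [Real.norm_eq_abs]
      refine (abs_floor_step hC hg t y).trans (mul_le_mul_of_nonneg_left ?_ hC)
      have := hr t ⟨ht.1.le, ht.2⟩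
      linarith)
  rw [Real.norm_eq_abs, abs_of_nonneg (sub_nonneg.2 hab)] at h2
  linarith

/-- Shifting the window by `α` costs `α` times the window average of the unit increments. -/
lemma window_shift {g : ℕ → ℝ} {C : ℝ} (hC : 0 ≤ C) (hg : ∀ m, |g (m + 1) - g m| ≤ C)
    {α x L : ℝ} (hα : 0 < α) :
    α * (∫ θ in (0 : ℝ)..L, (g ⌊x + α + θ⌋₊ - g (⌊x + α + θ⌋₊ - 1))) -
        2 * α * C * (2 * α + 3) ≤
      ∫ θ in (0 : ℝ)..L, (g ⌊x + α + θ⌋₊ - g ⌊x + θ⌋₊) := by
  have e1 : ∫ θ in (0 : ℝ)..L, (g ⌊x + α + θ⌋₊ - g ⌊x + θ⌋₊) =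
      (∫ t in (x + L)..(x + L + α), g ⌊t⌋₊) - ∫ t in x..(x + α), g ⌊t⌋₊ := by
    rw [intervalIntegral.integral_sub (floor_intervalIntegrable_add g _ _ _)
      (floor_intervalIntegrable_add g _ _ _)]
    rw [intervalIntegral.integral_comp_add_left (fun t => g ⌊t⌋₊),
      intervalIntegral.integral_comp_add_left (fun t => g ⌊t⌋₊)]
    have h1 := intervalIntegral.integral_add_adjacent_intervals
      (floor_intervalIntegrable g (x + 0) (x + α)) (floor_intervalIntegrable g (x + α) (x + L + α))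
    have h2 := intervalIntegral.integral_add_adjacent_intervals
      (floor_intervalIntegrable g (x + 0) (x + L)) (floor_intervalIntegrable g (x + L) (x + L + α))
    have h3 : x + α + L = x + L + α := by ring
    simp only [add_zero] at h1 h2 ⊢
    rw [h3]
    linarith
  have e2 : ∫ θ in (0 : ℝ)..L, (g ⌊x + α + θ⌋₊ - g (⌊x + α + θ⌋₊ - 1)) =
      (∫ t in (x + α + L - 1)..(x + α + L), g ⌊t⌋₊) - ∫ t in (x + α - 1)..(x + α), g ⌊t⌋₊ := by
    have h0 : ∀ θ : ℝ, g (⌊x + α + θ⌋₊ - 1) = g ⌊(x + α - 1) + θ⌋₊ := by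
      intro θ
      rw [← Nat.floor_sub_one]
      congr 2
      ring
    simp only [h0]
    rw [intervalIntegral.integral_sub (floor_intervalIntegrable_add g _ _ _)
      (floor_intervalIntegrable_add g _ _ _)]
    rw [intervalIntegral.integral_comp_add_left (fun t => g ⌊t⌋₊),
      intervalIntegral.integral_comp_add_left (fun t => g ⌊t⌋₊)]
    have h1 := intervalIntegral.integral_add_adjacent_intervals
      (floor_intervalIntegrable g (x + α - 1) (x + α))
      (floor_intervalIntegrable g (x + α) (x + α + L))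
    have h2 := intervalIntegral.integral_add_adjacent_intervals
      (floor_intervalIntegrable g (x + α - 1) (x + α + L - 1))
      (floor_intervalIntegrable g (x + α + L - 1) (x + α + L))
    have h3 : x + α - 1 + L = x + α + L - 1 := by ring
    simp only [add_zero]
    rw [h3]
    linarith
  rw [e1, e2]
  have b1 := short_integral hC hg (a := x + L) (b := x + L + α) (y := x + L) (r := α)
    (by linarith) (fun t ht => by
      rw [abs_of_nonneg (by linarith [ht.1])]; linarith [ht.2])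
  have b2 := short_integral hC hg (a := x) (b := x + α) (y := x) (r := α)
    (by linarith) (fun t ht => by
      rw [abs_of_nonneg (by linarith [ht.1])]; linarith [ht.2])
  have b3 := short_integral hC hg (a := x + α + L - 1) (b := x + α + L) (y := x + L)
    (r := α + 1) (by linarith) (fun t ht => by
      rw [abs_le]; constructor <;> linarith [ht.1, ht.2])
  have b4 := short_integral hC hg (a := x + α - 1) (b := x + α) (y := x)
    (r := α + 1) (by linarith) (fun t ht => by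
      rw [abs_le]; constructor <;> linarith [ht.1, ht.2])
  have s1 : x + L + α - (x + L) = α := by ring
  have s2 : x + α - x = α := by ring
  have s3 : x + α + L - (x + α + L - 1) = 1 := by ring
  have s4 : x + α - (x + α - 1) = 1 := by ring
  rw [s1] at b1
  rw [s2] at b2
  rw [s3] at b3
  rw [s4] at b4
  rw [abs_le] at b1 b2 b3 b4
  have b5 : (∫ t in (x + α + L - 1)..(x + α + L), g ⌊t⌋₊) -
      (∫ t in (x + α - 1)..(x + α), g ⌊t⌋₊) ≤
      g ⌊x + L⌋₊ - g ⌊x⌋₊ + 2 * (C * (α + 1 + 1)) := by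
    linarith [b3.2, b4.1]
  have b6 := mul_le_mul_of_nonneg_left b5 hα.le
  have b7 : α * (g ⌊x + L⌋₊ - g ⌊x⌋₊) - 2 * (α * (C * (α + 1))) ≤
      (∫ t in (x + L)..(x + L + α), g ⌊t⌋₊) - ∫ t in x..(x + α), g ⌊t⌋₊ := by
    have := b1.1
    have := b2.2
    linarith only [b1, b2]
  linarith only [b1, b2, b6]

/-- If a sequence is close to `(N + 1) m (N + 1)` and `m` is frequently less than `p + ε`, then
its increments are frequently at most `p + ε`. -/
lemma frequently_increment_le {A m κ : ℕ → ℝ} {p : ℝ}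
    (hA : ∀ N, |A N - ((N : ℝ) + 1) * m (N + 1)| ≤ κ N)
    (hκ : Tendsto (fun N : ℕ => κ N / ((N : ℝ) + 1)) atTop (𝓝 0))
    (hp : ∀ ε > 0, ∃ᶠ N in atTop, m N < p + ε) {ε : ℝ} (hε : 0 < ε) (N₀ : ℕ) :
    ∃ N, N₀ ≤ N ∧ A (N + 1) - A N ≤ p + ε := by
  by_contra hcon
  push Not at hcon
  have h1 : ∀ k : ℕ, A N₀ + k * (p + ε) ≤ A (N₀ + k) := by
    intro k
    induction k with
    | zero => simp
    | succ k ih =>
      have := hcon (N₀ + k) (by omega)
      push_cast
      rw [← add_assoc]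
      linarith
  -- lower bound for `m`
  have h2 : ∀ k : ℕ, (A N₀ + k * (p + ε) - κ (N₀ + k)) / (((N₀ + k : ℕ) : ℝ) + 1) ≤
      m (N₀ + k + 1) := by
    intro k
    have hpos : (0 : ℝ) < ((N₀ + k : ℕ) : ℝ) + 1 := by positivity
    rw [div_le_iff₀ hpos]
    have h3 := (abs_le.1 (hA (N₀ + k))).2
    have h4 := h1 k
    linarith
  have h3 : Tendsto (fun k : ℕ => (A N₀ + k * (p + ε) - κ (N₀ + k)) /
      (((N₀ + k : ℕ) : ℝ) + 1)) atTop (𝓝 (p + ε)) := by
    have t1 : Tendsto (fun k : ℕ => (A N₀ - (N₀ + 1) * (p + ε)) * (1 / (((N₀ + k : ℕ) : ℝ) + 1)))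
        atTop (𝓝 ((A N₀ - (N₀ + 1) * (p + ε)) * 0)) := by
      refine Tendsto.const_mul _ ?_
      have := tendsto_one_div_add_atTop_nhds_zero_nat (𝕜 := ℝ)
      exact this.comp (tendsto_add_atTop_nat N₀ |>.congr fun k => by ring)
    have t2 : Tendsto (fun k : ℕ => κ (N₀ + k) / (((N₀ + k : ℕ) : ℝ) + 1)) atTop (𝓝 0) :=
      hκ.comp (tendsto_add_atTop_nat N₀ |>.congr fun k => by ring)
    have t3 := (t1.sub t2).add_const (p + ε)
    rw [mul_zero, sub_zero, zero_add] at t3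
    refine t3.congr fun k => ?_
    have hpos : (((N₀ + k : ℕ) : ℝ) + 1) ≠ 0 := by positivity
    field_simp
    push_cast
    ring
  have h4 : ∀ᶠ k : ℕ in atTop, p + ε / 2 < m (N₀ + k + 1) := by
    filter_upwards [h3.eventually (lt_mem_nhds (show p + ε / 2 < p + ε by linarith))] with k hk
    exact hk.trans_le (h2 k)
  obtain ⟨k₀, hk₀⟩ := eventually_atTop.1 h4
  obtain ⟨N, hN, hmN⟩ := (frequently_atTop.1 (hp (ε / 2) (by linarith))) (N₀ + k₀ + 1)
  have := hk₀ (N - N₀ - 1) (by omega)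
  have e : N₀ + (N - N₀ - 1) + 1 = N := by omega
  rw [e] at this
  linarith only [hmN, this]

/-- The window average. -/
noncomputable def wav (L : ℝ) (g : ℕ → ℝ) (x : ℝ) : ℝ :=
  1 / L * ∫ θ in (0 : ℝ)..L, g ⌊x + θ⌋₊

lemma wav_close {g : ℕ → ℝ} {C : ℝ} (hC : 0 ≤ C) (hg : ∀ m, |g (m + 1) - g m| ≤ C)
    {x L : ℝ} (hL : 1 ≤ L) : |wav L g x - g ⌊x⌋₊| ≤ C * (L + 1) := by
  have hL0 : 0 < L := by linarith
  have h := short_integral hC hg (a := x) (b := x + L) (y := x) (r := L) (by linarith)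
    (fun t ht => by rw [abs_of_nonneg (by linarith [ht.1])]; linarith [ht.2])
  unfold wav
  rw [intervalIntegral.integral_comp_add_left (fun t => g ⌊t⌋₊), add_zero]
  have s1 : x + L - x = L := by ring
  rw [s1] at h
  have e : 1 / L * (∫ t in x..(x + L), g ⌊t⌋₊) - g ⌊x⌋₊ =
      1 / L * ((∫ t in x..(x + L), g ⌊t⌋₊) - L * g ⌊x⌋₊) := by
    field_simp
  rw [e, abs_mul, abs_of_pos (by positivity : 0 < 1 / L)]
  calc 1 / L * |(∫ t in x..(x + L), g ⌊t⌋₊) - L * g ⌊x⌋₊|
      ≤ 1 / L * (L * (C * (L + 1))) := mul_le_mul_of_nonneg_left h (by positivity)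
    _ = C * (L + 1) := by field_simp

/-- The deterministic selection lemma: for a window length `L` large enough, the window averages
of spin increments plus `α` times pattern increments are frequently at most `p + ε`. -/
theorem window_selection {a c : ℕ → ℕ → ℝ} {C α p : ℝ} {m κ : ℕ → ℝ} (hC : 0 ≤ C) (hα : 0 < α)
    (ha : ∀ N M, |a N (M + 1) - a N M| ≤ C)
    (hc : ∀ N M, c N M ≤ a (N + 1) M - a N M)
    (hm : ∀ N : ℕ, |a N ⌊α * ((N + 1 : ℕ) : ℝ)⌋₊ - ((N : ℝ) + 1) * m (N + 1)| ≤ κ N)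
    (hκ : Tendsto (fun N : ℕ => κ N / ((N : ℝ) + 1)) atTop (𝓝 0))
    (hp : ∀ ε > 0, ∃ᶠ N in atTop, m N < p + ε) {ε : ℝ} (hε : 0 < ε) :
    ∃ L : ℝ, 1 ≤ L ∧ ∀ N₀ : ℕ, ∃ N, N₀ ≤ N ∧
      1 / L * (∫ θ in (0 : ℝ)..L, (c N ⌊α * ((N + 2 : ℕ) : ℝ) + θ⌋₊ +
        α * (a N ⌊α * ((N + 2 : ℕ) : ℝ) + θ⌋₊ - a N (⌊α * ((N + 2 : ℕ) : ℝ) + θ⌋₊ - 1)))) ≤
      p + ε := by
  set K : ℝ := 2 * α * C * (2 * α + 3) with hK
  have hK0 : 0 ≤ K := by positivity
  obtain ⟨L, hL1, hL2⟩ : ∃ L : ℝ, 1 ≤ L ∧ K / L ≤ ε / 2 := by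
    refine ⟨max 1 (2 * K / ε), le_max_left _ _, ?_⟩
    have h1 : (0 : ℝ) < max 1 (2 * K / ε) := lt_of_lt_of_le one_pos (le_max_left _ _)
    rw [div_le_iff₀ h1]
    have h2 : 2 * K / ε ≤ max 1 (2 * K / ε) := le_max_right _ _
    have h3 := mul_le_mul_of_nonneg_left h2 (show 0 ≤ ε / 2 by linarith)
    have h4 : ε / 2 * (2 * K / ε) = K := by field_simp
    linarith only [h4, h3]
  have hL0 : 0 < L := by linarith
  refine ⟨L, hL1, fun N₀ => ?_⟩
  obtain ⟨N, hN, hinc⟩ := frequently_increment_le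
    (A := fun N => wav L (a N) (α * ((N + 1 : ℕ) : ℝ))) (m := m)
    (κ := fun N => κ N + C * (L + 1)) (p := p) (fun N => by
      have h1 := wav_close hC (ha N) (x := α * ((N + 1 : ℕ) : ℝ)) hL1
      have h2 := hm N
      have h3 := abs_sub_le (wav L (a N) (α * ((N + 1 : ℕ) : ℝ)))
        (a N ⌊α * ((N + 1 : ℕ) : ℝ)⌋₊) (((N : ℝ) + 1) * m (N + 1))
      linarith) (by
      have t1 : Tendsto (fun N : ℕ => C * (L + 1) * (1 / ((N : ℝ) + 1))) atTop
          (𝓝 (C * (L + 1) * 0)) := tendsto_one_div_add_atTop_nhds_zero_nat.const_mul _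
      have t2 := hκ.add t1
      rw [mul_zero, add_zero] at t2
      refine t2.congr fun N => ?_
      have : ((N : ℝ) + 1) ≠ 0 := by positivity
      field_simp) hp (show 0 < ε / 2 by linarith) N₀
  refine ⟨N, hN, ?_⟩
  set x : ℝ := α * ((N + 1 : ℕ) : ℝ) with hx
  have hx' : α * ((N + 2 : ℕ) : ℝ) = x + α := by rw [hx]; push_cast; ring
  have hx'' : α * ((N + 1 + 1 : ℕ) : ℝ) = x + α := by rw [hx]; push_cast; ring
  simp only [hx''] at hinc
  rw [hx']
  have hw := window_shift hC (ha N) (x := x) (L := L) hα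
  -- splitting of the increment
  have i1 : ∀ (N : ℕ) (y : ℝ), IntervalIntegrable (fun t : ℝ => a N ⌊y + t⌋₊) volume 0 L :=
    fun N y => floor_intervalIntegrable_add (a N) y 0 L
  have i2 : IntervalIntegrable (fun t : ℝ => c N ⌊x + α + t⌋₊) volume 0 L :=
    floor_intervalIntegrable_add (c N) _ 0 L
  have i3 : IntervalIntegrable (fun t : ℝ => a N ⌊x + α + t⌋₊ - a N (⌊x + α + t⌋₊ - 1))
      volume 0 L :=
    floor_intervalIntegrable_add (fun k => a N k - a N (k - 1)) _ 0 L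
  have s1 : (∫ θ in (0 : ℝ)..L, c N ⌊x + α + θ⌋₊) ≤
      (∫ θ in (0 : ℝ)..L, a (N + 1) ⌊x + α + θ⌋₊) - ∫ θ in (0 : ℝ)..L, a N ⌊x + α + θ⌋₊ := by
    rw [← intervalIntegral.integral_sub (i1 _ _) (i1 _ _)]
    exact intervalIntegral.integral_mono_on hL0.le i2 ((i1 _ _).sub (i1 _ _))
      fun t _ => hc N _
  have s2 : (∫ θ in (0 : ℝ)..L, (a N ⌊x + α + θ⌋₊ - a N ⌊x + θ⌋₊)) =
      (∫ θ in (0 : ℝ)..L, a N ⌊x + α + θ⌋₊) - ∫ θ in (0 : ℝ)..L, a N ⌊x + θ⌋₊ :=
    intervalIntegral.integral_sub (i1 _ _) (i1 _ _)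
  rw [intervalIntegral.integral_add i2 (i3.const_mul α), intervalIntegral.integral_const_mul]
  rw [s2] at hw
  have h5 : 1 / L * ((∫ θ in (0 : ℝ)..L, c N ⌊x + α + θ⌋₊) +
      α * ∫ θ in (0 : ℝ)..L, (a N ⌊x + α + θ⌋₊ - a N (⌊x + α + θ⌋₊ - 1))) ≤
      1 / L * (((∫ θ in (0 : ℝ)..L, a (N + 1) ⌊x + α + θ⌋₊) -
        ∫ θ in (0 : ℝ)..L, a N ⌊x + θ⌋₊) + K) := by
    refine mul_le_mul_of_nonneg_left ?_ (by positivity)
    linarith only [s1, hw]
  refine h5.trans ?_
  have h6 : 1 / L * (((∫ θ in (0 : ℝ)..L, a (N + 1) ⌊x + α + θ⌋₊) -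
        ∫ θ in (0 : ℝ)..L, a N ⌊x + θ⌋₊) + K) =
      (wav L (a (N + 1)) (x + α) - wav L (a N) x) + K / L := by
    unfold wav
    ring
  rw [h6]
  linarith only [hinc, hL2]

/-- The deterministic selection lemma, with a single number `M` of patterns. -/
theorem window_selection' {a c : ℕ → ℕ → ℝ} {C α p : ℝ} {m κ : ℕ → ℝ} (hC : 0 ≤ C) (hα : 0 < α)
    (ha : ∀ N M, |a N (M + 1) - a N M| ≤ C)
    (hc : ∀ N M, c N M ≤ a (N + 1) M - a N M)
    (hm : ∀ N : ℕ, |a N ⌊α * ((N + 1 : ℕ) : ℝ)⌋₊ - ((N : ℝ) + 1) * m (N + 1)| ≤ κ N)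
    (hκ : Tendsto (fun N : ℕ => κ N / ((N : ℝ) + 1)) atTop (𝓝 0))
    (hp : ∀ ε > 0, ∃ᶠ N in atTop, m N < p + ε) {ε : ℝ} (hε : 0 < ε) :
    ∃ L : ℝ, 1 ≤ L ∧ ∀ N₀ : ℕ, ∃ N M : ℕ, N₀ ≤ N ∧ α * ((N : ℝ) + 2) - 1 ≤ M ∧
      (M : ℝ) ≤ α * ((N : ℝ) + 2) + L ∧
      c N M + α * (a N M - a N (M - 1)) ≤ p + 2 * ε := by
  obtain ⟨L, hL, h⟩ := window_selection hC hα ha hc hm hκ hp hε
  have hL0 : 0 < L := by linarith
  refine ⟨L, hL, fun N₀ => ?_⟩
  obtain ⟨N, hN, hint⟩ := h N₀
  by_contra hcon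
  push Not at hcon
  have hlow : ∀ θ ∈ Set.Icc (0 : ℝ) L, p + 2 * ε ≤ c N ⌊α * ((N + 2 : ℕ) : ℝ) + θ⌋₊ +
      α * (a N ⌊α * ((N + 2 : ℕ) : ℝ) + θ⌋₊ -
        a N (⌊α * ((N + 2 : ℕ) : ℝ) + θ⌋₊ - 1)) := by
    intro θ hθ
    have hpos : 0 ≤ α * ((N + 2 : ℕ) : ℝ) + θ := add_nonneg (by positivity) hθ.1
    have h1 := Nat.floor_le hpos
    have h2 := Nat.lt_floor_add_one (α * ((N + 2 : ℕ) : ℝ) + θ)
    push_cast at h1 h2 ⊢
    refine (hcon N _ hN ?_ ?_).le
    · linarith only [hθ.1, h2]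
    · linarith only [hθ.2, h1]
  have hi : IntervalIntegrable (fun θ : ℝ => c N ⌊α * ((N + 2 : ℕ) : ℝ) + θ⌋₊ +
      α * (a N ⌊α * ((N + 2 : ℕ) : ℝ) + θ⌋₊ -
        a N (⌊α * ((N + 2 : ℕ) : ℝ) + θ⌋₊ - 1))) volume 0 L :=
    floor_intervalIntegrable_add (fun k => c N k + α * (a N k - a N (k - 1))) _ 0 L
  have h3 := intervalIntegral.integral_mono_on hL0.le
    (intervalIntegrable_const (c := p + 2 * ε)) hi hlow
  rw [intervalIntegral.integral_const, smul_eq_mul, sub_zero] at h3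
  have h4 := mul_le_mul_of_nonneg_left h3 (show 0 ≤ 1 / L by positivity)
  have h5 : 1 / L * (L * (p + 2 * ε)) = p + 2 * ε := by field_simp
  linarith only [hε, hint, h4, h5]

end Vale.Agent.P157.Par
end

section

/-!
# From moments to the `L¹` distance (Parisi L, task WEI)
-/

set_option autoImplicit false

open Finset

namespace Vale.Agent.P157.Par

theorem wei_deg {n ν : ℕ} (h : ν ≤ n) : (bernsteinPolynomial ℝ n ν).natDegree < n + 1 := by
  unfold bernsteinPolynomial
  rw [Nat.lt_succ_iff]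
  refine Polynomial.natDegree_mul_le.trans ?_
  have h1 : ((n.choose ν : Polynomial ℝ) * Polynomial.X ^ ν).natDegree ≤ ν := by
    refine Polynomial.natDegree_mul_le.trans ?_
    rw [Polynomial.natDegree_natCast, Polynomial.natDegree_X_pow, zero_add]
  have h2 : (((1 : Polynomial ℝ) - Polynomial.X) ^ (n - ν)).natDegree ≤ n - ν := by
    refine Polynomial.natDegree_pow_le.trans ?_
    have h3 : ((1 : Polynomial ℝ) - Polynomial.X).natDegree ≤ 1 := by
      refine (Polynomial.natDegree_sub_le _ _).trans ?_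
      simp
    calc (n - ν) * ((1 : Polynomial ℝ) - Polynomial.X).natDegree ≤ (n - ν) * 1 := by gcongr
      _ = n - ν := mul_one _
  omega

theorem wei_nonneg (n ν : ℕ) {x : ℝ} (h0 : 0 ≤ x) (h1 : x ≤ 1) :
    0 ≤ (bernsteinPolynomial ℝ n ν).eval x := by
  unfold bernsteinPolynomial
  simp only [Polynomial.eval_mul, Polynomial.eval_natCast, Polynomial.eval_pow, Polynomial.eval_X,
    Polynomial.eval_sub, Polynomial.eval_one]
  have : 0 ≤ 1 - x := by linarith
  positivity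

theorem wei_sum (n : ℕ) (x : ℝ) :
    ∑ ν ∈ range (n + 1), (bernsteinPolynomial ℝ n ν).eval x = 1 := by
  rw [← Polynomial.eval_finsetSum, bernsteinPolynomial.sum, Polynomial.eval_one]

theorem wei_var {n : ℕ} (hn : n ≠ 0) (x : ℝ) :
    ∑ ν ∈ range (n + 1), ((ν : ℝ) / n - x) ^ 2 * (bernsteinPolynomial ℝ n ν).eval x =
      x * (1 - x) / n := by
  have h := congrArg (Polynomial.eval x) (bernsteinPolynomial.variance ℝ n)
  simp only [Polynomial.eval_finsetSum, Polynomial.eval_mul, Polynomial.eval_pow,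
    Polynomial.eval_sub, Polynomial.eval_X, Polynomial.eval_natCast,
    Polynomial.eval_one, nsmul_eq_mul] at h
  have hn' : (n : ℝ) ≠ 0 := Nat.cast_ne_zero.2 hn
  have h2 : ∑ ν ∈ range (n + 1), ((ν : ℝ) / n - x) ^ 2 * (bernsteinPolynomial ℝ n ν).eval x =
      (∑ ν ∈ range (n + 1), ((n : ℝ) * x - ν) ^ 2 * (bernsteinPolynomial ℝ n ν).eval x) /
        (n : ℝ) ^ 2 := by
    rw [sum_div]
    refine sum_congr rfl fun ν _ => ?_
    field_simp
    ring
  rw [h2, h]
  field_simp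

theorem wei_abs_le {η : ℝ} (hη : 0 < η) (t : ℝ) : |t| ≤ η / 2 + t ^ 2 / (2 * η) := by
  have h1 : 0 ≤ (|t| - η) ^ 2 := sq_nonneg _
  have h2 : |t| ^ 2 = t ^ 2 := sq_abs t
  have h3 : η / 2 + t ^ 2 / (2 * η) - |t| = (|t| - η) ^ 2 / (2 * η) := by
    rw [← h2]
    field_simp
    ring
  have h4 : 0 ≤ (|t| - η) ^ 2 / (2 * η) := by positivity
  linarith only [h4, h3]

/-- Uniform approximation by Bernstein polynomials. -/
theorem wei_approx {L : ℝ} (hL : 0 ≤ L) {δ : ℝ} (hδ : 0 < δ) :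
    ∃ n : ℕ, n ≠ 0 ∧ ∀ h : ℝ → ℝ, (∀ x y, |h x - h y| ≤ L * |x - y|) → ∀ x : ℝ, 0 ≤ x → x ≤ 1 →
      |∑ ν ∈ range (n + 1), h ((ν : ℝ) / n) * (bernsteinPolynomial ℝ n ν).eval x - h x| ≤ δ := by
  -- choose `τ` with `L τ / 2 ≤ δ / 2` and then `n`
  set τ : ℝ := δ / (L + 1) with hτ
  have hL1 : 0 < L + 1 := by linarith
  have hτ0 : 0 < τ := by positivity
  obtain ⟨n, hn⟩ := exists_nat_gt (1 / τ ^ 2)
  have hn0 : n ≠ 0 := by
    rintro rfl
    have : (0 : ℝ) < 1 / τ ^ 2 := by positivity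
    simp only [Nat.cast_zero] at hn
    linarith only [this, hn]
  refine ⟨n, hn0, fun h hh x hx0 hx1 => ?_⟩
  have hnpos : (0 : ℝ) < n := Nat.cast_pos.2 (Nat.pos_of_ne_zero hn0)
  have hb : ∀ ν, 0 ≤ (bernsteinPolynomial ℝ n ν).eval x := fun ν => wei_nonneg n ν hx0 hx1
  have e1 : ∑ ν ∈ range (n + 1), h ((ν : ℝ) / n) * (bernsteinPolynomial ℝ n ν).eval x - h x =
      ∑ ν ∈ range (n + 1), (h ((ν : ℝ) / n) - h x) * (bernsteinPolynomial ℝ n ν).eval x := by
    simp only [sub_mul, sum_sub_distrib]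
    rw [← mul_sum, wei_sum, mul_one]
  rw [e1]
  calc |∑ ν ∈ range (n + 1), (h ((ν : ℝ) / n) - h x) * (bernsteinPolynomial ℝ n ν).eval x|
      ≤ ∑ ν ∈ range (n + 1), |(h ((ν : ℝ) / n) - h x) * (bernsteinPolynomial ℝ n ν).eval x| :=
        abs_sum_le_sum_abs _ _
    _ ≤ ∑ ν ∈ range (n + 1), (L * (τ / 2) * (bernsteinPolynomial ℝ n ν).eval x +
          L / (2 * τ) * (((ν : ℝ) / n - x) ^ 2 * (bernsteinPolynomial ℝ n ν).eval x)) := by
        refine sum_le_sum fun ν _ => ?_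
        rw [abs_mul, abs_of_nonneg (hb ν)]
        have h1 := hh ((ν : ℝ) / n) x
        have h2 := wei_abs_le hτ0 ((ν : ℝ) / n - x)
        have h3 : |h ((ν : ℝ) / n) - h x| ≤
            L * (τ / 2 + ((ν : ℝ) / n - x) ^ 2 / (2 * τ)) :=
          h1.trans (mul_le_mul_of_nonneg_left h2 hL)
        calc |h ((ν : ℝ) / n) - h x| * (bernsteinPolynomial ℝ n ν).eval x
            ≤ L * (τ / 2 + ((ν : ℝ) / n - x) ^ 2 / (2 * τ)) *
              (bernsteinPolynomial ℝ n ν).eval x := mul_le_mul_of_nonneg_right h3 (hb ν)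
          _ = _ := by ring
    _ = L * (τ / 2) + L / (2 * τ) * (x * (1 - x) / n) := by
        rw [sum_add_distrib, ← mul_sum, ← mul_sum, wei_sum, wei_var hn0, mul_one]
    _ ≤ L * (τ / 2) + L / (2 * τ) * (τ ^ 2) := by
        have h1 : x * (1 - x) / n ≤ τ ^ 2 := by
          have h2 : x * (1 - x) ≤ 1 := by nlinarith only [hx1, hx0]
          have h3 : 1 < τ ^ 2 * n := by
            rwa [div_lt_iff₀' (by positivity)] at hn
          rw [div_le_iff₀ hnpos]
          linarith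
        gcongr
    _ = L * τ := by field_simp; ring
    _ ≤ δ := by
        rw [hτ, mul_div_assoc', div_le_iff₀ hL1]
        linarith only [hδ]

theorem wei_mono {C : ℝ} {k : ℕ} {q R : ℕ → ℝ}
    (hR : ∀ l < k, 0 ≤ R (l + 1) - R l ∧ R (l + 1) - R l ≤ C * (q (l + 1) - q l))
    (i : ℕ) : ∀ j, i ≤ j → j ≤ k → 0 ≤ R j - R i ∧ R j - R i ≤ C * (q j - q i) := by
  intro j hij
  induction j, hij using Nat.le_induction with
  | base => intro _; simp
  | succ j hj ih =>
    intro hk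
    obtain ⟨h1, h2⟩ := ih (by omega)
    obtain ⟨h3, h4⟩ := hR j (by omega)
    constructor
    · linarith
    · linarith only [h2, h4]

/-- Lipschitz extension. -/
theorem wei_ext {C : ℝ} (hC : 0 ≤ C) {k : ℕ} {q R : ℕ → ℝ}
    (hq : ∀ l < k, q l ≤ q (l + 1))
    (hR : ∀ l < k, 0 ≤ R (l + 1) - R l ∧ R (l + 1) - R l ≤ C * (q (l + 1) - q l)) :
    ∃ g : ℝ → ℝ, (∀ x y, |g x - g y| ≤ C * |x - y|) ∧ ∀ l ≤ k, g (q l) = R l := by
  classical
  have hqm : ∀ i j, i ≤ j → j ≤ k → q i ≤ q j := by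
    intro i j hij
    induction j, hij using Nat.le_induction with
    | base => intro _; exact le_refl _
    | succ j hj ih => intro hk; exact (ih (by omega)).trans (hq j (by omega))
  have hRR : ∀ i ≤ k, ∀ j ≤ k, |R i - R j| ≤ C * |q i - q j| := by
    intro i hi j hj
    rcases le_total i j with h | h
    · obtain ⟨h1, h2⟩ := wei_mono hR i j h hj
      rw [abs_sub_comm, abs_of_nonneg h1, abs_sub_comm, abs_of_nonneg (sub_nonneg.2 (hqm i j h hj))]
      exact h2
    · obtain ⟨h1, h2⟩ := wei_mono hR j i h hi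
      rw [abs_of_nonneg h1, abs_of_nonneg (sub_nonneg.2 (hqm j i h hi))]
      exact h2
  let s : Set ℝ := {x | ∃ l, l ≤ k ∧ q l = x}
  let f : ℝ → ℝ := fun x => if h : ∃ l, l ≤ k ∧ q l = x then R (Classical.choose h) else 0
  have hf : ∀ x ∈ s, ∃ l, l ≤ k ∧ q l = x ∧ f x = R l := by
    intro x hx
    have hx' : ∃ l, l ≤ k ∧ q l = x := hx
    refine ⟨Classical.choose hx', (Classical.choose_spec hx').1, (Classical.choose_spec hx').2, ?_⟩
    simp only [f]
    rw [dif_pos hx']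
  have hlip : LipschitzOnWith C.toNNReal f s := by
    refine LipschitzOnWith.of_dist_le_mul fun x hx y hy => ?_
    obtain ⟨i, hi, hix, hfi⟩ := hf x hx
    obtain ⟨j, hj, hjy, hfj⟩ := hf y hy
    rw [Real.dist_eq, Real.dist_eq, hfi, hfj, ← hix, ← hjy, Real.coe_toNNReal C hC]
    exact hRR i hi j hj
  obtain ⟨g, hg, hgf⟩ := hlip.extend_real
  refine ⟨g, fun x y => ?_, fun l hl => ?_⟩
  · have h1 := hg.dist_le_mul x y
    rw [Real.dist_eq, Real.dist_eq, Real.coe_toNNReal C hC] at h1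
    exact h1
  · have hls : q l ∈ s := ⟨l, hl, rfl⟩
    have h1 : f (q l) = g (q l) := hgf hls
    obtain ⟨j, hj, hjl, hfj⟩ := hf (q l) hls
    rw [← h1, hfj]
    have h2 := hRR j hj l hl
    rw [hjl, sub_self, abs_zero, mul_zero] at h2
    have h3 : |R j - R l| = 0 := le_antisymm h2 (abs_nonneg _)
    linarith only [abs_eq_zero.1 h3]

theorem weier {C : ℝ} (hC : 0 ≤ C) {η : ℝ} (hη : 0 < η) :
    ∃ (n : ℕ) (ε : ℝ), 0 < ε ∧ ∀ (k : ℕ) (w q R : ℕ → ℝ), (∀ l ≤ k, 0 ≤ w l) →
      ∑ l ∈ Finset.range (k + 1), w l = 1 → (∀ l ≤ k, 0 ≤ q l ∧ q l ≤ 1) →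
      (∀ l < k, q l ≤ q (l + 1)) → (∀ l ≤ k, 0 ≤ R l ∧ R l ≤ 1) →
      (∀ l < k, 0 ≤ R (l + 1) - R l ∧ R (l + 1) - R l ≤ C * (q (l + 1) - q l)) →
      (∀ p ≤ n, |∑ l ∈ Finset.range (k + 1), w l * (R l - q l) * q l ^ p| ≤ ε) →
      ∑ l ∈ Finset.range (k + 1), w l * |R l - q l| ≤ η := by
  obtain ⟨n, hn0, happ⟩ := wei_approx (L := C + 1) (by linarith) (δ := η ^ 2 / 2) (by positivity)
  set K : ℝ := ∑ ν ∈ range (n + 1), ∑ p ∈ range (n + 1),
    |(bernsteinPolynomial ℝ n ν).coeff p| with hK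
  have hK0 : 0 ≤ K := sum_nonneg fun _ _ => sum_nonneg fun _ _ => abs_nonneg _
  refine ⟨n, η ^ 2 / (2 * ((C + 2) * K + 1)), by (clear * - hη hC; positivity), ?_⟩
  intro k w q R hw hw1 hq hqm hR hRq hmom
  obtain ⟨g, hg, hgR⟩ := wei_ext hC hqm hRq
  set h : ℝ → ℝ := fun x => g x - x with hh
  have hnpos : (0 : ℝ) < n := Nat.cast_pos.2 (Nat.pos_of_ne_zero hn0)
  have hlip : ∀ x y, |h x - h y| ≤ (C + 1) * |x - y| := by
    intro x y
    have e : h x - h y = (g x - g y) - (x - y) := by simp only [hh]; ring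
    rw [e]
    calc |g x - g y - (x - y)| ≤ |g x - g y| + |x - y| := abs_sub _ _
      _ ≤ C * |x - y| + |x - y| := by gcongr; exact hg x y
      _ = _ := by ring
  have hq0 := hq 0 (Nat.zero_le _)
  have hR0 := hR 0 (Nat.zero_le _)
  have hbd : ∀ x, 0 ≤ x → x ≤ 1 → |h x| ≤ C + 2 := by
    intro x hx0 hx1
    have h1 := hg x (q 0)
    rw [hgR 0 (Nat.zero_le _)] at h1
    have h2 : |x - q 0| ≤ 1 := by rw [abs_le]; constructor <;> linarith [hq0.1, hq0.2]
    have h3 : C * |x - q 0| ≤ C := by linarith only [mul_nonneg (sub_nonneg.2 hC) (sub_nonneg.2 h2)]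
    rw [abs_le] at h1 ⊢
    simp only [hh]
    constructor <;> linarith [hR0.1, hR0.2, h1.1, h1.2]
  -- the polynomial
  set Q : Polynomial ℝ := ∑ ν ∈ range (n + 1),
    Polynomial.C (h ((ν : ℝ) / n)) * bernsteinPolynomial ℝ n ν with hQ
  have hQe : ∀ x, Q.eval x =
      ∑ ν ∈ range (n + 1), h ((ν : ℝ) / n) * (bernsteinPolynomial ℝ n ν).eval x := by
    intro x
    rw [hQ, Polynomial.eval_finsetSum]
    refine sum_congr rfl fun ν _ => ?_
    rw [Polynomial.eval_mul, Polynomial.eval_C]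
  have hQd : ∀ x, Q.eval x = ∑ p ∈ range (n + 1), Q.coeff p * x ^ p := by
    intro x
    rw [hQe]
    have e1 : ∀ p, Q.coeff p =
        ∑ ν ∈ range (n + 1), h ((ν : ℝ) / n) * (bernsteinPolynomial ℝ n ν).coeff p := by
      intro p
      rw [hQ, Polynomial.finsetSum_coeff]
      refine sum_congr rfl fun ν _ => ?_
      rw [Polynomial.coeff_C_mul]
    simp only [e1, sum_mul]
    rw [sum_comm]
    refine sum_congr rfl fun ν hν => ?_
    rw [Polynomial.eval_eq_sum_range' (wei_deg (Nat.lt_succ_iff.1 (mem_range.1 hν))), mul_sum]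
    refine sum_congr rfl fun p _ => ?_
    ring
  have hQc : ∑ p ∈ range (n + 1), |Q.coeff p| ≤ (C + 2) * K := by
    have e1 : ∀ p, |Q.coeff p| ≤
        ∑ ν ∈ range (n + 1), (C + 2) * |(bernsteinPolynomial ℝ n ν).coeff p| := by
      intro p
      rw [hQ, Polynomial.finsetSum_coeff]
      refine (abs_sum_le_sum_abs _ _).trans (sum_le_sum fun ν hν => ?_)
      rw [Polynomial.coeff_C_mul, abs_mul]
      have hν' : ν ≤ n := Nat.lt_succ_iff.1 (mem_range.1 hν)
      have hν1 : (ν : ℝ) / n ≤ 1 := by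
        rw [div_le_one hnpos]; exact_mod_cast hν'
      exact mul_le_mul_of_nonneg_right (hbd _ (by positivity) hν1) (abs_nonneg _)
    calc ∑ p ∈ range (n + 1), |Q.coeff p|
        ≤ ∑ p ∈ range (n + 1), ∑ ν ∈ range (n + 1),
          (C + 2) * |(bernsteinPolynomial ℝ n ν).coeff p| := sum_le_sum fun p _ => e1 p
      _ = (C + 2) * K := by
        rw [sum_comm, hK, mul_sum]
        refine sum_congr rfl fun ν _ => ?_
        rw [mul_sum]
  -- the moment estimate
  have hM : |∑ l ∈ range (k + 1), w l * (R l - q l) * Q.eval (q l)| ≤ η ^ 2 / 2 := by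
    have e1 : ∑ l ∈ range (k + 1), w l * (R l - q l) * Q.eval (q l) =
        ∑ p ∈ range (n + 1), Q.coeff p * ∑ l ∈ range (k + 1), w l * (R l - q l) * q l ^ p := by
      simp only [hQd, mul_sum]
      rw [sum_comm]
      refine sum_congr rfl fun p _ => sum_congr rfl fun l _ => ?_
      ring
    rw [e1]
    calc |∑ p ∈ range (n + 1), Q.coeff p * ∑ l ∈ range (k + 1), w l * (R l - q l) * q l ^ p|
        ≤ ∑ p ∈ range (n + 1), |Q.coeff p * ∑ l ∈ range (k + 1), w l * (R l - q l) * q l ^ p| :=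
          abs_sum_le_sum_abs _ _
      _ ≤ ∑ p ∈ range (n + 1), |Q.coeff p| * (η ^ 2 / (2 * ((C + 2) * K + 1))) := by
          refine sum_le_sum fun p hp => ?_
          rw [abs_mul]
          exact mul_le_mul_of_nonneg_left (hmom p (Nat.lt_succ_iff.1 (mem_range.1 hp)))
            (abs_nonneg _)
      _ = (∑ p ∈ range (n + 1), |Q.coeff p|) * (η ^ 2 / (2 * ((C + 2) * K + 1))) := by
          rw [sum_mul]
      _ ≤ ((C + 2) * K) * (η ^ 2 / (2 * ((C + 2) * K + 1))) :=
          mul_le_mul_of_nonneg_right hQc (by (clear * - hη hC; positivity))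
      _ ≤ η ^ 2 / 2 := by
          rw [mul_div_assoc', div_le_div_iff₀ (by (clear * - hC; positivity)) (by norm_num)]
          have : 0 ≤ (C + 2) * K := by (clear * - hC; positivity)
          linarith only [sq_nonneg η]
  -- the second moment
  have hS : ∑ l ∈ range (k + 1), w l * (R l - q l) ^ 2 ≤ η ^ 2 := by
    have e1 : ∀ l ∈ range (k + 1), w l * (R l - q l) ^ 2 =
        w l * (R l - q l) * Q.eval (q l) + w l * (R l - q l) * (h (q l) - Q.eval (q l)) := by
      intro l hl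
      have hl' : l ≤ k := Nat.lt_succ_iff.1 (mem_range.1 hl)
      have e2 : h (q l) = R l - q l := by simp only [hh]; rw [hgR l hl']
      rw [e2]
      ring
    rw [sum_congr rfl e1, sum_add_distrib]
    have h2 : ∑ l ∈ range (k + 1), w l * (R l - q l) * (h (q l) - Q.eval (q l)) ≤
        ∑ l ∈ range (k + 1), w l * (η ^ 2 / 2) := by
      refine sum_le_sum fun l hl => ?_
      have hl' : l ≤ k := Nat.lt_succ_iff.1 (mem_range.1 hl)
      have h3 := happ h hlip (q l) (hq l hl').1 (hq l hl').2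
      rw [← hQe, abs_sub_comm] at h3
      have h4 : |R l - q l| ≤ 1 := by
        rw [abs_le]
        constructor <;> linarith [(hq l hl').1, (hq l hl').2, (hR l hl').1, (hR l hl').2]
      have h5 : (R l - q l) * (h (q l) - Q.eval (q l)) ≤ η ^ 2 / 2 := by
        calc (R l - q l) * (h (q l) - Q.eval (q l))
            ≤ |(R l - q l) * (h (q l) - Q.eval (q l))| := le_abs_self _
          _ = |R l - q l| * |h (q l) - Q.eval (q l)| := abs_mul _ _
          _ ≤ 1 * (η ^ 2 / 2) := mul_le_mul h4 h3 (abs_nonneg _) (by norm_num)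
          _ = _ := one_mul _
      rw [mul_assoc]
      exact mul_le_mul_of_nonneg_left h5 (hw l hl')
    rw [← sum_mul, hw1, one_mul] at h2
    have h6 := le_abs_self (∑ l ∈ range (k + 1), w l * (R l - q l) * Q.eval (q l))
    linarith
  calc ∑ l ∈ range (k + 1), w l * |R l - q l|
      ≤ ∑ l ∈ range (k + 1), (w l * (η / 2) + w l * (R l - q l) ^ 2 / (2 * η)) := by
        refine sum_le_sum fun l hl => ?_
        have hl' : l ≤ k := Nat.lt_succ_iff.1 (mem_range.1 hl)
        have h1 := mul_le_mul_of_nonneg_left (wei_abs_le hη (R l - q l)) (hw l hl')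
        calc w l * |R l - q l| ≤ _ := h1
          _ = _ := by ring
    _ = η / 2 + (∑ l ∈ range (k + 1), w l * (R l - q l) ^ 2) / (2 * η) := by
        rw [sum_add_distrib, ← sum_mul, hw1, one_mul, sum_div]
    _ ≤ η / 2 + η ^ 2 / (2 * η) := by gcongr
    _ = η := by field_simp; ring

end Vale.Agent.P157.Par
end

section

/-!
Synchronization: if the fields `∑ z_{l,i} φ_i(x)` of all levels are concentrated, then the overlap
of two replicas is concentrated given the level at which they split (up to the increments of the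
overlap path).
-/

open MeasureTheory ProbabilityTheory Filter Topology

namespace Vale.Agent.P157.Lv

set_option linter.unusedSectionVars false

variable {ι X : Type} [Fintype ι] [DecidableEq ι] [Fintype X] [DecidableEq X] [Nonempty X]
  {S : Sy ι X} {D : ι → (ι → ℝ) → X → ℝ} {N : ℕ}

/-- The overlap of two configurations. -/
noncomputable def Rov (φ : X → Fin N → ℝ) (x x' : X) : ℝ := 1 / N * ∑ i, φ x i * φ x' i

/-- The field of the level `l`, divided by `N`. -/
noncomputable def hz (φ : X → Fin N → ℝ) (zc : ℕ → Fin N → ι) (l : ℕ) (z : ι → ℝ) (x : X) : ℝ :=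
  1 / N * ∑ i, z (zc l i) * φ x i

namespace Sy

/-- The magnetization given the levels at most `l`. -/
noncomputable def mg (S : Sy ι X) (φ : X → Fin N → ℝ) (l : ℕ) (i : Fin N) : (ι → ℝ) → ℝ :=
  S.T l (fun _ x => φ x i)

/-- The overlap of two replicas which split at the level `l`. -/
noncomputable def Rl (S : Sy ι X) (φ : X → Fin N → ℝ) (l : ℕ) : ℝ :=
  1 / N * S.Ex (fun z _ => ∑ i, S.mg φ l i z ^ 2)

/-- The conditional law of the configuration given the levels at most `l`. -/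
noncomputable def pr (S : Sy ι X) (l : ℕ) (z : ι → ℝ) (x : X) : ℝ :=
  S.T l (fun _ y => if y = x then 1 else 0) z

/-- The average over two replicas which split at the level `l`. -/
noncomputable def pairEx (S : Sy ι X) (l : ℕ) (ψ : X → X → ℝ) : ℝ :=
  S.Ex (fun z _ => ∑ x, ∑ x', S.pr l z x * S.pr l z x' * ψ x x')

end Sy

/-- The system contains the fields `s_l ∑_i z_{l,i} φ_i(x)`. -/
structure Fld (S : Sy ι X) (D : ι → (ι → ℝ) → X → ℝ) (φ : X → Fin N → ℝ) (zc : ℕ → Fin N → ι)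
    (s : ℕ → ℝ) : Prop where
  reg : S.RegD D
  N0 : 0 < N
  norm : ∀ x, ∑ i, φ x i ^ 2 = N
  lev : ∀ l ≤ S.K, ∀ i, S.lev (zc l i) = l
  D : ∀ l ≤ S.K, ∀ i z x, D (zc l i) z x = s l * φ x i
  pos : ∀ l ≤ S.K, 0 ≤ s l

namespace Sy

variable {φ : X → Fin N → ℝ} {zc : ℕ → Fin N → ι} {s : ℕ → ℝ}

omit [Fintype ι] [DecidableEq ι] [Fintype X] [DecidableEq X] [Nonempty X] in
lemma lvp_sq {κ : Type} [Fintype κ] (w f : κ → ℝ) (hw : ∀ i, 0 ≤ w i) (h1 : ∑ i, w i = 1) :
    (∑ i, w i * f i) ^ 2 ≤ ∑ i, w i * f i ^ 2 := by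
  set m := ∑ i, w i * f i with hm
  have h : 0 ≤ ∑ i, w i * (f i - m) ^ 2 :=
    Finset.sum_nonneg fun i _ => mul_nonneg (hw i) (sq_nonneg _)
  have e : ∑ i, w i * (f i - m) ^ 2 = ∑ i, w i * f i ^ 2 - 2 * m * m + m ^ 2 := by
    have e1 : ∀ i, w i * (f i - m) ^ 2 = w i * f i ^ 2 - 2 * m * (w i * f i) + m ^ 2 * w i := by
      intro i; ring
    simp_rw [e1]
    rw [Finset.sum_add_distrib, Finset.sum_sub_distrib, ← Finset.mul_sum, ← Finset.mul_sum, h1,
      ← hm, mul_one]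
  rw [e] at h
  linarith [sq m]

lemma Reg.pr_nonneg (hS : S.Reg) {l : ℕ} (hl : l ≤ S.K) (z : ι → ℝ) (x : X) : 0 ≤ S.pr l z x := by
  have h := hS.T_mono hl (f := fun _ _ => (0 : ℝ)) (g := fun _ y => if y = x then (1 : ℝ) else 0)
    (Nh.snd fun _ => 0) (Nh.snd fun y => if y = x then (1 : ℝ) else 0)
    (fun z y => by split_ifs <;> norm_num) z
  rw [hS.T_const hl] at h
  exact h

lemma Reg.T_pr (hS : S.Reg) {l : ℕ} (hl : l ≤ S.K) (h : X → ℝ) (z : ι → ℝ) :
    S.T l (fun _ x => h x) z = ∑ x, S.pr l z x * h x := by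
  have e : (fun (_ : ι → ℝ) (x : X) => h x) =
      fun (z : ι → ℝ) (y : X) => ∑ x, h x * (fun (_ : ι → ℝ) (y : X) =>
        if y = x then (1 : ℝ) else 0) z y := by
    funext z y
    simp
  rw [e, hS.T_sum hl Finset.univ (fun x _ => Nh.const_mul _
    (Nh.snd fun y => if y = x then (1 : ℝ) else 0))]
  refine Finset.sum_congr rfl fun x _ => ?_
  rw [T_const_mul, mul_comm]
  rfl

lemma Reg.sum_pr (hS : S.Reg) {l : ℕ} (hl : l ≤ S.K) (z : ι → ℝ) : ∑ x, S.pr l z x = 1 := by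
  have h := hS.T_pr hl (fun _ => 1) z
  rw [hS.T_const hl] at h
  rw [h]
  simp

lemma Reg.eg_pr (hS : S.Reg) {l : ℕ} (hl : l ≤ S.K) (x : X) : EG fun z => S.pr l z x :=
  hS.eg_T hl (Nh.snd fun y => if y = x then (1 : ℝ) else 0)

lemma Reg.nh_pair (hS : S.Reg) {l : ℕ} (hl : l ≤ S.K) (ψ : X → X → ℝ) :
    EG (fun z => ∑ x, ∑ x', S.pr l z x * S.pr l z x' * ψ x x') :=
  EG.sum _ fun x _ => EG.sum _ fun x' _ =>
    ((hS.eg_pr hl x).mul (hS.eg_pr hl x')).mul (EG.const _)

lemma Reg.pairEx_mono (hS : S.Reg) {l : ℕ} (hl : l ≤ S.K) {ψ ψ' : X → X → ℝ}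
    (h : ∀ x x', ψ x x' ≤ ψ' x x') : S.pairEx l ψ ≤ S.pairEx l ψ' := by
  refine hS.Ex_mono (Nh.fst (hS.nh_pair hl ψ)) (Nh.fst (hS.nh_pair hl ψ')) fun z _ => ?_
  refine Finset.sum_le_sum fun x _ => Finset.sum_le_sum fun x' _ => ?_
  exact mul_le_mul_of_nonneg_left (h x x')
    (mul_nonneg (hS.pr_nonneg hl z x) (hS.pr_nonneg hl z x'))

lemma Reg.pairEx_const (hS : S.Reg) {l : ℕ} (hl : l ≤ S.K) (c : ℝ) :
    S.pairEx l (fun _ _ => c) = c := by
  have e : (fun (z : ι → ℝ) (_ : X) => ∑ x, ∑ x', S.pr l z x * S.pr l z x' * c) =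
      fun _ _ => c := by
    funext z _
    simp_rw [mul_assoc, ← Finset.mul_sum, ← Finset.sum_mul]
    rw [hS.sum_pr hl, one_mul, one_mul]
  rw [pairEx, e, hS.Ex_const]

lemma Reg.pairEx_nonneg (hS : S.Reg) {l : ℕ} (hl : l ≤ S.K) {ψ : X → X → ℝ}
    (h : ∀ x x', 0 ≤ ψ x x') : 0 ≤ S.pairEx l ψ := by
  rw [← hS.pairEx_const hl 0]
  exact hS.pairEx_mono hl h

lemma Reg.pairEx_add (hS : S.Reg) {l : ℕ} (hl : l ≤ S.K) (ψ ψ' : X → X → ℝ) :
    S.pairEx l (fun x x' => ψ x x' + ψ' x x') = S.pairEx l ψ + S.pairEx l ψ' := by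
  rw [pairEx, pairEx, pairEx, ← hS.Ex_add (Nh.fst (hS.nh_pair hl ψ)) (Nh.fst (hS.nh_pair hl ψ'))]
  congr 1
  funext z _
  rw [← Finset.sum_add_distrib]
  refine Finset.sum_congr rfl fun x _ => ?_
  rw [← Finset.sum_add_distrib]
  refine Finset.sum_congr rfl fun x' _ => ?_
  rw [mul_add]

lemma Reg.pairEx_const_mul (_hS : S.Reg) (l : ℕ) (c : ℝ) (ψ : X → X → ℝ) :
    S.pairEx l (fun x x' => c * ψ x x') = c * S.pairEx l ψ := by
  rw [pairEx, pairEx, ← Ex_const_mul]
  congr 1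
  funext z _
  rw [Finset.mul_sum]
  refine Finset.sum_congr rfl fun x _ => ?_
  rw [Finset.mul_sum]
  refine Finset.sum_congr rfl fun x' _ => ?_
  ring

lemma Reg.pair_cs (hS : S.Reg) {l : ℕ} (hl : l ≤ S.K) (ψ : X → X → ℝ) (z : ι → ℝ) :
    (∑ x, ∑ x', S.pr l z x * S.pr l z x' * ψ x x') ^ 2 ≤
      ∑ x, ∑ x', S.pr l z x * S.pr l z x' * ψ x x' ^ 2 := by
  have hw : ∀ p ∈ (Finset.univ : Finset (X × X)), 0 ≤ S.pr l z p.1 * S.pr l z p.2 := fun p _ =>
    mul_nonneg (hS.pr_nonneg hl z p.1) (hS.pr_nonneg hl z p.2)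
  have h1 : ∑ p : X × X, S.pr l z p.1 * S.pr l z p.2 = 1 := by
    rw [Fintype.sum_prod_type]
    simp_rw [← Finset.mul_sum]
    rw [hS.sum_pr hl]
    simp_rw [mul_one]
    exact hS.sum_pr hl z
  have h := lvp_sq (fun p : X × X => S.pr l z p.1 * S.pr l z p.2) (fun p => ψ p.1 p.2)
    (fun p => hw p (Finset.mem_univ _)) h1
  rw [Fintype.sum_prod_type, Fintype.sum_prod_type] at h
  exact h

lemma Reg.pairEx_abs_le (hS : S.Reg) {l : ℕ} (hl : l ≤ S.K) (ψ : X → X → ℝ) :
    S.pairEx l (fun x x' => |ψ x x'|) ≤ √(S.pairEx l (fun x x' => ψ x x' ^ 2)) := by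
  refine Real.le_sqrt_of_sq_le ?_
  have h1 := hS.Ex_cs (Nh.fst (X := X) (hS.nh_pair hl fun x x' => |ψ x x'|))
    (Nh.fst (X := X) (EG.const (1 : ℝ)))
  simp only [mul_one, one_pow, hS.Ex_const] at h1
  refine h1.trans (hS.Ex_mono (Nh.fst ((hS.nh_pair hl _).pow 2)) (Nh.fst (hS.nh_pair hl _))
    fun z _ => ?_)
  refine (hS.pair_cs hl (fun x x' => |ψ x x'|) z).trans (le_of_eq ?_)
  simp only [sq_abs]

end Sy

namespace Fld

open Sy

variable {φ : X → Fin N → ℝ} {zc : ℕ → Fin N → ι} {s : ℕ → ℝ} (F : Fld S D φ zc s)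

include F

lemma N_pos : (0 : ℝ) < N := by exact_mod_cast F.N0

lemma hreg : S.Reg := F.reg.toReg

lemma abs_Rov_le (x x' : X) : |Rov φ x x'| ≤ 1 := by
  have hN := F.N_pos
  have h := Finset.sum_mul_sq_le_sq_mul_sq Finset.univ (φ x) (φ x')
  rw [F.norm, F.norm] at h
  have h1 : Rov φ x x' ^ 2 ≤ 1 := by
    rw [Rov, mul_pow, one_div, inv_pow, inv_mul_le_iff₀ (by positivity)]
    linarith [sq (N : ℝ)]
  exact abs_le_one_iff_mul_self_le_one.mpr (by linarith [sq (Rov φ x x')])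

omit F in
lemma mg_eq (hS : S.Reg) {l : ℕ} (hl : l ≤ S.K) (i : Fin N) (z : ι → ℝ) :
    S.mg φ l i z = ∑ x, S.pr l z x * φ x i := hS.T_pr hl (fun x => φ x i) z

omit F in
lemma eg_mg (hS : S.Reg) {l : ℕ} (hl : l ≤ S.K) (i : Fin N) : EG (S.mg φ l i) :=
  hS.eg_T hl (Nh.snd fun x => φ x i)

omit F in
lemma dep_mg (S : Sy ι X) (φ : X → Fin N → ℝ) (l : ℕ) (i : Fin N) : Dep S.lev l (S.mg φ l i) :=
  S.dep_T l (fun _ x => φ x i)

omit F in
lemma sum_mg_sq (hS : S.Reg) {l : ℕ} (hl : l ≤ S.K) (z : ι → ℝ) :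
    1 / N * ∑ i, S.mg φ l i z ^ 2 = ∑ x, ∑ x', S.pr l z x * S.pr l z x' * Rov φ x x' := by
  have e : ∀ i, S.mg φ l i z ^ 2 =
      ∑ x, ∑ x', S.pr l z x * S.pr l z x' * (φ x i * φ x' i) := by
    intro i
    rw [mg_eq hS hl, sq, Finset.sum_mul_sum]
    refine Finset.sum_congr rfl fun x _ => Finset.sum_congr rfl fun x' _ => ?_
    ring
  simp_rw [e]
  rw [Finset.sum_comm, Finset.mul_sum]
  refine Finset.sum_congr rfl fun x _ => ?_
  rw [Finset.sum_comm, Finset.mul_sum]
  refine Finset.sum_congr rfl fun x' _ => ?_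
  rw [← Finset.mul_sum, Rov]
  ring

lemma Rl_eq_pairEx {l : ℕ} (hl : l ≤ S.K) : S.Rl φ l = S.pairEx l (Rov φ) := by
  rw [Sy.Rl, Sy.pairEx, ← Sy.Ex_const_mul]
  congr 1
  funext z _
  exact sum_mg_sq F.hreg hl z

lemma Rl_nonneg {l : ℕ} (hl : l ≤ S.K) : 0 ≤ S.Rl φ l := by
  rw [Sy.Rl, ← Sy.Ex_const_mul, ← F.hreg.Ex_const 0]
  refine F.hreg.Ex_mono (Nh.fst (EG.const 0)) (Nh.fst (EG.const_mul _ (EG.sum _ fun i _ =>
    (eg_mg F.hreg hl i).pow 2))) fun z _ => ?_
  have := F.N_pos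
  positivity

lemma Rl_le_one {l : ℕ} (hl : l ≤ S.K) : S.Rl φ l ≤ 1 := by
  rw [F.Rl_eq_pairEx hl, ← F.hreg.pairEx_const hl 1]
  exact F.hreg.pairEx_mono hl fun x x' => (le_abs_self _).trans (F.abs_Rov_le x x')

omit F in
/-- the field `u_l = m_l · x / N` -/
noncomputable def uu (S : Sy ι X) (φ : X → Fin N → ℝ) (l : ℕ) : (ι → ℝ) → X → ℝ :=
  fun z x => 1 / N * ∑ a, S.mg φ l a z * φ x a

omit F in
lemma nh_uu (hS : S.Reg) {l : ℕ} (hl : l ≤ S.K) : Nh (uu S φ l) :=
  Nh.const_mul _ (Nh.sum _ fun a _ => Nh.mul (Nh.fst (eg_mg hS hl a)) (Nh.snd fun x => φ x a))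

omit F in
/-- `E (m_l,a φ_a) = E m_{l,a}²` for `l ≤ k`, in the form `E (m_l m_k) = E m_l²` -/
lemma Ex_mg_mul (hS : S.Reg) {l k : ℕ} (hlk : l ≤ k) (hk : k ≤ S.K) (a : Fin N) :
    S.Ex (fun z _ => S.mg φ l a z * S.mg φ k a z) = S.Ex (fun z _ => S.mg φ l a z ^ 2) := by
  have hl := hlk.trans hk
  have h1 := hS.Ex_mul_T hk ((S.dep_T l (fun _ x => φ x a)).mono hlk) (eg_mg hS hl a)
    (Nh.snd fun x => φ x a)
  have h2 := hS.Ex_mul_T hl (S.dep_T l (fun _ x => φ x a)) (eg_mg hS hl a)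
    (Nh.snd fun x => φ x a)
  have h3 : (fun (z : ι → ℝ) (_ : X) => S.mg φ l a z ^ 2) =
      fun z _ => S.mg φ l a z * S.mg φ l a z := by
    funext z _; rw [sq]
  rw [h3]
  exact h1.trans h2.symm

lemma Ex_uu {l : ℕ} (hl : l ≤ S.K) : S.Ex (uu S φ l) = S.Rl φ l := by
  have hS := F.hreg
  have e : uu S φ l = fun z x => 1 / N * ∑ a, S.mg φ l a z * φ x a := rfl
  rw [e, Sy.Ex_const_mul, Sy.Rl, hS.Ex_sum _ fun a _ =>
    Nh.mul (Nh.fst (eg_mg hS hl a)) (Nh.snd fun x => φ x a),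
    hS.Ex_sum _ fun a _ => Nh.fst ((eg_mg hS hl a).pow 2)]
  congr 1
  refine Finset.sum_congr rfl fun a _ => ?_
  have h2 := hS.Ex_mul_T hl (S.dep_T l (fun _ x => φ x a)) (eg_mg hS hl a)
    (Nh.snd fun x => φ x a)
  rw [← Ex_mg_mul hS le_rfl hl]
  exact h2.symm

/-- The overlaps increase: `E|m_{l+1} - m_l|² = N (R_{l+1} - R_l)`. -/
lemma Rl_sub {l : ℕ} (hl : l < S.K) :
    1 / N * S.Ex (fun z _ => ∑ i, (S.mg φ (l + 1) i z - S.mg φ l i z) ^ 2) =
      S.Rl φ (l + 1) - S.Rl φ l := by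
  have hS := F.hreg
  have e1 := eg_mg (φ := φ) hS (l := l + 1) hl
  have e0 := eg_mg (φ := φ) hS (l := l) hl.le
  rw [Sy.Rl, Sy.Rl, ← mul_sub]
  congr 1
  rw [hS.Ex_sum _ fun i _ => Nh.fst (((e1 i).sub (e0 i)).pow 2),
    hS.Ex_sum _ fun i _ => Nh.fst ((e1 i).pow 2), hS.Ex_sum _ fun i _ => Nh.fst ((e0 i).pow 2),
    ← Finset.sum_sub_distrib]
  refine Finset.sum_congr rfl fun i _ => ?_
  have h1 : (fun (z : ι → ℝ) (_ : X) => (S.mg φ (l + 1) i z - S.mg φ l i z) ^ 2) =
      fun z x => ((fun (z : ι → ℝ) (_ : X) => S.mg φ (l + 1) i z ^ 2) z x -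
        (fun (z : ι → ℝ) (_ : X) => 2 * (S.mg φ l i z * S.mg φ (l + 1) i z)) z x) +
        (fun (z : ι → ℝ) (_ : X) => S.mg φ l i z ^ 2) z x := by
    funext z _
    ring
  rw [h1, hS.Ex_add (Nh.sub (Nh.fst ((e1 i).pow 2))
    (Nh.fst (EG.const_mul 2 ((e0 i).mul (e1 i))))) (Nh.fst ((e0 i).pow 2)),
    hS.Ex_sub (Nh.fst ((e1 i).pow 2)) (Nh.fst (EG.const_mul 2 ((e0 i).mul (e1 i)))),
    Sy.Ex_const_mul, Ex_mg_mul hS (Nat.le_succ l) hl]
  ring

/-- integration by parts for the coordinates of the fields -/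
lemma ibp' {j : ℕ} (hj : j ≤ S.K) (i : Fin N) {h h' : (ι → ℝ) → X → ℝ}
    (hd : ∀ x, PD (zc j i) (fun z => h z x) (fun z => h' z x)) (hh : Nh h) (hh' : Nh h') :
    S.Ex (fun z x => z (zc j i) * h z x) = S.Ex (fun z x => h' z x + h z x * (s j * φ x i -
      ∑ k ∈ Finset.Ico j (S.K + 1), S.p k * (s j * S.mg φ k i z))) := by
  rw [F.reg.ibp (zc j i) hd hh hh', F.lev j hj i]
  congr 1
  funext z x
  rw [F.D j hj i]
  have e : D (zc j i) = fun z x => s j * φ x i := by
    funext z x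
    exact F.D j hj i z x
  rw [e]
  simp only [Sy.T_const_mul]
  rfl

/-- the average of the field of the level `j` against an observable -/
lemma Ex_hz_mul {j : ℕ} (hj : j ≤ S.K) {u : (ι → ℝ) → X → ℝ} {u' : Fin N → (ι → ℝ) → X → ℝ}
    (hd : ∀ i x, PD (zc j i) (fun z => u z x) (fun z => u' i z x)) (hu : Nh u)
    (hu' : ∀ i, Nh (u' i)) :
    S.Ex (fun z x => hz φ zc j z x * u z x) =
      S.Ex (fun z x => 1 / N * ∑ i, φ x i * u' i z x) +
        s j * (S.Ex u - ∑ k ∈ Finset.Ico j (S.K + 1), S.p k *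
          S.Ex (fun z x => u z x * uu S φ k z x)) := by
  have hS := F.hreg
  have hN := F.N_pos
  have hk : ∀ k ∈ Finset.Ico j (S.K + 1), k ≤ S.K := fun k hk => by
    rw [Finset.mem_Ico] at hk; omega
  -- termwise integration by parts
  have h1 : ∀ i, S.Ex (fun z x => z (zc j i) * (φ x i * u z x)) =
      S.Ex (fun z x => φ x i * u' i z x + φ x i * u z x * (s j * φ x i -
        ∑ k ∈ Finset.Ico j (S.K + 1), S.p k * (s j * S.mg φ k i z))) := fun i =>
    F.ibp' hj i (h := fun z x => φ x i * u z x) (h' := fun z x => φ x i * u' i z x)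
      (fun x => (hd i x).const_mul (φ x i)) (Nh.mul (Nh.snd fun x => φ x i) hu)
      (Nh.mul (Nh.snd fun x => φ x i) (hu' i))
  have nz : ∀ i, Nh (fun (z : ι → ℝ) (x : X) => z (zc j i) * (φ x i * u z x)) := fun i =>
    Nh.mul (Nh.fst (EG.coord _)) (Nh.mul (Nh.snd fun x => φ x i) hu)
  have nk : ∀ k ∈ Finset.Ico j (S.K + 1), ∀ i, Nh (fun (z : ι → ℝ) (_ : X) =>
      S.p k * (s j * S.mg φ k i z)) := fun k hk' i =>
    Nh.fst (EG.const_mul _ (EG.const_mul _ (eg_mg hS (hk k hk') i)))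
  have nr : ∀ i, Nh (fun (z : ι → ℝ) (x : X) => φ x i * u' i z x + φ x i * u z x * (s j * φ x i -
        ∑ k ∈ Finset.Ico j (S.K + 1), S.p k * (s j * S.mg φ k i z))) := fun i =>
    Nh.add (Nh.mul (Nh.snd fun x => φ x i) (hu' i)) (Nh.mul (Nh.mul (Nh.snd fun x => φ x i) hu)
      (Nh.sub (Nh.const_mul _ (Nh.snd fun x => φ x i)) (Nh.sum _ fun k hk' => nk k hk' i)))
  have e1 : S.Ex (fun z x => hz φ zc j z x * u z x) =
      1 / N * ∑ i, S.Ex (fun z x => z (zc j i) * (φ x i * u z x)) := by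
    rw [← hS.Ex_sum _ fun i _ => nz i, ← Sy.Ex_const_mul]
    congr 1
    funext z x
    rw [hz, mul_assoc, Finset.sum_mul]
    congr 1
    refine Finset.sum_congr rfl fun i _ => ?_
    ring
  rw [e1]
  simp_rw [h1]
  rw [← hS.Ex_sum _ fun i _ => nr i, ← Sy.Ex_const_mul]
  have e2 : (fun (z : ι → ℝ) (x : X) => 1 / (N : ℝ) * ∑ i, (φ x i * u' i z x +
      φ x i * u z x * (s j * φ x i -
        ∑ k ∈ Finset.Ico j (S.K + 1), S.p k * (s j * S.mg φ k i z)))) =
      fun z x => (fun (z : ι → ℝ) (x : X) => 1 / (N : ℝ) * ∑ i, φ x i * u' i z x) z x +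
        (fun (z : ι → ℝ) (x : X) => s j * (u z x - ∑ k ∈ Finset.Ico j (S.K + 1),
          S.p k * (u z x * uu S φ k z x))) z x := by
    funext z x
    rw [Finset.sum_add_distrib, mul_add]
    congr 1
    have e3 : ∑ i, φ x i * u z x * (s j * φ x i -
        ∑ k ∈ Finset.Ico j (S.K + 1), S.p k * (s j * S.mg φ k i z)) =
        s j * (u z x * ∑ i, φ x i ^ 2) - s j * ∑ k ∈ Finset.Ico j (S.K + 1), S.p k *
          (u z x * ∑ i, S.mg φ k i z * φ x i) := by
      simp_rw [mul_sub]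
      rw [Finset.sum_sub_distrib]
      congr 1
      · rw [Finset.mul_sum, Finset.mul_sum]
        refine Finset.sum_congr rfl fun i _ => ?_
        ring
      · simp_rw [Finset.mul_sum]
        rw [Finset.sum_comm]
        refine Finset.sum_congr rfl fun k _ => Finset.sum_congr rfl fun i _ => ?_
        ring
    rw [e3, F.norm]
    have e4 : ∀ k, S.p k * (u z x * uu S φ k z x) =
        1 / N * (S.p k * (u z x * ∑ i, S.mg φ k i z * φ x i)) := by
      intro k
      rw [uu]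
      ring
    simp_rw [e4]
    rw [← Finset.mul_sum]
    field_simp
  rw [e2]
  have nu : ∀ k ∈ Finset.Ico j (S.K + 1), Nh (fun (z : ι → ℝ) (x : X) =>
      S.p k * (u z x * uu S φ k z x)) := fun k hk' =>
    Nh.const_mul _ (Nh.mul hu (nh_uu hS (hk k hk')))
  rw [hS.Ex_add (Nh.const_mul _ (Nh.sum _ fun i _ => Nh.mul (Nh.snd fun x => φ x i) (hu' i)))
    (Nh.const_mul _ (Nh.sub hu (Nh.sum _ nu)))]
  congr 1
  rw [Sy.Ex_const_mul, hS.Ex_sub hu (Nh.sum _ nu), hS.Ex_sum _ nu]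
  congr 2
  refine Finset.sum_congr rfl fun k _ => ?_
  rw [Sy.Ex_const_mul]

/-- The mean of the field of the level `l`. -/
theorem Ex_hz {l : ℕ} (hl : l ≤ S.K) :
    S.Ex (hz φ zc l) = s l * (1 - ∑ i ∈ Finset.Ico l (S.K + 1), S.p i * S.Rl φ i) := by
  have hS := F.hreg
  have h := F.Ex_hz_mul hl (u := fun _ _ => 1) (u' := fun _ _ _ => 0)
    (fun i x => PD.const 1) (Nh.fst (EG.const 1)) (fun i => Nh.fst (EG.const 0))
  simp only [mul_one, one_mul, mul_zero, Finset.sum_const_zero, hS.Ex_const, zero_add] at h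
  rw [show S.Ex (hz φ zc l) = S.Ex (fun z x => hz φ zc l z x) from rfl, h]
  congr 2
  refine Finset.sum_congr rfl fun k hk => ?_
  rw [Finset.mem_Ico] at hk
  rw [← F.Ex_uu (by omega : k ≤ S.K)]

/-- (A): `u_l = m_l · x / N` and `u_i` are uncorrelated for `i > l`. -/
theorem ident_A {l j : ℕ} (hlj : l < j) (hj : j ≤ S.K) :
    S.Ex (fun z x => hz φ zc j z x * (1 / N * ∑ i, S.mg φ l i z * φ x i)) =
      s j * (S.Rl φ l - ∑ i ∈ Finset.Ico j (S.K + 1), S.p i *
        S.Ex (fun z x => (1 / N * ∑ a, S.mg φ l a z * φ x a) *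
          (1 / N * ∑ a, S.mg φ i a z * φ x a))) := by
  have hS := F.hreg
  have hl : l ≤ S.K := hlj.le.trans hj
  have hd : ∀ i x, PD (zc j i) (fun z => uu S φ l z x) (fun _ => 0) := by
    intro i x
    refine Dep.pd (lev := S.lev) (l := l) ?_ (by rw [F.lev j hj]; exact hlj)
    intro z w
    simp only [uu]
    congr 1
    refine Finset.sum_congr rfl fun a _ => ?_
    congr 1
    exact S.dep_T l (fun _ x => φ x a) z w
  have h := F.Ex_hz_mul hj (u := uu S φ l) (u' := fun _ _ _ => 0) hd (nh_uu hS hl)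
    (fun i => Nh.fst (EG.const 0))
  simp only [mul_zero, Finset.sum_const_zero, hS.Ex_const, zero_add] at h
  rw [F.Ex_uu hl] at h
  exact h

/-- the derivative of the magnetization -/
lemma pd_mg {l : ℕ} (hl : l ≤ S.K) (a b : Fin N) :
    PD (zc l b) (S.mg φ l a) (fun z => s l * (S.T l (fun _ x => φ x a * φ x b) z -
      ∑ k ∈ Finset.Ico (l + 1) (S.K + 1), S.p k * S.T l (fun z _ => S.mg φ k a z * S.mg φ k b z) z -
      S.m (l + 1) * (S.mg φ l a z * S.mg φ l b z))) := by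
  have hS := F.hreg
  have h := F.reg.pd_T hl (e := zc l b) (F.lev l hl b).le (h := fun _ x => φ x a)
    (h' := fun _ _ => 0) (fun x => PD.const _) (Nh.snd fun x => φ x a) (Nh.fst (EG.const 0))
  refine h.congr fun z => ?_
  have hD : D (zc l b) = fun z x => s l * φ x b := by
    funext z x
    exact F.D l hl b z x
  have hk : ∀ k ∈ Finset.Ico (l + 1) (S.K + 1), k ≤ S.K := fun k hk => by
    rw [Finset.mem_Ico] at hk; omega
  have hlk : ∀ k ∈ Finset.Ico (l + 1) (S.K + 1), l ≤ k := fun k hk => by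
    rw [Finset.mem_Ico] at hk; omega
  have na : Nh (ι := ι) (fun _ x => φ x a) := Nh.snd fun x => φ x a
  have nab : Nh (ι := ι) (fun _ x => φ x a * φ x b) := Nh.snd fun x => φ x a * φ x b
  have nk : ∀ k ∈ Finset.Ico (l + 1) (S.K + 1), Nh (fun (z : ι → ℝ) (x : X) =>
      S.p k * (φ x a * S.mg φ k b z)) := fun k hk' =>
    Nh.const_mul _ (Nh.mul na (Nh.fst (eg_mg hS (hk k hk') b)))
  have nl : Nh (fun (z : ι → ℝ) (x : X) => S.m (l + 1) * (S.mg φ l b z * φ x a)) :=
    Nh.const_mul _ (Nh.mul (Nh.fst (eg_mg hS hl b)) na)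
  have e : (fun (z : ι → ℝ) (x : X) => (0 : ℝ) + φ x a * (D (zc l b) z x -
      ∑ i ∈ Finset.Ico (l + 1) (S.K + 1), S.p i * S.T i (D (zc l b)) z -
        S.m (l + 1) * S.T l (D (zc l b)) z)) =
      fun z x => s l * ((φ x a * φ x b - ∑ k ∈ Finset.Ico (l + 1) (S.K + 1),
        S.p k * (φ x a * S.mg φ k b z)) - S.m (l + 1) * (S.mg φ l b z * φ x a)) := by
    funext z x
    rw [hD]
    simp only [Sy.T_const_mul]
    have e1 : ∀ k, S.T k (fun _ x => φ x b) z = S.mg φ k b z := fun k => rfl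
    simp only [e1]
    have e2 : ∑ i ∈ Finset.Ico (l + 1) (S.K + 1), S.p i * (s l * S.mg φ i b z) =
        s l * ∑ i ∈ Finset.Ico (l + 1) (S.K + 1), S.p i * S.mg φ i b z := by
      rw [Finset.mul_sum]
      refine Finset.sum_congr rfl fun i _ => ?_
      ring
    have e3 : ∑ k ∈ Finset.Ico (l + 1) (S.K + 1), S.p k * (φ x a * S.mg φ k b z) =
        φ x a * ∑ i ∈ Finset.Ico (l + 1) (S.K + 1), S.p i * S.mg φ i b z := by
      rw [Finset.mul_sum]
      refine Finset.sum_congr rfl fun i _ => ?_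
      ring
    rw [e2, e3]
    ring
  rw [e, Sy.T_const_mul, hS.T_sub hl (Nh.sub nab (Nh.sum _ nk)) nl,
    hS.T_sub hl nab (Nh.sum _ nk), hS.T_sum hl _ nk, Sy.T_const_mul,
    T_mul_left S (dep_mg S φ l b)]
  congr 2
  · congr 1
    refine Finset.sum_congr rfl fun k hk' => ?_
    rw [Sy.T_const_mul]
    congr 1
    rw [← hS.T_T (hlk k hk') (hk k hk') (Nh.mul na (Nh.fst (eg_mg hS (hk k hk') b)))]
    congr 1
    funext z' _
    have e4 : (fun (z : ι → ℝ) (x : X) => φ x a * S.mg φ k b z) =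
        fun z x => S.mg φ k b z * (fun (_ : ι → ℝ) (x : X) => φ x a) z x := by
      funext z x
      exact mul_comm _ _
    rw [e4, T_mul_left S (dep_mg S φ k b), mul_comm]
    rfl
  · rw [mul_comm (S.mg φ l a z)]
    rfl

/-- the covariance matrix of two replicas -/
lemma pairEx_Rov_sq {l : ℕ} (hl : l ≤ S.K) :
    S.pairEx l (fun x x' => Rov φ x x' ^ 2) = 1 / N ^ 2 * S.Ex (fun z _ => ∑ a, ∑ b,
      S.T l (fun _ x => φ x a * φ x b) z * S.T l (fun _ x => φ x a * φ x b) z) := by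
  have hS := F.hreg
  rw [Sy.pairEx, ← Sy.Ex_const_mul]
  congr 1
  funext z _
  have e : ∀ a b, S.T l (fun _ x => φ x a * φ x b) z * S.T l (fun _ x => φ x a * φ x b) z =
      ∑ x, ∑ x', S.pr l z x * S.pr l z x' * ((φ x a * φ x b) * (φ x' a * φ x' b)) := by
    intro a b
    rw [hS.T_pr hl (fun x => φ x a * φ x b), Finset.sum_mul_sum]
    refine Finset.sum_congr rfl fun x _ => Finset.sum_congr rfl fun x' _ => ?_
    ring
  have e2 : ∀ x x', Rov φ x x' ^ 2 =
      1 / (N : ℝ) ^ 2 * ∑ a, ∑ b, (φ x a * φ x b) * (φ x' a * φ x' b) := by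
    intro x x'
    rw [Rov, mul_pow, sq (∑ i, φ x i * φ x' i), Finset.sum_mul_sum, div_pow, one_pow]
    congr 1
    refine Finset.sum_congr rfl fun a _ => Finset.sum_congr rfl fun b _ => ?_
    ring
  simp_rw [e, e2]
  have e3 : ∑ a : Fin N, ∑ b : Fin N, ∑ x, ∑ x', S.pr l z x * S.pr l z x' *
      ((φ x a * φ x b) * (φ x' a * φ x' b)) =
      ∑ x, ∑ x', S.pr l z x * S.pr l z x' * ∑ a, ∑ b, (φ x a * φ x b) * (φ x' a * φ x' b) := by
    calc ∑ a : Fin N, ∑ b : Fin N, ∑ x, ∑ x', S.pr l z x * S.pr l z x' *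
          ((φ x a * φ x b) * (φ x' a * φ x' b))
        = ∑ a : Fin N, ∑ x, ∑ b : Fin N, ∑ x', S.pr l z x * S.pr l z x' *
          ((φ x a * φ x b) * (φ x' a * φ x' b)) :=
          Finset.sum_congr rfl fun a _ => Finset.sum_comm
      _ = ∑ x, ∑ a : Fin N, ∑ b : Fin N, ∑ x', S.pr l z x * S.pr l z x' *
          ((φ x a * φ x b) * (φ x' a * φ x' b)) := Finset.sum_comm
      _ = ∑ x, ∑ x', ∑ a : Fin N, ∑ b : Fin N, S.pr l z x * S.pr l z x' *
          ((φ x a * φ x b) * (φ x' a * φ x' b)) := by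
          refine Finset.sum_congr rfl fun x _ => ?_
          calc ∑ a : Fin N, ∑ b : Fin N, ∑ x', S.pr l z x * S.pr l z x' *
                ((φ x a * φ x b) * (φ x' a * φ x' b))
              = ∑ a : Fin N, ∑ x', ∑ b : Fin N, S.pr l z x * S.pr l z x' *
                ((φ x a * φ x b) * (φ x' a * φ x' b)) :=
                Finset.sum_congr rfl fun a _ => Finset.sum_comm
            _ = _ := Finset.sum_comm
      _ = _ := by
          refine Finset.sum_congr rfl fun x _ => Finset.sum_congr rfl fun x' _ => ?_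
          simp_rw [Finset.mul_sum]
  rw [e3, Finset.mul_sum]
  refine Finset.sum_congr rfl fun x _ => ?_
  rw [Finset.mul_sum]
  refine Finset.sum_congr rfl fun x' _ => ?_
  ring

/-- (B). -/
theorem ident_B {l : ℕ} (hl : l ≤ S.K) :
    S.Ex (fun z x => hz φ zc l z x * (1 / N * ∑ i, S.mg φ l i z * φ x i)) =
      s l * (S.pairEx l (fun x x' => Rov φ x x' ^ 2) -
        ∑ i ∈ Finset.Ico (l + 1) (S.K + 1), S.p i * (1 / N ^ 2 * S.Ex (fun z _ => ∑ a, ∑ b,
          S.T l (fun _ x => φ x a * φ x b) z * S.T l (fun z _ => S.mg φ i a z * S.mg φ i b z) z)) -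
        S.m (l + 1) * S.Ex (fun z x => (1 / N * ∑ a, S.mg φ l a z * φ x a) ^ 2) +
        S.Rl φ l - ∑ i ∈ Finset.Ico l (S.K + 1), S.p i *
        S.Ex (fun z x => (1 / N * ∑ a, S.mg φ l a z * φ x a) *
          (1 / N * ∑ a, S.mg φ i a z * φ x a))) := by
  have hS := F.hreg
  have hk : ∀ k ∈ Finset.Ico (l + 1) (S.K + 1), k ≤ S.K := fun k hk => by
    rw [Finset.mem_Ico] at hk; omega
  -- the derivative of the magnetization
  set d : Fin N → Fin N → (ι → ℝ) → ℝ := fun a b z =>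
    s l * (S.T l (fun _ x => φ x a * φ x b) z -
      ∑ k ∈ Finset.Ico (l + 1) (S.K + 1), S.p k * S.T l (fun z _ => S.mg φ k a z * S.mg φ k b z) z -
      S.m (l + 1) * (S.mg φ l a z * S.mg φ l b z)) with hd
  have nab : ∀ a b, Nh (ι := ι) (fun (_ : ι → ℝ) (x : X) => φ x a * φ x b) := fun a b =>
    Nh.snd fun x => φ x a * φ x b
  have eB : ∀ k ∈ Finset.Ico (l + 1) (S.K + 1), ∀ a b,
      EG (S.T l (fun z _ => S.mg φ k a z * S.mg φ k b z)) := fun k hk' a b =>
    hS.eg_T hl (Nh.fst ((eg_mg hS (hk k hk') a).mul (eg_mg hS (hk k hk') b)))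
  have eA : ∀ a b, EG (S.T l (fun _ x => φ x a * φ x b)) := fun a b => hS.eg_T hl (nab a b)
  have ed : ∀ a b, EG (d a b) := fun a b =>
    EG.const_mul _ (((eA a b).sub (EG.sum _ fun k hk' => EG.const_mul _ (eB k hk' a b))).sub
      (EG.const_mul _ ((eg_mg hS hl a).mul (eg_mg hS hl b))))
  have dB : ∀ k a b, Dep S.lev l (S.T l (fun z _ => S.mg φ k a z * S.mg φ k b z)) :=
    fun k a b => S.dep_T l _
  have dA : ∀ a b, Dep S.lev l (S.T l (fun _ x => φ x a * φ x b)) := fun a b => S.dep_T l _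
  have dd : ∀ a b, Dep S.lev l (d a b) := by
    intro a b z w
    simp only [hd]
    rw [dA a b z w, dep_mg S φ l a z w, dep_mg S φ l b z w]
    simp only [fun k => dB k a b z w]
  -- integration by parts
  have h := F.Ex_hz_mul hl (u := uu S φ l) (u' := fun b z x => 1 / N * ∑ a, d a b z * φ x a)
    (fun b x => (PD.sum Finset.univ fun a _ =>
      ((F.pd_mg hl a b).mul (PD.const (φ x a))).congr fun y => by
        rw [mul_zero, add_zero]).const_mul _) (nh_uu hS hl)
    (fun b => Nh.const_mul _ (Nh.sum _ fun a _ => Nh.mul (Nh.fst (ed a b))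
      (Nh.snd fun x => φ x a)))
  have h2 : S.Ex (fun z x => 1 / N * ∑ b, φ x b * (1 / N * ∑ a, d a b z * φ x a)) =
      s l * (S.pairEx l (fun x x' => Rov φ x x' ^ 2) -
        ∑ i ∈ Finset.Ico (l + 1) (S.K + 1), S.p i * (1 / N ^ 2 * S.Ex (fun z _ => ∑ a, ∑ b,
          S.T l (fun _ x => φ x a * φ x b) z * S.T l (fun z _ => S.mg φ i a z * S.mg φ i b z) z)) -
        S.m (l + 1) * S.Ex (fun z x => (1 / N * ∑ a, S.mg φ l a z * φ x a) ^ 2)) := by
    -- replace `φ_a φ_b` by its conditional average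
    have g1 : S.Ex (fun z x => 1 / N * ∑ b, φ x b * (1 / N * ∑ a, d a b z * φ x a)) =
        1 / N ^ 2 * ∑ a, ∑ b, S.Ex (fun z _ => d a b z * S.T l (fun _ x => φ x a * φ x b) z) := by
      have e1 : (fun (z : ι → ℝ) (x : X) => 1 / (N : ℝ) * ∑ b, φ x b *
          (1 / N * ∑ a, d a b z * φ x a)) =
          fun z x => 1 / N ^ 2 * ∑ a, ∑ b, d a b z * (φ x a * φ x b) := by
        funext z x
        simp_rw [Finset.mul_sum]
        rw [Finset.sum_comm]
        refine Finset.sum_congr rfl fun a _ => Finset.sum_congr rfl fun b _ => ?_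
        ring
      rw [e1, Sy.Ex_const_mul, hS.Ex_sum _ fun a _ => Nh.sum _ fun b _ =>
        Nh.mul (Nh.fst (ed a b)) (nab a b)]
      congr 1
      refine Finset.sum_congr rfl fun a _ => ?_
      rw [hS.Ex_sum _ fun b _ => Nh.mul (Nh.fst (ed a b)) (nab a b)]
      refine Finset.sum_congr rfl fun b _ => ?_
      exact (hS.Ex_mul_T hl (dd a b) (ed a b) (nab a b)).symm
    have g2 : S.Ex (fun z x => (1 / N * ∑ a, S.mg φ l a z * φ x a) ^ 2) =
        1 / N ^ 2 * ∑ a, ∑ b, S.Ex (fun z _ => (S.mg φ l a z * S.mg φ l b z) *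
          S.T l (fun _ x => φ x a * φ x b) z) := by
      have e1 : (fun (z : ι → ℝ) (x : X) => (1 / (N : ℝ) * ∑ a, S.mg φ l a z * φ x a) ^ 2) =
          fun z x => 1 / N ^ 2 * ∑ a, ∑ b, (S.mg φ l a z * S.mg φ l b z) * (φ x a * φ x b) := by
        funext z x
        rw [mul_pow, sq (∑ a, S.mg φ l a z * φ x a), Finset.sum_mul_sum, div_pow, one_pow]
        congr 1
        refine Finset.sum_congr rfl fun a _ => Finset.sum_congr rfl fun b _ => ?_
        ring
      have em : ∀ a b, EG (fun z => S.mg φ l a z * S.mg φ l b z) := fun a b =>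
        (eg_mg hS hl a).mul (eg_mg hS hl b)
      rw [e1, Sy.Ex_const_mul, hS.Ex_sum _ fun a _ => Nh.sum _ fun b _ =>
        Nh.mul (Nh.fst (em a b)) (nab a b)]
      congr 1
      refine Finset.sum_congr rfl fun a _ => ?_
      rw [hS.Ex_sum _ fun b _ => Nh.mul (Nh.fst (em a b)) (nab a b)]
      refine Finset.sum_congr rfl fun b _ => ?_
      refine (hS.Ex_mul_T hl (φ := fun z => S.mg φ l a z * S.mg φ l b z) ?_ (em a b)
        (nab a b)).symm
      intro z w
      exact congrArg₂ (· * ·) (dep_mg S φ l a z w) (dep_mg S φ l b z w)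
    have g3 : ∀ k ∈ Finset.Ico (l + 1) (S.K + 1), S.Ex (fun z _ => ∑ a, ∑ b,
          S.T l (fun _ x => φ x a * φ x b) z * S.T l (fun z _ => S.mg φ k a z * S.mg φ k b z) z) =
        ∑ a, ∑ b, S.Ex (fun z _ =>
          S.T l (fun _ x => φ x a * φ x b) z * S.T l (fun z _ => S.mg φ k a z * S.mg φ k b z) z) := by
      intro k hk'
      rw [hS.Ex_sum _ fun a _ => Nh.sum _ fun b _ => Nh.fst ((eA a b).mul (eB k hk' a b))]
      refine Finset.sum_congr rfl fun a _ => ?_
      rw [hS.Ex_sum _ fun b _ => Nh.fst ((eA a b).mul (eB k hk' a b))]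
    have g4 : S.Ex (fun z _ => ∑ a, ∑ b,
          S.T l (fun _ x => φ x a * φ x b) z * S.T l (fun _ x => φ x a * φ x b) z) =
        ∑ a, ∑ b, S.Ex (fun z _ =>
          S.T l (fun _ x => φ x a * φ x b) z * S.T l (fun _ x => φ x a * φ x b) z) := by
      rw [hS.Ex_sum _ fun a _ => Nh.sum _ fun b _ => Nh.fst ((eA a b).mul (eA a b))]
      refine Finset.sum_congr rfl fun a _ => ?_
      rw [hS.Ex_sum _ fun b _ => Nh.fst ((eA a b).mul (eA a b))]
    have g5 : ∀ a b, S.Ex (fun z _ => d a b z * S.T l (fun _ x => φ x a * φ x b) z) =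
        s l * (S.Ex (fun z _ => S.T l (fun _ x => φ x a * φ x b) z *
            S.T l (fun _ x => φ x a * φ x b) z) -
          ∑ k ∈ Finset.Ico (l + 1) (S.K + 1), S.p k * S.Ex (fun z _ =>
            S.T l (fun _ x => φ x a * φ x b) z *
              S.T l (fun z _ => S.mg φ k a z * S.mg φ k b z) z) -
          S.m (l + 1) * S.Ex (fun z _ => (S.mg φ l a z * S.mg φ l b z) *
            S.T l (fun _ x => φ x a * φ x b) z)) := by
      intro a b
      have n1 : Nh (X := X) (fun z _ => S.T l (fun _ x => φ x a * φ x b) z *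
            S.T l (fun _ x => φ x a * φ x b) z) := Nh.fst ((eA a b).mul (eA a b))
      have n2 : ∀ k ∈ Finset.Ico (l + 1) (S.K + 1), Nh (X := X) (fun z _ => S.p k *
          (S.T l (fun _ x => φ x a * φ x b) z *
              S.T l (fun z _ => S.mg φ k a z * S.mg φ k b z) z)) := fun k hk' =>
        Nh.fst (EG.const_mul _ ((eA a b).mul (eB k hk' a b)))
      have n3 : Nh (X := X) (fun z _ => S.m (l + 1) * ((S.mg φ l a z * S.mg φ l b z) *
            S.T l (fun _ x => φ x a * φ x b) z)) :=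
        Nh.fst (EG.const_mul _ (((eg_mg hS hl a).mul (eg_mg hS hl b)).mul (eA a b)))
      have e1 : (fun (z : ι → ℝ) (_ : X) => d a b z * S.T l (fun _ x => φ x a * φ x b) z) =
          fun z _ => s l * ((S.T l (fun _ x => φ x a * φ x b) z *
            S.T l (fun _ x => φ x a * φ x b) z - ∑ k ∈ Finset.Ico (l + 1) (S.K + 1), S.p k *
          (S.T l (fun _ x => φ x a * φ x b) z *
              S.T l (fun z _ => S.mg φ k a z * S.mg φ k b z) z)) -
              S.m (l + 1) * ((S.mg φ l a z * S.mg φ l b z) *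
            S.T l (fun _ x => φ x a * φ x b) z)) := by
        funext z _
        simp only [hd]
        have e2 : ∑ k ∈ Finset.Ico (l + 1) (S.K + 1), S.p k *
          (S.T l (fun _ x => φ x a * φ x b) z *
              S.T l (fun z _ => S.mg φ k a z * S.mg φ k b z) z) =
            S.T l (fun _ x => φ x a * φ x b) z * ∑ k ∈ Finset.Ico (l + 1) (S.K + 1), S.p k *
              S.T l (fun z _ => S.mg φ k a z * S.mg φ k b z) z := by
          rw [Finset.mul_sum]
          refine Finset.sum_congr rfl fun k _ => ?_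
          ring
        rw [e2]
        ring
      rw [e1, Sy.Ex_const_mul, hS.Ex_sub (Nh.sub n1 (Nh.sum _ n2)) n3,
        hS.Ex_sub n1 (Nh.sum _ n2), hS.Ex_sum _ n2, Sy.Ex_const_mul]
      congr 3
      refine Finset.sum_congr rfl fun k _ => ?_
      rw [Sy.Ex_const_mul]
    rw [g1, g2, F.pairEx_Rov_sq hl, g4]
    simp_rw [g5]
    have g6 : ∑ i ∈ Finset.Ico (l + 1) (S.K + 1), S.p i * (1 / (N : ℝ) ^ 2 *
        S.Ex (fun z _ => ∑ a, ∑ b, S.T l (fun _ x => φ x a * φ x b) z *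
          S.T l (fun z _ => S.mg φ i a z * S.mg φ i b z) z)) =
        1 / (N : ℝ) ^ 2 * ∑ a, ∑ b, ∑ k ∈ Finset.Ico (l + 1) (S.K + 1), S.p k * S.Ex (fun z _ =>
            S.T l (fun _ x => φ x a * φ x b) z *
              S.T l (fun z _ => S.mg φ k a z * S.mg φ k b z) z) := by
      rw [Finset.sum_congr rfl fun k hk' => by rw [g3 k hk']]
      simp_rw [Finset.mul_sum]
      rw [Finset.sum_comm]
      refine Finset.sum_congr rfl fun a _ => ?_
      rw [Finset.sum_comm]
      refine Finset.sum_congr rfl fun b _ => Finset.sum_congr rfl fun k _ => ?_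
      ring
    rw [g6]
    simp_rw [mul_sub, Finset.sum_sub_distrib, ← Finset.mul_sum]
    ring
  rw [h2, F.Ex_uu hl] at h
  refine Eq.trans h ?_
  rw [← mul_add]
  congr 1
  have e5 : ∀ k, S.Ex (fun z x => uu S φ l z x * uu S φ k z x) =
      S.Ex (fun z x => (1 / N * ∑ a, S.mg φ l a z * φ x a) *
          (1 / N * ∑ a, S.mg φ k a z * φ x a)) := fun k => rfl
  simp only [e5]
  ring

/-- In (B), the averages over three replicas are at most the average over two replicas. -/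
theorem three_le_two {l i : ℕ} (hl : l ≤ i) (hi : i ≤ S.K) :
    1 / N ^ 2 * S.Ex (fun z _ => ∑ a, ∑ b,
      S.T l (fun _ x => φ x a * φ x b) z * S.T l (fun z _ => S.mg φ i a z * S.mg φ i b z) z) ≤
        S.pairEx l (fun x x' => Rov φ x x' ^ 2) := by
  have hS := F.hreg
  have hlK : l ≤ S.K := hl.trans hi
  rw [F.pairEx_Rov_sq hlK]
  refine mul_le_mul_of_nonneg_left ?_ (by positivity)
  have na : ∀ a, Nh (ι := ι) (fun (_ : ι → ℝ) (x : X) => φ x a) := fun a => Nh.snd fun x => φ x a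
  have nab : ∀ a b, Nh (ι := ι) (fun (_ : ι → ℝ) (x : X) => φ x a * φ x b) := fun a b =>
    Nh.snd fun x => φ x a * φ x b
  have em : ∀ a, EG (S.mg φ i a) := fun a => eg_mg hS hi a
  have emm : ∀ a b, EG (fun z => S.mg φ i a z * S.mg φ i b z) := fun a b => (em a).mul (em b)
  have eA : ∀ a b, EG (S.T l (fun _ x => φ x a * φ x b)) := fun a b => hS.eg_T hlK (nab a b)
  have eB : ∀ a b, EG (S.T l (fun z _ => S.mg φ i a z * S.mg φ i b z)) := fun a b =>
    hS.eg_T hlK (Nh.fst (emm a b))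
  refine hS.Ex_mono (Nh.sum _ fun a _ => Nh.sum _ fun b _ => Nh.fst ((eA a b).mul (eB a b)))
    (Nh.sum _ fun a _ => Nh.sum _ fun b _ => Nh.fst ((eA a b).mul (eA a b))) fun z _ => ?_
  rw [← sub_nonneg, ← Finset.sum_sub_distrib]
  simp_rw [← Finset.sum_sub_distrib, ← mul_sub]
  -- the conditional covariance
  have nd : ∀ a, Nh (fun (z : ι → ℝ) (x : X) => φ x a - S.mg φ i a z) := fun a =>
    Nh.sub (na a) (Nh.fst (em a))
  have e1 : ∀ a b, S.T l (fun _ x => φ x a * φ x b) z -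
      S.T l (fun z _ => S.mg φ i a z * S.mg φ i b z) z =
      S.T l (fun z x => (φ x a - S.mg φ i a z) * (φ x b - S.mg φ i b z)) z := by
    intro a b
    have t1 : ∀ a b, S.T l (fun z x => S.mg φ i a z * φ x b) z =
        S.T l (fun z _ => S.mg φ i a z * S.mg φ i b z) z := by
      intro a b
      rw [← hS.T_T hl hi (Nh.mul (Nh.fst (em a)) (na b))]
      congr 1
      funext z' _
      rw [T_mul_left S (dep_mg S φ i a)]
      rfl
    have e2 : (fun (z : ι → ℝ) (x : X) => (φ x a - S.mg φ i a z) * (φ x b - S.mg φ i b z)) =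
        fun z x => ((φ x a * φ x b - S.mg φ i a z * φ x b) - S.mg φ i b z * φ x a) +
          S.mg φ i a z * S.mg φ i b z := by
      funext z x
      ring
    have n1 := Nh.mul (Nh.fst (em a)) (na b)
    have n2 := Nh.mul (Nh.fst (em b)) (na a)
    rw [e2, hS.T_add hlK (Nh.sub (Nh.sub (nab a b) n1) n2) (Nh.fst (emm a b)),
      hS.T_sub hlK (Nh.sub (nab a b) n1) n2, hS.T_sub hlK (nab a b) n1, t1, t1]
    have e3 : (fun (z : ι → ℝ) (_ : X) => S.mg φ i b z * S.mg φ i a z) =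
        fun z _ => S.mg φ i a z * S.mg φ i b z := by
      funext z _
      exact mul_comm _ _
    rw [e3]
    ring
  simp_rw [e1]
  have e4 : ∑ a, ∑ b, S.T l (fun _ x => φ x a * φ x b) z *
      S.T l (fun z x => (φ x a - S.mg φ i a z) * (φ x b - S.mg φ i b z)) z =
      ∑ x, S.pr l z x * S.T l (fun z y => (∑ a, φ x a * (φ y a - S.mg φ i a z)) ^ 2) z := by
    have e5 : ∀ x, S.T l (fun z y => (∑ a, φ x a * (φ y a - S.mg φ i a z)) ^ 2) z =
        ∑ a, ∑ b, (φ x a * φ x b) *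
          S.T l (fun z x => (φ x a - S.mg φ i a z) * (φ x b - S.mg φ i b z)) z := by
      intro x
      have e6 : (fun (z : ι → ℝ) (y : X) => (∑ a, φ x a * (φ y a - S.mg φ i a z)) ^ 2) =
          fun z y => ∑ a, ∑ b, (φ x a * φ x b) *
            ((fun (z : ι → ℝ) (x : X) => (φ x a - S.mg φ i a z) * (φ x b - S.mg φ i b z)) z y) := by
        funext z y
        rw [sq, Finset.sum_mul_sum]
        refine Finset.sum_congr rfl fun a _ => Finset.sum_congr rfl fun b _ => ?_
        ring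
      rw [e6, hS.T_sum hlK _ fun a _ => Nh.sum _ fun b _ =>
        Nh.const_mul _ (Nh.mul (nd a) (nd b))]
      refine Finset.sum_congr rfl fun a _ => ?_
      rw [hS.T_sum hlK _ fun b _ => Nh.const_mul _ (Nh.mul (nd a) (nd b))]
      refine Finset.sum_congr rfl fun b _ => ?_
      rw [Sy.T_const_mul]
    simp_rw [e5, Finset.mul_sum]
    rw [Finset.sum_comm]
    rw [Finset.sum_comm (s := (Finset.univ : Finset X))]
    rw [Finset.sum_comm]
    refine Finset.sum_congr rfl fun a _ => ?_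
    rw [Finset.sum_comm (s := (Finset.univ : Finset X))]
    refine Finset.sum_congr rfl fun b _ => ?_
    rw [hS.T_pr hlK (fun x => φ x a * φ x b), Finset.sum_mul]
    refine Finset.sum_congr rfl fun x _ => ?_
    ring
  rw [e4]
  refine Finset.sum_nonneg fun x _ => mul_nonneg (hS.pr_nonneg hlK z x) ?_
  have h0 := hS.T_mono hlK (f := fun _ _ => (0 : ℝ))
    (g := fun z y => (∑ a, φ x a * (φ y a - S.mg φ i a z)) ^ 2) (Nh.snd fun _ => 0)
    (Nh.pow (Nh.sum _ fun a _ => Nh.const_mul _ (nd a)) 2) (fun z y => sq_nonneg _) z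
  rwa [hS.T_const hlK] at h0

lemma uu_eq {l : ℕ} (hl : l ≤ S.K) (z : ι → ℝ) (x : X) :
    uu S φ l z x = ∑ x', S.pr l z x' * Rov φ x' x := by
  have hS := F.hreg
  simp_rw [uu, mg_eq hS hl, Rov, Finset.sum_mul]
  rw [Finset.sum_comm, Finset.mul_sum]
  refine Finset.sum_congr rfl fun x' _ => ?_
  rw [Finset.mul_sum, Finset.mul_sum, Finset.mul_sum]
  refine Finset.sum_congr rfl fun a _ => ?_
  ring

lemma abs_uu_le {l : ℕ} (hl : l ≤ S.K) (z : ι → ℝ) (x : X) : |uu S φ l z x| ≤ 1 := by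
  have hS := F.hreg
  rw [F.uu_eq hl]
  refine (Finset.abs_sum_le_sum_abs _ _).trans ?_
  rw [← hS.sum_pr hl z]
  refine Finset.sum_le_sum fun x' _ => ?_
  rw [abs_mul, abs_of_nonneg (hS.pr_nonneg hl z x')]
  exact mul_le_of_le_one_right (hS.pr_nonneg hl z x') (F.abs_Rov_le x' x)

lemma nh_hz (j : ℕ) : Nh (hz φ zc j) := by
  exact Nh.const_mul _ (Nh.sum _ fun i _ => Nh.mul (Nh.fst (EG.coord (zc j i)))
    (Nh.snd fun x => φ x i))

/-- a concentrated field is almost uncorrelated with bounded observables -/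
lemma dev {j l : ℕ} (hl : l ≤ S.K) {ε c : ℝ}
    (hc : S.Ex (fun z x => |hz φ zc j z x - c|) ≤ ε) :
    |S.Ex (fun z x => hz φ zc j z x * uu S φ l z x) - S.Ex (hz φ zc j) * S.Rl φ l| ≤ 2 * ε := by
  have hS := F.hreg
  have nh := F.nh_hz j
  have nu := nh_uu (φ := φ) hS hl
  have nc : ∀ c : ℝ, Nh (ι := ι) (X := X) (fun _ _ => c) := fun c => Nh.fst (EG.const c)
  have n1 : Nh (fun z x => hz φ zc j z x - c) := Nh.sub nh (nc c)
  have n2 : Nh (fun z x => uu S φ l z x - S.Rl φ l) := Nh.sub nu (nc _)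
  have e : S.Ex (fun z x => hz φ zc j z x * uu S φ l z x) - S.Ex (hz φ zc j) * S.Rl φ l =
      S.Ex (fun z x => (hz φ zc j z x - c) * (uu S φ l z x - S.Rl φ l)) := by
    have e1 : (fun z x => (hz φ zc j z x - c) * (uu S φ l z x - S.Rl φ l)) =
        fun z x => (hz φ zc j z x * uu S φ l z x - S.Rl φ l * hz φ zc j z x) -
          c * (uu S φ l z x - S.Rl φ l) := by
      funext z x
      ring
    rw [e1, hS.Ex_sub (Nh.sub (Nh.mul nh nu) (Nh.const_mul _ nh)) (Nh.const_mul _ n2),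
      hS.Ex_sub (Nh.mul nh nu) (Nh.const_mul _ nh), Sy.Ex_const_mul, Sy.Ex_const_mul,
      hS.Ex_sub nu (nc _), hS.Ex_const, F.Ex_uu hl, sub_self, mul_zero, sub_zero, mul_comm]
  rw [e]
  refine (hS.abs_Ex_le (Nh.mul n1 n2)).trans ?_
  have h2 : S.Ex (fun z x => |(hz φ zc j z x - c) * (uu S φ l z x - S.Rl φ l)|) ≤
      S.Ex (fun z x => 2 * |hz φ zc j z x - c|) := by
    refine hS.Ex_mono (Nh.abs (Nh.mul n1 n2)) (Nh.const_mul _ (Nh.abs n1)) fun z x => ?_
    rw [abs_mul, mul_comm]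
    refine mul_le_mul_of_nonneg_right ?_ (abs_nonneg _)
    have h3 := abs_le.mp (F.abs_uu_le hl z x)
    have h4 := F.Rl_nonneg hl
    have h5 := F.Rl_le_one hl
    rw [abs_le]
    constructor <;> linarith [h3.1, h3.2]
  refine h2.trans ?_
  rw [Sy.Ex_const_mul]
  linarith only [hc]

/-- **Synchronization.** -/
theorem sync {ε σ π : ℝ} (hε : 0 ≤ ε) (hσ : 0 < σ) (hs : ∀ l ≤ S.K, σ ≤ s l) (hπ : 0 < π)
    (hp : ∀ l ≤ S.K, π ≤ S.p l) (hc : ∀ l ≤ S.K, ∃ c, S.Ex (fun z x => |hz φ zc l z x - c|) ≤ ε)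
    {l : ℕ} (hl : l < S.K) :
    S.pairEx l (fun x x' => (Rov φ x x' - S.Rl φ l) ^ 2) ≤
      2 * (S.Rl φ (l + 1) - S.Rl φ l) + 20 * ε / (σ * π) := by
  have hS := F.hreg
  have hN := F.N_pos
  have hlK := hl.le
  set R : ℕ → ℝ := fun k => S.Rl φ k with hR
  set W : ℕ → ℝ := fun k => S.Ex (fun z x => uu S φ l z x * uu S φ k z x) with hW
  set G : ℕ → ℝ := fun k => W k - R l * R k with hG
  set A : ℕ → ℝ := fun j => ∑ k ∈ Finset.Ico j (S.K + 1), S.p k * G k with hA
  have hδ : 0 ≤ 2 * ε / σ := by positivity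
  -- consequences of (A)
  have cA : ∀ j, l < j → j ≤ S.K + 1 → |A j| ≤ 2 * ε / σ := by
    intro j hlj hj
    rcases Nat.lt_or_ge j (S.K + 1) with hj' | hj'
    · have hjK : j ≤ S.K := by omega
      obtain ⟨c, hc'⟩ := hc j hjK
      have h1 := F.dev (j := j) hlK hc'
      have h2 := F.ident_A hlj hjK
      have h3 := F.Ex_hz hjK
      have e1 : S.Ex (fun z x => hz φ zc j z x * uu S φ l z x) - S.Ex (hz φ zc j) * S.Rl φ l =
          - (s j * A j) := by
        have e2 : S.Ex (fun z x => hz φ zc j z x * uu S φ l z x) =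
            s j * (R l - ∑ i ∈ Finset.Ico j (S.K + 1), S.p i * W i) := h2
        rw [e2, h3]
        have e3 : A j = ∑ i ∈ Finset.Ico j (S.K + 1), S.p i * W i -
            R l * ∑ i ∈ Finset.Ico j (S.K + 1), S.p i * R i := by
          simp only [hA, hG]
          rw [Finset.mul_sum, ← Finset.sum_sub_distrib]
          refine Finset.sum_congr rfl fun i _ => ?_
          ring
        rw [e3]
        simp only [hR]
        ring
      rw [e1, abs_neg, abs_mul, abs_of_nonneg (F.pos j hjK)] at h1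
      rw [le_div_iff₀ hσ]
      have h4 := mul_le_mul_of_nonneg_left (hs j hjK) (abs_nonneg (A j))
      rw [mul_comm (|A j|) (s j)] at h4
      exact h4.trans h1
    · have : A j = 0 := by
        simp only [hA]
        rw [Finset.Ico_eq_empty (by omega), Finset.sum_empty]
      rw [this, abs_zero]
      exact hδ
  -- the covariance with the next level
  have hG1 : G (l + 1) ≤ 4 * ε / (σ * π) := by
    have e1 : A (l + 1) = S.p (l + 1) * G (l + 1) + A (l + 1 + 1) := by
      simp only [hA]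
      rw [Finset.sum_eq_sum_Ico_succ_bot (by omega : l + 1 < S.K + 1)]
    have h1 := abs_le.mp (cA (l + 1) (by omega) (by omega))
    have h2 := abs_le.mp (cA (l + 1 + 1) (by omega) (by omega))
    have h3 := hp (l + 1) (by omega)
    have h4 : S.p (l + 1) * G (l + 1) ≤ 4 * ε / σ := by
      have : 4 * ε / σ = 2 * ε / σ + 2 * ε / σ := by ring
      rw [this]
      linarith only [e1, h1.2, h2.1]
    by_cases hg : G (l + 1) ≤ 0
    · exact hg.trans (by positivity)
    · push Not at hg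
      rw [← div_div, le_div_iff₀ hπ]
      have h5 := mul_le_mul_of_nonneg_left h3 hg.le
      rw [mul_comm (G (l + 1)) (S.p (l + 1))] at h5
      exact h5.trans h4
  -- the variance of `u_l`
  have nu := nh_uu (φ := φ) hS hlK
  have nu' := nh_uu (φ := φ) hS (show l + 1 ≤ S.K from hl)
  have nc : ∀ c : ℝ, Nh (ι := ι) (X := X) (fun _ _ => c) := fun c => Nh.fst (EG.const c)
  set V : ℝ := W l - R l * R l with hV
  have hV1 : S.Ex (fun z x => (uu S φ l z x - R l) ^ 2) = V := by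
    have e1 : (fun z x => (uu S φ l z x - R l) ^ 2) =
        fun z x => (uu S φ l z x * uu S φ l z x - 2 * R l * uu S φ l z x) + R l ^ 2 := by
      funext z x
      ring
    rw [e1, hS.Ex_add (Nh.sub (Nh.mul nu nu) (Nh.const_mul _ nu)) (nc _),
      hS.Ex_sub (Nh.mul nu nu) (Nh.const_mul _ nu), Sy.Ex_const_mul, hS.Ex_const, F.Ex_uu hlK]
    simp only [hV, hR, hW]
    ring
  have hV0 : 0 ≤ V := by
    rw [← hV1, ← hS.Ex_const 0]
    exact hS.Ex_mono (nc 0) (Nh.pow (Nh.sub nu (nc _)) 2) fun z x => sq_nonneg _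
  have hdif : S.Ex (fun z x => (uu S φ l z x - uu S φ (l + 1) z x) ^ 2) ≤ R (l + 1) - R l := by
    rw [← F.Rl_sub hl, ← Sy.Ex_const_mul]
    refine hS.Ex_mono (Nh.pow (Nh.sub nu nu') 2) (Nh.fst (EG.const_mul _ (EG.sum _ fun i _ =>
      ((eg_mg hS (show l + 1 ≤ S.K from hl) i).sub (eg_mg hS hlK i)).pow 2))) fun z x => ?_
    have e1 : uu S φ l z x - uu S φ (l + 1) z x =
        -(1 / N * ∑ a, (S.mg φ (l + 1) a z - S.mg φ l a z) * φ x a) := by
      simp_rw [uu, sub_mul]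
      rw [Finset.sum_sub_distrib]
      ring
    rw [e1, neg_sq, mul_pow]
    have h1 := Finset.sum_mul_sq_le_sq_mul_sq Finset.univ
      (fun a => S.mg φ (l + 1) a z - S.mg φ l a z) (φ x)
    rw [F.norm] at h1
    calc (1 / (N : ℝ)) ^ 2 * (∑ a, (S.mg φ (l + 1) a z - S.mg φ l a z) * φ x a) ^ 2
        ≤ (1 / (N : ℝ)) ^ 2 * ((∑ a, (S.mg φ (l + 1) a z - S.mg φ l a z) ^ 2) * N) :=
          mul_le_mul_of_nonneg_left h1 (by positivity)
      _ = 1 / N * ∑ i, (S.mg φ (l + 1) i z - S.mg φ l i z) ^ 2 := by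
          field_simp
  have hV2 : V ≤ (R (l + 1) - R l) + 2 * G (l + 1) := by
    have e1 : V - G (l + 1) =
        S.Ex (fun z x => (uu S φ l z x - R l) * (uu S φ l z x - uu S φ (l + 1) z x)) := by
      have e2 : (fun z x => (uu S φ l z x - R l) * (uu S φ l z x - uu S φ (l + 1) z x)) =
          fun z x => (uu S φ l z x * uu S φ l z x - uu S φ l z x * uu S φ (l + 1) z x) -
            (R l * uu S φ l z x - R l * uu S φ (l + 1) z x) := by
        funext z x
        ring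
      rw [e2, hS.Ex_sub (Nh.sub (Nh.mul nu nu) (Nh.mul nu nu'))
        (Nh.sub (Nh.const_mul _ nu) (Nh.const_mul _ nu')), hS.Ex_sub (Nh.mul nu nu) (Nh.mul nu nu'),
        hS.Ex_sub (Nh.const_mul _ nu) (Nh.const_mul _ nu'), Sy.Ex_const_mul, Sy.Ex_const_mul,
        F.Ex_uu hlK, F.Ex_uu (show l + 1 ≤ S.K from hl)]
      simp only [hV, hG, hR, hW]
      ring
    have h1 : S.Ex (fun z x => (uu S φ l z x - R l) * (uu S φ l z x - uu S φ (l + 1) z x)) ≤
        S.Ex (fun z x => 1 / 2 * (uu S φ l z x - R l) ^ 2 +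
          1 / 2 * (uu S φ l z x - uu S φ (l + 1) z x) ^ 2) := by
      refine hS.Ex_mono (Nh.mul (Nh.sub nu (nc _)) (Nh.sub nu nu'))
        (Nh.add (Nh.const_mul _ (Nh.pow (Nh.sub nu (nc _)) 2))
          (Nh.const_mul _ (Nh.pow (Nh.sub nu nu') 2))) fun z x => ?_
      have := two_mul_le_add_sq (uu S φ l z x - R l) (uu S φ l z x - uu S φ (l + 1) z x)
      linarith only [this]
    rw [hS.Ex_add (Nh.const_mul _ (Nh.pow (Nh.sub nu (nc _)) 2))
      (Nh.const_mul _ (Nh.pow (Nh.sub nu nu') 2)), Sy.Ex_const_mul, Sy.Ex_const_mul, hV1] at h1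
    linarith only [h1, e1, hdif]
  -- (B)
  set Q : ℝ := S.pairEx l (fun x x' => Rov φ x x' ^ 2) with hQ
  set a : ℕ → ℝ := fun i => 1 / (N : ℝ) ^ 2 * S.Ex (fun z _ => ∑ a, ∑ b,
          S.T l (fun _ x => φ x a * φ x b) z * S.T l (fun z _ => S.mg φ i a z * S.mg φ i b z) z)
    with ha
  have hQ0 : 0 ≤ Q := hS.pairEx_nonneg hlK fun x x' => sq_nonneg _
  have hp0 : ∀ i ≤ S.K, 0 ≤ S.p i := fun i hi => by
    rw [Sy.p]
    linarith only [hS.mono i hi]
  have hsum : ∑ i ∈ Finset.Ico (l + 1) (S.K + 1), S.p i = 1 - S.m (l + 1) := by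
    have h1 : ∀ n, l + 1 ≤ n → ∑ i ∈ Finset.Ico (l + 1) n, S.p i = S.m n - S.m (l + 1) := by
      intro n hn
      induction n, hn using Nat.le_induction with
      | base => simp
      | succ n hn ih =>
        rw [Finset.sum_Ico_succ_top hn, ih, Sy.p]
        ring
    rw [h1 _ (by omega), hS.mK]
  have ha1 : ∑ i ∈ Finset.Ico (l + 1) (S.K + 1), S.p i * a i ≤ Q * (1 - S.m (l + 1)) := by
    rw [← hsum, Finset.mul_sum]
    refine Finset.sum_le_sum fun i hi => ?_
    rw [Finset.mem_Ico] at hi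
    rw [mul_comm Q]
    exact mul_le_mul_of_nonneg_left (F.three_le_two (by omega) (by omega)) (hp0 i (by omega))
  have hB : Q - ∑ i ∈ Finset.Ico (l + 1) (S.K + 1), S.p i * a i - S.m (l + 1) * W l - A l ≤
      2 * ε / σ := by
    obtain ⟨c, hc'⟩ := hc l hlK
    have h1 := F.dev (j := l) hlK hc'
    have h2 := F.ident_B hlK
    have h3 := F.Ex_hz hlK
    have e1 : S.Ex (fun z x => hz φ zc l z x * uu S φ l z x) - S.Ex (hz φ zc l) * S.Rl φ l =
        s l * (Q - ∑ i ∈ Finset.Ico (l + 1) (S.K + 1), S.p i * a i - S.m (l + 1) * W l - A l) := by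
      have e0 : W l = S.Ex (fun z x => (1 / N * ∑ a, S.mg φ l a z * φ x a) ^ 2) := by
        simp only [hW]
        congr 1
        funext z x
        rw [sq]
        rfl
      have e2 : S.Ex (fun z x => hz φ zc l z x * uu S φ l z x) =
          s l * (Q - ∑ i ∈ Finset.Ico (l + 1) (S.K + 1), S.p i * a i - S.m (l + 1) * W l + R l -
            ∑ i ∈ Finset.Ico l (S.K + 1), S.p i * W i) := by
        rw [e0]
        exact h2
      rw [e2, h3]
      have e3 : A l = ∑ i ∈ Finset.Ico l (S.K + 1), S.p i * W i -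
          R l * ∑ i ∈ Finset.Ico l (S.K + 1), S.p i * R i := by
        simp only [hA, hG]
        rw [Finset.mul_sum, ← Finset.sum_sub_distrib]
        refine Finset.sum_congr rfl fun i _ => ?_
        ring
      rw [e3]
      simp only [hR]
      ring
    rw [e1] at h1
    have h5 := (abs_le.mp h1).2
    rw [le_div_iff₀ hσ]
    clear_value A W a Q
    by_cases hx : Q - ∑ i ∈ Finset.Ico (l + 1) (S.K + 1), S.p i * a i - S.m (l + 1) * W l - A l ≤ 0
    · exact (mul_nonpos_of_nonpos_of_nonneg hx hσ.le).trans (by linarith only [hε])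
    · push Not at hx
      have h4 := mul_le_mul_of_nonneg_left (hs l hlK) hx.le
      rw [mul_comm _ (s l)] at h4
      exact h4.trans h5
  have hAl : A l = S.p l * V + A (l + 1) := by
    simp only [hA, hV]
    rw [Finset.sum_eq_sum_Ico_succ_bot (by omega : l < S.K + 1)]
  have hA1 := (abs_le.mp (cA (l + 1) (by omega) (by omega))).2
  have hm0 : 0 ≤ S.m l := by
    rcases Nat.eq_zero_or_pos l with h0 | h0
    · rw [h0, hS.m0]
    · exact (hS.m_pos h0 (by omega)).le
  have hpl : S.p l ≤ S.m (l + 1) := by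
    rw [Sy.p]
    linarith only [hm0]
  have hmπ : π ≤ S.m (l + 1) := (hp l hlK).trans hpl
  have hmain : S.m (l + 1) * (Q - R l * R l - 2 * V) ≤ 4 * ε / σ := by
    have e1 : 4 * ε / σ = 2 * ε / σ + 2 * ε / σ := by ring
    have e2 : W l = V + R l * R l := by simp only [hV]; ring
    rw [hAl, e2] at hB
    rw [e1]
    have h6 : S.p l * V ≤ S.m (l + 1) * V := mul_le_mul_of_nonneg_right hpl hV0
    have e3 : S.m (l + 1) * (V + R l * R l) = S.m (l + 1) * V + S.m (l + 1) * (R l * R l) :=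
      mul_add _ _ _
    have e4 : Q * (1 - S.m (l + 1)) = Q - S.m (l + 1) * Q := by ring
    have e5 : S.m (l + 1) * (Q - R l * R l - 2 * V) = S.m (l + 1) * Q -
        S.m (l + 1) * (R l * R l) - 2 * (S.m (l + 1) * V) := by ring
    rw [e3] at hB
    rw [e4] at ha1
    rw [e5]
    linarith only [h6, hA1, hB, ha1]
  have hfin : Q - R l * R l - 2 * V ≤ 4 * ε / (σ * π) := by
    by_cases hx : Q - R l * R l - 2 * V ≤ 0
    · exact hx.trans (by (clear * - hε hσ hπ; positivity))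
    · push Not at hx
      rw [← div_div, le_div_iff₀ hπ]
      have h5 := mul_le_mul_of_nonneg_left hmπ hx.le
      rw [mul_comm _ (S.m (l + 1))] at h5
      exact h5.trans hmain
  have hexp : S.pairEx l (fun x x' => (Rov φ x x' - S.Rl φ l) ^ 2) = Q - R l * R l := by
    have e1 : (fun x x' => (Rov φ x x' - S.Rl φ l) ^ 2) =
        fun x x' => Rov φ x x' ^ 2 + ((-(2 * R l)) * Rov φ x x' + R l * R l) := by
      funext x x'
      simp only [hR]
      ring
    rw [e1, hS.pairEx_add hlK (fun x x' => Rov φ x x' ^ 2)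
      (fun x x' => (-(2 * R l)) * Rov φ x x' + R l * R l),
      hS.pairEx_add hlK (fun x x' => (-(2 * R l)) * Rov φ x x') (fun _ _ => R l * R l),
      hS.pairEx_const_mul, hS.pairEx_const hlK]
    have e2 : S.pairEx l (fun x x' => Rov φ x x') = R l := (F.Rl_eq_pairEx hlK).symm
    rw [e2]
    simp only [hQ]
    ring
  rw [hexp]
  have e1 : 20 * ε / (σ * π) = 4 * ε / (σ * π) + 4 * (4 * ε / (σ * π)) := by ring
  rw [e1]
  simp only [hR] at hV2 hfin ⊢
  linarith only [hG1, hV2, hfin]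

end Fld
end Vale.Agent.P157.Lv
end

section

/-!
Comparison of two systems which differ by their energies.
-/

open MeasureTheory ProbabilityTheory Filter Topology

namespace Vale.Agent.P157.Lv

set_option linter.unusedSectionVars false

variable {ι X : Type} [Fintype ι] [Fintype X] [Nonempty X] {S : Sy ι X}
  {H' : (ι → ℝ) → X → ℝ}

namespace Sy

/-! ### One step of the recursion -/

/-- The density of one step. -/
noncomputable def pW (S : Sy ι X) (l : ℕ) (z : ι → ℝ) : ℝ :=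
  Real.exp (S.m (l + 1) * (S.lg (l + 1) z - S.lg l z))

lemma pW_pos (S : Sy ι X) (l : ℕ) (z : ι → ℝ) : 0 < S.pW l z := Real.exp_pos _

lemma Reg.pW_dep (hS : S.Reg) {l : ℕ} (hl : l < S.K) : Dep S.lev (l + 1) (S.pW l) := by
  intro z w
  have h1 := hS.dep_lg (l := l + 1) hl z w
  have h2 := Dep.mono (Nat.le_succ l) (hS.dep_lg hl.le) z w
  unfold pW
  rw [h1, h2]

lemma Reg.pW_eg (hS : S.Reg) {l : ℕ} (hl : l < S.K) : EG (S.pW l) := by
  have h1 := (hS.lip_lg (l := l + 1) hl).add ((hS.lip_lg hl.le).const_mul (-1))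
  have h2 := h1.exp_eg (S.m (l + 1))
  have h3 : S.pW l = fun y => Real.exp (S.m (l + 1) * (S.lg (l + 1) y + -1 * S.lg l y)) := by
    funext y
    unfold pW
    congr 1
    ring
  rw [h3]
  exact h2

/-- `exp (m (lg' l - lg l))` is the tilted average of `exp (m (lg' (l + 1) - lg (l + 1)))`. -/
lemma Reg.J_pW_exp (hS : S.Reg) (hS' : (S.wH H').Reg) {l : ℕ} (hl : l < S.K) (z : ι → ℝ) :
    J S.lev l (fun z => S.pW l z *
      Real.exp (S.m (l + 1) * ((S.wH H').lg (l + 1) z - S.lg (l + 1) z))) z =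
      Real.exp (S.m (l + 1) * ((S.wH H').lg l z - S.lg l z)) := by
  have h1 := hS'.J_exp_lg (l := l) hl z
  have h2 : Dep S.lev l (fun z => Real.exp (-(S.m (l + 1) * S.lg l z))) := by
    intro z w
    simp only [hS.dep_lg hl.le z w]
  have h3 := h2.J_mul (fun z => Real.exp (S.m (l + 1) * (S.wH H').lg (l + 1) z)) z
  have h4 : (fun z => S.pW l z *
      Real.exp (S.m (l + 1) * ((S.wH H').lg (l + 1) z - S.lg (l + 1) z))) =
      fun z => Real.exp (-(S.m (l + 1) * S.lg l z)) *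
        Real.exp (S.m (l + 1) * (S.wH H').lg (l + 1) z) := by
    funext y
    unfold pW
    rw [← Real.exp_add, ← Real.exp_add]
    congr 1
    ring
  rw [h4, h3]
  have h5 : J S.lev l (fun z => Real.exp (S.m (l + 1) * (S.wH H').lg (l + 1) z)) z =
      Real.exp (S.m (l + 1) * (S.wH H').lg l z) := h1
  rw [h5, ← Real.exp_add]
  congr 1
  ring

lemma Reg.J_pW (hS : S.Reg) {l : ℕ} (hl : l < S.K) (z : ι → ℝ) : J S.lev l (S.pW l) z = 1 := by
  have h1 : (S.wH S.H) = S := rfl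
  have h := Reg.J_pW_exp (H' := S.H) hS (by rw [h1]; exact hS) hl z
  rw [h1] at h
  simpa using h

lemma Reg.T_step (hS : S.Reg) {l : ℕ} (hl : l < S.K) {h : (ι → ℝ) → X → ℝ} (hh : Nh h)
    (z : ι → ℝ) : S.T l h z = J S.lev l (fun z => S.pW l z * S.T (l + 1) h z) z := by
  have h1 : (fun z => S.dn l z * S.av h z) =
      fun z => S.pW l z * (S.dn (l + 1) z * S.av h z) := by
    funext y
    rw [S.dn_step hl y]
    unfold pW
    ring
  have h2 : (fun z => S.pW l z * S.T (l + 1) h z) =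
      J S.lev (l + 1) (fun z => S.pW l z * (S.dn (l + 1) z * S.av h z)) := by
    funext y
    exact ((hS.pW_dep hl).J_mul (fun z => S.dn (l + 1) z * S.av h z) y).symm
  rw [h2, J_J (Nat.le_succ l) ((hS.pW_eg hl).mul ((hS.eg_dn (l := l + 1) hl).mul (hS.eg_av hh))) z]
  unfold T
  rw [h1]

/-- The comparison of `top`. -/
lemma exp_top_sub (z : ι → ℝ) :
    Real.exp ((S.wH H').top z - S.top z) = ∑ x, S.gb z x * Real.exp (H' z x - S.H z x) := by
  have h1 := S.sum_exp_pos z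
  have h2 := (S.wH H').sum_exp_pos z
  unfold top
  rw [Real.exp_sub, Real.exp_log h2, Real.exp_log h1, Finset.sum_div]
  refine Finset.sum_congr rfl fun x _ => ?_
  unfold gb
  rw [Real.exp_sub]
  have h3 := Real.exp_pos (S.H z x)
  change Real.exp (H' z x) / _ = _
  field_simp

lemma gb_eq (S : Sy ι X) (z : ι → ℝ) (x : X) : S.gb z x = Real.exp (S.H z x - S.top z) := by
  unfold gb top
  rw [Real.exp_sub, Real.exp_log (S.sum_exp_pos z)]

lemma Reg.lip_diff (hS : S.Reg) (hS' : (S.wH H').Reg) (x : X) :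
    Lip fun z => H' z x - S.H z x := by
  have h1 : Lip fun z => H' z x := hS'.lip x
  have h2 := h1.add ((hS.lip x).const_mul (-1))
  have h3 : (fun z => H' z x - S.H z x) = fun z => H' z x + -1 * S.H z x := by
    funext y
    ring
  rw [h3]
  exact h2

lemma Reg.nh_diff (hS : S.Reg) (hS' : (S.wH H').Reg) : Nh fun z x => H' z x - S.H z x :=
  fun x => (hS.lip_diff hS' x).eg

/-- The differences of the log-weights. -/
noncomputable def pD (S : Sy ι X) (H' : (ι → ℝ) → X → ℝ) (l : ℕ) (z : ι → ℝ) : ℝ :=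
  (S.wH H').lg l z - S.lg l z

lemma Reg.lip_pD (hS : S.Reg) (hS' : (S.wH H').Reg) {l : ℕ} (hl : l ≤ S.K) :
    Lip (S.pD H' l) := by
  have h1 : Lip ((S.wH H').lg l) := hS'.lip_lg hl
  have h2 := h1.add ((hS.lip_lg hl).const_mul (-1))
  have h3 : S.pD H' l = fun z => (S.wH H').lg l z + -1 * S.lg l z := by
    funext y
    unfold pD
    ring
  rw [h3]
  exact h2

/-- Pointwise version. -/
theorem Reg.jensen_lg (hS : S.Reg) (hS' : (S.wH H').Reg) {l : ℕ} (hl : l ≤ S.K) (z : ι → ℝ) :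
    S.T l (fun z x => H' z x - S.H z x) z ≤ (S.wH H').lg l z - S.lg l z := by
  have key : ∀ l ≤ S.K, ∀ z, S.T l (fun z x => H' z x - S.H z x) z ≤ S.pD H' l z := by
    refine down_ind (P := fun l => ∀ z, S.T l (fun z x => H' z x - S.H z x) z ≤ S.pD H' l z)
      ?_ ?_
    · intro z
      rw [hS.T_top]
      unfold pD
      rw [lg_top S]
      have h1 : (S.wH H').lg S.K = (S.wH H').top := lg_top (S.wH H')
      rw [h1, ← Real.exp_le_exp, exp_top_sub]
      have h2 := convexOn_exp.map_sum_le (t := Finset.univ) (w := fun x => S.gb z x)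
        (p := fun x => H' z x - S.H z x) (fun x _ => (S.gb_pos z x).le) (S.sum_gb z)
        (fun x _ => Set.mem_univ _)
      simpa [av, smul_eq_mul] using h2
    · intro l hl ih z
      rw [hS.T_step hl (hS.nh_diff hS') z]
      have hm : 0 < S.m (l + 1) := hS.m_pos (by omega) (by omega)
      have hW := hS.pW_eg hl
      have hD := hS.lip_pD hS' (l := l + 1) hl
      have h1 : J S.lev l (fun z => S.pW l z * S.T (l + 1) (fun z x => H' z x - S.H z x) z) z ≤
          J S.lev l (fun z => S.pW l z * S.pD H' (l + 1) z) z :=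
        J_mono (hW.mul (hS.eg_T (l := l + 1) hl (hS.nh_diff hS'))) (hW.mul hD.eg)
          (fun y => mul_le_mul_of_nonneg_left (ih y) (S.pW_pos l y).le) z
      refine h1.trans ?_
      set a : ℝ := J S.lev l (fun z => S.pW l z * S.pD H' (l + 1) z) z with ha
      have h2 := hS.J_pW_exp hS' hl z
      have h3 : Real.exp (S.m (l + 1) * a) ≤ Real.exp (S.m (l + 1) * S.pD H' l z) := by
        have h4 : J S.lev l (fun z => Real.exp (S.m (l + 1) * a) * (S.pW l z +
            (S.m (l + 1) * (S.pW l z * S.pD H' (l + 1) z) -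
              S.m (l + 1) * a * S.pW l z))) z ≤
            J S.lev l (fun z => S.pW l z * Real.exp (S.m (l + 1) * S.pD H' (l + 1) z)) z := by
          refine J_mono ?_ (hW.mul (hD.exp_eg _)) (fun y => ?_) z
          · exact (hW.add (((hW.mul hD.eg).const_mul _).sub (hW.const_mul _))).const_mul _
          · have h5 := Real.add_one_le_exp
              (S.m (l + 1) * S.pD H' (l + 1) y - S.m (l + 1) * a)
            have h6 : Real.exp (S.m (l + 1) * S.pD H' (l + 1) y) =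
                Real.exp (S.m (l + 1) * a) *
                  Real.exp (S.m (l + 1) * S.pD H' (l + 1) y - S.m (l + 1) * a) := by
              rw [← Real.exp_add]
              congr 1
              ring
            rw [h6]
            have h7 := mul_le_mul_of_nonneg_left h5
              (mul_pos (Real.exp_pos (S.m (l + 1) * a)) (S.pW_pos l y)).le
            linarith only [h7]
        rw [J_const_mul, J_add hW (((hW.mul hD.eg).const_mul _).sub (hW.const_mul _)),
          J_sub ((hW.mul hD.eg).const_mul _) (hW.const_mul _), J_const_mul, J_const_mul,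
          ← ha, hS.J_pW hl z] at h4
        have h8 : J S.lev l (fun z => S.pW l z * Real.exp (S.m (l + 1) * S.pD H' (l + 1) z)) z =
          Real.exp (S.m (l + 1) * S.pD H' l z) := h2
        rw [h8] at h4
        calc Real.exp (S.m (l + 1) * a) = Real.exp (S.m (l + 1) * a) *
            (1 + (S.m (l + 1) * a - S.m (l + 1) * a * 1)) := by ring
          _ ≤ _ := h4
      rw [Real.exp_le_exp] at h3
      exact le_of_mul_le_mul_left h3 hm
  exact key l hl z

lemma Reg.Ex_eq_T (hS : S.Reg) {h : (ι → ℝ) → X → ℝ} (hh : Nh h) :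
    S.Ex h = ∫ z, S.T 0 h z ∂(gI ι) := by
  unfold Ex T
  rw [integral_J ((hS.eg_dn (Nat.zero_le _)).mul (hS.eg_av hh))]

lemma Reg.fe_sub (hS : S.Reg) (hS' : (S.wH H').Reg) :
    (S.wH H').fe - S.fe = ∫ z, S.pD H' 0 z ∂(gI ι) := by
  unfold fe pD
  rw [integral_sub (hS'.integrable_lg (Nat.zero_le _)) (hS.integrable_lg (Nat.zero_le _))]

/-- Jensen's inequality: the free energy is above its tangents. -/
theorem Reg.jensen (hS : S.Reg) (hS' : (S.wH H').Reg) :
    S.Ex (fun z x => H' z x - S.H z x) ≤ (S.wH H').fe - S.fe := by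
  rw [hS.Ex_eq_T (hS.nh_diff hS'), hS.fe_sub hS']
  refine integral_mono (hS.eg_T (Nat.zero_le _) (hS.nh_diff hS')).integrable
    (hS.lip_pD hS' (Nat.zero_le _)).eg.integrable fun z => ?_
  exact hS.jensen_lg hS' (Nat.zero_le _) z

theorem Reg.lg_sub_le (hS : S.Reg) (hS' : (S.wH H').Reg) {B : ℝ}
    (hB : ∀ z x, |H' z x - S.H z x| ≤ B) {l : ℕ} (hl : l ≤ S.K) (z : ι → ℝ) :
    |(S.wH H').lg l z - S.lg l z| ≤ B := by
  have key : ∀ l ≤ S.K, ∀ z, |S.pD H' l z| ≤ B := by
    refine down_ind (P := fun l => ∀ z, |S.pD H' l z| ≤ B) ?_ ?_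
    · intro z
      unfold pD
      rw [lg_top S]
      have h1 : (S.wH H').lg S.K = (S.wH H').top := lg_top (S.wH H')
      rw [h1, abs_le]
      constructor
      · rw [← Real.exp_le_exp, exp_top_sub]
        calc Real.exp (-B) = ∑ x, S.gb z x * Real.exp (-B) := by
              rw [← Finset.sum_mul, S.sum_gb z, one_mul]
          _ ≤ _ := Finset.sum_le_sum fun x _ => mul_le_mul_of_nonneg_left
              (Real.exp_le_exp.2 (abs_le.1 (hB z x)).1) (S.gb_pos z x).le
      · rw [← Real.exp_le_exp, exp_top_sub]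
        calc _ ≤ ∑ x, S.gb z x * Real.exp B := Finset.sum_le_sum fun x _ =>
              mul_le_mul_of_nonneg_left (Real.exp_le_exp.2 (abs_le.1 (hB z x)).2)
                (S.gb_pos z x).le
          _ = Real.exp B := by rw [← Finset.sum_mul, S.sum_gb z, one_mul]
    · intro l hl ih z
      have hm : 0 < S.m (l + 1) := hS.m_pos (by omega) (by omega)
      have hW := hS.pW_eg hl
      have hD := hS.lip_pD hS' (l := l + 1) hl
      have h2 : J S.lev l (fun z => S.pW l z * Real.exp (S.m (l + 1) * S.pD H' (l + 1) z)) z =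
          Real.exp (S.m (l + 1) * S.pD H' l z) := hS.J_pW_exp hS' hl z
      have hc : ∀ c : ℝ, J S.lev l (fun z => c * S.pW l z) z = c := by
        intro c
        rw [J_const_mul, hS.J_pW hl z, mul_one]
      rw [abs_le]
      constructor
      · have h3 : Real.exp (S.m (l + 1) * -B) ≤ Real.exp (S.m (l + 1) * S.pD H' l z) := by
          rw [← h2, ← hc (Real.exp (S.m (l + 1) * -B))]
          refine J_mono (hW.const_mul _) (hW.mul (hD.exp_eg _)) (fun y => ?_) z
          rw [mul_comm]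
          refine mul_le_mul_of_nonneg_left (Real.exp_le_exp.2 ?_) (S.pW_pos l y).le
          exact mul_le_mul_of_nonneg_left (abs_le.1 (ih y)).1 hm.le
        rw [Real.exp_le_exp] at h3
        exact le_of_mul_le_mul_left h3 hm
      · have h3 : Real.exp (S.m (l + 1) * S.pD H' l z) ≤ Real.exp (S.m (l + 1) * B) := by
          rw [← h2, ← hc (Real.exp (S.m (l + 1) * B))]
          refine J_mono (hW.mul (hD.exp_eg _)) (hW.const_mul _) (fun y => ?_) z
          rw [mul_comm (Real.exp (S.m (l + 1) * B))]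
          refine mul_le_mul_of_nonneg_left (Real.exp_le_exp.2 ?_) (S.pW_pos l y).le
          exact mul_le_mul_of_nonneg_left (abs_le.1 (ih y)).2 hm.le
        rw [Real.exp_le_exp] at h3
        exact le_of_mul_le_mul_left h3 hm
  exact key l hl z

theorem Reg.fe_sub_le (hS : S.Reg) (hS' : (S.wH H').Reg) {B : ℝ}
    (hB : ∀ z x, |H' z x - S.H z x| ≤ B) : |(S.wH H').fe - S.fe| ≤ B := by
  rw [hS.fe_sub hS']
  have h1 := norm_integral_le_of_norm_le_const (μ := gI ι) (f := S.pD H' 0) (C := B)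
    (Filter.Eventually.of_forall fun z => by
      rw [Real.norm_eq_abs]
      exact hS.lg_sub_le hS' hB (Nat.zero_le _) z)
  simpa using h1

/-- Comparison of the densities. Proof: with `Φ_i = lg' i - lg i`, `|Φ_i| ≤ B`, the logarithm of
the ratio is `H' - H - Φ_K + ∑_{i=l}^{K-1} m_{i+1} (Φ_{i+1} - Φ_i)` and one sums by parts. -/
theorem Reg.dn_gb_le (hS : S.Reg) (hS' : (S.wH H').Reg) {B : ℝ}
    (hB : ∀ z x, |H' z x - S.H z x| ≤ B) {l : ℕ} (hl : l ≤ S.K) (z : ι → ℝ) (x : X) :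
    (S.wH H').dn l z * (S.wH H').gb z x ≤ Real.exp (2 * B) * (S.dn l z * S.gb z x) := by
  have hΦ : ∀ i ≤ S.K, |S.pD H' i z| ≤ B := fun i hi => hS.lg_sub_le hS' hB hi z
  have key : ∀ l ≤ S.K, (∑ i ∈ Finset.Ico l S.K, S.m (i + 1) *
      (S.pD H' (i + 1) z - S.pD H' i z)) - S.pD H' S.K z ≤
      -(S.m (l + 1) * S.pD H' l z) + (1 - S.m (l + 1)) * B := by
    refine down_ind ?_ ?_
    · rw [Finset.Ico_self, Finset.sum_empty, hS.mK]
      linarith
    · intro l hl ih
      rw [Finset.sum_eq_sum_Ico_succ_bot hl]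
      have h1 := hS.mono (l + 1) hl
      have h2 := (abs_le.1 (hΦ (l + 1) hl)).1
      linarith only [mul_le_mul_of_nonneg_left h2 (sub_nonneg.2 h1), ih]
  have h1 := key l hl
  have hm0 : 0 < S.m (l + 1) := hS.m_pos (by omega) (by omega)
  have h2 := (abs_le.1 (hΦ l hl)).1
  have h3 : (∑ i ∈ Finset.Ico l S.K, S.m (i + 1) *
      (S.pD H' (i + 1) z - S.pD H' i z)) - S.pD H' S.K z ≤ B := by
    linarith only [mul_le_mul_of_nonneg_left h2 hm0.le, h1]
  have h4 := (abs_le.1 (hB z x)).2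
  rw [gb_eq, gb_eq]
  unfold dn
  rw [← Real.exp_add, ← Real.exp_add, ← Real.exp_add, Real.exp_le_exp]
  have h5 : (∑ i ∈ Finset.Ico l S.K, S.m (i + 1) *
      (S.pD H' (i + 1) z - S.pD H' i z)) =
      (∑ i ∈ Finset.Ico l S.K, S.m (i + 1) * ((S.wH H').lg (i + 1) z - (S.wH H').lg i z)) -
      ∑ i ∈ Finset.Ico l S.K, S.m (i + 1) * (S.lg (i + 1) z - S.lg i z) := by
    rw [← Finset.sum_sub_distrib]
    refine Finset.sum_congr rfl fun i _ => ?_
    unfold pD
    ring
  have h6 : S.pD H' S.K z = (S.wH H').top z - S.top z := by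
    unfold pD
    rw [lg_top S]
    have h7 : (S.wH H').lg S.K = (S.wH H').top := lg_top (S.wH H')
    rw [h7]
  rw [h5, h6] at h3
  have h8 : (∑ i ∈ Finset.Ico l (S.wH H').K, (S.wH H').m (i + 1) *
      ((S.wH H').lg (i + 1) z - (S.wH H').lg i z)) =
      ∑ i ∈ Finset.Ico l S.K, S.m (i + 1) * ((S.wH H').lg (i + 1) z - (S.wH H').lg i z) := rfl
  have h9 : (S.wH H').H z x = H' z x := rfl
  rw [h8, h9]
  linarith

lemma Reg.dn_av_le (hS : S.Reg) (hS' : (S.wH H').Reg) {B : ℝ}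
    (hB : ∀ z x, |H' z x - S.H z x| ≤ B) {l : ℕ} (hl : l ≤ S.K) {h : (ι → ℝ) → X → ℝ}
    (h0 : ∀ z x, 0 ≤ h z x) (z : ι → ℝ) :
    (S.wH H').dn l z * (S.wH H').av h z ≤ Real.exp (2 * B) * (S.dn l z * S.av h z) := by
  unfold av
  rw [Finset.mul_sum, Finset.mul_sum, Finset.mul_sum]
  refine Finset.sum_le_sum fun x _ => ?_
  have h1 := mul_le_mul_of_nonneg_right (hS.dn_gb_le hS' hB hl z x) (h0 z x)
  linarith

theorem Reg.T_pert_le (hS : S.Reg) (hS' : (S.wH H').Reg) {B : ℝ}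
    (hB : ∀ z x, |H' z x - S.H z x| ≤ B) {l : ℕ} (hl : l ≤ S.K) {h : (ι → ℝ) → X → ℝ}
    (hh : Nh h) (h0 : ∀ z x, 0 ≤ h z x) (z : ι → ℝ) :
    (S.wH H').T l h z ≤ Real.exp (2 * B) * S.T l h z := by
  unfold T
  rw [← J_const_mul]
  have h1 : EG fun z => (S.wH H').dn l z * (S.wH H').av h z :=
    (hS'.eg_dn (l := l) hl).mul (hS'.eg_av hh)
  exact J_mono h1 (((hS.eg_dn hl).mul (hS.eg_av hh)).const_mul _)
    (fun y => hS.dn_av_le hS' hB hl h0 y) z

theorem Reg.Ex_pert_le (hS : S.Reg) (hS' : (S.wH H').Reg) {B : ℝ}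
    (hB : ∀ z x, |H' z x - S.H z x| ≤ B) {h : (ι → ℝ) → X → ℝ}
    (hh : Nh h) (h0 : ∀ z x, 0 ≤ h z x) :
    (S.wH H').Ex h ≤ Real.exp (2 * B) * S.Ex h := by
  unfold Ex
  rw [← integral_const_mul]
  have h1 : EG fun z => (S.wH H').dn 0 z * (S.wH H').av h z :=
    (hS'.eg_dn (Nat.zero_le _)).mul (hS'.eg_av hh)
  exact integral_mono h1.integrable
    (((hS.eg_dn (Nat.zero_le _)).mul (hS.eg_av hh)).const_mul _).integrable
    (fun y => hS.dn_av_le hS' hB (Nat.zero_le _) h0 y)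

/-- Concavity of the power `θ`. -/
lemma exp_mul_le_tangent {θ : ℝ} (h0 : 0 ≤ θ) (h1 : θ ≤ 1) (u : ℝ) :
    Real.exp (θ * u) ≤ (1 - θ) + θ * Real.exp u := by
  have h := convexOn_exp.2 (Set.mem_univ (0 : ℝ)) (Set.mem_univ u) (sub_nonneg.2 h1) h0
    (by ring)
  simpa [smul_eq_mul] using h

/-- The exponents only help: `lg' 0 - lg 0 ≥ (1/m₁) log T₀ exp(m₁ (H' - H))`. Proof: downward
induction `lg' l - lg l ≥ (1/m₁) log T_l exp(m₁ (H' - H))`, by Jensen for `x ↦ x^(m_{l+1}/m₁)`. -/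
theorem Reg.thermal (hS : S.Reg) (hS' : (S.wH H').Reg) (z : ι → ℝ) :
    1 / S.m 1 * Real.log (S.T 0 (fun z x => Real.exp (S.m 1 * (H' z x - S.H z x))) z) ≤
      (S.wH H').lg 0 z - S.lg 0 z := by
  have hm1 : 0 < S.m 1 := hS.pos
  have hm1' : S.m 1 ≤ 1 := hS.m_le_one (by omega)
  set f : (ι → ℝ) → X → ℝ := fun z x => Real.exp (S.m 1 * (H' z x - S.H z x)) with hf
  have hNf : Nh f := fun x => (hS.lip_diff hS' x).exp_eg (S.m 1)
  have key : ∀ l ≤ S.K, ∀ z, S.T l f z ≤ Real.exp (S.m 1 * S.pD H' l z) := by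
    refine down_ind (P := fun l => ∀ z, S.T l f z ≤ Real.exp (S.m 1 * S.pD H' l z)) ?_ ?_
    · intro z
      rw [hS.T_top]
      have h6 : S.pD H' S.K z = (S.wH H').top z - S.top z := by
        unfold pD
        rw [lg_top S]
        have h7 : (S.wH H').lg S.K = (S.wH H').top := lg_top (S.wH H')
        rw [h7]
      rw [h6]
      set c : ℝ := (S.wH H').top z - S.top z with hc
      have h1 : Real.exp c = ∑ x, S.gb z x * Real.exp (H' z x - S.H z x) := exp_top_sub z
      have h2 : ∑ x, S.gb z x * Real.exp (S.m 1 * (H' z x - S.H z x - c)) ≤ 1 := by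
        calc ∑ x, S.gb z x * Real.exp (S.m 1 * (H' z x - S.H z x - c)) ≤
            ∑ x, S.gb z x * ((1 - S.m 1) + S.m 1 * Real.exp (H' z x - S.H z x - c)) :=
              Finset.sum_le_sum fun x _ => mul_le_mul_of_nonneg_left
                (exp_mul_le_tangent hm1.le hm1' _) (S.gb_pos z x).le
          _ = (1 - S.m 1) * ∑ x, S.gb z x + S.m 1 * Real.exp (-c) *
              ∑ x, S.gb z x * Real.exp (H' z x - S.H z x) := by
              rw [Finset.mul_sum, Finset.mul_sum, ← Finset.sum_add_distrib]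
              refine Finset.sum_congr rfl fun x _ => ?_
              have h3 : Real.exp (H' z x - S.H z x - c) =
                  Real.exp (-c) * Real.exp (H' z x - S.H z x) := by
                rw [← Real.exp_add]
                congr 1
                ring
              rw [h3]
              ring
          _ = 1 := by
              rw [S.sum_gb z, ← h1, mul_assoc, ← Real.exp_add]
              simp
      have h3 : S.av f z = Real.exp (S.m 1 * c) *
          ∑ x, S.gb z x * Real.exp (S.m 1 * (H' z x - S.H z x - c)) := by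
        unfold av
        rw [Finset.mul_sum]
        refine Finset.sum_congr rfl fun x _ => ?_
        have h4 : f z x = Real.exp (S.m 1 * c) *
            Real.exp (S.m 1 * (H' z x - S.H z x - c)) := by
          change Real.exp (S.m 1 * (H' z x - S.H z x)) = _
          rw [← Real.exp_add]
          congr 1
          ring
        rw [h4]
        ring
      rw [h3]
      exact mul_le_of_le_one_right (Real.exp_pos _).le h2
    · intro l hl ih z
      rw [hS.T_step hl hNf z]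
      have hm : 0 < S.m (l + 1) := hS.m_pos (by omega) (by omega)
      have hmm : S.m 1 ≤ S.m (l + 1) := hS.m_mono (by omega) (by omega)
      have hW := hS.pW_eg hl
      have hD := hS.lip_pD hS' (l := l + 1) hl
      have h1 : J S.lev l (fun z => S.pW l z * S.T (l + 1) f z) z ≤
          J S.lev l (fun z => S.pW l z * Real.exp (S.m 1 * S.pD H' (l + 1) z)) z :=
        J_mono (hW.mul (hS.eg_T (l := l + 1) hl hNf)) (hW.mul (hD.exp_eg _))
          (fun y => mul_le_mul_of_nonneg_left (ih y) (S.pW_pos l y).le) z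
      refine h1.trans ?_
      set c : ℝ := S.pD H' l z with hc
      set θ : ℝ := S.m 1 / S.m (l + 1) with hθ
      have hθ0 : 0 ≤ θ := by positivity
      have hθ1 : θ ≤ 1 := (div_le_one hm).2 hmm
      have hθm : θ * S.m (l + 1) = S.m 1 := div_mul_cancel₀ _ hm.ne'
      have h2 : J S.lev l (fun z => S.pW l z * Real.exp (S.m (l + 1) * S.pD H' (l + 1) z)) z =
          Real.exp (S.m (l + 1) * c) := hS.J_pW_exp hS' hl z
      have h3 : J S.lev l (fun z => S.pW l z * Real.exp (S.m 1 * S.pD H' (l + 1) z)) z ≤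
          J S.lev l (fun z => Real.exp (S.m 1 * c) * ((1 - θ) * S.pW l z +
            θ * Real.exp (-(S.m (l + 1) * c)) *
              (S.pW l z * Real.exp (S.m (l + 1) * S.pD H' (l + 1) z)))) z := by
        refine J_mono (hW.mul (hD.exp_eg _)) (((hW.const_mul _).add
          ((hW.mul (hD.exp_eg _)).const_mul _)).const_mul _) (fun y => ?_) z
        have h4 := exp_mul_le_tangent hθ0 hθ1 (S.m (l + 1) * (S.pD H' (l + 1) y - c))
        rw [← mul_assoc, hθm] at h4
        have h5 : Real.exp (S.m 1 * S.pD H' (l + 1) y) = Real.exp (S.m 1 * c) *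
            Real.exp (S.m 1 * (S.pD H' (l + 1) y - c)) := by
          rw [← Real.exp_add]
          congr 1
          ring
        have h6 : Real.exp (S.m (l + 1) * (S.pD H' (l + 1) y - c)) =
            Real.exp (-(S.m (l + 1) * c)) * Real.exp (S.m (l + 1) * S.pD H' (l + 1) y) := by
          rw [← Real.exp_add]
          congr 1
          ring
        rw [h6] at h4
        rw [h5]
        have h7 := mul_le_mul_of_nonneg_left h4
          (mul_pos (S.pW_pos l y) (Real.exp_pos (S.m 1 * c))).le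
        calc S.pW l y * (Real.exp (S.m 1 * c) * Real.exp (S.m 1 * (S.pD H' (l + 1) y - c))) =
            S.pW l y * Real.exp (S.m 1 * c) *
              Real.exp (S.m 1 * (S.pD H' (l + 1) y - c)) := by ring
          _ ≤ _ := h7
          _ = _ := by ring
      rw [J_const_mul, J_add (hW.const_mul _) ((hW.mul (hD.exp_eg _)).const_mul _),
        J_const_mul, J_const_mul, h2, hS.J_pW hl z] at h3
      refine h3.trans (le_of_eq ?_)
      rw [mul_assoc θ, ← Real.exp_add]
      simp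
  have h1 := key 0 (Nat.zero_le _) z
  have hpos : 0 < S.T 0 f z := by
    unfold T
    refine J_pos ((hS.eg_dn (Nat.zero_le _)).mul (hS.eg_av hNf)) (fun y => ?_) z
    refine mul_pos (S.dn_pos 0 y) ?_
    unfold av
    exact Finset.sum_pos (fun x _ => mul_pos (S.gb_pos y x) (Real.exp_pos _))
      Finset.univ_nonempty
  have h2 := Real.log_le_log hpos h1
  rw [Real.log_exp] at h2
  calc 1 / S.m 1 * Real.log (S.T 0 f z) ≤ 1 / S.m 1 * (S.m 1 * S.pD H' 0 z) :=
        mul_le_mul_of_nonneg_left h2 (by positivity)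
    _ = (S.wH H').lg 0 z - S.lg 0 z := by
        unfold pD
        field_simp

end Sy

end Vale.Agent.P157.Lv
end

section

/-!
Concentration of a linear observable from a bound on the second difference of the free energy.
-/

open MeasureTheory ProbabilityTheory Filter Topology

namespace Vale.Agent.P157.Lv

set_option linter.unusedSectionVars false

section one

/-- Exponential growth in one variable. -/
def CcE (f : ℝ → ℝ) : Prop := EG (ι := Unit) fun z => f (z ())

lemma CcE.of_bdd {f : ℝ → ℝ} (hm : Measurable f) {C a : ℝ} (hC : 0 ≤ C) (ha : 0 ≤ a)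
    (h : ∀ x, |f x| ≤ C * Real.exp (a * |x|)) : CcE f := by
  refine ⟨hm.comp (measurable_pi_apply ()), C, a, hC, ha, fun y => (h _).trans ?_⟩
  have : |y ()| ≤ ‖y‖ := norm_le_pi_norm y ()
  gcongr

lemma CcE.meas {f : ℝ → ℝ} (h : CcE f) : Measurable f :=
  (EG.meas h).comp (measurable_pi_lambda (fun (x : ℝ) (_ : Unit) => x) fun _ => measurable_id)

lemma CcE.bdd {f : ℝ → ℝ} (h : CcE f) :
    ∃ C a : ℝ, 0 ≤ C ∧ 0 ≤ a ∧ ∀ x, |f x| ≤ C * Real.exp (a * |x|) := by
  obtain ⟨C, a, hC, ha, hb⟩ := EG.bdd h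
  refine ⟨C, a, hC, ha, fun x => ?_⟩
  have := hb (fun _ => x)
  rwa [pi_norm_const, Real.norm_eq_abs] at this

lemma CcE.integrable {f : ℝ → ℝ} (h : CcE f) : Integrable f (gaussianReal 0 1) :=
  ((measurePreserving_eval (fun _ : Unit => gaussianReal 0 1) ()).integrable_comp
    h.meas.aestronglyMeasurable).1 (EG.integrable h)

lemma CcE.mul {f g : ℝ → ℝ} (hf : CcE f) (hg : CcE g) : CcE fun x => f x * g x := EG.mul hf hg
lemma CcE.sub {f g : ℝ → ℝ} (hf : CcE f) (hg : CcE g) : CcE fun x => f x - g x := EG.sub hf hg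
lemma CcE.sq {f : ℝ → ℝ} (hf : CcE f) : CcE fun x => f x ^ 2 := EG.pow hf 2
lemma CcE.id : CcE fun x => x := EG.coord (ι := Unit) ()
lemma CcE.const (c : ℝ) : CcE fun _ => c := EG.const c

lemma CcE.cm {f : ℝ → ℝ} (c : ℝ) (hf : CcE f) : CcE fun x => c * f x := (CcE.const c).mul hf

lemma CcE.int_add {f g : ℝ → ℝ} (hf : CcE f) (hg : CcE g) : ∫ x, (f x + g x) ∂(gaussianReal 0 1) =
    ∫ x, f x ∂(gaussianReal 0 1) + ∫ x, g x ∂(gaussianReal 0 1) :=
  integral_add hf.integrable hg.integrable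

lemma CcE.int_sub {f g : ℝ → ℝ} (hf : CcE f) (hg : CcE g) : ∫ x, (f x - g x) ∂(gaussianReal 0 1) =
    ∫ x, f x ∂(gaussianReal 0 1) - ∫ x, g x ∂(gaussianReal 0 1) :=
  integral_sub hf.integrable hg.integrable

lemma CcE.ii {g : ℝ → ℝ} (hg : CcE g) (x y : ℝ) : IntervalIntegrable g volume x y := by
  obtain ⟨C, a, hC, ha, hb⟩ := hg.bdd
  have hc : Continuous fun x : ℝ => C * Real.exp (a * |x|) := by fun_prop
  refine (hc.intervalIntegrable x y).mono_fun' hg.meas.aestronglyMeasurable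
    (Filter.Eventually.of_forall fun u => ?_)
  show ‖g u‖ ≤ C * Real.exp (a * |u|)
  rw [Real.norm_eq_abs]
  exact hb u

lemma CcE.prim {g : ℝ → ℝ} (hg : CcE g) : CcE fun x => ∫ u in (0 : ℝ)..x, g u := by
  obtain ⟨C, a, hC, ha, hb⟩ := hg.bdd
  refine CcE.of_bdd (intervalIntegral.continuous_primitive hg.ii 0).measurable hC
    (show 0 ≤ a + 1 by linarith) fun x => ?_
  have h1 : ‖∫ u in (0 : ℝ)..x, g u‖ ≤ (C * Real.exp (a * |x|)) * |x - 0| := by
    refine intervalIntegral.norm_integral_le_of_norm_le_const fun u hu => ?_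
    rw [Real.norm_eq_abs]
    refine (hb u).trans ?_
    have : |u| ≤ |x| := by
      rcases le_total 0 x with h | h
      · rw [Set.uIoc_of_le h] at hu
        rw [abs_of_pos hu.1, abs_of_nonneg h]
        exact hu.2
      · rw [Set.uIoc_of_ge h] at hu
        rw [abs_of_nonpos hu.2, abs_of_nonpos h]
        linarith [hu.1]
    gcongr
  rw [sub_zero, Real.norm_eq_abs] at h1
  refine h1.trans ?_
  have h2 : |x| ≤ Real.exp |x| := (Real.add_one_le_exp |x|).trans' (by linarith)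
  rw [add_mul, one_mul, Real.exp_add, ← mul_assoc]
  gcongr

lemma cc_gpdf_deriv (x : ℝ) :
    HasDerivAt (gaussianPDFReal 0 1) (-(x * gaussianPDFReal 0 1 x)) x := by
  have h1 : HasDerivAt (fun y : ℝ => -(y - 0) ^ 2 / (2 * ((1 : NNReal) : ℝ))) (-x) x := by
    have h2 : HasDerivAt (fun y : ℝ => -(y ^ 2) / 2) (-(2 * x) / 2) x := by
      have h0 := ((hasDerivAt_pow 2 x).neg).div_const (2 : ℝ)
      simpa using h0
    have h2' : (fun y : ℝ => -(y - 0) ^ 2 / (2 * ((1 : NNReal) : ℝ))) = fun y => -(y ^ 2) / 2 := by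
      funext y
      simp
    rw [h2']
    have h2'' : -x = -(2 * x) / 2 := by ring
    rw [h2'']
    exact h2
  have h3 := (h1.exp).const_mul ((Real.sqrt (2 * Real.pi * ((1 : NNReal) : ℝ)))⁻¹)
  have h4 : gaussianPDFReal 0 1 = fun y => (Real.sqrt (2 * Real.pi * ((1 : NNReal) : ℝ)))⁻¹
      * Real.exp (-(y - 0) ^ 2 / (2 * ((1 : NNReal) : ℝ))) := by
    funext y
    rw [gaussianPDFReal_def]
  have h5 : -(x * gaussianPDFReal 0 1 x) = (Real.sqrt (2 * Real.pi * ((1 : NNReal) : ℝ)))⁻¹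
      * (Real.exp (-(x - 0) ^ 2 / (2 * ((1 : NNReal) : ℝ))) * -x) := by
    rw [h4]
    ring
  rw [h5, h4]
  exact h3

lemma cc_gpdf_even (x : ℝ) : gaussianPDFReal 0 1 (-x) = gaussianPDFReal 0 1 x := by
  rw [gaussianPDFReal_def]
  simp

lemma cc_gpdf_tendsto : Tendsto (gaussianPDFReal 0 1) atTop (𝓝 0) := by
  rw [gaussianPDFReal_def]
  have h1 : Tendsto (fun y : ℝ => Real.exp (-(y - 0) ^ 2 / (2 * ((1 : NNReal) : ℝ)))) atTop (𝓝 0) := by
    refine Real.tendsto_exp_atBot.comp ?_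
    have : (fun y : ℝ => -(y - 0) ^ 2 / (2 * ((1 : NNReal) : ℝ))) = fun y => -((1/2) * y ^ 2) := by
      funext y
      simp
      ring
    rw [this]
    exact tendsto_neg_atTop_atBot.comp ((tendsto_pow_atTop two_ne_zero).const_mul_atTop (by norm_num))
  simpa using h1.const_mul _

lemma cc_gpdf_tail (t : ℝ) (ht : 0 < t) :
    ∫ x in Set.Ioi t, x * gaussianPDFReal 0 1 x = gaussianPDFReal 0 1 t := by
  have h := integral_Ioi_of_hasDerivAt_of_nonpos' (a := t) (g := gaussianPDFReal 0 1)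
    (g' := fun x => -(x * gaussianPDFReal 0 1 x)) (l := 0) (fun x _ => cc_gpdf_deriv x)
    (fun x hx => neg_nonpos.2 (mul_nonneg (ht.trans hx).le (gaussianPDFReal_nonneg 0 1 x)))
    cc_gpdf_tendsto
  rw [integral_neg] at h
  linarith

lemma cc_gpdf_tail_int (t : ℝ) (ht : 0 < t) :
    IntegrableOn (fun x => x * gaussianPDFReal 0 1 x) (Set.Ioi t) := by
  have h := integrableOn_Ioi_deriv_of_nonpos' (a := t) (g := gaussianPDFReal 0 1)
    (g' := fun x => -(x * gaussianPDFReal 0 1 x)) (l := 0) (fun x _ => cc_gpdf_deriv x)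
    (fun x hx => neg_nonpos.2 (mul_nonneg (ht.trans hx).le (gaussianPDFReal_nonneg 0 1 x)))
    cc_gpdf_tendsto
  simpa using h.neg

lemma cc_half_stein {g : ℝ → ℝ} (hg : CcE g) (h0 : ∀ x, 0 ≤ g x) :
    ∫ x in Set.Ioi 0, gaussianPDFReal 0 1 x * (x * ∫ u in (0 : ℝ)..x, g u) =
      ∫ x in Set.Ioi 0, gaussianPDFReal 0 1 x * g x := by
  have hφm : Measurable (gaussianPDFReal 0 1) := measurable_gaussianPDFReal 0 1
  have hφ0 := gaussianPDFReal_nonneg 0 1
  have hPm : Measurable fun x => ∫ u in (0 : ℝ)..x, g u := hg.prim.meas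
  have hP0 : ∀ x : ℝ, 0 ≤ x → 0 ≤ ∫ u in (0 : ℝ)..x, g u := fun x hx =>
    intervalIntegral.integral_nonneg hx fun u _ => h0 u
  rw [integral_eq_lintegral_of_nonneg_ae, integral_eq_lintegral_of_nonneg_ae]
  rotate_left
  · exact Filter.Eventually.of_forall fun x => mul_nonneg (hφ0 x) (h0 x)
  · exact (hφm.mul hg.meas).aestronglyMeasurable
  · filter_upwards [ae_restrict_mem measurableSet_Ioi] with x hx
    exact mul_nonneg (hφ0 x) (mul_nonneg (le_of_lt hx) (hP0 x (le_of_lt hx)))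
  · exact (hφm.mul (measurable_id.mul hPm)).aestronglyMeasurable
  congr 1
  set μ : Measure ℝ := (volume.restrict (Set.Ioi (0 : ℝ))).withDensity
    (fun x => ENNReal.ofReal (x * gaussianPDFReal 0 1 x)) with hμ
  have hden : Measurable fun x : ℝ => ENNReal.ofReal (x * gaussianPDFReal 0 1 x) :=
    (measurable_id.mul hφm).ennreal_ofReal
  have hid : 0 ≤ᵐ[μ] (fun x : ℝ => x) := by
    rw [hμ]
    refine (withDensity_absolutelyContinuous _ _).ae_le ?_
    filter_upwards [ae_restrict_mem measurableSet_Ioi] with x hx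
    exact le_of_lt hx
  have key := lintegral_comp_eq_lintegral_meas_le_mul μ hid measurable_id.aemeasurable
    (g := g) (fun t _ => hg.ii 0 t) (Filter.Eventually.of_forall h0)
  have e1 : ∫⁻ x in Set.Ioi 0, ENNReal.ofReal (gaussianPDFReal 0 1 x * (x * ∫ u in (0 : ℝ)..x, g u)) =
      ∫⁻ x, ENNReal.ofReal (∫ t in (0 : ℝ)..x, g t) ∂μ := by
    rw [hμ, lintegral_withDensity_eq_lintegral_mul _ hden hPm.ennreal_ofReal]
    refine setLIntegral_congr_fun measurableSet_Ioi fun x hx => ?_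
    rw [Pi.mul_apply, ← ENNReal.ofReal_mul (mul_nonneg (le_of_lt hx) (hφ0 x))]
    congr 1
    ring
  rw [e1]
  refine key.trans ?_
  refine setLIntegral_congr_fun measurableSet_Ioi fun t ht => ?_
  have ht' : (0 : ℝ) < t := ht
  have e2 : μ {a : ℝ | t ≤ a} = ENNReal.ofReal (gaussianPDFReal 0 1 t) := by
    have hset : {a : ℝ | t ≤ a} = Set.Ici t := rfl
    rw [hset, hμ, withDensity_apply _ measurableSet_Ici, Measure.restrict_restrict measurableSet_Ici]
    have hs : Set.Ici t ∩ Set.Ioi 0 = Set.Ici t := by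
      refine Set.inter_eq_left.2 fun x hx => ?_
      exact lt_of_lt_of_le ht' hx
    rw [hs, ← cc_gpdf_tail t ht', ofReal_integral_eq_lintegral_ofReal (cc_gpdf_tail_int t ht')]
    · exact (setLIntegral_congr Ioi_ae_eq_Ici).symm
    · filter_upwards [ae_restrict_mem measurableSet_Ioi] with x hx
      exact mul_nonneg (ht'.trans hx).le (hφ0 x)
  show μ {a : ℝ | t ≤ a} * ENNReal.ofReal (g t) = _
  rw [e2, ← ENNReal.ofReal_mul (hφ0 t)]

lemma CcE.neg_arg {g : ℝ → ℝ} (hg : CcE g) : CcE fun x => g (-x) := by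
  obtain ⟨C, a, hC, ha, hb⟩ := hg.bdd
  refine CcE.of_bdd (hg.meas.comp measurable_neg) hC ha fun x => ?_
  have := hb (-x)
  rwa [abs_neg] at this

/-- Integration by parts for a primitive. -/
lemma cc_stein_prim {g : ℝ → ℝ} (hg : CcE g) (h0 : ∀ x, 0 ≤ g x) :
    ∫ x, x * (∫ u in (0 : ℝ)..x, g u) ∂(gaussianReal 0 1) = ∫ x, g x ∂(gaussianReal 0 1) := by
  rw [integral_gaussianReal_eq_integral_smul one_ne_zero,
    integral_gaussianReal_eq_integral_smul one_ne_zero]
  simp only [smul_eq_mul]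
  have i1 : Integrable (fun x => gaussianPDFReal 0 1 x * (x * ∫ u in (0 : ℝ)..x, g u)) :=
    (integrable_gaussianReal_iff _).1 (CcE.id.mul hg.prim).integrable
  have i2 : Integrable (fun x => gaussianPDFReal 0 1 x * g x) :=
    (integrable_gaussianReal_iff _).1 hg.integrable
  have split : ∀ F : ℝ → ℝ, Integrable F → ∫ x, F x =
      (∫ x in Set.Ioi 0, F x) + ∫ x in Set.Ioi 0, F (-x) := by
    intro F hF
    rw [integral_comp_neg_Ioi (0 : ℝ) F, neg_zero]
    have := integral_add_compl (measurableSet_Ioi (a := (0 : ℝ))) hF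
    rw [Set.compl_Ioi] at this
    exact this.symm
  rw [split _ i1, split _ i2, cc_half_stein hg h0]
  congr 1
  have := cc_half_stein hg.neg_arg (fun x => h0 (-x))
  simp only [cc_gpdf_even]
  rw [← this]
  refine setIntegral_congr_fun measurableSet_Ioi fun x _ => ?_
  have e : ∫ u in (0 : ℝ)..x, g (-u) = - ∫ u in (0 : ℝ)..(-x), g u := by
    rw [intervalIntegral.integral_comp_neg, neg_zero, intervalIntegral.integral_symm]
  simp only [e]
  ring

/-- Cauchy-Schwarz for increments. -/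
lemma cc_incr_sq {f f' : ℝ → ℝ} (hd : ∀ x, HasDerivAt f (f' x) x) (hf' : CcE f') (x y : ℝ) :
    (f x - f y) ^ 2 ≤ (x - y) * ((∫ u in (0 : ℝ)..x, f' u ^ 2) - ∫ u in (0 : ℝ)..y, f' u ^ 2) := by
  have main : ∀ x y : ℝ, y < x →
      (f x - f y) ^ 2 ≤ (x - y) * ((∫ u in (0 : ℝ)..x, f' u ^ 2) - ∫ u in (0 : ℝ)..y, f' u ^ 2) := by
    intro x y hxy
    have hpos : 0 < x - y := sub_pos.2 hxy
    rw [intervalIntegral.integral_interval_sub_left (hf'.sq.ii 0 x) (hf'.sq.ii 0 y)]
    have h1 : ∫ u in y..x, f' u = f x - f y :=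
      intervalIntegral.integral_eq_sub_of_hasDerivAt (fun u _ => hd u) (hf'.ii y x)
    obtain ⟨c, hc⟩ : ∃ c, c = (f x - f y) / (x - y) := ⟨_, rfl⟩
    have h2 : 0 ≤ ∫ u in y..x, (f' u - c) ^ 2 :=
      intervalIntegral.integral_nonneg hxy.le fun u _ => sq_nonneg _
    have h3 : ∫ u in y..x, (f' u - c) ^ 2 = (∫ u in y..x, f' u ^ 2) - 2 * c * (f x - f y) +
        c ^ 2 * (x - y) := by
      have e : (fun u => (f' u - c) ^ 2) = fun u => (f' u ^ 2 - 2 * c * f' u) + c ^ 2 := by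
        funext u
        ring
      rw [e, intervalIntegral.integral_add ((hf'.sq.ii y x).sub ((hf'.ii y x).const_mul (2 * c)))
        intervalIntegrable_const, intervalIntegral.integral_sub (hf'.sq.ii y x)
        ((hf'.ii y x).const_mul (2 * c)), intervalIntegral.integral_const_mul, h1,
        intervalIntegral.integral_const, smul_eq_mul]
      ring
    rw [h3] at h2
    have h4 : c * (x - y) = f x - f y := by
      rw [hc]
      field_simp
    have h5 : 0 ≤ (x - y) * ((∫ u in y..x, f' u ^ 2) - 2 * c * (f x - f y) + c ^ 2 * (x - y)) :=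
      mul_nonneg hpos.le h2
    have h6 : (x - y) * ((∫ u in y..x, f' u ^ 2) - 2 * c * (f x - f y) + c ^ 2 * (x - y)) =
        (x - y) * (∫ u in y..x, f' u ^ 2) - 2 * (c * (x - y)) * (f x - f y) + (c * (x - y)) ^ 2 := by
      ring
    rw [h6, h4] at h5
    linarith only [h5]
  rcases lt_trichotomy x y with h | h | h
  · have := main y x h
    linarith only [this]
  · subst h
    simp
  · exact main x y h

/-- Poincare inequality in dimension one. -/
lemma cc_var_one {f f' : ℝ → ℝ} (hd : ∀ x, HasDerivAt f (f' x) x) (hf : CcE f) (hf' : CcE f') :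
    ∫ x, (f x - ∫ y, f y ∂(gaussianReal 0 1)) ^ 2 ∂(gaussianReal 0 1) ≤
      ∫ x, f' x ^ 2 ∂(gaussianReal 0 1) := by
  set γ := gaussianReal 0 1 with hγ
  set P : ℝ → ℝ := fun x => ∫ u in (0 : ℝ)..x, f' u ^ 2 with hP
  have hPe : CcE P := hf'.sq.prim
  have hst : ∫ x, x * P x ∂γ = ∫ x, f' x ^ 2 ∂γ := cc_stein_prim hf'.sq fun x => sq_nonneg _
  have hmean : ∫ x : ℝ, x ∂γ = 0 := integral_id_gaussianReal
  set A := ∫ x, f x ∂γ with hA
  have hvar : ∫ x, (f x - A) ^ 2 ∂γ = (∫ x, f x ^ 2 ∂γ) - A ^ 2 := by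
    have e : (fun x => (f x - A) ^ 2) = fun x => (f x ^ 2 - 2 * A * f x) + A ^ 2 := by
      funext x
      ring
    rw [e, CcE.int_add (hf.sq.sub (hf.cm (2 * A))) (CcE.const _), CcE.int_sub hf.sq (hf.cm (2 * A)),
      integral_const_mul, ← hA, integral_const, probReal_univ, one_smul]
    ring
  have hy : ∀ y, (∫ x, f x ^ 2 ∂γ) - 2 * A * f y + f y ^ 2 ≤
      (∫ x, x * P x ∂γ) - y * (∫ x, P x ∂γ) + y * P y := by
    intro y
    have h1 : ∫ x, (f x - f y) ^ 2 ∂γ ≤ ∫ x, (x - y) * (P x - P y) ∂γ := by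
      refine integral_mono ?_ ?_ fun x => cc_incr_sq hd hf' x y
      · exact (hf.sub (CcE.const (f y))).sq.integrable
      · exact ((CcE.id.sub (CcE.const y)).mul (hPe.sub (CcE.const (P y)))).integrable
    have h2 : ∫ x, (f x - f y) ^ 2 ∂γ = (∫ x, f x ^ 2 ∂γ) - 2 * A * f y + f y ^ 2 := by
      have e : (fun x => (f x - f y) ^ 2) = fun x => (f x ^ 2 - 2 * f y * f x) + f y ^ 2 := by
        funext x
        ring
      rw [e, CcE.int_add (hf.sq.sub (hf.cm (2 * f y))) (CcE.const _),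
        CcE.int_sub hf.sq (hf.cm (2 * f y)), integral_const_mul, ← hA, integral_const,
        probReal_univ, one_smul]
      ring
    have h3 : ∫ x, (x - y) * (P x - P y) ∂γ =
        (∫ x, x * P x ∂γ) - y * (∫ x, P x ∂γ) + y * P y := by
      have e : (fun x => (x - y) * (P x - P y)) =
          fun x => ((x * P x - y * P x) - P y * x) + y * P y := by
        funext x
        ring
      have i1 : CcE (fun x => x * P x) := CcE.id.mul hPe
      have i2 : CcE (fun x => y * P x) := hPe.cm y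
      have i3 : CcE (fun x => P y * x) := CcE.id.cm (P y)
      rw [e, CcE.int_add ((i1.sub i2).sub i3) (CcE.const _),
        CcE.int_sub (i1.sub i2) i3, CcE.int_sub i1 i2, integral_const_mul, integral_const_mul,
        hmean, integral_const, probReal_univ, one_smul]
      ring
    rw [h2, h3] at h1
    exact h1
  have hint : ∫ y, ((∫ x, f x ^ 2 ∂γ) - 2 * A * f y + f y ^ 2) ∂γ ≤
      ∫ y, ((∫ x, x * P x ∂γ) - y * (∫ x, P x ∂γ) + y * P y) ∂γ := by
    refine integral_mono ?_ ?_ hy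
    · exact ((integrable_const _).sub (hf.integrable.const_mul _)).add hf.sq.integrable
    · exact ((integrable_const _).sub (CcE.id.integrable.mul_const _)).add
        (CcE.id.mul hPe).integrable
  rw [CcE.int_add ((CcE.const _).sub (hf.cm (2 * A))) hf.sq,
    CcE.int_sub (CcE.const _) (hf.cm (2 * A)), integral_const_mul, ← hA,
    integral_const, probReal_univ, one_smul,
    CcE.int_add ((CcE.const _).sub (CcE.id.mul (CcE.const (∫ x, P x ∂γ)))) (CcE.id.mul hPe),
    CcE.int_sub (CcE.const _) (CcE.id.mul (CcE.const (∫ x, P x ∂γ))), integral_mul_const, hmean,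
    integral_const, probReal_univ, one_smul] at hint
  rw [hvar, ← hst]
  linarith

end one

section multi

variable {ι : Type} [Fintype ι] [DecidableEq ι]

/-- Resampling of one coordinate. -/
lemma cc_integral_update (e : ι) {F : (ι → ℝ) → ℝ} (hF : EG F) :
    ∫ z, F z ∂(gI ι) = ∫ z, ∫ x, F (Function.update z e x) ∂(gaussianReal 0 1) ∂(gI ι) := by
  have hupd : ((gI ι).prod (gaussianReal 0 1)).map
      (fun q : (ι → ℝ) × ℝ => Function.update q.1 e q.2) = gI ι := Vale.Agent.P367.GT.map_update e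
  have hF' : Integrable F (((gI ι).prod (gaussianReal 0 1)).map
      (fun q : (ι → ℝ) × ℝ => Function.update q.1 e q.2)) := by
    rw [hupd]; exact hF.integrable
  conv_lhs => rw [← hupd]
  rw [integral_map (Vale.Agent.P367.GT.measurable_upd e).aemeasurable hF'.aestronglyMeasurable]
  rw [integral_prod]
  exact (integrable_map_measure hF'.aestronglyMeasurable
    (Vale.Agent.P367.GT.measurable_upd e).aemeasurable).mp hF'

lemma cc_integrable_update (e : ι) {F : (ι → ℝ) → ℝ} (hF : EG F) :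
    Integrable (fun z => ∫ x, F (Function.update z e x) ∂(gaussianReal 0 1)) (gI ι) := by
  have hupd : ((gI ι).prod (gaussianReal 0 1)).map
      (fun q : (ι → ℝ) × ℝ => Function.update q.1 e q.2) = gI ι := Vale.Agent.P367.GT.map_update e
  have hF' : Integrable F (((gI ι).prod (gaussianReal 0 1)).map
      (fun q : (ι → ℝ) × ℝ => Function.update q.1 e q.2)) := by
    rw [hupd]; exact hF.integrable
  exact ((integrable_map_measure hF'.aestronglyMeasurable
    (Vale.Agent.P367.GT.measurable_upd e).aemeasurable).mp hF').integral_prod_left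

lemma EG.cc_update {F : (ι → ℝ) → ℝ} (hF : EG F) (z : ι → ℝ) (e : ι) :
    CcE fun x => F (Function.update z e x) := by
  obtain ⟨C, a, hC, ha, hb⟩ := hF.bdd
  refine CcE.of_bdd (hF.meas.comp (measurable_update z)) (C := C * Real.exp (a * ‖z‖))
    (mul_nonneg hC (Real.exp_pos _).le) ha fun x => (hb _).trans ?_
  rw [mul_assoc, ← Real.exp_add, ← mul_add]
  have := norm_update_le z e x
  gcongr

/-- One step of the tensorization. -/
lemma cc_var_step {lev : ι → ℕ} {l : ℕ} {e : ι} (he : lev e = l + 1)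
    (huniq : ∀ e', lev e' = l + 1 → e' = e) {G G' : (ι → ℝ) → ℝ} (hG : EG G) (hG' : EG G')
    (hd : PD e G G') (hdep : Dep lev (l + 1) G) :
    ∫ z, (G z - J lev l G z) ^ 2 ∂(gI ι) ≤ ∫ z, G' z ^ 2 ∂(gI ι) := by
  have hJ : ∀ z, J lev l G z = ∫ x, G (Function.update z e x) ∂(gaussianReal 0 1) := by
    intro z
    have h1 : ∀ w, G (mix lev l z w) = G (Function.update z e (w e)) := by
      intro w
      rw [← hdep (mix lev l z w) 0, ← hdep (Function.update z e (w e)) 0]
      congr 1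
      funext j
      unfold mix
      by_cases hj : lev j ≤ l + 1
      · rw [if_pos hj, if_pos hj]
        by_cases hje : j = e
        · subst hje
          rw [if_neg (by omega), Function.update_self]
        · have : lev j ≤ l := by
            by_contra h
            exact hje (huniq j (by omega))
          rw [if_pos this, Function.update_of_ne hje]
      · rw [if_neg hj, if_neg hj]
    unfold J
    simp only [h1]
    have hmp := measurePreserving_eval (fun _ : ι => gaussianReal 0 1) e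
    have h3 := integral_map (μ := gI ι) (φ := Function.eval e) (measurable_pi_apply e).aemeasurable
      (f := fun x => G (Function.update z e x)) (hG.cc_update z e).meas.aestronglyMeasurable
    rw [hmp.map_eq] at h3
    exact h3.symm
  have h1 : EG fun z => (G z - J lev l G z) ^ 2 := (hG.sub (hG.J lev l)).pow 2
  rw [cc_integral_update e h1, cc_integral_update e (hG'.pow 2)]
  refine integral_mono (cc_integrable_update e h1) (cc_integrable_update e (hG'.pow 2)) fun z => ?_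
  have h2 := cc_var_one (f := fun x => G (Function.update z e x))
    (f' := fun x => G' (Function.update z e x)) (fun x => hd z x) (hG.cc_update z e) (hG'.cc_update z e)
  refine le_trans (le_of_eq ?_) h2
  refine integral_congr_ae (Filter.Eventually.of_forall fun x => ?_)
  simp only [hJ, Function.update_idem]

lemma cc_sq_J_le {lev : ι → ℕ} {l : ℕ} {h : (ι → ℝ) → ℝ} (hh : EG h) (z : ι → ℝ) :
    J lev l h z ^ 2 ≤ J lev l (fun z => h z ^ 2) z := by
  obtain ⟨c, hc⟩ : ∃ c, c = J lev l h z := ⟨_, rfl⟩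
  have h0 : 0 ≤ J lev l (fun z => (h z - c) ^ 2) z := integral_nonneg fun w => sq_nonneg _
  have h1 : J lev l (fun z => (h z - c) ^ 2) z =
      J lev l (fun z => h z ^ 2) z - 2 * c * J lev l h z + c ^ 2 := by
    have e : (fun z => (h z - c) ^ 2) = fun z => (h z ^ 2 - 2 * c * h z) + c ^ 2 := by
      funext z
      ring
    rw [e, J_add ((hh.pow 2).sub (hh.const_mul _)) (EG.const _), J_sub (hh.pow 2) (hh.const_mul _),
      J_const_mul, J_const]
  rw [h1, ← hc] at h0
  rw [← hc]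
  linarith only [h0]

/-- Orthogonality of the increments. -/
lemma cc_var_pyth {lev : ι → ℕ} {l : ℕ} {G : (ι → ℝ) → ℝ} (hG : EG G) (c : ℝ) :
    ∫ z, (G z - c) ^ 2 ∂(gI ι) =
      ∫ z, (G z - J lev l G z) ^ 2 ∂(gI ι) + ∫ z, (J lev l G z - c) ^ 2 ∂(gI ι) := by
  have hJ := hG.J lev l
  have h0 : ∫ z, (J lev l G z - c) * (G z - J lev l G z) ∂(gI ι) = 0 := by
    rw [← integral_J (lev := lev) (l := l) ((hJ.sub (EG.const c)).mul (hG.sub hJ))]
    have : ∀ z, J lev l (fun z => (J lev l G z - c) * (G z - J lev l G z)) z = 0 := by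
      intro z
      have hdep : Dep lev l fun z => J lev l G z - c := by
        intro z w
        have := dep_J lev l G z w
        simp only [this]
      rw [hdep.J_mul, J_sub hG hJ, (dep_J lev l G).J_eq, sub_self, mul_zero]
    simp only [this, integral_zero]
  have e : ∀ z, (G z - c) ^ 2 = ((G z - J lev l G z) ^ 2 + (J lev l G z - c) ^ 2) +
      2 * ((J lev l G z - c) * (G z - J lev l G z)) := fun z => by ring
  simp only [e]
  rw [integral_add, integral_const_mul, h0, integral_add, mul_zero, add_zero]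
  · exact ((hG.sub hJ).pow 2).integrable
  · exact ((hJ.sub (EG.const c)).pow 2).integrable
  · exact (((hG.sub hJ).pow 2).add ((hJ.sub (EG.const c)).pow 2)).integrable
  · exact (((hJ.sub (EG.const c)).mul (hG.sub hJ)).const_mul 2).integrable

/-- Gaussian Poincare inequality with the constant `1`. -/
theorem cc_var_le_one {F : (ι → ℝ) → ℝ} {F' : ι → (ι → ℝ) → ℝ} (hF : EG F)
    (hd : ∀ e, PD e F (F' e)) (hF' : ∀ e, EG (F' e)) :
    ∫ z, (F z - ∫ w, F w ∂(gI ι)) ^ 2 ∂(gI ι) ≤ ∑ e, ∫ z, F' e z ^ 2 ∂(gI ι) := by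
  obtain ⟨n, ⟨eq⟩⟩ : ∃ n, Nonempty (ι ≃ Fin n) := ⟨_, ⟨Fintype.equivFin ι⟩⟩
  obtain ⟨lev, hlev⟩ : ∃ lev : ι → ℕ, ∀ e, lev e = (eq e : ℕ) + 1 := ⟨_, fun _ => rfl⟩
  have hK : ∀ e, lev e ≤ n := fun e => by rw [hlev]; exact (eq e).2
  have hinj : ∀ e e', lev e = lev e' → e = e' := by
    intro e e' h
    rw [hlev, hlev] at h
    exact eq.injective (Fin.ext (by omega))
  have hJ0 : ∀ z, J lev 0 F z = ∫ w, F w ∂(gI ι) := by
    intro z
    unfold J
    congr 1
    funext w
    congr 1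
    funext e
    unfold mix
    rw [if_neg (by rw [hlev]; omega)]
  have hJn : ∀ z, J lev n F z = F z := by
    intro z
    unfold J
    simp only [mix_top hK]
    simp
  have key : ∀ l ≤ n, ∫ z, (J lev l F z - ∫ w, F w ∂(gI ι)) ^ 2 ∂(gI ι) ≤
      ∑ e, (if lev e ≤ l then ∫ z, F' e z ^ 2 ∂(gI ι) else 0) := by
    intro l
    induction l with
    | zero =>
      intro _
      simp only [hJ0, sub_self]
      rw [integral_eq_zero_of_ae (Filter.Eventually.of_forall fun z => by simp)]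
      exact Finset.sum_nonneg fun e _ => by split_ifs <;> [exact integral_nonneg fun z => sq_nonneg _; exact le_rfl]
    | succ l ih =>
      intro hl
      have ih' := ih (by omega)
      have hG := hF.J lev (l + 1)
      obtain ⟨e, he⟩ : ∃ e, lev e = l + 1 := by
        refine ⟨eq.symm ⟨l, by omega⟩, ?_⟩
        rw [hlev]
        simp
      have h1 := cc_var_pyth (lev := lev) (l := l) hG (∫ w, F w ∂(gI ι))
      have h2 : ∀ z, J lev l (J lev (l + 1) F) z = J lev l F z :=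
        fun z => J_J (Nat.le_succ l) hF z
      have h3 := cc_var_step (l := l) he (fun e' h' => hinj e' e (h'.trans he.symm)) hG
        ((hF' e).J lev (l + 1)) (PD.J (hd e) hF (hF' e) he.le) (dep_J lev (l + 1) F)
      have h4 : ∫ z, J lev (l + 1) (F' e) z ^ 2 ∂(gI ι) ≤ ∫ z, F' e z ^ 2 ∂(gI ι) := by
        rw [← integral_J (lev := lev) (l := l + 1) ((hF' e).pow 2)]
        exact integral_mono (((hF' e).J lev (l + 1)).pow 2).integrable
          (((hF' e).pow 2).J lev (l + 1)).integrable fun z => cc_sq_J_le (hF' e) z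
      have h5 : ∑ e', (if lev e' ≤ l + 1 then ∫ z, F' e' z ^ 2 ∂(gI ι) else 0) =
          (∫ z, F' e z ^ 2 ∂(gI ι)) +
          ∑ e', (if lev e' ≤ l then ∫ z, F' e' z ^ 2 ∂(gI ι) else 0) := by
        have h6 : ∀ e', (if lev e' ≤ l + 1 then ∫ z, F' e' z ^ 2 ∂(gI ι) else 0) =
            (if e' = e then ∫ z, F' e' z ^ 2 ∂(gI ι) else 0) +
            (if lev e' ≤ l then ∫ z, F' e' z ^ 2 ∂(gI ι) else 0) := by
          intro e'
          by_cases h : e' = e
          · subst h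
            rw [if_pos (by omega), if_pos rfl, if_neg (by omega), add_zero]
          · rw [if_neg h, zero_add]
            by_cases h' : lev e' ≤ l
            · rw [if_pos h', if_pos (by omega)]
            · rw [if_neg h', if_neg]
              intro h''
              exact h (hinj e' e (by omega))
        simp only [h6, Finset.sum_add_distrib]
        rw [Finset.sum_ite_eq' Finset.univ e]
        simp
      rw [h5, h1]
      simp only [h2] at h3 ⊢
      linarith only [ih', h4, h3]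
  have := key n le_rfl
  simp only [hJn, hK, if_true] at this
  exact this

end multi


variable {ι X : Type} [Fintype ι] [DecidableEq ι] [Fintype X] [Nonempty X]

/-- Gaussian Poincare inequality with the constant `2` (tensorization of the variance, and in
dimension one `f(z) - f(z') = ∫_0^{π/2} f'(z sin θ + z' cos θ) (z cos θ - z' sin θ) dθ`, which
gives the constant `π² / 8`). -/
theorem var_le {F : (ι → ℝ) → ℝ} {F' : ι → (ι → ℝ) → ℝ} (hF : EG F)
    (hd : ∀ e, PD e F (F' e)) (hF' : ∀ e, EG (F' e)) {V : ℝ} (hV : ∀ z, ∑ e, F' e z ^ 2 ≤ V) :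
    ∫ z, (F z - ∫ w, F w ∂(gI ι)) ^ 2 ∂(gI ι) ≤ 2 * V := by
  refine (cc_var_le_one hF hd hF').trans ?_
  have h0 : ∑ e, ∫ z, F' e z ^ 2 ∂(gI ι) = ∫ z, ∑ e, F' e z ^ 2 ∂(gI ι) :=
    (integral_finsetSum _ fun e _ => ((hF' e).pow 2).integrable).symm
  have h1 : ∫ z, ∑ e, F' e z ^ 2 ∂(gI ι) ≤ ∫ _, V ∂(gI ι) :=
    integral_mono (EG.sum Finset.univ fun e _ => (hF' e).pow 2).integrable
      (integrable_const _) hV
  have h2 : 0 ≤ V := (Finset.sum_nonneg fun e _ => sq_nonneg _).trans (hV 0)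
  rw [integral_const, probReal_univ, one_smul] at h1
  rw [h0]
  linarith

namespace Sy

variable {S : Sy ι X} {D : ι → (ι → ℝ) → X → ℝ}

/-- Variance of the log-weight at the level zero. -/
theorem RegD.var_lg_zero (hS : S.RegD D) {V : ℝ}
    (hV : ∀ z x, ∑ e, (if S.lev e = 0 then D e z x ^ 2 else 0) ≤ V) :
    ∫ z, (S.lg 0 z - S.fe) ^ 2 ∂(gI ι) ≤ 2 * V := by
  have hR := hS.toReg
  refine var_le (F' := fun e => if S.lev e = 0 then S.T 0 (D e) else fun _ => 0)
    (hR.lip_lg (Nat.zero_le _)).eg ?_ ?_ ?_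
  · intro e
    by_cases he : S.lev e = 0
    · simp only [he, if_true]
      exact hS.pd_lg (Nat.zero_le _) he.le
    · simp only [he, if_false]
      exact (hR.dep_lg (Nat.zero_le _)).pd (Nat.pos_of_ne_zero he)
  · intro e
    by_cases he : S.lev e = 0
    · simp only [he, if_true]
      exact hR.eg_T (Nat.zero_le _) (hS.nh e)
    · simp only [he, if_false]
      exact EG.const 0
  · intro z
    have h1 : ∀ e, (if S.lev e = 0 then S.T 0 (D e) else fun _ => 0) z ^ 2 ≤
        S.T 0 (fun z x => if S.lev e = 0 then D e z x ^ 2 else 0) z := by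
      intro e
      by_cases he : S.lev e = 0
      · simp only [he, if_true]
        exact hR.sq_T_le (Nat.zero_le _) (hS.nh e) z
      · simp only [he, if_false]
        rw [hR.T_const (Nat.zero_le _)]
        norm_num
    have hn : ∀ e, Nh (fun z x => if S.lev e = 0 then D e z x ^ 2 else 0) := by
      intro e
      by_cases he : S.lev e = 0
      · simp only [he, if_true]
        exact Nh.pow (hS.nh e) 2
      · simp only [he, if_false]
        exact fun _ => EG.const 0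
    calc _ ≤ ∑ e, S.T 0 (fun z x => if S.lev e = 0 then D e z x ^ 2 else 0) z :=
          Finset.sum_le_sum fun e _ => h1 e
      _ = S.T 0 (fun z x => ∑ e, (if S.lev e = 0 then D e z x ^ 2 else 0)) z :=
          (hR.T_sum (Nat.zero_le _) Finset.univ (fun e _ => hn e) z).symm
      _ ≤ S.T 0 (fun _ _ => V) z := hR.T_mono (Nat.zero_le _) (Nh.sum Finset.univ fun e _ => hn e)
          (fun _ => EG.const _) (fun z x => hV z x) z
      _ = V := hR.T_const (Nat.zero_le _) V z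

/-- The system with the energy `H + t h`. -/
def pt (S : Sy ι X) (h : (ι → ℝ) → X → ℝ) (t : ℝ) : Sy ι X := S.wH fun z x => S.H z x + t * h z x

lemma cc_lip (hS : S.Reg) {h : (ι → ℝ) → X → ℝ} (hreg : ∀ t, (S.pt h t).Reg) (x : X) :
    Lip fun z => h z x := by
  have h1 := ((hreg 1).lip x).add ((hS.lip x).const_mul (-1))
  have : (fun z => (S.pt h 1).H z x + -1 * S.H z x) = fun z => h z x := by
    funext z
    show (S.H z x + 1 * h z x) + -1 * S.H z x = h z x
    ring
  rwa [this] at h1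

/-- For a centered observable `y`, `T e^y T e^{-y} ≥ 1 + T y²`. -/
lemma cc_exp (hS : S.Reg) {y : (ι → ℝ) → X → ℝ} (hy : Nh y)
    (hp : Nh fun z x => Real.exp (y z x)) (hm : Nh fun z x => Real.exp (-y z x)) (z : ι → ℝ)
    (h0 : S.T 0 y z = 0) :
    1 + S.T 0 (fun z x => y z x ^ 2) z ≤
      S.T 0 (fun z x => Real.exp (y z x)) z * S.T 0 (fun z x => Real.exp (-y z x)) z := by
  obtain ⟨P, hP⟩ : ∃ P, P = S.T 0 (fun z x => Real.exp (y z x)) z := ⟨_, rfl⟩
  obtain ⟨M, hM⟩ : ∃ M, M = S.T 0 (fun z x => Real.exp (-y z x)) z := ⟨_, rfl⟩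
  obtain ⟨A, hA⟩ : ∃ A, A = S.T 0 (fun z x => y z x ^ 2) z := ⟨_, rfl⟩
  have hz : (0 : ℕ) ≤ S.K := Nat.zero_le _
  have e1 : ∀ u : ℝ, 2 + u ^ 2 ≤ Real.exp u + Real.exp (-u) := by
    intro u
    have h1 := Real.cosh_eq u
    have h2 : (u / 2) ^ 2 ≤ Real.sinh (u / 2) ^ 2 := by
      rcases le_total 0 (u / 2) with h | h
      · have := Real.self_le_sinh_iff.2 h
        nlinarith only [h, this]
      · have := Real.sinh_le_self_iff.2 h
        nlinarith only [h, this]
    have h3 := Real.cosh_two_mul (u / 2)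
    have h4 := Real.cosh_sq (u / 2)
    have h5 : 2 * (u / 2) = u := by ring
    rw [h5] at h3
    linarith only [h4, h3, h2, h1]
  have h1 : ∀ b : ℝ, 2 + A + b ^ 2 ≤ Real.exp (-b) * P + Real.exp b * M := by
    intro b
    have h2 := hS.T_mono hz (f := fun z x => (y z x ^ 2 - 2 * b * y z x) + (2 + b ^ 2))
      (g := fun z x => Real.exp (-b) * Real.exp (y z x) + Real.exp b * Real.exp (-y z x))
      (Nh.add (Nh.sub (Nh.pow hy 2) (Nh.const_mul _ hy)) (fun _ => EG.const _))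
      (Nh.add (Nh.const_mul _ hp) (Nh.const_mul _ hm)) (fun z x => by
        have := e1 (y z x - b)
        rw [← Real.exp_add, ← Real.exp_add]
        have e2 : -b + y z x = y z x - b := by ring
        have e3 : b + -y z x = -(y z x - b) := by ring
        rw [e2, e3]
        linarith only [this]) z
    rw [hS.T_add hz (Nh.sub (Nh.pow hy 2) (Nh.const_mul _ hy)) (fun _ => EG.const _),
      hS.T_sub hz (Nh.pow hy 2) (Nh.const_mul _ hy), T_const_mul, h0, hS.T_const hz,
      hS.T_add hz (Nh.const_mul _ hp) (Nh.const_mul _ hm), T_const_mul, T_const_mul, ← hP, ← hM,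
      ← hA] at h2
    linarith
  have h3 := hS.T_mono hz (f := fun z x => y z x ^ 2 + (2 + A))
    (g := fun z x => P * Real.exp (-y z x) + M * Real.exp (y z x))
    (Nh.add (Nh.pow hy 2) (fun _ => EG.const _)) (Nh.add (Nh.const_mul _ hm) (Nh.const_mul _ hp))
    (fun z x => by
      have := h1 (y z x)
      linarith) z
  rw [hS.T_add hz (Nh.pow hy 2) (fun _ => EG.const _), hS.T_const hz,
    hS.T_add hz (Nh.const_mul _ hm) (Nh.const_mul _ hp), T_const_mul, T_const_mul, ← hP, ← hM,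
    ← hA] at h3
  rw [← hP, ← hM, ← hA]
  linarith only [h3]

/-- The thermal part: `E (T₀ (h - T₀ h)²) ≤ Q / m₁` if the second difference of the free energy
in the direction `h` is at most `Q t²`. Proof: `Reg.thermal` for `± t` gives
`(1/m₁) log (1 + m₁² t² V) ≤ lg₊ + lg₋ - 2 lg`, `V = T₀ h² - (T₀ h)²` (use `T e^y T e^{-y} ≥
1 + T y²` if `T y = 0`), and `log (1 + y) ≥ y - y²/2`, `t → 0`. -/
theorem Reg.conc_thermal (hS : S.Reg) {h : (ι → ℝ) → X → ℝ} (hh : Nh h)
    (hreg : ∀ t, (S.pt h t).Reg) {Q t₀ : ℝ} (ht₀ : 0 < t₀)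
    (hQ : ∀ t, 0 < t → t ≤ t₀ → (S.pt h t).fe + (S.pt h (-t)).fe - 2 * S.fe ≤ Q * t ^ 2) :
    S.Ex (fun z x => (h z x - S.T 0 h z) ^ 2) ≤ Q / S.m 1 := by
  have hz : (0 : ℕ) ≤ S.K := Nat.zero_le _
  have hm : 0 < S.m 1 := hS.pos
  have hlip := cc_lip hS hreg
  -- the conditional variance
  obtain ⟨W, hW⟩ : ∃ W : (ι → ℝ) → ℝ, W = fun z => S.T 0 (fun z x => h z x ^ 2) z - S.T 0 h z ^ 2 :=
    ⟨_, rfl⟩
  have hWe : EG W := by
    rw [hW]
    exact (hS.eg_T hz (Nh.pow hh 2)).sub ((hS.eg_T hz hh).pow 2)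
  have hvar : ∀ z (c : ℝ), S.T 0 h z = c → S.T 0 (fun z x => (h z x - c) ^ 2) z = W z := by
    intro z c hc
    have e : (fun (z : ι → ℝ) (x : X) => (h z x - c) ^ 2) =
        fun z x => (h z x ^ 2 - 2 * c * h z x) + c ^ 2 := by
      funext z x
      ring
    rw [e, hS.T_add hz (Nh.sub (Nh.pow hh 2) (Nh.const_mul _ hh)) (fun _ => EG.const _),
      hS.T_sub hz (Nh.pow hh 2) (Nh.const_mul _ hh), T_const_mul, hS.T_const hz, hW]
    dsimp only
    rw [hc]
    ring
  have hW0 : ∀ z, 0 ≤ W z := by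
    intro z
    have := hS.sq_T_le hz hh z
    rw [hW]
    dsimp only
    linarith
  have hEx : S.Ex (fun z x => (h z x - S.T 0 h z) ^ 2) = ∫ z, W z ∂(gI ι) := by
    have hT := hS.eg_T hz hh
    have hn : Nh (fun z x => (h z x - S.T 0 h z) ^ 2) := Nh.pow (Nh.sub hh (Nh.fst hT)) 2
    rw [lc_Ex_T0 hS hn]
    congr 1
    funext z
    have e : (fun (z : ι → ℝ) (x : X) => (h z x - S.T 0 h z) ^ 2) =
        fun z x => (h z x ^ 2 - (2 * S.T 0 h z) * h z x) + S.T 0 h z ^ 2 := by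
      funext z x
      ring
    have hd1 : Dep S.lev 0 fun z => 2 * S.T 0 h z := by
      intro z w
      have := dep_T S 0 h z w
      simp only [this]
    have hd2 : Dep S.lev 0 fun z => S.T 0 h z ^ 2 := by
      intro z w
      have := dep_T S 0 h z w
      simp only [this]
    have n1 : Nh fun z x => 2 * S.T 0 h z * h z x := Nh.mul (Nh.fst (hT.const_mul 2)) hh
    rw [e, hS.T_add hz (Nh.sub (Nh.pow hh 2) n1) (Nh.fst (hT.pow 2)),
      hS.T_sub hz (Nh.pow hh 2) n1, T_mul_left S hd1, hS.T_fst hz hd2, hW]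
    ring
  rw [hEx]
  -- the main inequality
  have main : ∀ t, 0 < t → t ≤ t₀ →
      S.m 1 * (∫ z, W z ∂(gI ι)) - S.m 1 ^ 3 * (∫ z, W z ^ 2 ∂(gI ι)) / 2 * t ^ 2 ≤ Q := by
    intro t ht htt
    have hpt : ∀ z, S.m 1 ^ 2 * t ^ 2 * W z - S.m 1 ^ 4 * t ^ 4 / 2 * W z ^ 2 ≤
        S.m 1 * ((S.pt h t).lg 0 z + (S.pt h (-t)).lg 0 z - 2 * S.lg 0 z) := by
      intro z
      have h1 := Reg.thermal hS (hreg t) z
      have h2 := Reg.thermal hS (hreg (-t)) z
      obtain ⟨c, hc⟩ : ∃ c, S.T 0 h z = c := ⟨_, rfl⟩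
      have e1 : (fun (z : ι → ℝ) (x : X) =>
          Real.exp (S.m 1 * ((S.H z x + t * h z x) - S.H z x))) =
          fun z x => Real.exp (S.m 1 * t * c) * Real.exp (S.m 1 * t * (h z x - c)) := by
        funext z x
        rw [← Real.exp_add]
        congr 1
        ring
      have e2 : (fun (z : ι → ℝ) (x : X) =>
          Real.exp (S.m 1 * ((S.H z x + -t * h z x) - S.H z x))) =
          fun z x => Real.exp (-(S.m 1 * t * c)) * Real.exp (-(S.m 1 * t * (h z x - c))) := by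
        funext z x
        rw [← Real.exp_add]
        congr 1
        ring
      rw [e1, T_const_mul] at h1
      rw [e2, T_const_mul] at h2
      have hy : Nh fun z x => S.m 1 * t * (h z x - c) :=
        Nh.const_mul _ (Nh.sub hh (fun _ => EG.const c))
      have hlc : ∀ x, Lip fun z => h z x - c := fun x => by
        simpa [sub_eq_add_neg] using (hlip x).add (Lip.const (-c))
      have hp : Nh fun z x => Real.exp (S.m 1 * t * (h z x - c)) := fun x =>
        (hlc x).exp_eg (S.m 1 * t)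
      have hmn : Nh fun z x => Real.exp (-(S.m 1 * t * (h z x - c))) := fun x => by
        have := (hlc x).exp_eg (-(S.m 1 * t))
        simpa [neg_mul] using this
      have h0 : S.T 0 (fun z x => S.m 1 * t * (h z x - c)) z = 0 := by
        rw [T_const_mul, hS.T_sub hz hh (fun _ => EG.const c), hS.T_const hz, hc, sub_self,
          mul_zero]
      have h3 := cc_exp hS hy hp hmn z h0
      have h4 : S.T 0 (fun z x => (S.m 1 * t * (h z x - c)) ^ 2) z = S.m 1 ^ 2 * t ^ 2 * W z := by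
        rw [← hvar z c hc, ← T_const_mul]
        congr 1
        funext z x
        ring
      rw [h4] at h3
      obtain ⟨P, hP⟩ : ∃ P, P = S.T 0 (fun z x => Real.exp (S.m 1 * t * (h z x - c))) z := ⟨_, rfl⟩
      obtain ⟨M, hM⟩ : ∃ M, M = S.T 0 (fun z x => Real.exp (-(S.m 1 * t * (h z x - c)))) z :=
        ⟨_, rfl⟩
      rw [← hP] at h1 h3
      rw [← hM] at h2 h3
      have hPpos : 0 < P := by
        rw [hP]
        refine J_pos ((hS.eg_dn hz).mul (hS.eg_av hp)) (fun z => mul_pos (dn_pos S 0 z) ?_) z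
        exact Finset.sum_pos (fun x _ => mul_pos (gb_pos S z x) (Real.exp_pos _))
          Finset.univ_nonempty
      have hMpos : 0 < M := by
        rw [hM]
        refine J_pos ((hS.eg_dn hz).mul (hS.eg_av hmn)) (fun z => mul_pos (dn_pos S 0 z) ?_) z
        exact Finset.sum_pos (fun x _ => mul_pos (gb_pos S z x) (Real.exp_pos _))
          Finset.univ_nonempty
      have h5 : Real.log (1 + S.m 1 ^ 2 * t ^ 2 * W z) ≤ Real.log P + Real.log M := by
        rw [← Real.log_mul hPpos.ne' hMpos.ne']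
        exact Real.log_le_log (by have := hW0 z; positivity) h3
      rw [Real.log_mul (Real.exp_pos _).ne' hPpos.ne', Real.log_exp] at h1
      rw [Real.log_mul (Real.exp_pos _).ne' hMpos.ne', Real.log_exp] at h2
      have h6 : Real.log P + Real.log M ≤
          S.m 1 * ((S.pt h t).lg 0 z + (S.pt h (-t)).lg 0 z - 2 * S.lg 0 z) := by
        have h7 : 1 / S.m 1 * (Real.log P + Real.log M) ≤
            (S.pt h t).lg 0 z + (S.pt h (-t)).lg 0 z - 2 * S.lg 0 z := by
          have e : 1 / S.m 1 * (Real.log P + Real.log M) =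
              1 / S.m 1 * (S.m 1 * t * c + Real.log P) +
              1 / S.m 1 * (-(S.m 1 * t * c) + Real.log M) := by ring
          rw [e]
          have h1' : 1 / S.m 1 * (S.m 1 * t * c + Real.log P) ≤ (S.pt h t).lg 0 z - S.lg 0 z := h1
          have h2' : 1 / S.m 1 * (-(S.m 1 * t * c) + Real.log M) ≤
            (S.pt h (-t)).lg 0 z - S.lg 0 z := h2
          linarith only [h1', h2']
        rw [one_div, inv_mul_le_iff₀ hm] at h7
        exact h7
      refine le_trans ?_ (h5.trans h6)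
      obtain ⟨u, hu⟩ : ∃ u, u = S.m 1 ^ 2 * t ^ 2 * W z := ⟨_, rfl⟩
      have hu0 : 0 ≤ u := by rw [hu]; have := hW0 z; positivity
      rw [← hu]
      have h8 := Real.le_log_one_add_of_nonneg hu0
      refine le_trans ?_ h8
      have e3 : S.m 1 ^ 4 * t ^ 4 / 2 * W z ^ 2 = u ^ 2 / 2 := by rw [hu]; ring
      rw [e3, le_div_iff₀ (by linarith only [hu0])]
      linarith only [hu0, pow_nonneg hu0 3]
    have hl := fun s => ((hreg s).lip_lg (Nat.zero_le _)).eg
    have hl0 := (hS.lip_lg hz).eg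
    have hint : ∫ z, (S.m 1 ^ 2 * t ^ 2 * W z - S.m 1 ^ 4 * t ^ 4 / 2 * W z ^ 2) ∂(gI ι) ≤
        ∫ z, S.m 1 * ((S.pt h t).lg 0 z + (S.pt h (-t)).lg 0 z - 2 * S.lg 0 z) ∂(gI ι) :=
      integral_mono ((hWe.const_mul _).sub ((hWe.pow 2).const_mul _)).integrable
        ((((hl t).add (hl (-t))).sub (hl0.const_mul 2)).const_mul _).integrable hpt
    rw [integral_sub (hWe.const_mul _).integrable ((hWe.pow 2).const_mul _).integrable,
      integral_const_mul, integral_const_mul, integral_const_mul,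
      integral_sub ((hl t).add (hl (-t))).integrable (hl0.const_mul 2).integrable,
      integral_add (hl t).integrable (hl (-t)).integrable, integral_const_mul] at hint
    have hq := hQ t ht htt
    have hint2 : S.m 1 ^ 2 * t ^ 2 * (∫ z, W z ∂(gI ι)) -
        S.m 1 ^ 4 * t ^ 4 / 2 * (∫ z, W z ^ 2 ∂(gI ι)) ≤ S.m 1 * (Q * t ^ 2) :=
      hint.trans (mul_le_mul_of_nonneg_left hq hm.le)
    have hpos : 0 < S.m 1 * t ^ 2 := by positivity
    refine le_of_mul_le_mul_left ?_ hpos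
    calc _ = S.m 1 ^ 2 * t ^ 2 * (∫ z, W z ∂(gI ι)) -
        S.m 1 ^ 4 * t ^ 4 / 2 * (∫ z, W z ^ 2 ∂(gI ι)) := by ring
      _ ≤ S.m 1 * (Q * t ^ 2) := hint2
      _ = _ := by ring
  rw [le_div_iff₀ hm, mul_comm]
  have hlim : Tendsto (fun t : ℝ => S.m 1 * (∫ z, W z ∂(gI ι)) -
      S.m 1 ^ 3 * (∫ z, W z ^ 2 ∂(gI ι)) / 2 * t ^ 2) (𝓝[>] 0)
      (𝓝 (S.m 1 * (∫ z, W z ∂(gI ι)) - S.m 1 ^ 3 * (∫ z, W z ^ 2 ∂(gI ι)) / 2 * 0 ^ 2)) := by
    refine Tendsto.mono_left ?_ nhdsWithin_le_nhds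
    exact Continuous.tendsto (by fun_prop) 0
  rw [zero_pow two_ne_zero, mul_zero, sub_zero] at hlim
  refine le_of_tendsto hlim ?_
  filter_upwards [Ioc_mem_nhdsGT ht₀] with t ht
  exact main t ht.1 ht.2

lemma cc_abs_le {a : (ι → ℝ) → ℝ} (ha : EG a) {V : ℝ} (hV : ∫ z, a z ^ 2 ∂(gI ι) ≤ V) :
    ∫ z, |a z| ∂(gI ι) ≤ √V := by
  obtain ⟨c, hc⟩ : ∃ c, c = ∫ z, |a z| ∂(gI ι) := ⟨_, rfl⟩
  have h0 : 0 ≤ ∫ z, (|a z| - c) ^ 2 ∂(gI ι) := integral_nonneg fun z => sq_nonneg _
  have h1 : ∫ z, (|a z| - c) ^ 2 ∂(gI ι) = (∫ z, a z ^ 2 ∂(gI ι)) - c ^ 2 := by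
    have e : (fun z => (|a z| - c) ^ 2) = fun z => (a z ^ 2 - 2 * c * |a z|) + c ^ 2 := by
      funext z
      rw [← sq_abs (a z)]
      ring
    rw [e, integral_add ((ha.pow 2).sub (ha.abs.const_mul _)).integrable (integrable_const _),
      integral_sub (ha.pow 2).integrable (ha.abs.const_mul _).integrable, integral_const_mul,
      ← hc, integral_const, probReal_univ, one_smul]
    ring
  rw [← hc]
  refine Real.le_sqrt_of_sq_le ?_
  linarith

/-- The disorder part. Proof: with `A_± = lg 0` of `S.pt h (± t)`, `(A_0 - A_-)/t ≤ T₀ h ≤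
(A_+ - A_0)/t` by `Reg.jensen_lg`. -/
theorem Reg.conc_disorder (hS : S.Reg) {h : (ι → ℝ) → X → ℝ} (hh : Nh h)
    (hreg : ∀ t, (S.pt h t).Reg) {Q V t : ℝ} (ht : 0 < t)
    (hQ : (S.pt h t).fe + (S.pt h (-t)).fe - 2 * S.fe ≤ Q * t ^ 2)
    (hV : ∀ t' ∈ ({0, t, -t} : Set ℝ),
      ∫ z, ((S.pt h t').lg 0 z - (S.pt h t').fe) ^ 2 ∂(gI ι) ≤ V) :
    S.Ex (fun z _ => |S.T 0 h z - ((S.pt h t).fe - S.fe) / t|) ≤ Q * t + 4 * √V / t := by
  have hz : (0 : ℕ) ≤ S.K := Nat.zero_le _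
  have hl := fun s => ((hreg s).lip_lg (Nat.zero_le _)).eg
  have hl0 := (hS.lip_lg hz).eg
  have hS0 : S.pt h 0 = S := by
    unfold pt Sy.wH
    simp
  have hV0 := hV 0 (by simp)
  have hVp := hV t (by simp)
  have hVm := hV (-t) (by simp)
  rw [hS0] at hV0
  -- Jensen
  have j1 : ∀ z, t * S.T 0 h z ≤ (S.pt h t).lg 0 z - S.lg 0 z := by
    intro z
    have h1 := Reg.jensen_lg hS (hreg t) hz z
    have e1 : (fun (z : ι → ℝ) (x : X) => (S.H z x + t * h z x) - S.H z x) =
        fun z x => t * h z x := by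
      funext z x
      ring
    rw [e1, T_const_mul] at h1
    exact h1
  have j2 : ∀ z, -t * S.T 0 h z ≤ (S.pt h (-t)).lg 0 z - S.lg 0 z := by
    intro z
    have h1 := Reg.jensen_lg hS (hreg (-t)) hz z
    have e1 : (fun (z : ι → ℝ) (x : X) => (S.H z x + -t * h z x) - S.H z x) =
        fun z x => -t * h z x := by
      funext z x
      ring
    rw [e1, T_const_mul] at h1
    exact h1
  have hconv : 0 ≤ (S.pt h t).fe + (S.pt h (-t)).fe - 2 * S.fe := by
    have h1 : ∫ z, (0 : ℝ) ∂(gI ι) ≤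
        ∫ z, ((S.pt h t).lg 0 z + (S.pt h (-t)).lg 0 z - 2 * S.lg 0 z) ∂(gI ι) := by
      refine integral_mono (integrable_const _)
        (((hl t).add (hl (-t))).sub (hl0.const_mul 2)).integrable fun z => ?_
      have := j1 z
      have := j2 z
      dsimp only
      linarith
    rw [integral_sub ((hl t).add (hl (-t))).integrable (hl0.const_mul 2).integrable,
      integral_add (hl t).integrable (hl (-t)).integrable, integral_const_mul,
      integral_zero] at h1
    exact h1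
  have hQt : 0 ≤ Q * t ^ 2 := hconv.trans hQ
  obtain ⟨a0, ha0⟩ : ∃ a : (ι → ℝ) → ℝ, a = fun z => S.lg 0 z - S.fe := ⟨_, rfl⟩
  obtain ⟨ap, hap⟩ : ∃ a : (ι → ℝ) → ℝ, a = fun z => (S.pt h t).lg 0 z - (S.pt h t).fe :=
    ⟨_, rfl⟩
  obtain ⟨am, ham⟩ : ∃ a : (ι → ℝ) → ℝ, a = fun z => (S.pt h (-t)).lg 0 z - (S.pt h (-t)).fe :=
    ⟨_, rfl⟩
  have e0 : EG a0 := by rw [ha0]; exact hl0.sub (EG.const _)
  have ep : EG ap := by rw [hap]; exact (hl t).sub (EG.const _)
  have em : EG am := by rw [ham]; exact (hl (-t)).sub (EG.const _)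
  have i0 := cc_abs_le (V := V) e0 (by rw [ha0]; exact hV0)
  have ip := cc_abs_le (V := V) ep (by rw [hap]; exact hVp)
  have im := cc_abs_le (V := V) em (by rw [ham]; exact hVm)
  have hTe := hS.eg_T hz hh
  have hd1 : Dep S.lev 0 fun z => |S.T 0 h z - ((S.pt h t).fe - S.fe) / t| := by
    intro z w
    have := dep_T S 0 h z w
    simp only [this]
  have he1 : EG fun z => |S.T 0 h z - ((S.pt h t).fe - S.fe) / t| := (hTe.sub (EG.const _)).abs
  rw [hS.Ex_dep hd1 he1]
  have hpt : ∀ z, |S.T 0 h z - ((S.pt h t).fe - S.fe) / t| ≤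
      Q * t + 1 / t * (|a0 z| + |ap z| + |am z|) := by
    intro z
    have h1 := j1 z
    have h2 := j2 z
    have k0 := abs_le.1 (le_refl |a0 z|)
    have kp := abs_le.1 (le_refl |ap z|)
    have km := abs_le.1 (le_refl |am z|)
    have d0 : a0 z = S.lg 0 z - S.fe := by rw [ha0]
    have dp : ap z = (S.pt h t).lg 0 z - (S.pt h t).fe := by rw [hap]
    have dm : am z = (S.pt h (-t)).lg 0 z - (S.pt h (-t)).fe := by rw [ham]
    have n0 := abs_nonneg (a0 z)
    have np := abs_nonneg (ap z)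
    have nm := abs_nonneg (am z)
    have e1 : S.T 0 h z - ((S.pt h t).fe - S.fe) / t =
        1 / t * (t * S.T 0 h z - ((S.pt h t).fe - S.fe)) := by
      field_simp
    have e2 : Q * t + 1 / t * (|a0 z| + |ap z| + |am z|) =
        1 / t * (Q * t ^ 2 + (|a0 z| + |ap z| + |am z|)) := by
      field_simp
    rw [e1, e2, abs_mul, abs_of_pos (one_div_pos.2 ht)]
    refine mul_le_mul_of_nonneg_left ?_ (one_div_pos.2 ht).le
    rw [abs_le]
    constructor
    · linarith only [hQ, h2, k0, kp, km, d0, dm]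
    · linarith only [hQ, hconv, h1, k0, kp, km, d0, dp]
  have hint : ∫ z, |S.T 0 h z - ((S.pt h t).fe - S.fe) / t| ∂(gI ι) ≤
      ∫ z, (Q * t + 1 / t * (|a0 z| + |ap z| + |am z|)) ∂(gI ι) :=
    integral_mono he1.integrable
      ((EG.const _).add (((e0.abs.add ep.abs).add em.abs).const_mul _)).integrable hpt
  refine hint.trans ?_
  rw [integral_add (integrable_const _) (((e0.abs.add ep.abs).add em.abs).const_mul _).integrable,
    integral_const, probReal_univ, one_smul, integral_const_mul,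
    integral_add (e0.abs.add ep.abs).integrable em.abs.integrable,
    integral_add e0.abs.integrable ep.abs.integrable]
  have hs : 0 ≤ √V := Real.sqrt_nonneg V
  have : 1 / t * (∫ z, |a0 z| ∂(gI ι) + ∫ z, |ap z| ∂(gI ι) + ∫ z, |am z| ∂(gI ι)) ≤
      1 / t * (4 * √V) := by
    refine mul_le_mul_of_nonneg_left ?_ (one_div_pos.2 ht).le
    linarith
  have e3 : 4 * √V / t = 1 / t * (4 * √V) := by ring
  rw [e3]
  linarith only [this]

/-- **Concentration.** -/
theorem Reg.conc (hS : S.Reg) {h : (ι → ℝ) → X → ℝ} (hh : Nh h)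
    (hreg : ∀ t, (S.pt h t).Reg) {Q V t₀ : ℝ} (ht₀ : 0 < t₀)
    (hQ : ∀ t, 0 < t → t ≤ t₀ → (S.pt h t).fe + (S.pt h (-t)).fe - 2 * S.fe ≤ Q * t ^ 2)
    (hV : ∀ t, |t| ≤ t₀ → ∫ z, ((S.pt h t).lg 0 z - (S.pt h t).fe) ^ 2 ∂(gI ι) ≤ V)
    {t : ℝ} (ht : 0 < t) (htt : t ≤ t₀) :
    ∃ c : ℝ, S.Ex (fun z x => |h z x - c|) ≤ √(Q / S.m 1) + Q * t + 4 * √V / t := by
  have hz : (0 : ℕ) ≤ S.K := Nat.zero_le _
  have h1 := hS.conc_thermal hh hreg ht₀ hQ
  have h2 := hS.conc_disorder hh hreg (V := V) ht (hQ t ht htt) (by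
    intro t' ht'
    refine hV t' ?_
    simp only [Set.mem_insert_iff, Set.mem_singleton_iff] at ht'
    rcases ht' with rfl | rfl | rfl
    · rw [abs_zero]; exact ht₀.le
    · rw [abs_of_pos ht]; exact htt
    · rw [abs_neg, abs_of_pos ht]; exact htt)
  obtain ⟨c, hc⟩ : ∃ c, c = ((S.pt h t).fe - S.fe) / t := ⟨_, rfl⟩
  rw [← hc] at h2
  refine ⟨c, ?_⟩
  have hTe := hS.eg_T hz hh
  have n1 : Nh fun z x => |h z x - S.T 0 h z| := Nh.abs (Nh.sub hh (Nh.fst hTe))
  have n2 : Nh (X := X) fun z _ => |S.T 0 h z - c| := Nh.fst (hTe.sub (EG.const c)).abs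
  have h3 : S.Ex (fun z x => |h z x - c|) ≤
      S.Ex (fun z x => |h z x - S.T 0 h z| + |S.T 0 h z - c|) :=
    hS.Ex_mono (Nh.abs (Nh.sub hh (fun _ => EG.const c))) (Nh.add n1 n2) fun z x => by
      have := abs_add_le (h z x - S.T 0 h z) (S.T 0 h z - c)
      rwa [sub_add_sub_cancel] at this
  rw [hS.Ex_add n1 n2] at h3
  have h4 : S.Ex (fun z x => |h z x - S.T 0 h z|) ≤ √(Q / S.m 1) := by
    refine Real.le_sqrt_of_sq_le ?_
    have h5 := hS.Ex_cs n1 (g := fun _ _ => 1) (fun _ => EG.const 1)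
    simp only [mul_one, one_pow, sq_abs] at h5
    rw [hS.Ex_const, mul_one] at h5
    exact h5.trans h1
  linarith only [h4, h3, h2]

end Sy

end Vale.Agent.P157.Lv
end
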