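import Vale.Agent.P157.Bdl.B7
import Vale.Agent.P157.Bdl.B5
import Vale.Agent.P157.Bdl.B6
import Vale.Agent.P157.Defs
import Vale.Agent.P157.Bdl.B3
import Vale.Agent.P157.Bdl.B9

set_option linter.all false

section

/-! Concentration, flatness and monotonicity for the perturbed perceptron on the cube. -/

open MeasureTheory ProbabilityTheory Filter Topology

namespace Vale.Agent.P157.Par

open Vale.Agent.P367.GT (gM)

set_option linter.unusedSectionVars false

/-! Monotonicity of the expected free energy in the perturbation. -/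

/-- The expected free energy is monotone in one parameter. -/
lemma Base.elz_mono_one (B : Base) {P : ℕ} {s : ℝ} (hs : 0 ≤ s) (u : Fin P → ℝ) (q : Fin P)
    {a b : ℝ} (ha : 0 ≤ a) (hab : a ≤ b) :
    B.elz s (Function.update u q a) ≤ B.elz s (Function.update u q b) := by
  rcases hab.eq_or_lt with h | h
  · rw [h]
  · have h1 := (B.elz_slope s u hs q h).1
    have h2 := B.mh_nonneg P s (Function.update u q a) hs q
      (by rw [Function.update_self]; exact ha)
    have h3 := B.kap_nonneg s hs q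
    have h4 : 0 ≤ (b - a) * (B.kap s q * B.mh P s (Function.update u q a) q) :=
      mul_nonneg (by linarith only [h]) (mul_nonneg h3 h2)
    linarith only [h1, h4]

/-- The expected free energy is monotone in the parameters. -/
lemma Base.elz_mono_u (B : Base) {P : ℕ} {s : ℝ} (hs : 0 ≤ s) {u u' : Fin P → ℝ}
    (hu : ∀ q, 0 ≤ u q) (huu : ∀ q, u q ≤ u' q) : B.elz s u ≤ B.elz s u' := by
  classical
  have key : ∀ T : Finset (Fin P), B.elz s u ≤ B.elz s (fun q => if q ∈ T then u' q else u q) := by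
    intro T
    induction T using Finset.induction_on with
    | empty => simp
    | insert q T hq ih =>
      refine ih.trans ?_
      set v : Fin P → ℝ := fun r => if r ∈ T then u' r else u r with hv
      have e1 : v = Function.update v q (u q) := by
        funext r
        rcases eq_or_ne r q with h | h
        · subst h
          rw [Function.update_self, hv]
          simp [hq]
        · rw [Function.update_of_ne h]
      have e2 : (fun r => if r ∈ insert q T then u' r else u r) =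
          Function.update v q (u' q) := by
        funext r
        rcases eq_or_ne r q with h | h
        · subst h
          rw [Function.update_self]
          simp
        · rw [Function.update_of_ne h, hv]
          simp [h]
      rw [e2]
      have h1 := B.elz_mono_one hs v q (hu q) (huu q)
      rw [← e1] at h1
      exact h1
  have h := key Finset.univ
  simpa only [ge_iff_le, Finset.mem_univ, ↓reduceIte] using h

/-- The expected free energy is monotone in the strength of the perturbation. -/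
lemma Base.elz_mono_s (B : Base) {P : ℕ} {s s' : ℝ} (hs : 0 ≤ s) (hss : s ≤ s')
    (hs' : 0 < s') {u : Fin P → ℝ} (hu : ∀ q, 0 ≤ u q) : B.elz s u ≤ B.elz s' u := by
  have e : B.coef P s u = B.coef P s' (fun q => s / s' * u q) := by
    funext e x
    unfold Base.coef
    (clear * - hs'; field_simp)
  have e1 : B.elz s u = B.elz s' (fun q => s / s' * u q) := by
    unfold Base.elz Base.lz
    rw [e]
  rw [e1]
  have h1 : s / s' ≤ 1 := (div_le_one hs').2 hss
  have h0 : 0 ≤ s / s' := by positivity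
  exact B.elz_mono_u hs'.le (fun q => mul_nonneg h0 (hu q))
    fun q => mul_le_of_le_one_left (hu q) h1

lemma Base.Conc.mono {B : Base} {v v' : ℝ} (h : B.Conc v) (hv : v ≤ v') : B.Conc v' :=
  fun g hg hg2 hgd => (h g hg hg2 hgd).trans hv

section Cube

variable {f : ℝ → ℝ} (hfm : Measurable f) {C : ℝ} (hC : ∀ x, |f x| ≤ C)

lemma cubeBase_d (N M : ℕ) : ((cubeBase f hfm C hC N M).d : ℝ) = (N : ℝ) + 1 := by
  change (((N + 1 : ℕ)) : ℝ) = _
  push_cast
  ring

lemma cubeBase_flat (N M : ℕ) (x : (cubeBase f hfm C hC N M).X)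
    (i : Fin (cubeBase f hfm C hC N M).d) :
    (cubeBase f hfm C hC N M).φ x i ^ 2 ≤ 1 / (cubeBase f hfm C hC N M).d := by
  rw [cubeBase_d]
  exact (cubeφ_sq N x i).le

lemma cubeBase_conc (N M : ℕ) : (cubeBase f hfm C hC N M).Conc (M * (2 * C) ^ 2) := by
  refine conc_patBase _ _ _ _ _ _ _ _ fun ω a e x => ?_
  have h1 : ∀ η : Fin M → Fin (N + 1) → ℝ, ∑ b, f (cubeS (η b) x) =
      f (cubeS (η a) x) + ∑ b ∈ Finset.univ.erase a, f (cubeS (η b) x) := fun η =>
    (Finset.add_sum_erase _ _ (Finset.mem_univ a)).symm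
  rw [h1, h1]
  have h2 : ∑ b ∈ Finset.univ.erase a, f (cubeS (Function.update ω a e b) x) =
      ∑ b ∈ Finset.univ.erase a, f (cubeS (ω b) x) :=
    Finset.sum_congr rfl fun b hb => by
      rw [Function.update_of_ne (Finset.ne_of_mem_erase hb)]
  rw [h2, add_sub_add_right_eq_sub]
  refine (abs_sub _ _).trans ?_
  linarith only [hC (cubeS (Function.update ω a e a) x), hC (cubeS (ω a) x)]

/-- The strength of the perturbation. -/
noncomputable def sN (N : ℕ) : ℝ := ((N : ℝ) + 1) ^ (3 / 8 : ℝ)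

lemma sN_ge (N : ℕ) : 1 ≤ sN N :=
  Real.one_le_rpow (by linarith only []) (by norm_num)

lemma sN_mono {N N' : ℕ} (h : N ≤ N') : sN N ≤ sN N' := by
  unfold sN
  exact Real.rpow_le_rpow (by positivity) (by
    have : (N : ℝ) ≤ N' := by exact_mod_cast h
    linarith only [this]) (by norm_num)

lemma sN_sq (N : ℕ) : sN N ^ 2 = ((N : ℝ) + 1) ^ (3 / 4 : ℝ) := by
  unfold sN
  rw [← Real.rpow_natCast, ← Real.rpow_mul (by positivity)]
  norm_num

lemma sN_sq_le (N : ℕ) : sN N ^ 2 ≤ (N : ℝ) + 1 := by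
  rw [sN_sq]
  nth_rewrite 2 [← Real.rpow_one ((N : ℝ) + 1)]
  exact Real.rpow_le_rpow_of_exponent_le (by linarith only [])
    (by norm_num)

lemma sqrt_le_sN_sq (N : ℕ) : √((N : ℝ) + 1) ≤ sN N ^ 2 := by
  rw [sN_sq, Real.sqrt_eq_rpow]
  exact Real.rpow_le_rpow_of_exponent_le (by linarith only [])
    (by (clear * -; norm_num))

lemma sqrt_sqrt_div_sN (N : ℕ) : √(√((N : ℝ) + 1)) / sN N = ((N : ℝ) + 1) ^ (-(1 / 8) : ℝ) := by
  unfold sN
  rw [Real.sqrt_eq_rpow, Real.sqrt_eq_rpow, ← Real.rpow_mul (by positivity),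
    ← Real.rpow_sub (by (clear * -; positivity))]
  norm_num

lemma tendsto_sqrt_sqrt_div_sN :
    Tendsto (fun N : ℕ => √(√((N : ℝ) + 1)) / sN N) atTop (𝓝 0) := by
  simp only [sqrt_sqrt_div_sN]
  have h := tendsto_rpow_neg_atTop (show (0 : ℝ) < 1 / 8 by norm_num)
  exact h.comp (tendsto_natCast_atTop_atTop.atTop_add tendsto_const_nhds)

lemma tendsto_sN_sq_div : Tendsto (fun N : ℕ => sN N ^ 2 / ((N : ℝ) + 1)) atTop (𝓝 0) := by
  have e : ∀ N : ℕ, sN N ^ 2 / ((N : ℝ) + 1) = ((N : ℝ) + 1) ^ (-(1 / 4) : ℝ) := by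
    intro N
    rw [sN_sq]
    nth_rewrite 2 [← Real.rpow_one ((N : ℝ) + 1)]
    rw [← Real.rpow_sub (by positivity)]
    norm_num
  simp only [e]
  have h := tendsto_rpow_neg_atTop (show (0 : ℝ) < 1 / 4 by norm_num)
  exact h.comp (tendsto_natCast_atTop_atTop.atTop_add tendsto_const_nhds)

/-- The average over the parameters of the fluctuation. -/
lemma cubeBase_dev_le {N M P : ℕ} (q : Fin P) {A : ℝ} (hA : 0 ≤ A)
    (hM : (M : ℝ) * (2 * C) ^ 2 ≤ A * ((N : ℝ) + 1)) :
    ∫ u, (cubeBase f hfm C hC N M).dev P (sN N) u q ((cubeBase f hfm C hC N M).mh P (sN N) u q)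
      ∂(nuP P) ≤ 2 ^ ((q : ℕ) + 1) * (15 + 3 * √(3 + A)) * √(√((N : ℝ) + 1)) := by
  have h := (cubeBase f hfm C hC N M).integral_dev_le_sqrt (sN N) (sN_ge N) q hA
    ((cubeBase_conc hfm hC N M).mono (by rw [cubeBase_d]; exact hM)) (cubeBase_flat hfm hC N M)
    (by rw [cubeBase_d]; exact sN_sq_le N) (by rw [cubeBase_d]; exact sqrt_le_sN_sq N)
  rw [cubeBase_d] at h
  exact h

end Cube

end Vale.Agent.P157.Par
end

section

/-!
The pattern part is Lipschitz in the potential for the `L¹(γ)` distance, uniformly in the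
parameters.
-/

open MeasureTheory ProbabilityTheory Filter Topology

namespace Vale.Agent.P157.Lv

set_option linter.unusedSectionVars false

open Par (Path Exponents cascade gstep patternPart)

lemma bor_map_sqrt {v : ℝ} (hv : 0 ≤ v) :
    (gaussianReal 0 1).map (fun z => √v * z) = gaussianReal 0 v.toNNReal := by
  rw [gaussianReal_map_const_mul]
  congr 1
  · simp
  · ext
    simp only [Real.sq_sqrt hv, mul_one, NNReal.coe_mk, Real.coe_toNNReal', hv, sup_of_le_left]

lemma bor_conv {v w : ℝ} (hv : 0 ≤ v) (hw : 0 ≤ w) {H : ℝ → ℝ} (hH : Measurable H) {C : ℝ}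
    (hC : ∀ x, |H x| ≤ C) (x : ℝ) :
    ∫ z, ∫ y, H (x + √v * z + √w * y) ∂(gaussianReal 0 1) ∂(gaussianReal 0 1) =
      ∫ z, H (x + √(v + w) * z) ∂(gaussianReal 0 1) := by
  have h1 : (gaussianReal 0 v.toNNReal) ∗ (gaussianReal 0 w.toNNReal) =
      gaussianReal 0 (v + w).toNNReal := by
    rw [gaussianReal_conv_gaussianReal, add_zero, Real.toNNReal_add hv hw]
  have m1 : ∀ u : ℝ, Measurable fun z : ℝ => √u * z := fun u => by fun_prop
  have hx : Measurable fun t => H (x + t) := hH.comp (by fun_prop)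
  have h2 : ∫ z, H (x + √(v + w) * z) ∂(gaussianReal 0 1) =
      ∫ t, H (x + t) ∂(gaussianReal 0 (v + w).toNNReal) := by
    rw [← bor_map_sqrt (add_nonneg hv hw), integral_map (m1 _).aemeasurable
      hx.aestronglyMeasurable]
  have h3 : ∫ t, H (x + t) ∂((gaussianReal 0 v.toNNReal) ∗ (gaussianReal 0 w.toNNReal)) =
      ∫ s, ∫ t, H (x + (s + t)) ∂(gaussianReal 0 w.toNNReal) ∂(gaussianReal 0 v.toNNReal) := by
    unfold Measure.conv
    rw [integral_map (by fun_prop) hx.aestronglyMeasurable, integral_prod]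
    refine Integrable.of_bound (hH.comp (by fun_prop)).aestronglyMeasurable C
      (ae_of_all _ fun p => ?_)
    rw [Real.norm_eq_abs]
    exact hC _
  rw [h2, ← h1, h3, ← bor_map_sqrt hv, ← bor_map_sqrt hw]
  have hm : StronglyMeasurable fun s : ℝ => ∫ t, H (x + (s + t))
      ∂((gaussianReal 0 1).map fun z => √w * z) := by
    have : Measurable (Function.uncurry fun s t : ℝ => H (x + (s + t))) :=
      hH.comp (by fun_prop)
    exact this.stronglyMeasurable.integral_prod_right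
  rw [integral_map (m1 _).aemeasurable hm.aestronglyMeasurable]
  congr 1
  funext z
  have m2 : Measurable fun t => H (x + (√v * z + t)) := hH.comp (by fun_prop)
  rw [integral_map (m1 _).aemeasurable m2.aestronglyMeasurable]
  simp only [add_assoc]

/-- The Gaussian average. -/
noncomputable def borHeat (v : ℝ) (H : ℝ → ℝ) (x : ℝ) : ℝ :=
  ∫ z, H (x + √v * z) ∂(gaussianReal 0 1)

lemma borHeat_meas {v : ℝ} {H : ℝ → ℝ} (hH : Measurable H) : Measurable (borHeat v H) := by
  have : Measurable (Function.uncurry fun x z : ℝ => H (x + √v * z)) := hH.comp (by fun_prop)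
  exact (this.stronglyMeasurable.integral_prod_right).measurable

lemma borHeat_bd {v : ℝ} {H : ℝ → ℝ} {C : ℝ} (hC : ∀ x, |H x| ≤ C) (x : ℝ) :
    |borHeat v H x| ≤ C := by
  unfold borHeat
  have := norm_integral_le_of_norm_le_const (μ := gaussianReal 0 1)
    (f := fun z => H (x + √v * z)) (C := C) (ae_of_all _ fun z => hC _)
  simpa only [ge_iff_le, Real.norm_eq_abs, probReal_univ, mul_one] using this

lemma borHeat_int {v : ℝ} {H : ℝ → ℝ} (hH : Measurable H) {C : ℝ} (hC : ∀ x, |H x| ≤ C) (x : ℝ) :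
    Integrable (fun z => H (x + √v * z)) (gaussianReal 0 1) :=
  Integrable.of_bound (hH.comp (by fun_prop)).aestronglyMeasurable C
    (ae_of_all _ fun z => hC _)

lemma borHeat_add {v w : ℝ} (hv : 0 ≤ v) (hw : 0 ≤ w) {H : ℝ → ℝ} (hH : Measurable H) {C : ℝ}
    (hC : ∀ x, |H x| ≤ C) : borHeat v (borHeat w H) = borHeat (v + w) H := by
  funext x
  exact bor_conv hv hw hH hC x

/-- The bound at one level of the cascade. -/
def BorQ (B m : ℝ) (F G H : ℝ → ℝ) : Prop :=
  ∀ x, F x - G x ≤ Real.exp (-(m * F x)) * (Real.exp (B * (2 - m)) * H x)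

variable {B m m' v : ℝ} {F G H : ℝ → ℝ}

lemma bor_int_exp (hF : Measurable F) (hFB : ∀ x, |F x| ≤ B) (hm : 0 < m) (x : ℝ) :
    Integrable (fun z => Real.exp (m * F (x + √v * z))) (gaussianReal 0 1) := by
  refine Integrable.of_bound ((hF.comp (by fun_prop)).const_mul m).exp.aestronglyMeasurable
    (Real.exp (m * B)) (ae_of_all _ fun z => ?_)
  rw [Real.norm_eq_abs, Real.abs_exp, Real.exp_le_exp]
  exact mul_le_mul_of_nonneg_left (abs_le.1 (hFB _)).2 hm.le

lemma bor_pos_exp (hF : Measurable F) (hFB : ∀ x, |F x| ≤ B) (hm : 0 < m) (x : ℝ) :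
    0 < ∫ z, Real.exp (m * F (x + √v * z)) ∂(gaussianReal 0 1) :=
  integral_exp_pos (bor_int_exp hF hFB hm x)

lemma bor_exp_gstep (hF : Measurable F) (hFB : ∀ x, |F x| ≤ B) (hm : 0 < m) (x : ℝ) :
    Real.exp (m * gstep m v F x) = ∫ z, Real.exp (m * F (x + √v * z)) ∂(gaussianReal 0 1) := by
  unfold gstep
  rw [← mul_assoc, mul_one_div_cancel hm.ne', one_mul, Real.exp_log (bor_pos_exp hF hFB hm x)]

/-- Jensen: `gstep F - gstep G ≤ e^{-m gstep F} E[e^{mF} (F - G)]`. -/
lemma bor_gstep_sub (hF : Measurable F) (hG : Measurable G) (hFB : ∀ x, |F x| ≤ B)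
    (hGB : ∀ x, |G x| ≤ B) (hm : 0 < m) (x : ℝ) :
    gstep m v F x - gstep m v G x ≤ Real.exp (-(m * gstep m v F x)) *
      ∫ z, Real.exp (m * F (x + √v * z)) * (F (x + √v * z) - G (x + √v * z))
        ∂(gaussianReal 0 1) := by
  have hB0 : 0 ≤ B := (abs_nonneg _).trans (hFB 0)
  set a := gstep m v F x with ha
  set b := gstep m v G x with hb
  have eF := bor_exp_gstep (v := v) hF hFB hm x
  have eG := bor_exp_gstep (v := v) hG hGB hm x
  rw [← ha] at eF
  rw [← hb] at eG
  have iF := bor_int_exp (v := v) hF hFB hm x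
  have iG := bor_int_exp (v := v) hG hGB hm x
  have iS : Integrable (fun z => Real.exp (m * F (x + √v * z)) *
      (F (x + √v * z) - G (x + √v * z))) (gaussianReal 0 1) := by
    refine Integrable.of_bound ((((hF.comp (by fun_prop)).const_mul m).exp.mul
      ((hF.comp (by (clear * -; fun_prop))).sub (hG.comp (by fun_prop)))).aestronglyMeasurable)
      (Real.exp (m * B) * (2 * B)) (ae_of_all _ fun z => ?_)
    rw [norm_mul, Real.norm_eq_abs, Real.norm_eq_abs, Real.abs_exp]
    have h1 := abs_sub (F (x + √v * z)) (G (x + √v * z))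
    have h2 : |F (x + √v * z) - G (x + √v * z)| ≤ 2 * B := by
      linarith only [h1, hFB (x + √v * z), hGB (x + √v * z)]
    refine mul_le_mul ?_ h2 (abs_nonneg _) (Real.exp_pos _).le
    rw [Real.exp_le_exp]
    exact mul_le_mul_of_nonneg_left (abs_le.1 (hFB _)).2 hm.le
  set S := ∫ z, Real.exp (m * F (x + √v * z)) * (F (x + √v * z) - G (x + √v * z))
        ∂(gaussianReal 0 1) with hS
  -- pointwise: `e^{mG} ≥ e^{-m(a-b)} e^{mF} (1 + m (a - b) - m (F - G))`
  have hpt : ∀ z, Real.exp (-(m * (a - b))) * ((1 + m * (a - b)) * Real.exp (m * F (x + √v * z)) -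
      m * (Real.exp (m * F (x + √v * z)) * (F (x + √v * z) - G (x + √v * z)))) ≤
      Real.exp (m * G (x + √v * z)) := fun z => by
    set f := F (x + √v * z)
    set g := G (x + √v * z)
    have h2 : (m * (a - b) - m * (f - g)) + 1 ≤ Real.exp (m * (a - b) - m * (f - g)) :=
      Real.add_one_le_exp _
    calc Real.exp (-(m * (a - b))) * ((1 + m * (a - b)) * Real.exp (m * f) -
        m * (Real.exp (m * f) * (f - g))) =
        Real.exp (-(m * (a - b))) * Real.exp (m * f) * ((m * (a - b) - m * (f - g)) + 1) := by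
          ring
      _ ≤ Real.exp (-(m * (a - b))) * Real.exp (m * f) *
          Real.exp (m * (a - b) - m * (f - g)) := by gcongr
      _ = Real.exp (m * g) := by
          rw [← Real.exp_add, ← Real.exp_add]
          congr 1
          ring
  have hint : ∫ z, Real.exp (-(m * (a - b))) * ((1 + m * (a - b)) *
      Real.exp (m * F (x + √v * z)) - m * (Real.exp (m * F (x + √v * z)) *
        (F (x + √v * z) - G (x + √v * z)))) ∂(gaussianReal 0 1) ≤
      ∫ z, Real.exp (m * G (x + √v * z)) ∂(gaussianReal 0 1) :=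
    integral_mono ((((iF.const_mul (1 + m * (a - b))).sub (iS.const_mul m)).const_mul
      (Real.exp (-(m * (a - b)))))) iG hpt
  rw [← eG, integral_const_mul, integral_sub (iF.const_mul _) (iS.const_mul _),
    integral_const_mul, integral_const_mul, ← eF, ← hS] at hint
  -- `e^{-m(a-b)} ((1 + m (a-b)) e^{ma} - m S) ≤ e^{mb}`
  have h3 : Real.exp (m * b) = Real.exp (-(m * (a - b))) * Real.exp (m * a) := by
    rw [← Real.exp_add]; congr 1; ring
  rw [h3] at hint
  have h4 := le_of_mul_le_mul_left hint (Real.exp_pos _)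
  have h5 : m * ((a - b) * Real.exp (m * a)) ≤ m * S := by linarith only [h4]
  have h6 := le_of_mul_le_mul_left h5 hm
  rw [Real.exp_neg, inv_mul_eq_div, le_div_iff₀ (Real.exp_pos _)]
  exact h6

/-- One step of the cascade. -/
lemma BorQ.step (h : BorQ B m' F G H) (hF : Measurable F) (hG : Measurable G)
    (hFB : ∀ x, |F x| ≤ B) (hGB : ∀ x, |G x| ≤ B) (hH : Measurable H) (hH0 : ∀ x, 0 ≤ H x)
    {C : ℝ} (hHC : ∀ x, |H x| ≤ C) (hm : 0 < m) (hmm : m ≤ m') :
    BorQ B m (gstep m v F) (gstep m v G) (borHeat v H) := by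
  intro x
  refine (bor_gstep_sub hF hG hFB hGB hm x).trans ?_
  refine mul_le_mul_of_nonneg_left ?_ (Real.exp_pos _).le
  unfold borHeat
  rw [← integral_const_mul]
  refine integral_mono_ae ?_ ((borHeat_int hH hHC x).const_mul _) (ae_of_all _ fun z => ?_)
  · refine Integrable.of_bound ((((hF.comp (by fun_prop)).const_mul m).exp.mul
      ((hF.comp (by fun_prop)).sub (hG.comp (by fun_prop)))).aestronglyMeasurable)
      (Real.exp (m * B) * (2 * B)) (ae_of_all _ fun z => ?_)
    rw [norm_mul, Real.norm_eq_abs, Real.norm_eq_abs, Real.abs_exp]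
    have h1 := abs_sub (F (x + √v * z)) (G (x + √v * z))
    have h2 : |F (x + √v * z) - G (x + √v * z)| ≤ 2 * B := by
      linarith [hFB (x + √v * z), hGB (x + √v * z)]
    refine mul_le_mul ?_ h2 (abs_nonneg _) (Real.exp_pos _).le
    rw [Real.exp_le_exp]
    exact mul_le_mul_of_nonneg_left (abs_le.1 (hFB _)).2 hm.le
  · simp only
    set y := x + √v * z
    have h1 := h y
    calc Real.exp (m * F y) * (F y - G y)
        ≤ Real.exp (m * F y) * (Real.exp (-(m' * F y)) * (Real.exp (B * (2 - m')) * H y)) :=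
          mul_le_mul_of_nonneg_left h1 (Real.exp_pos _).le
      _ = Real.exp ((m - m') * F y + B * (2 - m')) * H y := by
          rw [Real.exp_add, ← mul_assoc, ← mul_assoc, ← Real.exp_add]
          congr 3
          ring
      _ ≤ Real.exp (B * (2 - m)) * H y := by
          refine mul_le_mul_of_nonneg_right (Real.exp_le_exp.2 ?_) (hH0 y)
          have h2 := (abs_le.1 (hFB y)).1
          linarith only [mul_nonneg (sub_nonneg.2 hmm) (sub_nonneg.2 h2)]

lemma bor_path_le {k : ℕ} {q : ℕ → ℝ} (hq : Path k q) {l n : ℕ} (hln : l ≤ n) (hnk : n ≤ k) :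
    q l ≤ q n := by
  induction n, hln using Nat.le_induction with
  | base => exact le_rfl
  | succ n _ ih => exact (ih (by (clear * - hnk; omega))).trans (hq.2 n (by omega))

/-- The whole cascade. -/
lemma BorQ.cascade {k : ℕ} {e q : ℕ → ℝ} (he0 : e 0 = 0) (he : ∀ l ≤ k, e l < e (l + 1))
    (hq : Path k q) (hq1 : q k ≤ 1) {D : ℝ → ℝ} (hD : Measurable D) (hD0 : ∀ x, 0 ≤ D x)
    {C : ℝ} (hDC : ∀ x, |D x| ≤ C) (l : ℕ) (hl : l ≤ k) :
    ∀ F G : ℝ → ℝ, Measurable F → Measurable G → (∀ x, |F x| ≤ B) → (∀ x, |G x| ≤ B) →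
      BorQ B (e (l + 1)) F G (borHeat (1 - q l) D) →
      BorQ B (e 1) (Par.cascade e q l F) (Par.cascade e q l G) (borHeat (1 - q 0) D) := by
  have hql : ∀ l ≤ k, q l ≤ 1 := fun l hl => (bor_path_le hq hl le_rfl).trans hq1
  have hepos : ∀ l ≤ k, 0 < e (l + 1) := by
    intro l hl
    induction l with
    | zero =>
      have := he 0 (Nat.zero_le _)
      rw [he0] at this
      exact this
    | succ l ih => exact (ih (by omega)).trans (he (l + 1) hl)
  induction l with
  | zero => exact fun F G _ _ _ _ h => h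
  | succ l ih =>
    intro F G hF hG hFB hGB h
    rw [Par.cascade_succ_def, Par.cascade_succ_def]
    have hv : 0 ≤ q (l + 1) - q l := sub_nonneg.2 (hq.2 l (by omega))
    have bF := Par.gstep_bdd hF hFB (hepos l (by omega)) (q (l + 1) - q l)
    have bG := Par.gstep_bdd hG hGB (hepos l (by omega)) (q (l + 1) - q l)
    refine ih (by omega) _ _ bF.1 bG.1 bF.2 bG.2 ?_
    have h2 := BorQ.step (v := q (l + 1) - q l) h hF hG hFB hGB (borHeat_meas hD)
      (fun x => integral_nonneg fun z => hD0 _) (fun x => borHeat_bd hDC x)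
      (hepos l (by omega)) (he (l + 1) hl).le
    rw [borHeat_add hv (sub_nonneg.2 (hql (l + 1) hl)) hD hDC] at h2
    have h3 : q (l + 1) - q l + (1 - q (l + 1)) = 1 - q l := by ring
    rwa [h3] at h2

lemma bor_cascade_meas {e q : ℕ → ℝ} {l : ℕ} (hm : ∀ j < l, 0 < e (j + 1)) {F : ℝ → ℝ}
    (hF : Measurable F) (hK : ∀ x, |F x| ≤ B) : Measurable (Par.cascade e q l F) := by
  induction l generalizing F with
  | zero => exact hF
  | succ l ih =>
    have h := Par.gstep_bdd hF hK (hm l (by omega)) (q (l + 1) - q l)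
    exact ih (fun j hj => hm j (by omega)) h.1 h.2

lemma bor_patternPart_eq (f : ℝ → ℝ) (k : ℕ) (e q : ℕ → ℝ) : patternPart f k e q =
    ∫ z, Par.cascade e q k (gstep 1 (1 - q k) f) (√(q 0) * z) ∂(gaussianReal 0 1) := by
  unfold patternPart
  have h : (fun x => Real.log (∫ y, Real.exp (f (x + √(1 - q k) * y)) ∂(gaussianReal 0 1))) =
      gstep 1 (1 - q k) f := by
    funext x
    simp only [gstep, ne_eq, one_ne_zero, not_false_eq_true, div_self, one_mul]
  rw [h]

/-- One inequality for the pattern part. -/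
lemma bor_patternPart_sub {k : ℕ} {e q : ℕ → ℝ} (he : Exponents k e) (hq : Path k q)
    (hq1 : q k ≤ 1) {f g : ℝ → ℝ} (hf : Measurable f) (hg : Measurable g) (hfB : ∀ x, |f x| ≤ B)
    (hgB : ∀ x, |g x| ≤ B) :
    patternPart f k e q - patternPart g k e q ≤
      Real.exp (2 * B) * ∫ x, |f x - g x| ∂(gaussianReal 0 1) := by
  have hD : Measurable fun x => |f x - g x| := (hf.sub hg).abs
  have hD0 : ∀ x, 0 ≤ |f x - g x| := fun x => abs_nonneg _
  have hDC : ∀ x, |(|f x - g x|)| ≤ 2 * B := fun x => by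
    rw [abs_abs]
    have := abs_sub (f x) (g x)
    linarith [hfB x, hgB x]
  have hepos : ∀ l ≤ k, 0 < e (l + 1) := by
    intro l hl
    induction l with
    | zero =>
      have := he.2.2 0 (Nat.zero_le _)
      rw [he.1] at this
      exact this
    | succ l ih => exact (ih (by omega)).trans (he.2.2 (l + 1) hl)
  have h0 : BorQ B 1 f g fun x => |f x - g x| := fun x => by
    have h1 : 1 ≤ Real.exp (-(1 * f x)) * Real.exp (B * (2 - 1)) := by
      rw [← Real.exp_add]
      apply Real.one_le_exp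
      have := (abs_le.1 (hfB x)).2
      linarith only [this]
    rw [← mul_assoc]
    exact (le_abs_self _).trans (le_mul_of_one_le_left (abs_nonneg _) h1)
  have h1 := h0.step (v := 1 - q k) (m := 1) hf hg hfB hgB hD hD0 hDC one_pos le_rfl
  have bF := Par.gstep_bdd hf hfB one_pos (1 - q k)
  have bG := Par.gstep_bdd hg hgB one_pos (1 - q k)
  have h2 := BorQ.cascade he.1 he.2.2 hq hq1 hD hD0 hDC k le_rfl _ _ bF.1 bG.1 bF.2 bG.2
    (by rw [he.2.1]; exact h1)
  have bF' := Par.cascade_bdd (m := e) (q := q) (l := k) (fun j hj => hepos j hj.le) bF.1 bF.2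
  have bG' := Par.cascade_bdd (m := e) (q := q) (l := k) (fun j hj => hepos j hj.le) bG.1 bG.2
  have mF' := bor_cascade_meas (q := q) (l := k) (fun j hj => hepos j hj.le) bF.1 bF.2
  have mG' := bor_cascade_meas (q := q) (l := k) (fun j hj => hepos j hj.le) bG.1 bG.2
  have hH0 : ∀ x, 0 ≤ borHeat (1 - q 0) (fun x => |f x - g x|) x := fun x =>
    integral_nonneg fun z => hD0 _
  have h3 : ∀ x, Par.cascade e q k (gstep 1 (1 - q k) f) x -
      Par.cascade e q k (gstep 1 (1 - q k) g) x ≤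
      Real.exp (2 * B) * borHeat (1 - q 0) (fun x => |f x - g x|) x := fun x => by
    refine (h2 x).trans ?_
    rw [← mul_assoc, ← Real.exp_add]
    refine mul_le_mul_of_nonneg_right (Real.exp_le_exp.2 ?_) (hH0 x)
    have h4 := (abs_le.1 (bF' x)).1
    have h5 := hepos 0 (Nat.zero_le _)
    rw [zero_add] at h5
    linarith only [mul_nonneg (sub_nonneg.2 h4) (le_of_lt (sub_pos.2 h5))]
  have iF : Integrable (fun z => Par.cascade e q k (gstep 1 (1 - q k) f) (√(q 0) * z))
      (gaussianReal 0 1) := Integrable.of_bound (mF'.comp (by fun_prop)).aestronglyMeasurable B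
      (ae_of_all _ fun z => bF' _)
  have iG : Integrable (fun z => Par.cascade e q k (gstep 1 (1 - q k) g) (√(q 0) * z))
      (gaussianReal 0 1) := Integrable.of_bound (mG'.comp (by fun_prop)).aestronglyMeasurable B
      (ae_of_all _ fun z => bG' _)
  have iH : Integrable (fun z => borHeat (1 - q 0) (fun x => |f x - g x|) (√(q 0) * z))
      (gaussianReal 0 1) := Integrable.of_bound
      ((borHeat_meas hD).comp (by fun_prop)).aestronglyMeasurable (2 * B)
      (ae_of_all _ fun z => borHeat_bd hDC _)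
  rw [bor_patternPart_eq, bor_patternPart_eq, ← integral_sub iF iG]
  refine (integral_mono (iF.sub iG) (iH.const_mul _) fun z => h3 _).trans (le_of_eq ?_)
  rw [integral_const_mul]
  congr 1
  have h6 := congrFun (borHeat_add hq.1 (sub_nonneg.2 ((bor_path_le hq (Nat.zero_le k)
    le_rfl).trans hq1)) hD hDC) 0
  have h7 : q 0 + (1 - q 0) = 1 := by ring
  rw [h7] at h6
  unfold borHeat at h6 ⊢
  simpa only [zero_add, Real.sqrt_one, one_mul] using h6

/-- The pattern part is Lipschitz in the potential. -/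
theorem bor_patternPart_lip {k : ℕ} {e q : ℕ → ℝ} (he : Exponents k e) (hq : Path k q)
    (hq1 : q k ≤ 1) {f g : ℝ → ℝ} (hf : Measurable f) (hg : Measurable g) (hfB : ∀ x, |f x| ≤ B)
    (hgB : ∀ x, |g x| ≤ B) :
    |patternPart f k e q - patternPart g k e q| ≤
      Real.exp (2 * B) * ∫ x, |f x - g x| ∂(gaussianReal 0 1) := by
  rw [abs_sub_le_iff]
  refine ⟨bor_patternPart_sub he hq hq1 hf hg hfB hgB, ?_⟩
  have h := bor_patternPart_sub he hq hq1 hg hf hgB hfB
  simp_rw [abs_sub_comm (g _) (f _)] at h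
  exact h

end Vale.Agent.P157.Lv
end

section

open MeasureTheory ProbabilityTheory Complex
open scoped RealInnerProductSpace

namespace Vale.Agent.P157.Exist

/-- `n`-dimensional Euclidean space. -/
abbrev Euc (n : ℕ) : Type := EuclideanSpace ℝ (Fin n)

end Vale.Agent.P157.Exist
end

section

open MeasureTheory ProbabilityTheory

namespace Vale.Agent.P157.Exist

lemma sqrt_mix {θ₁ θ₂ a b : ℝ} (h1 : 0 ≤ θ₁) (h2 : 0 ≤ θ₂) (h12 : θ₁ + θ₂ = 1)
    (ha : 0 ≤ a) (hb : 0 ≤ b) : θ₁ * √a + θ₂ * √b ≤ √(θ₁ * a + θ₂ * b) := by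
  apply Real.le_sqrt_of_sq_le
  have e1 := Real.mul_self_sqrt ha
  have e2 := Real.mul_self_sqrt hb
  have h : θ₁ * a + θ₂ * b - (θ₁ * √a + θ₂ * √b) ^ 2 = θ₁ * θ₂ * (√a - √b) ^ 2 := by
    have : θ₂ = 1 - θ₁ := by linarith only [h12]
    subst this
    linear_combination (-θ₁) * e1 + (-(1 - θ₁)) * e2
  have : 0 ≤ θ₁ * θ₂ * (√a - √b) ^ 2 := by (clear * - h1 h2; positivity)
  linarith only [h, this]

lemma sqrt_step {θ₁ θ₂ A s : ℝ} (h1 : 0 ≤ θ₁) (h2 : 0 ≤ θ₂) (h12 : θ₁ + θ₂ = 1) (hs : 0 ≤ s) :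
    θ₁ * √((A + 1) ^ 2 + s) + θ₂ * √(A ^ 2 + s) ≤ √((A + θ₁) ^ 2 + (s + θ₁ * θ₂)) := by
  have := sqrt_mix h1 h2 h12 (a := (A + 1) ^ 2 + s) (b := A ^ 2 + s) (by (clear * - hs; positivity))
    (by (clear * - hs; positivity))
  refine this.trans (le_of_eq ?_)
  congr 1
  have : θ₂ = 1 - θ₁ := by linarith only [h12]
  subst this
  ring

/-- The real recursion: a binomial random walk without probability. -/
theorem recursion {θ₁ θ₂ : ℝ} (h1 : 0 ≤ θ₁) (h2 : 0 ≤ θ₂) (h12 : θ₁ + θ₂ = 1)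
    (b : ℕ → ℕ → ℕ → ℝ) (A K m₁ m₂ : ℝ) (hK : 0 ≤ K)
    (hs : ∀ j k l, θ₁ * b j (k + 1) l + θ₂ * b j k (l + 1) ≤ b (j + 1) k l)
    (h0 : ∀ k l : ℕ, A - K * (|(k : ℝ) - m₁| + |(l : ℝ) - m₂|) ≤ b 0 k l) (j k l : ℕ) :
    A - K * (√((k + θ₁ * j - m₁) ^ 2 + j * (θ₁ * θ₂)) +
      √((l + θ₂ * j - m₂) ^ 2 + j * (θ₁ * θ₂))) ≤ b j k l := by
  induction j generalizing k l with
  | zero =>
    have := h0 k l
    simp only [CharP.cast_eq_zero, mul_zero, add_zero, zero_mul, Real.sqrt_sq_eq_abs]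
    exact this
  | succ j ih =>
    refine le_trans ?_ (hs j k l)
    have e1 := ih (k + 1) l
    have e2 := ih k (l + 1)
    have hs0 : 0 ≤ (j : ℝ) * (θ₁ * θ₂) := by (clear * - h1 h2; positivity)
    have s1 := sqrt_step h1 h2 h12 hs0 (A := k + θ₁ * j - m₁)
    have s2 := sqrt_step h2 h1 (by linarith only [h12]) hs0 (A := l + θ₂ * j - m₂)
    have r1 : ((k : ℝ) + θ₁ * j - m₁ + θ₁) ^ 2 + (j * (θ₁ * θ₂) + θ₁ * θ₂) =
        (k + θ₁ * (j + 1 : ℕ) - m₁) ^ 2 + (j + 1 : ℕ) * (θ₁ * θ₂) := by push_cast; ring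
    have r2 : ((l : ℝ) + θ₂ * j - m₂ + θ₂) ^ 2 + (j * (θ₁ * θ₂) + θ₂ * θ₁) =
        (l + θ₂ * (j + 1 : ℕ) - m₂) ^ 2 + (j + 1 : ℕ) * (θ₁ * θ₂) := by push_cast; ring
    rw [r1] at s1
    rw [r2] at s2
    have r3 : (((k + 1 : ℕ) : ℝ) + θ₁ * j - m₁) = (k + θ₁ * j - m₁) + 1 := by push_cast; ring
    have r4 : (((l + 1 : ℕ) : ℝ) + θ₂ * j - m₂) = (l + θ₂ * j - m₂) + 1 := by push_cast; ring
    rw [r3] at e1
    rw [r4] at e2
    set S1 := √((k + θ₁ * (j + 1 : ℕ) - m₁) ^ 2 + (j + 1 : ℕ) * (θ₁ * θ₂))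
    set S2 := √((l + θ₂ * (j + 1 : ℕ) - m₂) ^ 2 + (j + 1 : ℕ) * (θ₁ * θ₂))
    set a1 := √((k + θ₁ * j - m₁ + 1) ^ 2 + j * (θ₁ * θ₂))
    set a0 := √((k + θ₁ * j - m₁) ^ 2 + j * (θ₁ * θ₂))
    set b1 := √((l + θ₂ * j - m₂ + 1) ^ 2 + j * (θ₁ * θ₂))
    set b0 := √((l + θ₂ * j - m₂) ^ 2 + j * (θ₁ * θ₂))
    have t1 := mul_le_mul_of_nonneg_left e1 h1
    have t2 := mul_le_mul_of_nonneg_left e2 h2
    have t3 := mul_le_mul_of_nonneg_left (add_le_add s1 s2) hK
    have hA : A = θ₁ * A + θ₂ * A := by rw [← add_mul, h12, one_mul]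
    linarith only [t1, t2, t3, hA]

variable {X : Type} [MeasurableSpace X]

/-- Mean log partition function with `j` factors `F`, `k` factors `F₁` and `l` factors `F₂`. -/
noncomputable def bb (μ : Measure X) (F F₁ F₂ : Factor X) (j k l : ℕ) : (X → ℝ) → ℝ :=
  (avg F)^[j] ((avg F₁)^[k] ((avg F₂)^[l] (logZ μ)))

theorem bb_step (μ : Measure X) [IsProbabilityMeasure μ] (F F₁ F₂ : Factor X) {θ₁ θ₂ : ℝ}
    (hS : FLE (fun w => θ₁ * avg F₁ (logZ μ) w + θ₂ * avg F₂ (logZ μ) w) (avg F (logZ μ)))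
    (j k l : ℕ) :
    FLE (fun w => θ₁ * bb μ F F₁ F₂ j (k + 1) l w + θ₂ * bb μ F F₁ F₂ j k (l + 1) w)
      (bb μ F F₁ F₂ (j + 1) k l) := by
  have n0 := nice_logZ μ
  have n1 : Nice (avg F₁ (logZ μ)) := n0.avg F₁
  have n2 : Nice (avg F₂ (logZ μ)) := n0.avg F₂
  have nF : Nice (avg F (logZ μ)) := n0.avg F
  have nlin := n1.linear n2 θ₁ θ₂
  -- right side
  have r1 : FEQ (avg F ((avg F₁)^[k] ((avg F₂)^[l] (logZ μ))))
      ((avg F₁)^[k] ((avg F₂)^[l] (avg F (logZ μ)))) := by
    refine (avg_iter_comm (n0.iter F₂ l) F₁ F k).symm.trans ?_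
    exact ((avg_iter_comm n0 F₂ F l).symm).iter F₁ k
  have r2 : FLE ((avg F₁)^[k] ((avg F₂)^[l] (fun w => θ₁ * avg F₁ (logZ μ) w +
      θ₂ * avg F₂ (logZ μ) w))) ((avg F₁)^[k] ((avg F₂)^[l] (avg F (logZ μ)))) :=
    (hS.iter nlin nF F₂ l).iter (nlin.iter F₂ l) (nF.iter F₂ l) F₁ k
  have r3 : FEQ ((avg F₁)^[k] ((avg F₂)^[l] (fun w => θ₁ * avg F₁ (logZ μ) w +
      θ₂ * avg F₂ (logZ μ) w)))
      (fun w => θ₁ * (avg F₁)^[k] ((avg F₂)^[l] (avg F₁ (logZ μ))) w +
        θ₂ * (avg F₁)^[k] ((avg F₂)^[l] (avg F₂ (logZ μ))) w) :=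
    ((iter_linear n1 n2 θ₁ θ₂ F₂ l).iter F₁ k).trans
      (iter_linear (n1.iter F₂ l) (n2.iter F₂ l) θ₁ θ₂ F₁ k)
  have r4 : FEQ ((avg F₁)^[k] ((avg F₂)^[l] (avg F₁ (logZ μ))))
      ((avg F₁)^[k + 1] ((avg F₂)^[l] (logZ μ))) := by
    rw [Function.iterate_succ_apply]
    exact (avg_iter_comm n0 F₂ F₁ l).iter F₁ k
  have r5 : FEQ ((avg F₁)^[k] ((avg F₂)^[l] (avg F₂ (logZ μ))))
      ((avg F₁)^[k] ((avg F₂)^[l + 1] (logZ μ))) := by
    rw [Function.iterate_succ_apply]
    intro w _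
    rfl
  have r6 : FLE (fun w => θ₁ * (avg F₁)^[k + 1] ((avg F₂)^[l] (logZ μ)) w +
      θ₂ * (avg F₁)^[k] ((avg F₂)^[l + 1] (logZ μ)) w)
      (avg F ((avg F₁)^[k] ((avg F₂)^[l] (logZ μ)))) := by
    intro w hw
    have a1 := r1 w hw
    have a2 := r2 w hw
    have a3 := r3 w hw
    have a4 := r4 w hw
    have a5 := r5 w hw
    simp only at a3 ⊢
    rw [a1, ← a4, ← a5, ← a3]
    exact a2
  have m1 : Nice ((avg F₁)^[k + 1] ((avg F₂)^[l] (logZ μ))) := (n0.iter F₂ l).iter F₁ (k + 1)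
  have m2 : Nice ((avg F₁)^[k] ((avg F₂)^[l + 1] (logZ μ))) := (n0.iter F₂ (l + 1)).iter F₁ k
  have m3 : Nice (avg F ((avg F₁)^[k] ((avg F₂)^[l] (logZ μ)))) :=
    ((n0.iter F₂ l).iter F₁ k).avg F
  have r7 := r6.iter (m1.linear m2 θ₁ θ₂) m3 F j
  have r8 := iter_linear m1 m2 θ₁ θ₂ F j
  intro w hw
  have b1 := r7 w hw
  have b2 := r8 w hw
  have b3 : (avg F)^[j + 1] ((avg F₁)^[k] ((avg F₂)^[l] (logZ μ))) w =
      (avg F)^[j] (avg F ((avg F₁)^[k] ((avg F₂)^[l] (logZ μ)))) w := by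
    rw [Function.iterate_succ_apply]
  unfold bb
  simp only at b2 ⊢
  rw [← b2, b3]
  exact b1

theorem bb_lower (μ : Measure X) [IsProbabilityMeasure μ] (F F₁ F₂ : Factor X) {θ₁ θ₂ : ℝ}
    (h1 : 0 ≤ θ₁) (h2 : 0 ≤ θ₂) (h12 : θ₁ + θ₂ = 1)
    (hS : FLE (fun w => θ₁ * avg F₁ (logZ μ) w + θ₂ * avg F₂ (logZ μ) w) (avg F (logZ μ)))
    (A K m₁ m₂ : ℝ) (hK : 0 ≤ K) {w : X → ℝ} (hw : Good w)
    (h0 : ∀ k l : ℕ, A - K * (|(k : ℝ) - m₁| + |(l : ℝ) - m₂|) ≤
      (avg F₁)^[k] ((avg F₂)^[l] (logZ μ)) w) (M : ℕ) :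
    A - K * (√((θ₁ * M - m₁) ^ 2 + M * (θ₁ * θ₂)) +
      √((θ₂ * M - m₂) ^ 2 + M * (θ₁ * θ₂))) ≤ (avg F)^[M] (logZ μ) w := by
  have := recursion h1 h2 h12 (fun j k l => bb μ F F₁ F₂ j k l w) A K m₁ m₂ hK
    (fun j k l => bb_step μ F F₁ F₂ hS j k l w hw) (fun k l => h0 k l) M 0 0
  simpa only [tsub_le_iff_right, ge_iff_le, CharP.cast_eq_zero, zero_add, bb, Function.iterate_zero,     id_eq] using this

end Vale.Agent.P157.Exist
end

section

open MeasureTheory ProbabilityTheory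
open scoped RealInnerProductSpace

namespace Vale.Agent.P157.Exist

variable {X : Type} [MeasurableSpace X]

/-- Measurable weight bounded above and away from zero, on the line. -/
structure BddPos (U : ℝ → ℝ) : Prop where
  meas : Measurable U
  bdd : ∃ u₁ u₂ : ℝ, 0 < u₁ ∧ ∀ s, u₁ ≤ U s ∧ U s ≤ u₂

end Vale.Agent.P157.Exist
end

section

open MeasureTheory ProbabilityTheory
open scoped RealInnerProductSpace

namespace Vale.Agent.P157.Exist

/-- The normalized feature map of a configuration. -/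
noncomputable def feat (N : ℕ) (x : Fin N → ℝ) : Euc N := WithLp.toLp 2 fun i => x i / √(N : ℝ)

lemma measurable_feat (N : ℕ) : Measurable (feat N) := by
  unfold feat
  (clear * -; fun_prop)

lemma inner_feat (N : ℕ) (x y : Fin N → ℝ) :
    ⟪feat N x, feat N y⟫ = (∑ i, x i * y i) / N := by
  unfold feat
  simp only [PiLp.inner_apply, RCLike.inner_apply, conj_trivial, Finset.sum_div]
  refine Finset.sum_congr rfl fun i _ => ?_
  have : √(N : ℝ) * √(N : ℝ) = N := Real.mul_self_sqrt (Nat.cast_nonneg N)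
  rw [div_mul_div_comm, this]
  ring

end Vale.Agent.P157.Exist
end

section

open MeasureTheory ProbabilityTheory Filter Topology
open scoped RealInnerProductSpace

namespace Vale.Agent.P157.Exist

variable {X : Type} [MeasurableSpace X]

/-- A weight between `exp (-K)` and `exp K`. -/
structure BddLog (U : ℝ → ℝ) (K : ℝ) : Prop where
  meas : Measurable U
  lower : ∀ s, Real.exp (-K) ≤ U s
  upper : ∀ s, U s ≤ Real.exp K

end Vale.Agent.P157.Exist
end

section

open MeasureTheory ProbabilityTheory Filter Topology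
open scoped RealInnerProductSpace

namespace Vale.Agent.P157.Exist

variable {X : Type} [MeasurableSpace X]

end Vale.Agent.P157.Exist
end

section

/-! The cascade of a function which is at most quadratic. -/

open MeasureTheory ProbabilityTheory Filter Topology

namespace Vale.Agent.P157.Sph

open Par

set_option linter.unusedSectionVars false

/-- The integrand of the one-dimensional Gaussian integral. -/
lemma sphquad_integrand {a v x D : ℝ} (hv : 0 ≤ v) (hD : D = 1 - 2 * a * v) (hD0 : 0 < D)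
    (t : ℝ) : gaussianPDFReal 0 1 t * Real.exp (a * (x + √v * t) ^ 2) =
      (√(2 * Real.pi))⁻¹ * Real.exp (a * x ^ 2 / D) *
        Real.exp (-(D / 2) * (t - 2 * a * √v * x / D) ^ 2) := by
  have h1 : gaussianPDFReal 0 1 t = (√(2 * Real.pi))⁻¹ * Real.exp (-t ^ 2 / 2) := by
    unfold gaussianPDFReal
    simp only [NNReal.coe_one, mul_one, Nat.ofNat_nonneg, Real.sqrt_mul, mul_inv_rev, sub_zero]
  rw [h1, mul_assoc, mul_assoc, ← Real.exp_add, ← Real.exp_add]
  congr 2
  have hs : √v ^ 2 = v := Real.sq_sqrt hv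
  have hD' : D ≠ 0 := hD0.ne'
  field_simp
  have e1 : (√v) ^ 2 = v := hs
  subst hD
  ring_nf
  rw [show √v ^ 2 = v from hs]
  ring

/-- The one-dimensional Gaussian integral: integrability. -/
lemma sphquad_one_int {a v : ℝ} (x : ℝ) (hv : 0 ≤ v) (hD0 : 0 < 1 - 2 * a * v) :
    Integrable (fun t => Real.exp (a * (x + √v * t) ^ 2)) (gaussianReal 0 1) := by
  rw [gaussianReal_of_var_ne_zero 0 one_ne_zero]
  have hm : Measurable (gaussianPDF 0 1) := measurable_gaussianPDF 0 1
  rw [integrable_withDensity_iff_integrable_smul₀' hm.aemeasurable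
    (Filter.Eventually.of_forall fun t => by rw [gaussianPDF]; exact ENNReal.ofReal_lt_top)]
  have h : (fun t => (gaussianPDF 0 1 t).toReal • Real.exp (a * (x + √v * t) ^ 2)) =
      fun t => (√(2 * Real.pi))⁻¹ * Real.exp (a * x ^ 2 / (1 - 2 * a * v)) *
        Real.exp (-((1 - 2 * a * v) / 2) * (t - 2 * a * √v * x / (1 - 2 * a * v)) ^ 2) := by
    funext t
    rw [smul_eq_mul, toReal_gaussianPDF]
    exact sphquad_integrand hv rfl hD0 t
  rw [h]
  exact ((integrable_exp_neg_mul_sq (half_pos hD0)).comp_sub_right _).const_mul _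

/-- The one-dimensional Gaussian integral. -/
lemma sphquad_one {a v : ℝ} (x : ℝ) (hv : 0 ≤ v) (hD0 : 0 < 1 - 2 * a * v) :
    ∫ t, Real.exp (a * (x + √v * t) ^ 2) ∂(gaussianReal 0 1) =
      (√(1 - 2 * a * v))⁻¹ * Real.exp (a * x ^ 2 / (1 - 2 * a * v)) := by
  rw [integral_gaussianReal_eq_integral_smul one_ne_zero]
  have h : (fun t => gaussianPDFReal 0 1 t • Real.exp (a * (x + √v * t) ^ 2)) =
      fun t => (√(2 * Real.pi))⁻¹ * Real.exp (a * x ^ 2 / (1 - 2 * a * v)) *
        Real.exp (-((1 - 2 * a * v) / 2) * (t - 2 * a * √v * x / (1 - 2 * a * v)) ^ 2) := by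
    funext t
    exact sphquad_integrand hv rfl hD0 t
  rw [h, integral_const_mul, integral_sub_right_eq_self
    (fun t => Real.exp (-((1 - 2 * a * v) / 2) * t ^ 2)), integral_gaussian]
  have h1 : Real.pi / ((1 - 2 * a * v) / 2) = (2 * Real.pi) / (1 - 2 * a * v) := by
    field_simp
  rw [h1, Real.sqrt_div (by (clear * -; positivity))]
  have h2 : √(2 * Real.pi) ≠ 0 := by positivity
  have h3 : √(1 - 2 * a * v) ≠ 0 := (Real.sqrt_pos.2 hD0).ne'
  field_simp

variable {N : ℕ}

/-- Quadratic exponentials are integrable. -/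
lemma sphquad_int {a v : ℝ} (y : Fin N → ℝ) (hv : 0 ≤ v) (hD0 : 0 < 1 - 2 * a * v) :
    Integrable (fun z : Fin N → ℝ => Real.exp (a * ∑ i, (y + √v • z) i ^ 2)) (gN N) := by
  have h : (fun z : Fin N → ℝ => Real.exp (a * ∑ i, (y + √v • z) i ^ 2)) =
      fun z => ∏ i, (fun i t => Real.exp (a * (y i + √v * t) ^ 2)) i (z i) := by
    funext z
    rw [Finset.mul_sum, Real.exp_sum]
    rfl
  rw [h]
  exact Integrable.fintype_prod (f := fun i t => Real.exp (a * (y i + √v * t) ^ 2))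
    fun i => sphquad_one_int (y i) hv hD0

/-- The Gaussian integral of a quadratic exponential. -/
lemma sphquad_gauss {a v : ℝ} (y : Fin N → ℝ) (hv : 0 ≤ v) (hD0 : 0 < 1 - 2 * a * v) :
    ∫ z : Fin N → ℝ, Real.exp (a * ∑ i, (y + √v • z) i ^ 2) ∂(gN N) =
      Real.exp (-(N / 2) * Real.log (1 - 2 * a * v) + a * (∑ i, y i ^ 2) / (1 - 2 * a * v)) := by
  have h : (fun z : Fin N → ℝ => Real.exp (a * ∑ i, (y + √v • z) i ^ 2)) =
      fun z => ∏ i, (fun i t => Real.exp (a * (y i + √v * t) ^ 2)) i (z i) := by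
    funext z
    rw [Finset.mul_sum, Real.exp_sum]
    rfl
  have hp : ∫ z : Fin N → ℝ, ∏ i, (fun i t => Real.exp (a * (y i + √v * t) ^ 2)) i (z i) ∂(gN N) =
      ∏ i, ∫ t, Real.exp (a * (y i + √v * t) ^ 2) ∂(gaussianReal 0 1) :=
    integral_fintype_prod_eq_prod (𝕜 := ℝ) (μ := fun _ : Fin N => gaussianReal 0 1)
      (fun i t => Real.exp (a * (y i + √v * t) ^ 2))
  rw [h, hp]
  have h1 : ∀ i : Fin N, ∫ t, Real.exp (a * (y i + √v * t) ^ 2) ∂(gaussianReal 0 1) =
      Real.exp (-(1 / 2) * Real.log (1 - 2 * a * v) + a * y i ^ 2 / (1 - 2 * a * v)) := by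
    intro i
    rw [sphquad_one (y i) hv hD0, Real.exp_add]
    congr 1
    rw [neg_mul, Real.exp_neg, Real.sqrt_eq_rpow, Real.rpow_def_of_pos hD0, mul_comm (1 / 2 : ℝ)]
  simp only [h1]
  rw [← Real.exp_sum, Finset.sum_add_distrib]
  congr 2
  · simp only [one_div, neg_mul, Finset.sum_neg_distrib, Finset.sum_const, Finset.card_univ, Fintype.card_fin, nsmul_eq_mul, neg_inj]
    ring
  · rw [Finset.mul_sum, Finset.sum_div]

/-- Exponentials of minus the `l¹` norm have positive integral. -/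
lemma sphquad_expabs (c : ℝ) (hc : 0 ≤ c) :
    Integrable (fun z : Fin N → ℝ => Real.exp (-(c * ∑ i, |z i|))) (gN N) ∧
      0 < ∫ z : Fin N → ℝ, Real.exp (-(c * ∑ i, |z i|)) ∂(gN N) := by
  have hi : Integrable (fun z : Fin N → ℝ => Real.exp (-(c * ∑ i, |z i|))) (gN N) := by
    refine Integrable.mono' (integrable_const (1 : ℝ)) ?_ (Filter.Eventually.of_forall fun z => ?_)
    · exact Continuous.aestronglyMeasurable (by fun_prop)
    · rw [Real.norm_eq_abs, abs_of_pos (Real.exp_pos _)]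
      refine Real.exp_le_one_iff.2 ?_
      have : 0 ≤ c * ∑ i, |z i| := mul_nonneg hc (Finset.sum_nonneg fun i _ => abs_nonneg _)
      linarith
  exact ⟨hi, integral_exp_pos hi⟩

/-- One step of the cascade of an at most quadratic function. -/
lemma sphquad_step {m v b' c C : ℝ} {G : (Fin N → ℝ) → ℝ} (hm : 0 < m) (hv : 0 ≤ v)
    (hb : 0 < b' - m * v) (hb' : 0 < b') (hG : Measurable G) (hC : 0 ≤ C)
    (hlow : ∀ y, -(C * (1 + ∑ i, |y i|)) ≤ G y)
    (h : ∀ y, G y ≤ c + (∑ i, y i ^ 2) / (2 * b')) :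
    Measurable (gstepN m v G) ∧
    (∃ C' : ℝ, 0 ≤ C' ∧ ∀ y, -(C' * (1 + ∑ i, |y i|)) ≤ gstepN m v G y) ∧
    ∀ y, gstepN m v G y ≤ c + N / (2 * m) * Real.log (b' / (b' - m * v)) +
      (∑ i, y i ^ 2) / (2 * (b' - m * v)) := by
  have hD : 1 - 2 * (m / (2 * b')) * v = (b' - m * v) / b' := by
    field_simp
  have hD0 : 0 < 1 - 2 * (m / (2 * b')) * v := by rw [hD]; (clear * - hb hb'; positivity)
  have hmeas : Measurable fun p : (Fin N → ℝ) × (Fin N → ℝ) =>
      Real.exp (m * G (p.1 + √v • p.2)) := by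
    refine Real.measurable_exp.comp (measurable_const.mul (hG.comp ?_))
    have h0 : Continuous fun p : (Fin N → ℝ) × (Fin N → ℝ) => p.1 + √v • p.2 := by fun_prop
    exact h0.measurable
  have hup : ∀ y z : Fin N → ℝ, Real.exp (m * G (y + √v • z)) ≤
      Real.exp (m * c) * Real.exp (m / (2 * b') * ∑ i, (y + √v • z) i ^ 2) := by
    intro y z
    rw [← Real.exp_add]
    refine Real.exp_le_exp.2 ?_
    have h1 := mul_le_mul_of_nonneg_left (h (y + √v • z)) hm.le
    refine h1.trans (le_of_eq ?_)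
    field_simp
  have hint : ∀ y : Fin N → ℝ,
      Integrable (fun z : Fin N → ℝ => Real.exp (m * G (y + √v • z))) (gN N) := by
    intro y
    refine Integrable.mono' ((sphquad_int y hv hD0).const_mul (Real.exp (m * c))) ?_
      (Filter.Eventually.of_forall fun z => ?_)
    · exact (hmeas.comp (measurable_prodMk_left (x := y))).aestronglyMeasurable
    · rw [Real.norm_eq_abs, abs_of_pos (Real.exp_pos _)]
      exact hup y z
  have hpos : ∀ y : Fin N → ℝ, 0 < ∫ z : Fin N → ℝ, Real.exp (m * G (y + √v • z)) ∂(gN N) :=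
    fun y => integral_exp_pos (hint y)
  refine ⟨?_, ?_, ?_⟩
  · have h1 : Measurable fun y : Fin N → ℝ =>
        ∫ z : Fin N → ℝ, Real.exp (m * G (y + √v • z)) ∂(gN N) :=
      (hmeas.stronglyMeasurable.integral_prod_right (ν := gN N)).measurable
    exact measurable_const.mul (Real.measurable_log.comp h1)
  · obtain ⟨hI, hI0⟩ := sphquad_expabs (N := N) (m * C * √v) (by (clear * - hm hC; positivity))
    set I : ℝ := ∫ z : Fin N → ℝ, Real.exp (-(m * C * √v * ∑ i, |z i|)) ∂(gN N) with hIdef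
    refine ⟨C + |1 / m * Real.log I|, by (clear * - hC; positivity), fun y => ?_⟩
    have h2 : Real.exp (-(m * C * (1 + ∑ i, |y i|))) * I ≤
        ∫ z : Fin N → ℝ, Real.exp (m * G (y + √v • z)) ∂(gN N) := by
      rw [hIdef, ← integral_const_mul]
      refine integral_mono (hI.const_mul _) (hint y) fun z => ?_
      show Real.exp (-(m * C * (1 + ∑ i, |y i|))) * Real.exp (-(m * C * √v * ∑ i, |z i|)) ≤
        Real.exp (m * G (y + √v • z))
      rw [← Real.exp_add]
      refine Real.exp_le_exp.2 ?_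
      have h3 := mul_le_mul_of_nonneg_left (hlow (y + √v • z)) hm.le
      refine le_trans ?_ h3
      have h4 : ∑ i, |(y + √v • z) i| ≤ ∑ i, |y i| + √v * ∑ i, |z i| := by
        rw [Finset.mul_sum, ← Finset.sum_add_distrib]
        refine Finset.sum_le_sum fun i _ => ?_
        have h5 : (y + √v • z) i = y i + √v * z i := rfl
        rw [h5]
        refine (abs_add_le _ _).trans ?_
        rw [abs_mul, abs_of_nonneg (Real.sqrt_nonneg v)]
      have h6 : m * C * ∑ i, |(y + √v • z) i| ≤ m * C * (∑ i, |y i| + √v * ∑ i, |z i|) :=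
        mul_le_mul_of_nonneg_left h4 (by (clear * - hm hC; positivity))
      linarith only [h6]
    have h7 : Real.log (Real.exp (-(m * C * (1 + ∑ i, |y i|))) * I) ≤
        Real.log (∫ z : Fin N → ℝ, Real.exp (m * G (y + √v • z)) ∂(gN N)) :=
      Real.log_le_log (by (clear * - hI0; positivity)) h2
    rw [Real.log_mul (Real.exp_pos _).ne' hI0.ne', Real.log_exp] at h7
    have h8 : 1 / m * (-(m * C * (1 + ∑ i, |y i|)) + Real.log I) ≤ gstepN m v G y :=
      mul_le_mul_of_nonneg_left h7 (by positivity)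
    refine le_trans ?_ h8
    have h9 : 1 / m * (-(m * C * (1 + ∑ i, |y i|)) + Real.log I) =
        -(C * (1 + ∑ i, |y i|)) + 1 / m * Real.log I := by
      (clear * - hm; field_simp)
    rw [h9]
    have h10 : 0 ≤ ∑ i, |y i| := Finset.sum_nonneg fun i _ => abs_nonneg _
    have h11 := neg_abs_le (1 / m * Real.log I)
    have h12 : 0 ≤ |1 / m * Real.log I| * ∑ i, |y i| := mul_nonneg (abs_nonneg _) h10
    nlinarith only [h11, h12]
  · intro y
    have h1 : ∫ z : Fin N → ℝ, Real.exp (m * G (y + √v • z)) ∂(gN N) ≤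
        Real.exp (m * c) * ∫ z : Fin N → ℝ,
          Real.exp (m / (2 * b') * ∑ i, (y + √v • z) i ^ 2) ∂(gN N) := by
      rw [← integral_const_mul]
      exact integral_mono (hint y) ((sphquad_int y hv hD0).const_mul _) (hup y)
    rw [sphquad_gauss y hv hD0, ← Real.exp_add] at h1
    have h2 := Real.log_le_log (hpos y) h1
    rw [Real.log_exp] at h2
    have h3 : gstepN m v G y ≤ 1 / m * (m * c + (-(N / 2) * Real.log (1 - 2 * (m / (2 * b')) * v) +
        m / (2 * b') * (∑ i, y i ^ 2) / (1 - 2 * (m / (2 * b')) * v))) :=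
      mul_le_mul_of_nonneg_left h2 (by positivity)
    refine h3.trans (le_of_eq ?_)
    rw [hD]
    have h4 : Real.log ((b' - m * v) / b') = -Real.log (b' / (b' - m * v)) := by
      rw [← Real.log_inv, inv_div]
    rw [h4]
    have h5 : b' - m * v ≠ 0 := hb.ne'
    field_simp
    ring

/-- Integral of a function that is at most quadratic. -/
lemma sphquad_base {r b c C : ℝ} {G : (Fin N → ℝ) → ℝ} (hr : 0 ≤ r) (hb : 0 < b)
    (hG : Measurable G) (hC : 0 ≤ C)
    (hlow : ∀ y, -(C * (1 + ∑ i, |y i|)) ≤ G y)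
    (h : ∀ y, G y ≤ c + (∑ i, y i ^ 2) / (2 * b)) :
    ∫ z, G (√r • z) ∂(gN N) ≤ c + N * (r / (2 * b)) := by
  have hz : Integrable (fun t : ℝ => t ^ 2) (gaussianReal 0 1) := by
    have := memLp_id_gaussianReal (μ := 0) (v := 1) 2
    exact this.integrable_sq
  have hz1 : Integrable (fun t : ℝ => |t|) (gaussianReal 0 1) := by
    have := memLp_id_gaussianReal (μ := 0) (v := 1) 1
    exact (memLp_one_iff_integrable.1 this).abs
  have hv : ∫ t : ℝ, t ^ 2 ∂(gaussianReal 0 1) = 1 := by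
    have h1 : Var[fun x : ℝ => x; gaussianReal 0 1] = 1 := by
      rw [variance_fun_id_gaussianReal]
      simp
    rw [variance_eq_integral (by fun_prop)] at h1
    simpa [integral_id_gaussianReal] using h1
  have hzi : ∀ i : Fin N, Integrable (fun z : Fin N → ℝ => z i ^ 2) (gN N) := fun i =>
    (measurePreserving_eval (fun _ : Fin N => gaussianReal 0 1) i).integrable_comp
      (hz.aestronglyMeasurable) |>.2 hz
  have hz1i : ∀ i : Fin N, Integrable (fun z : Fin N → ℝ => |z i|) (gN N) := fun i =>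
    (measurePreserving_eval (fun _ : Fin N => gaussianReal 0 1) i).integrable_comp
      (hz1.aestronglyMeasurable) |>.2 hz1
  have hvi : ∀ i : Fin N, ∫ z : Fin N → ℝ, z i ^ 2 ∂(gN N) = 1 := by
    intro i
    have h1 : ∫ z : Fin N → ℝ, (fun t : ℝ => t ^ 2) (z i) ∂(gN N) =
        ∫ t, (fun t : ℝ => t ^ 2) t ∂(gaussianReal 0 1) :=
      integral_comp_eval (μ := fun _ : Fin N => gaussianReal 0 1) (i := i)
        hz.aestronglyMeasurable
    rw [← hv]
    exact h1
  have hS2 : Integrable (fun z : Fin N → ℝ => ∑ i, (√r • z) i ^ 2) (gN N) := by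
    refine integrable_finsetSum _ fun i _ => ?_
    have : (fun z : Fin N → ℝ => (√r • z) i ^ 2) = fun z => r * z i ^ 2 := by
      funext z
      show (√r * z i) ^ 2 = _
      rw [mul_pow, Real.sq_sqrt hr]
    rw [this]
    exact (hzi i).const_mul _
  have hS1 : Integrable (fun z : Fin N → ℝ => ∑ i, |(√r • z) i|) (gN N) := by
    refine integrable_finsetSum _ fun i _ => ?_
    have : (fun z : Fin N → ℝ => |(√r • z) i|) = fun z => √r * |z i| := by
      funext z
      show |√r * z i| = _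
      rw [abs_mul, abs_of_nonneg (Real.sqrt_nonneg r)]
    rw [this]
    exact (hz1i i).const_mul _
  have hupi : Integrable (fun z : Fin N → ℝ => c + (∑ i, (√r • z) i ^ 2) / (2 * b)) (gN N) :=
    (integrable_const c).add (hS2.div_const _)
  have hlowi : Integrable (fun z : Fin N → ℝ => C * (1 + ∑ i, |(√r • z) i|)) (gN N) :=
    ((integrable_const (1 : ℝ)).add hS1).const_mul C
  have hGi : Integrable (fun z : Fin N → ℝ => G (√r • z)) (gN N) := by
    refine Integrable.mono' (hupi.abs.add hlowi.abs) ?_ (Filter.Eventually.of_forall fun z => ?_)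
    · exact (hG.comp (measurable_const_smul (√r))).aestronglyMeasurable
    · have h1 := hlow (√r • z)
      have h2 := h (√r • z)
      show |G (√r • z)| ≤ |c + (∑ i, (√r • z) i ^ 2) / (2 * b)| + |C * (1 + ∑ i, |(√r • z) i|)|
      have h3 := le_abs_self (c + (∑ i, (√r • z) i ^ 2) / (2 * b))
      have h4 := le_abs_self (C * (1 + ∑ i, |(√r • z) i|))
      have h5 := abs_nonneg (c + (∑ i, (√r • z) i ^ 2) / (2 * b))
      have h6 := abs_nonneg (C * (1 + ∑ i, |(√r • z) i|))
      exact abs_le.2 ⟨by linarith only [h1, h4, h5], by linarith only [h2, h3, h6]⟩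
  refine (integral_mono hGi hupi fun z => h (√r • z)).trans (le_of_eq ?_)
  rw [integral_add (integrable_const c) (hS2.div_const _), integral_const, integral_div,
    integral_finsetSum]
  · have h1 : ∀ i : Fin N, ∫ z : Fin N → ℝ, (√r • z) i ^ 2 ∂(gN N) = r := by
      intro i
      have : (fun z : Fin N → ℝ => (√r • z) i ^ 2) = fun z => r * z i ^ 2 := by
        funext z
        show (√r * z i) ^ 2 = _
        rw [mul_pow, Real.sq_sqrt hr]
      rw [this, integral_const_mul, hvi, mul_one]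
    simp only [h1]
    simp only [probReal_univ, smul_eq_mul, one_mul, Finset.sum_const, Finset.card_univ, Fintype.card_fin, nsmul_eq_mul, add_right_inj]
    ring
  · intro i _
    have : (fun z : Fin N → ℝ => (√r • z) i ^ 2) = fun z => r * z i ^ 2 := by
      funext z
      show (√r * z i) ^ 2 = _
      rw [mul_pow, Real.sq_sqrt hr]
    rw [this]
    exact (hzi i).const_mul _

/-- The general bound. -/
lemma sphquad_main {m r b : ℕ → ℝ} (hr0 : 0 ≤ r 0) (hb0 : 0 < b 0) (K : ℕ) :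
    ∀ (_ : ∀ l < K, 0 < m (l + 1)) (_ : ∀ l < K, r l ≤ r (l + 1))
      (_ : ∀ l < K, b l = b (l + 1) - m (l + 1) * (r (l + 1) - r l)) (c C : ℝ)
      (G : (Fin N → ℝ) → ℝ) (_ : Measurable G) (_ : 0 ≤ C)
      (_ : ∀ y, -(C * (1 + ∑ i, |y i|)) ≤ G y)
      (_ : ∀ y, G y ≤ c + (∑ i, y i ^ 2) / (2 * b K)),
      topN m r K G ≤ c + N * (∑ l ∈ Finset.range K, 1 / (2 * m (l + 1)) *
        Real.log (b (l + 1) / b l) + r 0 / (2 * b 0)) := by
  induction K with
  | zero =>
    intro _ _ _ c C G hG hC hlow h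
    have h1 : topN m r 0 G = ∫ z, G (√(r 0) • z) ∂(gN N) := by
      have h2 := @topN.eq_1
      simp only [topN]
    rw [h1, Finset.sum_range_zero, zero_add]
    exact sphquad_base hr0 hb0 hG hC hlow h
  | succ K ih =>
    intro hm hr hb c C G hG hC hlow h
    have hbpos : ∀ l ≤ K, 0 < b l := by
      intro l
      induction l with
      | zero => intro _; exact hb0
      | succ l ihl =>
        intro hl
        have h1 := ihl (by omega)
        have h2 := hb l (by omega)
        have h3 := hm l (by omega)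
        have h4 := hr l (by omega)
        have h5 : 0 ≤ m (l + 1) * (r (l + 1) - r l) := mul_nonneg h3.le (by linarith only [h4])
        linarith only [h1, h2, h5]
    have hbK := hbpos K le_rfl
    have h2 := hb K (by omega)
    have h3 := hm K (by omega)
    have h4 := hr K (by omega)
    have h5 : 0 ≤ m (K + 1) * (r (K + 1) - r K) := mul_nonneg h3.le (by linarith)
    obtain ⟨hG', ⟨C', hC', hlow'⟩, hup'⟩ := sphquad_step (v := r (K + 1) - r K) (b' := b (K + 1))
      h3 (by linarith) (by linarith) (by linarith) hG hC hlow h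
    rw [← h2] at hup'
    have h6 := ih (fun l hl => hm l (by omega)) (fun l hl => hr l (by omega))
      (fun l hl => hb l (by omega)) _ C' _ hG' hC' hlow' hup'
    rw [topN_succ_def, Finset.sum_range_succ]
    refine h6.trans (le_of_eq ?_)
    have h7 : m (K + 1) ≠ 0 := h3.ne'
    field_simp
    ring

/-- The cascade of a function which is at most quadratic. -/
theorem topN_le_quad {N K : ℕ} {m r b : ℕ → ℝ} (hm : Exponents K m) (hr : Path K r)
    (hb0 : 0 < b 0) (hb : ∀ l < K, b l = b (l + 1) - m (l + 1) * (r (l + 1) - r l)) {c : ℝ}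
    {G : (Fin N → ℝ) → ℝ} (hG : Continuous G)
    (hlow : ∃ C : ℝ, ∀ y, -(C * (1 + ∑ i, |y i|)) ≤ G y)
    (h : ∀ y, G y ≤ c + (∑ i, y i ^ 2) / (2 * b K)) :
    topN m r K G ≤ c + N * (∑ l ∈ Finset.range K, 1 / (2 * m (l + 1)) *
      Real.log (b (l + 1) / b l) + r 0 / (2 * b 0)) := by
  obtain ⟨C, hC⟩ := hlow
  have hmpos : ∀ l ≤ K, 0 < m (l + 1) := by
    intro l
    induction l with
    | zero => intro _; have h1 := hm.2.2 0 (by omega); rw [hm.1] at h1; exact h1
    | succ l ihl =>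
      intro hl
      have h1 := ihl (by omega)
      have h2 := hm.2.2 (l + 1) hl
      linarith only [h1, h2]
  refine sphquad_main hr.1 hb0 K (fun l hl => hmpos l hl.le) hr.2 hb c |C| G hG.measurable
    (abs_nonneg C) (fun y => ?_) h
  refine le_trans ?_ (hC y)
  have h1 : 0 ≤ ∑ i, |y i| := Finset.sum_nonneg fun i _ => abs_nonneg _
  have h2 : C * (1 + ∑ i, |y i|) ≤ |C| * (1 + ∑ i, |y i|) :=
    mul_le_mul_of_nonneg_right (le_abs_self C) (by linarith)
  linarith

end Vale.Agent.P157.Sph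
end

section

/-! Concentration of the free energy of the perturbed system, for general features (the features
of `Base.VV_lz_le` are flat): Gaussian Poincare inequality instead of Efron-Stein. -/

open MeasureTheory ProbabilityTheory Filter Topology
open scoped RealInnerProductSpace

namespace Vale.Agent.P157.Sph

open Par

open Vale.Agent.P367.GT (gM)

set_option linter.unusedSectionVars false

variable (B : Base) {P : ℕ} (s : ℝ) (u : Fin P → ℝ)

/-- The sum of the squares of the coefficients. -/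
theorem sum_coef_sq (hu : ∀ q, 0 ≤ u q ∧ u q ≤ 3) (x : B.X) :
    ∑ e : GI P B.d, B.coef P s u e x ^ 2 ≤ 3 * s ^ 2 := by
  rw [Fintype.sum_sigma]
  have e2 : ∀ p : Fin P, ∑ k : Fin ((p : ℕ) + 1) → Fin B.d, B.coef P s u ⟨p, k⟩ x ^ 2 =
      s ^ 2 * (u p ^ 2 * (1 / 4) ^ ((p : ℕ) + 1)) := by
    intro p
    have h1 : ∀ k : Fin ((p : ℕ) + 1) → Fin B.d, B.coef P s u ⟨p, k⟩ x ^ 2 =
        s ^ 2 * (u p ^ 2 * (1 / 4) ^ ((p : ℕ) + 1)) *
          ((∏ r, B.φ x (k r)) * ∏ r, B.φ x (k r)) := by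
      intro k
      have h4 : ((1 : ℝ) / 4) ^ ((p : ℕ) + 1) = ((1 / 2) ^ ((p : ℕ) + 1)) ^ 2 := by
        rw [← pow_mul, mul_comm, pow_mul]
        norm_num
      unfold Base.coef
      rw [h4]
      ring
    simp only [h1]
    rw [← Finset.mul_sum, B.inner_pow, real_inner_self_eq_norm_sq, B.hφ]
    simp only [one_div, inv_pow, one_pow, mul_one]
  simp only [e2]
  rw [← Finset.mul_sum]
  have e3 : ∑ p : Fin P, u p ^ 2 * (1 / 4 : ℝ) ^ ((p : ℕ) + 1) ≤ 3 := by
    calc ∑ p : Fin P, u p ^ 2 * (1 / 4 : ℝ) ^ ((p : ℕ) + 1)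
        ≤ ∑ p : Fin P, 9 * (1 / 4 : ℝ) ^ ((p : ℕ) + 1) := by
          refine Finset.sum_le_sum fun p _ => mul_le_mul_of_nonneg_right ?_ (by positivity)
          have := hu p
          nlinarith only [this]
      _ = 9 / 4 * ∑ p : Fin P, (1 / 4 : ℝ) ^ (p : ℕ) := by
          rw [Finset.mul_sum]
          exact Finset.sum_congr rfl fun p _ => by ring
      _ = 9 / 4 * ∑ p ∈ Finset.range P, (1 / 4 : ℝ) ^ p := by
          rw [Fin.sum_univ_eq_sum_range (fun p => (1 / 4 : ℝ) ^ p)]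
      _ ≤ 9 / 4 * (4 / 3) := by
          refine mul_le_mul_of_nonneg_left ?_ (by norm_num)
          rw [geom_sum_eq (by norm_num)]
          have : (0 : ℝ) ≤ (1 / 4) ^ P := by positivity
          rw [div_le_iff_of_neg (by norm_num)]
          linarith
      _ = 3 := by norm_num
  calc s ^ 2 * ∑ p : Fin P, u p ^ 2 * (1 / 4 : ℝ) ^ ((p : ℕ) + 1) ≤ s ^ 2 * 3 :=
        mul_le_mul_of_nonneg_left e3 (sq_nonneg _)
    _ = 3 * s ^ 2 := by ring

/-- The free energy of the perturbation has at most exponential growth. -/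
lemma sphconc_eg_lz (ω : B.Ω) : Lv.EG fun g : GI P B.d → ℝ => B.lz s u (ω, g) := by
  have hm : Measurable fun g : GI P B.d → ℝ => B.lz s u (ω, g) :=
    (B.meas_lz s u).comp measurable_prodMk_left
  have hb : ∀ p : Fin P, Lv.EG fun g : GI P B.d → ℝ => B.hb p (ω, g) := fun p => by
    unfold Base.hb
    exact Lv.EG.sum _ fun k _ => (Lv.EG.coord _).abs
  have hi : Lv.EG fun g : GI P B.d → ℝ => |Real.log (Fintype.card B.X)| +
      (B.K + |s| * ∑ p, |u p| * B.hb p (ω, g)) :=
    (Lv.EG.const _).add ((Lv.EG.const _).add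
      (Lv.EG.const_mul _ (Lv.EG.sum _ fun p _ => (hb p).const_mul _)))
  exact hi.mono hm fun g => (B.abs_lz_le s u (ω, g)).trans (le_abs_self _)

/-- The gradient of the free energy of the perturbation. -/
lemma sphconc_pd_lz (ω : B.Ω) (e : GI P B.d) :
    Lv.PD e (fun g : GI P B.d → ℝ => B.lz s u (ω, g))
      (fun g => gmean (gen (B.H ω) (B.coef P s u) g) (B.coef P s u e)) := by
  intro g t
  have h := hasDerivAt_glog (gen (B.H ω) (B.coef P s u) (Function.update g e 0))
    (B.coef P s u e) t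
  have h' : (fun t => B.lz s u (ω, Function.update g e t)) =
      fun y => Real.log (∑ x, Real.exp
        (gen (B.H ω) (B.coef P s u) (Function.update g e 0) x + y * B.coef P s u e x)) := by
    funext y
    unfold Base.lz
    show Real.log (∑ x, Real.exp (gen (B.H ω) (B.coef P s u) (Function.update g e y) x)) = _
    rw [gen_update (B.H ω) (B.coef P s u) g e y]
  rw [h']
  have h2 : gmean (gen (B.H ω) (B.coef P s u) (Function.update g e t)) (B.coef P s u e) =
      gmean (fun y => gen (B.H ω) (B.coef P s u) (Function.update g e 0) y +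
        t * B.coef P s u e y) (B.coef P s u e) := by
    rw [gen_update (B.H ω) (B.coef P s u) g e t]
  show HasDerivAt _ (gmean (gen (B.H ω) (B.coef P s u) (Function.update g e t))
    (B.coef P s u e)) _
  rw [h2]
  exact h

/-- The gradient has at most exponential growth. -/
lemma sphconc_eg_gm (ω : B.Ω) (e : GI P B.d) :
    Lv.EG fun g : GI P B.d → ℝ => gmean (gen (B.H ω) (B.coef P s u) g) (B.coef P s u e) := by
  have h3 : Measurable fun g : GI P B.d → ℝ =>
      gmean (gen (B.H ω) (B.coef P s u) g) (B.coef P s u e) := by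
    unfold gmean gwt gen
    fun_prop
  have h4 : ∀ x, |B.coef P s u e x| ≤ ∑ x, |B.coef P s u e x| := fun x =>
    Finset.single_le_sum (f := fun x => |B.coef P s u e x|) (fun _ _ => abs_nonneg _)
      (Finset.mem_univ x)
  have h5 : ∀ g : GI P B.d → ℝ, |gmean (gen (B.H ω) (B.coef P s u) g) (B.coef P s u e)| ≤
      ∑ x, |B.coef P s u e x| := fun g => abs_gmean_le _ _ h4
  exact Lv.EG.of_bdd h3 h5

/-- The square norm of the gradient. -/
lemma sphconc_grad (hu : ∀ q, 0 ≤ u q ∧ u q ≤ 3) (ω : B.Ω) (g : GI P B.d → ℝ) :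
    ∑ e, gmean (gen (B.H ω) (B.coef P s u) g) (B.coef P s u e) ^ 2 ≤ 3 * s ^ 2 := by
  set w := gwt (gen (B.H ω) (B.coef P s u) g) with hw
  have h1 : ∀ e, gmean (gen (B.H ω) (B.coef P s u) g) (B.coef P s u e) ^ 2 ≤
      ∑ x, w x * B.coef P s u e x ^ 2 := by
    intro e
    unfold gmean
    rw [← hw]
    have h2 := Finset.sum_mul_sq_le_sq_mul_sq Finset.univ (fun x => √(w x))
      (fun x => √(w x) * B.coef P s u e x)
    have h3 : ∀ x, √(w x) * (√(w x) * B.coef P s u e x) = w x * B.coef P s u e x := by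
      intro x
      rw [← mul_assoc, Real.mul_self_sqrt (gwt_nonneg _ _)]
    have h4 : ∀ x, √(w x) ^ 2 = w x := fun x => Real.sq_sqrt (gwt_nonneg _ _)
    have h5 : ∀ x, (√(w x) * B.coef P s u e x) ^ 2 = w x * B.coef P s u e x ^ 2 := by
      intro x
      rw [mul_pow, h4]
    simp only [h3, h4, h5] at h2
    rw [sum_gwt, one_mul] at h2
    exact h2
  calc ∑ e, gmean (gen (B.H ω) (B.coef P s u) g) (B.coef P s u e) ^ 2
      ≤ ∑ e, ∑ x, w x * B.coef P s u e x ^ 2 := Finset.sum_le_sum fun e _ => h1 e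
    _ = ∑ x, w x * ∑ e, B.coef P s u e x ^ 2 := by
        rw [Finset.sum_comm]
        exact Finset.sum_congr rfl fun x _ => (Finset.mul_sum _ _ _).symm
    _ ≤ ∑ x, w x * (3 * s ^ 2) := Finset.sum_le_sum fun x _ =>
        mul_le_mul_of_nonneg_left (sum_coef_sq B s u hu x) (gwt_nonneg _ _)
    _ = 3 * s ^ 2 := by rw [← Finset.sum_mul, sum_gwt, one_mul]

/-- The variance of the free energy with respect to the perturbation (`Lv.var_le`). -/
theorem var_section (hu : ∀ q, 0 ≤ u q ∧ u q ≤ 3) (ω : B.Ω) :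
    VV (gM (GI P B.d)) (fun g => B.lz s u (ω, g)) ≤ 6 * s ^ 2 := by
  have hE := sphconc_eg_lz B s u ω
  have hM : MemLp (fun g => B.lz s u (ω, g)) 2 (gM (GI P B.d)) :=
    (memLp_two_iff_integrable_sq hE.meas.aestronglyMeasurable).2 (hE.pow 2).integrable
  rw [VV_eq _ hM]
  have h := Lv.var_le hE (sphconc_pd_lz B s u ω) (sphconc_eg_gm B s u ω)
    (sphconc_grad B s u hu ω)
  have h6 : 2 * (3 * s ^ 2) = 6 * s ^ 2 := by ring
  rw [h6] at h
  exact h

/-- The variance of the free energy of the perturbed system. -/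
theorem VV_lz_le {v : ℝ} (hc : B.Conc v) (hu : ∀ q, 0 ≤ u q ∧ u q ≤ 3) :
    VV (B.jl (GI P B.d)) (B.lz s u) ≤ 6 * s ^ 2 + v := by
  refine VV_prod_le B.P (gM (GI P B.d)) (B.memLp_lz s u) ?_ ?_
  · intro ω _
    exact var_section B s u hu ω
  · intro hg
    refine hc _ ?_ hg ?_
    · exact ((B.meas_lz s u).stronglyMeasurable.integral_prod_right'
        (ν := gM (GI P B.d))).measurable
    · intro ω ω' C hC
      have hi : ∀ ω, Integrable (fun y => B.lz s u (ω, y)) (gM (GI P B.d)) := by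
        intro ω
        exact B.int_lz_section s u ω
      rw [← integral_sub (hi ω) (hi ω')]
      refine (abs_integral_le_integral_abs).trans ?_
      have h4 := integral_mono ((hi ω).sub (hi ω')).abs
          (integrable_const (μ := gM (GI P B.d)) C)
          (fun g => B.lz_base_le s u ω ω' g hC)
      simpa only [ge_iff_le, Pi.sub_apply, integral_const, probReal_univ, smul_eq_mul, one_mul] using h4

/-- The expected deviation of the free energy of the perturbed system. -/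
theorem sphconc_dlz_le {v : ℝ} (hc : B.Conc v) (hu : ∀ q, 0 ≤ u q ∧ u q ≤ 3) :
    B.dlz s u ≤ Real.sqrt (6 * s ^ 2 + v) :=
  (l1_le_sqrt_VV (B.jl (GI P B.d)) (B.memLp_lz s u)).trans
    (Real.sqrt_le_sqrt (VV_lz_le B s u hc hu))

/-- The average over the parameters of the fluctuation of the `p`-th process. -/
theorem integral_dev_le (hs : 1 ≤ s) (p : Fin P) {A : ℝ} (hA : 0 ≤ A)
    (hc : B.Conc (A * B.d)) (hs1 : s ^ 2 ≤ B.d) (hs2 : Real.sqrt B.d ≤ s ^ 2) :
    ∫ u, B.dev P s u p (B.mh P s u p) ∂(nuP P) ≤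
      2 ^ ((p : ℕ) + 1) * (15 + 3 * Real.sqrt (6 + A)) * Real.sqrt (Real.sqrt B.d) := by
  have hd1 : (1 : ℝ) ≤ B.d := by exact_mod_cast B.d_pos
  have hs0 : 0 < s := by linarith only [hs]
  set q := Real.sqrt (Real.sqrt B.d) with hq
  have hq4 : q ^ 2 = Real.sqrt B.d := Real.sq_sqrt (Real.sqrt_nonneg _)
  have hsd : Real.sqrt B.d ^ 2 = B.d := Real.sq_sqrt (by linarith only [])
  have hq1 : 1 ≤ q := by
    rw [hq]
    exact Real.one_le_sqrt.2 (Real.one_le_sqrt.2 hd1)
  have hqs : q ≤ s := by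
    rw [← hq4] at hs2
    exact (sq_le_sq₀ (by linarith) hs0.le).1 hs2
  have h := B.integral_dev_le s hs0 p (η := q / s) (by positivity)
    (by rw [div_le_one hs0]; exact hqs) (fun u hu => sphconc_dlz_le B s u hc hu)
  refine h.trans ?_
  have hc1 : (0 : ℝ) < (1 / 2) ^ ((p : ℕ) + 1) := by positivity
  have hc2 : ((1 : ℝ) / 2) ^ ((p : ℕ) + 1) ≤ 1 := pow_le_one₀ (by norm_num) (by norm_num)
  have hc3 : (2 : ℝ) ^ ((p : ℕ) + 1) * (1 / 2) ^ ((p : ℕ) + 1) = 1 := by
    rw [← mul_pow]; norm_num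
  have hc4 : (1 : ℝ) ≤ 2 ^ ((p : ℕ) + 1) := one_le_pow₀ (by norm_num)
  have b1 : Real.sqrt (6 * s ^ 2 + A * B.d) ≤ Real.sqrt (6 + A) * q ^ 2 := by
    rw [hq4, ← Real.sqrt_mul (by linarith only [hA])]
    exact Real.sqrt_le_sqrt (by nlinarith only [hs1])
  have e1 : q / s * (s * (1 / 2) ^ ((p : ℕ) + 1)) = q * (1 / 2) ^ ((p : ℕ) + 1) := by
    field_simp
  have e2 : 12 * (q / s) * (s * (1 / 2) ^ ((p : ℕ) + 1)) = 12 * (q * (1 / 2) ^ ((p : ℕ) + 1)) := by
    rw [mul_assoc, e1]
  have hkap : B.kap s p = s * (1 / 2) ^ ((p : ℕ) + 1) := rfl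
  rw [hkap, e1, e2]
  have b2 : 3 * Real.sqrt (6 * s ^ 2 + A * B.d) / (q * (1 / 2) ^ ((p : ℕ) + 1)) ≤
      2 ^ ((p : ℕ) + 1) * (3 * Real.sqrt (6 + A)) * q := by
    rw [div_le_iff₀ (by positivity)]
    calc 3 * Real.sqrt (6 * s ^ 2 + A * B.d) ≤ 3 * (Real.sqrt (6 + A) * q ^ 2) := by linarith only [b1]
      _ = (2 ^ ((p : ℕ) + 1) * (1 / 2) ^ ((p : ℕ) + 1)) * (3 * (Real.sqrt (6 + A) * q ^ 2)) := by
          rw [hc3, one_mul]
      _ = _ := by ring
  have b3 : (5 : ℝ) / 2 ≤ 3 * (2 ^ ((p : ℕ) + 1) * q) := by nlinarith only [hq1, hc4]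
  have b4 : 12 * (q * (1 / 2) ^ ((p : ℕ) + 1)) ≤ 12 * (2 ^ ((p : ℕ) + 1) * q) := by nlinarith only [hc2, hc4, hq1]
  linarith only [b4, b3, b2]

end Vale.Agent.P157.Sph
end
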