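import Vale.Agent.P157.Bdl.B9
import Vale.Agent.P157.Bdl.B8
import Vale.Agent.P157.Bdl.B5
import Vale.Agent.P157.Bdl.B2
import Vale.Agent.P157.Defs

set_option linter.all false

section

/-!
Trigonometric interpolation between two Gaussian fields with disjoint sets of coordinates, and the
step from the pattern field to the tree field.
-/

open MeasureTheory ProbabilityTheory Filter Topology

namespace Vale.Agent.P157.Lv

set_option linter.unusedSectionVars false

open Par (incr Path)

/-- Potentials with bounded first and second derivatives. -/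
structure Pot (f f' f'' : ℝ → ℝ) (C₁ C₂ : ℝ) : Prop where
  d1 : ∀ x, HasDerivAt f (f' x) x
  d2 : ∀ x, HasDerivAt f' (f'' x) x
  b1 : ∀ x, |f' x| ≤ C₁
  b2 : ∀ x, |f'' x| ≤ C₂

variable {ι X : Type} [Fintype ι] [DecidableEq ι] [Fintype X] [DecidableEq X] [Nonempty X]
  {S : Sy ι X} {D : ι → (ι → ℝ) → X → ℝ} {f f' f'' : ℝ → ℝ} {C₁ C₂ : ℝ} {α β : X → ι → ℝ}

/-- The linear field with the coefficients `a`. -/
def lin (a : ι → ℝ) (z : ι → ℝ) : ℝ := ∑ e, a e * z e

/-- The interpolated field. -/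
noncomputable def itU (α β : X → ι → ℝ) (θ : ℝ) (z : ι → ℝ) (x : X) : ℝ :=
  Real.sin θ * lin (α x) z + Real.cos θ * lin (β x) z

/-- The interpolated energy. -/
noncomputable def it (H : (ι → ℝ) → X → ℝ) (f : ℝ → ℝ) (α β : X → ι → ℝ) (θ : ℝ) :
    (ι → ℝ) → X → ℝ := fun z x => H z x + f (itU α β θ z x)

/-- The partial derivatives of the interpolated energy. -/
noncomputable def itD (D : ι → (ι → ℝ) → X → ℝ) (f' : ℝ → ℝ) (α β : X → ι → ℝ) (θ : ℝ) :
    ι → (ι → ℝ) → X → ℝ := fun e z x =>
  D e z x + f' (itU α β θ z x) * (Real.sin θ * α x e + Real.cos θ * β x e)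

/-- The two fields use disjoint sets of coordinates, and the energy does not depend on these. -/
structure Sep (D : ι → (ι → ℝ) → X → ℝ) (α β : X → ι → ℝ) : Prop where
  disj : ∀ e x x', α x e * β x' e = 0
  indep : ∀ e x, (α x e ≠ 0 ∨ β x e ≠ 0) → ∀ z y, D e z y = 0

/-- The bracket of the derivative of the free energy. -/
noncomputable def brk (S : Sy ι X) (f f' f'' : ℝ → ℝ) (α β : X → ι → ℝ) (θ : ℝ) : ℝ :=
  (S.wH (it S.H f α β θ)).Ex (fun z x => (f'' (itU α β θ z x) + f' (itU α β θ z x) ^ 2) *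
    (∑ e, α x e ^ 2 - ∑ e, β x e ^ 2)) -
  ∑ l ∈ Finset.range (S.K + 1), S.p l * ∑ e, if S.lev e ≤ l then
    ((S.wH (it S.H f α β θ)).Ex (fun z _ =>
        (S.wH (it S.H f α β θ)).T l (fun z x => f' (itU α β θ z x) * α x e) z ^ 2) -
      (S.wH (it S.H f α β θ)).Ex (fun z _ =>
        (S.wH (it S.H f α β θ)).T l (fun z x => f' (itU α β θ z x) * β x e) z ^ 2)) else 0

open Sy

lemma Pot.measurable (hf : Pot f f' f'' C₁ C₂) : Measurable f ∧ Measurable f' ∧ Measurable f'' := by
  have h1 : Continuous f := continuous_iff_continuousAt.2 fun x => (hf.d1 x).continuousAt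
  have h2 : Continuous f' := continuous_iff_continuousAt.2 fun x => (hf.d2 x).continuousAt
  have h3 : f'' = deriv f' := funext fun x => (hf.d2 x).deriv.symm
  refine ⟨h1.measurable, h2.measurable, ?_⟩
  rw [h3]
  exact measurable_deriv f'

lemma Pot.lip (hf : Pot f f' f'' C₁ C₂) (x y : ℝ) : |f x - f y| ≤ C₁ * |x - y| := by
  have h := Convex.norm_image_sub_le_of_norm_hasDerivWithin_le (s := Set.univ) (f := f) (f' := f')
    (C := C₁) (x := y) (y := x) (fun t _ => (hf.d1 t).hasDerivWithinAt)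
    (fun t _ => by rw [Real.norm_eq_abs]; exact hf.b1 t) convex_univ (Set.mem_univ _)
    (Set.mem_univ _)
  simpa only [Real.norm_eq_abs] using h

lemma Pot.lip' (hf : Pot f f' f'' C₁ C₂) (x y : ℝ) : |f' x - f' y| ≤ C₂ * |x - y| := by
  have h := Convex.norm_image_sub_le_of_norm_hasDerivWithin_le (s := Set.univ) (f := f')
    (f' := f'') (C := C₂) (x := y) (y := x) (fun t _ => (hf.d2 t).hasDerivWithinAt)
    (fun t _ => by rw [Real.norm_eq_abs]; exact hf.b2 t) convex_univ (Set.mem_univ _)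
    (Set.mem_univ _)
  simpa only [Real.norm_eq_abs] using h

lemma Pot.C1_nonneg (hf : Pot f f' f'' C₁ C₂) : 0 ≤ C₁ := (abs_nonneg _).trans (hf.b1 0)

lemma itU_lip (α β : X → ι → ℝ) (θ : ℝ) (x : X) : Lip fun z => itU α β θ z x := by
  have h1 : ∀ a : ι → ℝ, Lip fun z => lin a z := fun a =>
    Lip.sum Finset.univ fun e _ => (Lip.coord e).const_mul (a e)
  exact ((h1 (α x)).const_mul _).add ((h1 (β x)).const_mul _)

lemma itU_measurable (α β : X → ι → ℝ) (θ : ℝ) (x : X) : Measurable fun z => itU α β θ z x :=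
  (itU_lip α β θ x).measurable

lemma lin_pd (a : ι → ℝ) (e : ι) : PD e (fun z => lin a z) (fun _ => a e) := by
  have h1 : PD e (fun z : ι → ℝ => ∑ e', a e' * z e')
      (fun _ => ∑ e', a e' * (if e' = e then 1 else 0)) :=
    PD.sum Finset.univ fun e' _ => (PD.coord e').const_mul (a e')
  refine h1.congr fun _ => ?_
  simp only [mul_ite, mul_one, mul_zero, Finset.sum_ite_eq', Finset.mem_univ, ↓reduceIte]

lemma itU_pd (α β : X → ι → ℝ) (θ : ℝ) (x : X) (e : ι) :
    PD e (fun z => itU α β θ z x) (fun _ => Real.sin θ * α x e + Real.cos θ * β x e) :=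
  ((lin_pd (α x) e).const_mul _).add ((lin_pd (β x) e).const_mul _)

lemma Pot.eg1 (hf : Pot f f' f'' C₁ C₂) (α β : X → ι → ℝ) (θ : ℝ) :
    Nh fun z x => f' (itU α β θ z x) := fun x =>
  EG.of_bdd (hf.measurable.2.1.comp (itU_measurable α β θ x)) fun _ => hf.b1 _

lemma Pot.eg2 (hf : Pot f f' f'' C₁ C₂) (α β : X → ι → ℝ) (θ : ℝ) :
    Nh fun z x => f'' (itU α β θ z x) := fun x =>
  EG.of_bdd (hf.measurable.2.2.comp (itU_measurable α β θ x)) fun _ => hf.b2 _

theorem regD_it (hS : S.RegD D) (hf : Pot f f' f'' C₁ C₂) (θ : ℝ) :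
    (S.wH (it S.H f α β θ)).RegD (itD D f' α β θ) := by
  refine { m0 := hS.m0, mK := hS.mK, mono := hS.mono, pos := hS.pos, lev := hS.lev, lip := ?_,
           pd := ?_, md := ?_, bd := ?_ }
  · intro x
    exact (hS.lip x).add ((itU_lip α β θ x).comp hf.C1_nonneg hf.lip)
  · intro e x
    exact (hS.pd e x).add ((itU_pd α β θ x e).comp hf.d1)
  · intro e x
    exact (hS.md e x).add ((hf.measurable.2.1.comp (itU_measurable α β θ x)).mul_const _)
  · obtain ⟨C, hC⟩ := hS.bd
    refine ⟨C + C₁ * ∑ x, ∑ e, (|α x e| + |β x e|), fun e z x => ?_⟩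
    refine (abs_add_le _ _).trans (add_le_add (hC e z x) ?_)
    rw [abs_mul]
    refine mul_le_mul (hf.b1 _) ?_ (abs_nonneg _) hf.C1_nonneg
    have h1 : |Real.sin θ * α x e + Real.cos θ * β x e| ≤ |α x e| + |β x e| := by
      refine (abs_add_le _ _).trans (add_le_add ?_ ?_)
      · rw [abs_mul]
        exact mul_le_of_le_one_left (abs_nonneg _) (Real.abs_sin_le_one θ)
      · rw [abs_mul]
        exact mul_le_of_le_one_left (abs_nonneg _) (Real.abs_cos_le_one θ)
    refine h1.trans ?_
    have h2 : |α x e| + |β x e| ≤ ∑ e, (|α x e| + |β x e|) :=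
      Finset.single_le_sum (f := fun e => |α x e| + |β x e|)
        (fun e _ => add_nonneg (abs_nonneg _) (abs_nonneg _)) (Finset.mem_univ e)
    exact h2.trans (Finset.single_le_sum (f := fun x => ∑ e, (|α x e| + |β x e|))
      (fun x _ => Finset.sum_nonneg fun e _ => add_nonneg (abs_nonneg _) (abs_nonneg _))
      (Finset.mem_univ x))

/-- The term of the coordinate `e` and the level `l`. -/
lemma lvi_level {R : Sy ι X} (hR : R.Reg) {l : ℕ} (hl : l ≤ R.K) {A B : (ι → ℝ) → X → ℝ}
    (hA : Nh A) (hB : Nh B) (s c : ℝ) (h0 : (∀ z x, A z x = 0) ∨ ∀ z x, B z x = 0) :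
    R.Ex (fun z x => (c * A z x - s * B z x) * R.T l (fun z x => s * A z x + c * B z x) z) =
      s * c * (R.Ex (fun z _ => R.T l A z ^ 2) - R.Ex (fun z _ => R.T l B z ^ 2)) := by
  have hN1 : Nh fun z x => c * A z x - s * B z x := Nh.sub (Nh.const_mul c hA) (Nh.const_mul s hB)
  have hN2 : Nh fun z x => s * A z x + c * B z x := Nh.add (Nh.const_mul s hA) (Nh.const_mul c hB)
  have e1 : R.Ex (fun z x => (c * A z x - s * B z x) *
      R.T l (fun z x => s * A z x + c * B z x) z) =
      R.Ex (fun z _ => R.T l (fun z x => s * A z x + c * B z x) z *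
        R.T l (fun z x => c * A z x - s * B z x) z) := by
    rw [hR.Ex_mul_T hl (R.dep_T l _) (hR.eg_T hl hN2) hN1]
    congr 1
    funext z x
    ring
  have e2 : ∀ z, R.T l (fun z x => s * A z x + c * B z x) z = s * R.T l A z + c * R.T l B z := by
    intro z
    rw [hR.T_add hl (Nh.const_mul s hA) (Nh.const_mul c hB), R.T_const_mul, R.T_const_mul]
  have e3 : ∀ z, R.T l (fun z x => c * A z x - s * B z x) z = c * R.T l A z - s * R.T l B z := by
    intro z
    rw [hR.T_sub hl (Nh.const_mul c hA) (Nh.const_mul s hB), R.T_const_mul, R.T_const_mul]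
  have e4 : ∀ z, R.T l A z * R.T l B z = 0 := by
    intro z
    rcases h0 with h | h
    · have : A = fun _ _ => (0 : ℝ) := by
        funext z x
        exact h z x
      rw [this, hR.T_const hl, zero_mul]
    · have : B = fun _ _ => (0 : ℝ) := by
        funext z x
        exact h z x
      rw [this, hR.T_const hl, mul_zero]
  rw [e1, ← hR.Ex_sub (Nh.pow (Nh.fst (hR.eg_T hl hA)) 2) (Nh.pow (Nh.fst (hR.eg_T hl hB)) 2),
    ← R.Ex_const_mul]
  congr 1
  funext z _
  rw [e2, e3]
  linear_combination (c ^ 2 - s ^ 2) * e4 z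

/-- The term of the coordinate `e`. -/
lemma lvi_coord (hS : S.RegD D) (hf : Pot f f' f'' C₁ C₂) (hs : Sep D α β) (θ : ℝ) (e : ι) :
    (S.wH (it S.H f α β θ)).Ex (fun z x => z e * (f' (itU α β θ z x) *
      (Real.cos θ * α x e - Real.sin θ * β x e))) =
    Real.sin θ * Real.cos θ * ((S.wH (it S.H f α β θ)).Ex (fun z x =>
      (f'' (itU α β θ z x) + f' (itU α β θ z x) ^ 2) * (α x e ^ 2 - β x e ^ 2)) -
      ∑ l ∈ Finset.range (S.K + 1), S.p l * (if S.lev e ≤ l then
        ((S.wH (it S.H f α β θ)).Ex (fun z _ =>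
            (S.wH (it S.H f α β θ)).T l (fun z x => f' (itU α β θ z x) * α x e) z ^ 2) -
          (S.wH (it S.H f α β θ)).Ex (fun z _ =>
            (S.wH (it S.H f α β θ)).T l (fun z x => f' (itU α β θ z x) * β x e) z ^ 2))
        else 0)) := by
  obtain ⟨R, hRdef⟩ : ∃ R, R = S.wH (it S.H f α β θ) := ⟨_, rfl⟩
  have hR : R.RegD (itD D f' α β θ) := by rw [hRdef]; exact regD_it hS hf θ
  have hRK : R.K = S.K := by rw [hRdef]; rfl
  have hRp : R.p = S.p := by rw [hRdef]; rfl
  have hRlev : R.lev = S.lev := by rw [hRdef]; rfl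
  rw [← hRdef]
  obtain ⟨s, hsd⟩ : ∃ s, s = Real.sin θ := ⟨_, rfl⟩
  obtain ⟨c, hcd⟩ : ∃ c, c = Real.cos θ := ⟨_, rfl⟩
  rw [← hsd, ← hcd]
  have hN1 := hf.eg1 α β θ
  have hN2 := hf.eg2 α β θ
  have hNα : Nh fun z x => f' (itU α β θ z x) * α x e := Nh.mul hN1 (Nh.snd fun x => α x e)
  have hNβ : Nh fun z x => f' (itU α β θ z x) * β x e := Nh.mul hN1 (Nh.snd fun x => β x e)
  have hz : (∀ x, α x e = 0) ∨ ∀ x, β x e = 0 := by
    by_contra hcon
    push Not at hcon
    obtain ⟨⟨x, hx⟩, x', hx'⟩ := hcon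
    exact mul_ne_zero hx hx' (hs.disj e x x')
  have h0 : (∀ (z : ι → ℝ) x, f' (itU α β θ z x) * α x e = 0) ∨
      ∀ (z : ι → ℝ) x, f' (itU α β θ z x) * β x e = 0 := by
    rcases hz with h | h
    · left
      intro z x
      rw [h x, mul_zero]
    · right
      intro z x
      rw [h x, mul_zero]
  have hxy : ∀ x, α x e * β x e = 0 := fun x => hs.disj e x x
  -- the observable and its derivative
  have hh : Nh fun z x => f' (itU α β θ z x) * (c * α x e - s * β x e) :=
    Nh.mul hN1 (Nh.snd fun x => c * α x e - s * β x e)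
  have hh' : Nh fun z x => f'' (itU α β θ z x) * (s * α x e + c * β x e) *
      (c * α x e - s * β x e) :=
    Nh.mul (Nh.mul hN2 (Nh.snd fun x => s * α x e + c * β x e))
      (Nh.snd fun x => c * α x e - s * β x e)
  have hd : ∀ x, PD e (fun z => f' (itU α β θ z x) * (c * α x e - s * β x e))
      (fun z => f'' (itU α β θ z x) * (s * α x e + c * β x e) * (c * α x e - s * β x e)) := by
    intro x
    have h1 := ((itU_pd α β θ x e).comp hf.d2).mul (PD.const (c * α x e - s * β x e))
    refine h1.congr fun z => ?_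
    rw [hsd, hcd]
    ring
  rw [hR.ibp e hd hh hh']
  -- the derivatives of the energy at the level `l`
  have hsupp : (∀ x, α x e = 0 ∧ β x e = 0) ∨ ∀ z y, D e z y = 0 := by
    by_cases h : ∃ x, α x e ≠ 0 ∨ β x e ≠ 0
    · right
      obtain ⟨x, hx⟩ := h
      exact hs.indep e x hx
    · left
      push Not at h
      exact h
  have hlev : ∀ l ≤ R.K, R.Ex (fun z x => f' (itU α β θ z x) * (c * α x e - s * β x e) *
      R.T l (itD D f' α β θ e) z) =
      s * c * (R.Ex (fun z _ => R.T l (fun z x => f' (itU α β θ z x) * α x e) z ^ 2) -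
        R.Ex (fun z _ => R.T l (fun z x => f' (itU α β θ z x) * β x e) z ^ 2)) := by
    intro l hl
    rcases hsupp with h | h
    · have e1 : (fun (z : ι → ℝ) (x : X) => f' (itU α β θ z x) * (c * α x e - s * β x e) *
          R.T l (itD D f' α β θ e) z) = fun _ _ => 0 := by
        funext z x
        rw [(h x).1, (h x).2]
        ring
      have e2 : (fun (z : ι → ℝ) (x : X) => f' (itU α β θ z x) * α x e) = fun _ _ => 0 := by
        funext z x
        rw [(h x).1, mul_zero]
      have e3 : (fun (z : ι → ℝ) (x : X) => f' (itU α β θ z x) * β x e) = fun _ _ => 0 := by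
        funext z x
        rw [(h x).2, mul_zero]
      rw [e1, e2, e3, hR.toReg.Ex_const]
      ring
    · rw [← lvi_level hR.toReg hl hNα hNβ s c h0]
      have e1 : itD D f' α β θ e = fun z x => s * (f' (itU α β θ z x) * α x e) +
          c * (f' (itU α β θ z x) * β x e) := by
        funext z x
        simp only [itD]
        rw [h z x, hsd, hcd]
        ring
      rw [e1]
      congr 1
      funext z x
      ring
  have hNT : ∀ l ∈ Finset.Ico (R.lev e) (R.K + 1), Nh fun z x =>
      R.p l * (f' (itU α β θ z x) * (c * α x e - s * β x e) * R.T l (itD D f' α β θ e) z) := by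
    intro l hl
    have hl' := (Finset.mem_Ico.1 hl).2
    exact Nh.const_mul _ (Nh.mul hh (Nh.fst (hR.toReg.eg_T (by omega) (hR.nh e))))
  have hNm : Nh fun z x => s * c * ((f'' (itU α β θ z x) + f' (itU α β θ z x) ^ 2) *
      (α x e ^ 2 - β x e ^ 2)) :=
    Nh.const_mul _ (Nh.mul (Nh.add hN2 (Nh.pow hN1 2)) (Nh.snd fun x => α x e ^ 2 - β x e ^ 2))
  have e1 : (fun (z : ι → ℝ) (x : X) => f'' (itU α β θ z x) * (s * α x e + c * β x e) *
      (c * α x e - s * β x e) + f' (itU α β θ z x) * (c * α x e - s * β x e) *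
        (itD D f' α β θ e z x - ∑ l ∈ Finset.Ico (R.lev e) (R.K + 1), R.p l *
          R.T l (itD D f' α β θ e) z)) =
      fun z x => s * c * ((f'' (itU α β θ z x) + f' (itU α β θ z x) ^ 2) *
        (α x e ^ 2 - β x e ^ 2)) -
        ∑ l ∈ Finset.Ico (R.lev e) (R.K + 1), R.p l * (f' (itU α β θ z x) *
          (c * α x e - s * β x e) * R.T l (itD D f' α β θ e) z) := by
    funext z x
    have h1 : f' (itU α β θ z x) * (c * α x e - s * β x e) * D e z x = 0 := by
      rcases hsupp with h | h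
      · rw [(h x).1, (h x).2]
        ring
      · rw [h z x, mul_zero]
    have h2 : ∑ l ∈ Finset.Ico (R.lev e) (R.K + 1), R.p l * (f' (itU α β θ z x) *
          (c * α x e - s * β x e) * R.T l (itD D f' α β θ e) z) =
        f' (itU α β θ z x) * (c * α x e - s * β x e) *
          ∑ l ∈ Finset.Ico (R.lev e) (R.K + 1), R.p l * R.T l (itD D f' α β θ e) z := by
      rw [Finset.mul_sum]
      refine Finset.sum_congr rfl fun l _ => ?_
      ring
    have h3 := hxy x
    rw [h2]
    have h4 : itD D f' α β θ e z x = D e z x + f' (itU α β θ z x) * (s * α x e + c * β x e) := by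
      rw [hsd, hcd]
      rfl
    rw [h4]
    linear_combination h1 + (f'' (itU α β θ z x) + f' (itU α β θ z x) ^ 2) *
      (c ^ 2 - s ^ 2) * h3
  rw [e1, hR.toReg.Ex_sub hNm (Nh.sum _ hNT), R.Ex_const_mul, hR.toReg.Ex_sum _ hNT, mul_sub]
  congr 1
  have e2 : ∀ l ∈ Finset.Ico (R.lev e) (R.K + 1), R.Ex (fun z x => R.p l *
      (f' (itU α β θ z x) * (c * α x e - s * β x e) * R.T l (itD D f' α β θ e) z)) =
      s * c * (R.p l * (R.Ex (fun z _ => R.T l (fun z x => f' (itU α β θ z x) * α x e) z ^ 2) -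
        R.Ex (fun z _ => R.T l (fun z x => f' (itU α β θ z x) * β x e) z ^ 2))) := by
    intro l hl
    have hl' := (Finset.mem_Ico.1 hl).2
    rw [R.Ex_const_mul, hlev l (by omega)]
    ring
  rw [Finset.sum_congr rfl e2, ← Finset.mul_sum]
  congr 1
  have e3 : Finset.Ico (R.lev e) (R.K + 1) =
      (Finset.range (S.K + 1)).filter fun l => S.lev e ≤ l := by
    ext l
    simp only [hRlev, hRK, Finset.mem_Ico, Finset.mem_filter, Finset.mem_range]
    omega
  rw [e3, Finset.sum_filter]
  refine Finset.sum_congr rfl fun l _ => ?_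
  rw [hRp]
  split_ifs
  · rfl
  · rw [mul_zero]

/-- The derivative in the angle, integrated by parts (`RegD.ibp` for each coordinate `e`, the
observable `f'(u) (cos θ α_e - sin θ β_e)`). -/
theorem ex_deriv (hS : S.RegD D) (hf : Pot f f' f'' C₁ C₂) (hs : Sep D α β) (θ : ℝ) :
    (S.wH (it S.H f α β θ)).Ex (fun z x => f' (itU α β θ z x) *
      (Real.cos θ * lin (α x) z - Real.sin θ * lin (β x) z)) =
    Real.sin θ * Real.cos θ * brk S f f' f'' α β θ := by
  have hR := (regD_it (α := α) (β := β) hS hf θ).toReg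
  have hN1 := hf.eg1 α β θ
  have hN2 := hf.eg2 α β θ
  have e1 : (fun (z : ι → ℝ) (x : X) => f' (itU α β θ z x) *
      (Real.cos θ * lin (α x) z - Real.sin θ * lin (β x) z)) =
      fun z x => ∑ e, z e * (f' (itU α β θ z x) *
        (Real.cos θ * α x e - Real.sin θ * β x e)) := by
    funext z x
    simp only [lin, Finset.mul_sum]
    rw [← Finset.sum_sub_distrib, Finset.mul_sum]
    refine Finset.sum_congr rfl fun e _ => ?_
    ring
  have hNe : ∀ e ∈ (Finset.univ : Finset ι), Nh fun z x => z e * (f' (itU α β θ z x) *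
      (Real.cos θ * α x e - Real.sin θ * β x e)) := fun e _ =>
    Nh.mul (Nh.fst (EG.coord e)) (Nh.mul hN1 (Nh.snd fun x =>
      Real.cos θ * α x e - Real.sin θ * β x e))
  rw [e1, hR.Ex_sum _ hNe, Finset.sum_congr rfl fun e _ => lvi_coord hS hf hs θ e,
    ← Finset.mul_sum, Finset.sum_sub_distrib]
  unfold brk
  congr 2
  · have hNq : ∀ e ∈ (Finset.univ : Finset ι), Nh fun z x =>
        (f'' (itU α β θ z x) + f' (itU α β θ z x) ^ 2) * (α x e ^ 2 - β x e ^ 2) := fun e _ =>
      Nh.mul (Nh.add hN2 (Nh.pow hN1 2)) (Nh.snd fun x => α x e ^ 2 - β x e ^ 2)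
    rw [← hR.Ex_sum _ hNq]
    congr 1
    funext z x
    rw [← Finset.sum_sub_distrib, Finset.mul_sum]
  · rw [Finset.sum_comm]
    refine Finset.sum_congr rfl fun l _ => ?_
    rw [Finset.mul_sum]

end Vale.Agent.P157.Lv
end

section

/-!
The interpolation inequality.
-/

open MeasureTheory ProbabilityTheory Filter Topology

namespace Vale.Agent.P157.Lv

set_option linter.unusedSectionVars false

open Par (incr Path)

section unif

variable {ι X : Type} [Fintype ι] [Fintype X] [Nonempty X] {S : Sy ι X}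

lemma li2_top {L : ℝ} (hL : ∀ x z z', |S.H z x - S.H z' x| ≤ L * ‖z - z'‖) (y y' : ι → ℝ) :
    |S.top y - S.top y'| ≤ L * ‖y - y'‖ := by
  have key : ∀ y y', S.top y - S.top y' ≤ L * ‖y - y'‖ := by
    intro y y'
    refine Sy.lc_log_le (Sy.sum_exp_pos y) (Sy.sum_exp_pos y') ?_
    rw [Finset.mul_sum]
    refine Finset.sum_le_sum fun x _ => ?_
    rw [← Real.exp_add]
    apply Real.exp_le_exp.2
    have h1 := (abs_le.1 (hL x y y')).2
    linarith only [h1]
  rw [abs_le]
  have h1 := key y y'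
  have h2 := key y' y
  rw [norm_sub_rev] at h2
  exact ⟨by linarith only [h2], h1⟩

lemma li2_stp {F : (ι → ℝ) → ℝ} (hF : Lip F) {L : ℝ} (hL0 : 0 ≤ L)
    (hL : ∀ y y', |F y - F y'| ≤ L * ‖y - y'‖) {l : ℕ} (hm : 0 < S.m (l + 1)) (y y' : ι → ℝ) :
    |S.stp l F y - S.stp l F y'| ≤ L * ‖y - y'‖ := by
  have heg := hF.exp_eg (S.m (l + 1))
  have hpos : ∀ z, 0 < J S.lev l (fun z => Real.exp (S.m (l + 1) * F z)) z :=
    fun z => J_pos heg (fun _ => Real.exp_pos _) z
  have key : ∀ y y', S.stp l F y - S.stp l F y' ≤ L * ‖y - y'‖ := by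
    intro y y'
    have h1 : J S.lev l (fun z => Real.exp (S.m (l + 1) * F z)) y ≤
        Real.exp (S.m (l + 1) * (L * ‖y - y'‖)) *
          J S.lev l (fun z => Real.exp (S.m (l + 1) * F z)) y' := by
      unfold J
      rw [← integral_const_mul]
      refine integral_mono (heg.mix y) ((heg.mix y').const_mul _) fun w => ?_
      simp only
      rw [← Real.exp_add]
      apply Real.exp_le_exp.2
      have h2 := (abs_le.1 (hL (mix S.lev l y w) (mix S.lev l y' w))).2
      have h3 : L * ‖mix S.lev l y w - mix S.lev l y' w‖ ≤ L * ‖y - y'‖ :=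
        mul_le_mul_of_nonneg_left (Sy.lc_norm_mix _ _ _ _ _) hL0
      have h4 : F (mix S.lev l y w) ≤ L * ‖y - y'‖ + F (mix S.lev l y' w) := by linarith
      calc S.m (l + 1) * F (mix S.lev l y w)
          ≤ S.m (l + 1) * (L * ‖y - y'‖ + F (mix S.lev l y' w)) :=
            mul_le_mul_of_nonneg_left h4 hm.le
        _ = _ := by ring
    have h5 := Sy.lc_log_le (hpos y) (hpos y') h1
    unfold Sy.stp
    rw [← mul_sub, one_div, inv_mul_le_iff₀ hm]
    exact h5
  rw [abs_le]
  have h1 := key y y'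
  have h2 := key y' y
  rw [norm_sub_rev] at h2
  exact ⟨by linarith only [h2], h1⟩

lemma li2_lg (hS : S.Reg) {L : ℝ} (hL0 : 0 ≤ L)
    (hL : ∀ x z z', |S.H z x - S.H z' x| ≤ L * ‖z - z'‖) :
    ∀ l ≤ S.K, ∀ y y', |S.lg l y - S.lg l y'| ≤ L * ‖y - y'‖ := by
  refine Sy.down_ind ?_ ?_
  · intro y y'
    rw [Sy.lg_top]
    exact li2_top hL y y'
  · intro l hl ih y y'
    rw [Sy.lg_step S hl]
    exact li2_stp (hS.lip_lg hl) hL0 ih (hS.m_pos (Nat.succ_le_succ (Nat.zero_le l)) (by omega)) y y'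

omit [Fintype X] [Nonempty X] in
lemma li2_norm_mix (lev : ι → ℕ) (l : ℕ) (z w : ι → ℝ) : ‖z - mix lev l z w‖ ≤ ‖z‖ + ‖w‖ := by
  rw [pi_norm_le_iff_of_nonneg (by (clear * -; positivity))]
  intro i
  rw [Pi.sub_apply]
  unfold mix
  split_ifs
  · rw [sub_self, norm_zero]; positivity
  · calc ‖z i - w i‖ ≤ ‖z i‖ + ‖w i‖ := norm_sub_le _ _
      _ ≤ ‖z‖ + ‖w‖ := add_le_add (norm_le_pi_norm z i) (norm_le_pi_norm w i)

/-- the constant of one level -/
noncomputable def li2c (ι : Type) [Fintype ι] (a : ℝ) : ℝ :=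
  -Real.log (∫ w, Real.exp (-a * ‖w‖) ∂(gI ι))

lemma li2_diff (hS : S.Reg) {L : ℝ} (hL0 : 0 ≤ L)
    (hL : ∀ x z z', |S.H z x - S.H z' x| ≤ L * ‖z - z'‖) {l : ℕ} (hl : l < S.K) (z : ι → ℝ) :
    S.m (l + 1) * (S.lg (l + 1) z - S.lg l z) ≤
      S.m (l + 1) * L * ‖z‖ + li2c ι (S.m (l + 1) * L) := by
  have hm : 0 < S.m (l + 1) := hS.m_pos (Nat.succ_le_succ (Nat.zero_le l)) (by omega)
  have h1 := hS.J_exp_lg hl z
  have hint : Integrable (fun w : ι → ℝ => Real.exp (-(S.m (l + 1) * L) * ‖w‖)) (gI ι) :=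
    integrable_exp_norm _
  have hI : 0 < ∫ w, Real.exp (-(S.m (l + 1) * L) * ‖w‖) ∂(gI ι) :=
    integral_exp_pos hint
  have h2 : Real.exp (S.m (l + 1) * S.lg (l + 1) z - S.m (l + 1) * L * ‖z‖) *
      ∫ w, Real.exp (-(S.m (l + 1) * L) * ‖w‖) ∂(gI ι) ≤ Real.exp (S.m (l + 1) * S.lg l z) := by
    rw [← h1]
    unfold J
    rw [← integral_const_mul]
    refine integral_mono (hint.const_mul _) (((hS.lip_lg hl).exp_eg _).mix z) fun w => ?_
    simp only
    rw [← Real.exp_add]
    apply Real.exp_le_exp.2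
    have h3 := (abs_le.1 (li2_lg hS hL0 hL (l + 1) hl z (mix S.lev l z w))).2
    have h4 : L * ‖z - mix S.lev l z w‖ ≤ L * (‖z‖ + ‖w‖) :=
      mul_le_mul_of_nonneg_left (li2_norm_mix _ _ _ _) hL0
    have h5 : S.lg (l + 1) z - L * (‖z‖ + ‖w‖) ≤ S.lg (l + 1) (mix S.lev l z w) := by linarith only [h3, h4]
    calc S.m (l + 1) * S.lg (l + 1) z - S.m (l + 1) * L * ‖z‖ + -(S.m (l + 1) * L) * ‖w‖
        = S.m (l + 1) * (S.lg (l + 1) z - L * (‖z‖ + ‖w‖)) := by ring
      _ ≤ _ := mul_le_mul_of_nonneg_left h5 hm.le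
  have h6 := Real.log_le_log (mul_pos (Real.exp_pos _) hI) h2
  rw [Real.log_mul (Real.exp_pos _).ne' hI.ne', Real.log_exp, Real.log_exp] at h6
  unfold li2c
  linarith only [h6]

end unif

variable {ι X : Type} [Fintype ι] [DecidableEq ι] [Fintype X] [DecidableEq X] [Nonempty X]
  {S : Sy ι X} {D : ι → (ι → ℝ) → X → ℝ} {f f' f'' : ℝ → ℝ} {C₁ C₂ : ℝ} {α β : X → ι → ℝ}

/-- The densities grow at most exponentially, uniformly over the energies which are Lipschitz
with the same constant. -/
theorem dn_unif (S : Sy ι X) (hS : S.Reg) (L : ℝ) : ∃ C a : ℝ, 0 ≤ C ∧ 0 ≤ a ∧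
    ∀ H' : (ι → ℝ) → X → ℝ, (S.wH H').Reg →
      (∀ x z z', |H' z x - H' z' x| ≤ L * ‖z - z'‖) → ∀ l ≤ S.K, ∀ z,
        (S.wH H').dn l z ≤ C * Real.exp (a * ‖z‖) := by
  have hm0 : ∀ i < S.K, 0 ≤ S.m (i + 1) := fun i hi =>
    (hS.m_pos (Nat.succ_le_succ (Nat.zero_le i)) (by omega)).le
  refine ⟨Real.exp (∑ i ∈ Finset.range S.K, |li2c ι (S.m (i + 1) * |L|)|),
    ∑ i ∈ Finset.range S.K, S.m (i + 1) * |L|, (Real.exp_pos _).le,
    Finset.sum_nonneg fun i hi => mul_nonneg (hm0 i (Finset.mem_range.1 hi)) (abs_nonneg _), ?_⟩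
  intro H' hR hL l hl z
  have hL' : ∀ x z z', |(S.wH H').H z x - (S.wH H').H z' x| ≤ |L| * ‖z - z'‖ := fun x z z' =>
    (hL x z z').trans (mul_le_mul_of_nonneg_right (le_abs_self L) (norm_nonneg _))
  unfold Sy.dn
  rw [← Real.exp_add]
  apply Real.exp_le_exp.2
  have hK : (S.wH H').K = S.K := rfl
  have hmm : (S.wH H').m = S.m := rfl
  rw [hK, hmm]
  calc ∑ i ∈ Finset.Ico l S.K, S.m (i + 1) * ((S.wH H').lg (i + 1) z - (S.wH H').lg i z)
      ≤ ∑ i ∈ Finset.Ico l S.K, (S.m (i + 1) * |L| * ‖z‖ + |li2c ι (S.m (i + 1) * |L|)|) := by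
        refine Finset.sum_le_sum fun i hi => ?_
        have hi' : i < S.K := (Finset.mem_Ico.1 hi).2
        have h1 := li2_diff hR (abs_nonneg L) hL' (l := i) hi' z
        rw [hmm] at h1
        exact h1.trans (add_le_add_right (le_abs_self _) _)
    _ ≤ ∑ i ∈ Finset.range S.K, (S.m (i + 1) * |L| * ‖z‖ + |li2c ι (S.m (i + 1) * |L|)|) := by
        refine Finset.sum_le_sum_of_subset_of_nonneg ?_ ?_
        · intro i hi
          exact Finset.mem_range.2 (Finset.mem_Ico.1 hi).2
        · intro i hi _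
          have := hm0 i (Finset.mem_range.1 hi)
          (clear * - this; positivity)
    _ = _ := by
        rw [Finset.sum_add_distrib, Finset.sum_mul, add_comm]

section taylor

lemma li2_sin (a b : ℝ) : |Real.sin a - Real.sin b| ≤ |a - b| := by
  have := Real.lipschitzWith_sin.dist_le_mul a b
  simpa only [ge_iff_le, Real.dist_eq, NNReal.coe_one, one_mul] using this

lemma li2_cos (a b : ℝ) : |Real.cos a - Real.cos b| ≤ |a - b| := by
  have := Real.lipschitzWith_cos.dist_le_mul a b
  simpa only [ge_iff_le, Real.dist_eq, NNReal.coe_one, one_mul] using this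

lemma li2_C1 (hf : Pot f f' f'' C₁ C₂) : 0 ≤ C₁ := (abs_nonneg _).trans (hf.b1 0)

lemma li2_C2 (hf : Pot f f' f'' C₁ C₂) : 0 ≤ C₂ := (abs_nonneg _).trans (hf.b2 0)

/-- second order Taylor estimate along the rotation -/
lemma li2_taylor (hf : Pot f f' f'' C₁ C₂) {t t' A B r : ℝ} (htt : t ≤ t') (hAB : |A| + |B| ≤ r) :
    f (Real.sin t' * A + Real.cos t' * B) - f (Real.sin t * A + Real.cos t * B) ≤
      (t' - t) * (f' (Real.sin t' * A + Real.cos t' * B) * (Real.cos t' * A - Real.sin t' * B)) +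
      (t' - t) ^ 2 * (C₂ * r ^ 2 + C₁ * r) := by
  have hr : 0 ≤ r := (by (clear * -; positivity) : 0 ≤ |A| + |B|).trans hAB
  have hC1 := li2_C1 hf
  have hC2 := li2_C2 hf
  rcases htt.eq_or_lt with h | h
  · subst h; simp
  · have hd : ∀ s, HasDerivAt (fun s => f (Real.sin s * A + Real.cos s * B))
        (f' (Real.sin s * A + Real.cos s * B) * (Real.cos s * A - Real.sin s * B)) s := by
      intro s
      have h1 : HasDerivAt (fun s => Real.sin s * A + Real.cos s * B)
          (Real.cos s * A - Real.sin s * B) s := by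
        have h2 := ((Real.hasDerivAt_sin s).mul_const A).add ((Real.hasDerivAt_cos s).mul_const B)
        have h3 : Real.cos s * A - Real.sin s * B = Real.cos s * A + -Real.sin s * B := by ring
        rw [h3]
        exact h2
      exact (hf.d1 _).comp s h1
    obtain ⟨ξ, hξ, hξ2⟩ := exists_hasDerivAt_eq_slope _ _ h
      (fun s _ => (hd s).continuousAt.continuousWithinAt) (fun s _ => hd s)
    rw [eq_div_iff (by linarith only [h])] at hξ2
    rw [← hξ2]
    have hv : ∀ s, |Real.cos s * A - Real.sin s * B| ≤ r := by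
      intro s
      calc |Real.cos s * A - Real.sin s * B| ≤ |Real.cos s * A| + |Real.sin s * B| := abs_sub _ _
        _ = |Real.cos s| * |A| + |Real.sin s| * |B| := by rw [abs_mul, abs_mul]
        _ ≤ 1 * |A| + 1 * |B| := by
            gcongr
            · exact Real.abs_cos_le_one s
            · exact Real.abs_sin_le_one s
        _ ≤ r := by linarith only [hAB]
    have hξt : |ξ - t'| ≤ t' - t := by
      rw [abs_le]; constructor <;> linarith [hξ.1, hξ.2]
    have hu : |(Real.sin ξ * A + Real.cos ξ * B) - (Real.sin t' * A + Real.cos t' * B)| ≤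
        (t' - t) * r := by
      calc |(Real.sin ξ * A + Real.cos ξ * B) - (Real.sin t' * A + Real.cos t' * B)|
          = |(Real.sin ξ - Real.sin t') * A + (Real.cos ξ - Real.cos t') * B| := by ring_nf
        _ ≤ |(Real.sin ξ - Real.sin t') * A| + |(Real.cos ξ - Real.cos t') * B| := abs_add_le _ _
        _ = |Real.sin ξ - Real.sin t'| * |A| + |Real.cos ξ - Real.cos t'| * |B| := by
            rw [abs_mul, abs_mul]
        _ ≤ (t' - t) * |A| + (t' - t) * |B| := by
            gcongr
            · exact (li2_sin _ _).trans hξt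
            · exact (li2_cos _ _).trans hξt
        _ ≤ (t' - t) * r := by
            rw [← mul_add]
            exact mul_le_mul_of_nonneg_left hAB (by linarith only [h])
    have hvv : |(Real.cos ξ * A - Real.sin ξ * B) - (Real.cos t' * A - Real.sin t' * B)| ≤
        (t' - t) * r := by
      calc |(Real.cos ξ * A - Real.sin ξ * B) - (Real.cos t' * A - Real.sin t' * B)|
          = |(Real.cos ξ - Real.cos t') * A - (Real.sin ξ - Real.sin t') * B| := by ring_nf
        _ ≤ |(Real.cos ξ - Real.cos t') * A| + |(Real.sin ξ - Real.sin t') * B| := abs_sub _ _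
        _ = |Real.cos ξ - Real.cos t'| * |A| + |Real.sin ξ - Real.sin t'| * |B| := by
            rw [abs_mul, abs_mul]
        _ ≤ (t' - t) * |A| + (t' - t) * |B| := by
            gcongr
            · exact (li2_cos _ _).trans hξt
            · exact (li2_sin _ _).trans hξt
        _ ≤ (t' - t) * r := by
            rw [← mul_add]
            exact mul_le_mul_of_nonneg_left hAB (by linarith only [h])
    have hff := hf.lip' (Real.sin ξ * A + Real.cos ξ * B) (Real.sin t' * A + Real.cos t' * B)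
    have key : |f' (Real.sin ξ * A + Real.cos ξ * B) * (Real.cos ξ * A - Real.sin ξ * B) -
        f' (Real.sin t' * A + Real.cos t' * B) * (Real.cos t' * A - Real.sin t' * B)| ≤
        (t' - t) * (C₂ * r ^ 2 + C₁ * r) := by
      set p := f' (Real.sin ξ * A + Real.cos ξ * B)
      set q := f' (Real.sin t' * A + Real.cos t' * B)
      set v := Real.cos ξ * A - Real.sin ξ * B
      set v' := Real.cos t' * A - Real.sin t' * B
      have hq : |q| ≤ C₁ := hf.b1 _
      calc |p * v - q * v'| = |(p - q) * v + q * (v - v')| := by ring_nf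
        _ ≤ |(p - q) * v| + |q * (v - v')| := abs_add_le _ _
        _ = |p - q| * |v| + |q| * |v - v'| := by rw [abs_mul, abs_mul]
        _ ≤ (C₂ * ((t' - t) * r)) * r + C₁ * ((t' - t) * r) := by
            have htr : 0 ≤ (t' - t) * r := mul_nonneg (by linarith only [h]) hr
            have h1 : |p - q| ≤ C₂ * ((t' - t) * r) :=
              hff.trans (mul_le_mul_of_nonneg_left hu hC2)
            gcongr
            exact hv ξ
        _ = (t' - t) * (C₂ * r ^ 2 + C₁ * r) := by ring
    have := (abs_le.1 key).2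
    linarith only [mul_nonneg (sub_nonneg.2 htt) (sub_nonneg.2 this)]

end taylor

/-- total size of the coefficients -/
def li2R (α β : X → ι → ℝ) : ℝ := ∑ x, ∑ e, (|α x e| + |β x e|)

lemma li2_lin (a : ι → ℝ) (z : ι → ℝ) : |lin a z| ≤ (∑ e, |a e|) * ‖z‖ := by
  unfold lin
  refine (Finset.abs_sum_le_sum_abs _ _).trans ?_
  rw [Finset.sum_mul]
  refine Finset.sum_le_sum fun e _ => ?_
  rw [abs_mul]
  exact mul_le_mul_of_nonneg_left (norm_le_pi_norm z e) (abs_nonneg _)

lemma li2_lin_sub (a : ι → ℝ) (z z' : ι → ℝ) : lin a z - lin a z' = lin a (z - z') := by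
  unfold lin
  rw [← Finset.sum_sub_distrib]
  exact Finset.sum_congr rfl fun e _ => by rw [Pi.sub_apply]; ring

lemma li2_R (α β : X → ι → ℝ) (x : X) (z : ι → ℝ) :
    |lin (α x) z| + |lin (β x) z| ≤ li2R α β * ‖z‖ := by
  have h1 := li2_lin (α x) z
  have h2 := li2_lin (β x) z
  have h3 : (∑ e, |α x e|) + ∑ e, |β x e| ≤ li2R α β := by
    rw [← Finset.sum_add_distrib]
    exact Finset.single_le_sum (f := fun x => ∑ e, (|α x e| + |β x e|))
      (fun x _ => Finset.sum_nonneg fun e _ => by (clear * -; positivity)) (Finset.mem_univ x)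
  calc |lin (α x) z| + |lin (β x) z| ≤ ((∑ e, |α x e|) + ∑ e, |β x e|) * ‖z‖ := by
        rw [add_mul]; exact add_le_add h1 h2
    _ ≤ _ := mul_le_mul_of_nonneg_right h3 (norm_nonneg _)

lemma li2_R0 (α β : X → ι → ℝ) : 0 ≤ li2R α β :=
  Finset.sum_nonneg fun x _ => Finset.sum_nonneg fun e _ => by positivity

lemma li2_eg_norm : EG (fun z : ι → ℝ => ‖z‖) :=
  (show Lip (fun z : ι → ℝ => ‖z‖) from
    ⟨1, zero_le_one, fun y y' => by rw [one_mul]; exact abs_norm_sub_norm_le y y'⟩).eg

lemma li2_eg_lin (a : ι → ℝ) : EG (fun z : ι → ℝ => lin a z) := by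
  unfold lin
  exact EG.sum _ fun e _ => (EG.coord e).const_mul (a e)

/-- uniform Lipschitz constant of the interpolated energies -/
lemma li2_itlip (hS : S.RegD D) (hf : Pot f f' f'' C₁ C₂) (α β : X → ι → ℝ) :
    ∃ L : ℝ, ∀ θ x z z', |it S.H f α β θ z x - it S.H f α β θ z' x| ≤ L * ‖z - z'‖ := by
  choose L hL0 hL using hS.lip
  refine ⟨∑ x, L x + C₁ * li2R α β, fun θ x z z' => ?_⟩
  have hC1 := li2_C1 hf
  have h1 := hL x z z'
  have h2 : L x ≤ ∑ x, L x := Finset.single_le_sum (fun x _ => hL0 x) (Finset.mem_univ x)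
  have h3 := hf.lip (itU α β θ z x) (itU α β θ z' x)
  have h4 : |itU α β θ z x - itU α β θ z' x| ≤ li2R α β * ‖z - z'‖ := by
    have e1 : itU α β θ z x - itU α β θ z' x =
        Real.sin θ * lin (α x) (z - z') + Real.cos θ * lin (β x) (z - z') := by
      unfold itU
      rw [← li2_lin_sub, ← li2_lin_sub]
      ring
    rw [e1]
    calc |Real.sin θ * lin (α x) (z - z') + Real.cos θ * lin (β x) (z - z')|
        ≤ |Real.sin θ * lin (α x) (z - z')| + |Real.cos θ * lin (β x) (z - z')| := abs_add_le _ _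
      _ = |Real.sin θ| * |lin (α x) (z - z')| + |Real.cos θ| * |lin (β x) (z - z')| := by
          rw [abs_mul, abs_mul]
      _ ≤ 1 * |lin (α x) (z - z')| + 1 * |lin (β x) (z - z')| := by
          gcongr
          · exact Real.abs_sin_le_one θ
          · exact Real.abs_cos_le_one θ
      _ ≤ _ := by rw [one_mul, one_mul]; exact li2_R α β x (z - z')
  unfold it
  calc |S.H z x + f (itU α β θ z x) - (S.H z' x + f (itU α β θ z' x))|
      = |(S.H z x - S.H z' x) + (f (itU α β θ z x) - f (itU α β θ z' x))| := by ring_nf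
    _ ≤ |S.H z x - S.H z' x| + |f (itU α β θ z x) - f (itU α β θ z' x)| := abs_add_le _ _
    _ ≤ (∑ x, L x) * ‖z - z'‖ + C₁ * (li2R α β * ‖z - z'‖) := by
        refine add_le_add ?_ (h3.trans (mul_le_mul_of_nonneg_left h4 hC1))
        exact h1.trans (mul_le_mul_of_nonneg_right h2 (norm_nonneg _))
    _ = _ := by ring

/-- the quadratic remainder -/
noncomputable def li2M (C₁ C₂ : ℝ) (α β : X → ι → ℝ) (z : ι → ℝ) : ℝ :=
  C₂ * (li2R α β * ‖z‖) ^ 2 + C₁ * (li2R α β * ‖z‖)

lemma li2_eg_M (C₁ C₂ : ℝ) (α β : X → ι → ℝ) : EG (li2M C₁ C₂ α β) :=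
  (((li2_eg_norm.const_mul (li2R α β)).pow 2).const_mul C₂).add
    ((li2_eg_norm.const_mul (li2R α β)).const_mul C₁)

lemma li2_M0 (hf : Pot f f' f'' C₁ C₂) (α β : X → ι → ℝ) (z : ι → ℝ) :
    0 ≤ li2M C₁ C₂ α β z := by
  have h1 := li2_C1 hf
  have h2 := li2_C2 hf
  have h3 := li2_R0 α β
  unfold li2M
  positivity

/-- the remainder is uniformly bounded -/
lemma li2_ExM (hS : S.RegD D) (hf : Pot f f' f'' C₁ C₂) (α β : X → ι → ℝ) :
    ∃ M₀ : ℝ, 0 ≤ M₀ ∧ ∀ θ, (S.wH (it S.H f α β θ)).Ex (fun z _ => li2M C₁ C₂ α β z) ≤ M₀ := by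
  obtain ⟨L, hL⟩ := li2_itlip hS hf α β
  obtain ⟨C, a, hC, ha, hdn⟩ := dn_unif S hS.toReg L
  have heg := li2_eg_M C₁ C₂ α β
  have hexp : EG (fun z : ι → ℝ => C * Real.exp (a * ‖z‖)) := by
    refine EG.const_mul C ⟨by fun_prop, 1, a, zero_le_one, ha, fun y => ?_⟩
    rw [abs_of_pos (Real.exp_pos _), one_mul]
  refine ⟨∫ z, C * Real.exp (a * ‖z‖) * li2M C₁ C₂ α β z ∂(gI ι), ?_, fun θ => ?_⟩
  · exact integral_nonneg fun z => mul_nonneg (by positivity) (li2_M0 hf α β z)
  · have hR := (regD_it (α := α) (β := β) hS hf θ).toReg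
    unfold Sy.Ex
    have hav : ∀ z, (S.wH (it S.H f α β θ)).av (fun z _ => li2M C₁ C₂ α β z) z =
        li2M C₁ C₂ α β z := fun z => Sy.av_fst _ _ z
    simp only [hav]
    refine integral_mono ((hR.eg_dn (Nat.zero_le _)).mul heg).integrable
      (hexp.mul heg).integrable fun z => ?_
    exact mul_le_mul_of_nonneg_right (hdn _ hR (fun x z z' => hL θ x z z') 0 (Nat.zero_le _) z)
      (li2_M0 hf α β z)

/-- one step of the interpolation -/
lemma li2_step (hS : S.RegD D) (hf : Pot f f' f'' C₁ C₂) (hs : Sep D α β) {M₀ : ℝ}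
    (hM : ∀ θ, (S.wH (it S.H f α β θ)).Ex (fun z _ => li2M C₁ C₂ α β z) ≤ M₀) {t t' : ℝ}
    (htt : t ≤ t') :
    (S.wH (it S.H f α β t')).fe - (S.wH (it S.H f α β t)).fe ≤
      (t' - t) * (Real.sin t' * Real.cos t' * brk S f f' f'' α β t') + (t' - t) ^ 2 * M₀ := by
  have hR' := (regD_it (α := α) (β := β) hS hf t').toReg
  have hR := (regD_it (α := α) (β := β) hS hf t).toReg
  have hRw : ((S.wH (it S.H f α β t')).wH (it S.H f α β t)).Reg := hR
  have h1 := hR'.jensen hRw
  have e1 : ((S.wH (it S.H f α β t')).wH (it S.H f α β t)).fe = (S.wH (it S.H f α β t)).fe := rfl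
  rw [e1] at h1
  have hf'm := hf.measurable.2.1
  have hnF : Nh (fun z x => f' (itU α β t' z x) *
      (Real.cos t' * lin (α x) z - Real.sin t' * lin (β x) z)) := by
    intro x
    refine EG.mul ?_ (((li2_eg_lin (α x)).const_mul _).sub ((li2_eg_lin (β x)).const_mul _))
    refine EG.of_bdd (hf'm.comp ?_) (fun y => hf.b1 _)
    unfold itU
    exact (((li2_eg_lin (α x)).const_mul _).add ((li2_eg_lin (β x)).const_mul _)).meas
  have hnM : Nh (fun (z : ι → ℝ) (_ : X) => li2M C₁ C₂ α β z) :=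
    Sy.Nh.fst (li2_eg_M C₁ C₂ α β)
  have hnd := hR'.nh_diff hRw
  have h2 : (S.wH (it S.H f α β t')).Ex (fun z x => -((t' - t) * (f' (itU α β t' z x) *
      (Real.cos t' * lin (α x) z - Real.sin t' * lin (β x) z)) +
      (t' - t) ^ 2 * li2M C₁ C₂ α β z)) ≤
      (S.wH (it S.H f α β t')).Ex
        (fun z x => it S.H f α β t z x - (S.wH (it S.H f α β t')).H z x) := by
    refine hR'.Ex_mono ?_ hnd ?_
    · have := Sy.Nh.const_mul (-1) (Sy.Nh.add (Sy.Nh.const_mul (t' - t) hnF)
        (Sy.Nh.const_mul ((t' - t) ^ 2) hnM))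
      intro x
      have hx := this x
      simpa only [neg_add_rev, neg_mul, one_mul] using hx
    · intro z x
      have h3 := li2_taylor hf (A := lin (α x) z) (B := lin (β x) z) htt (li2_R α β x z)
      have h4 : it S.H f α β t z x - (S.wH (it S.H f α β t')).H z x =
          -(f (Real.sin t' * lin (α x) z + Real.cos t' * lin (β x) z) -
            f (Real.sin t * lin (α x) z + Real.cos t * lin (β x) z)) := by
        show it S.H f α β t z x - it S.H f α β t' z x = _
        unfold it itU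
        ring
      rw [h4]
      have h5 : f' (itU α β t' z x) *
          (Real.cos t' * lin (α x) z - Real.sin t' * lin (β x) z) =
          f' (Real.sin t' * lin (α x) z + Real.cos t' * lin (β x) z) *
          (Real.cos t' * lin (α x) z - Real.sin t' * lin (β x) z) := rfl
      rw [h5]
      unfold li2M
      linarith only [h3]
  have h6 : (S.wH (it S.H f α β t')).Ex (fun z x => -((t' - t) * (f' (itU α β t' z x) *
      (Real.cos t' * lin (α x) z - Real.sin t' * lin (β x) z)) +
      (t' - t) ^ 2 * li2M C₁ C₂ α β z)) =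
      -((t' - t) * (Real.sin t' * Real.cos t' * brk S f f' f'' α β t') + (t' - t) ^ 2 *
        (S.wH (it S.H f α β t')).Ex (fun z _ => li2M C₁ C₂ α β z)) := by
    have e2 : (fun (z : ι → ℝ) (x : X) => -((t' - t) * (f' (itU α β t' z x) *
      (Real.cos t' * lin (α x) z - Real.sin t' * lin (β x) z)) +
      (t' - t) ^ 2 * li2M C₁ C₂ α β z)) = fun z x => (-1) * ((t' - t) * (f' (itU α β t' z x) *
      (Real.cos t' * lin (α x) z - Real.sin t' * lin (β x) z)) +
      (t' - t) ^ 2 * li2M C₁ C₂ α β z) := by funext z x; ring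
    rw [e2, Sy.Ex_const_mul, hR'.Ex_add (Sy.Nh.const_mul _ hnF)
      (Sy.Nh.const_mul _ hnM), Sy.Ex_const_mul,
      Sy.Ex_const_mul, ex_deriv hS hf hs t']
    ring
  rw [h6] at h2
  have h7 := mul_le_mul_of_nonneg_left (hM t') (sq_nonneg (t' - t))
  linarith

/-- **Interpolation.** Proof: `fe θ' - fe θ ≤ Ex_θ' (H_θ' - H_θ)` by `Reg.jensen`, Taylor
(`|∂²_θ H| ≤ C (1 + ‖z‖²)`, uniform in `θ` by `dn_unif`), Riemann sums. -/
theorem int_le (hS : S.RegD D) (hf : Pot f f' f'' C₁ C₂) (hs : Sep D α β) {b : ℝ}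
    (hb : ∀ θ, 0 ≤ θ → θ ≤ Real.pi / 2 → brk S f f' f'' α β θ ≤ b) :
    (S.wH (it S.H f α β (Real.pi / 2))).fe - (S.wH (it S.H f α β 0)).fe ≤ b / 2 := by
  obtain ⟨M₀, hM0, hM⟩ := li2_ExM hS hf α β
  set g : ℝ → ℝ := fun t => (S.wH (it S.H f α β t)).fe with hg
  set h : ℝ → ℝ := fun t => g t - b / 2 * Real.sin t ^ 2 with hh
  have hpi := Real.pi_pos
  -- one step
  have step : ∀ t t', 0 ≤ t → t ≤ t' → t' ≤ Real.pi / 2 →
      h t' - h t ≤ (M₀ + |b|) * (t' - t) ^ 2 := by
    intro t t' h0 htt h1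
    have e1 := li2_step hS hf hs hM htt
    have hsc : 0 ≤ Real.sin t' * Real.cos t' :=
      mul_nonneg (Real.sin_nonneg_of_nonneg_of_le_pi (by linarith only [h0, htt]) (by linarith only [hpi, h1]))
        (Real.cos_nonneg_of_mem_Icc ⟨by linarith only [hpi, h0, htt], h1⟩)
    have e2 : (t' - t) * (Real.sin t' * Real.cos t' * brk S f f' f'' α β t') ≤
        (t' - t) * (Real.sin t' * Real.cos t' * b) :=
      mul_le_mul_of_nonneg_left
        (mul_le_mul_of_nonneg_left (hb t' (by linarith only [h0, htt]) h1) hsc) (by linarith only [htt])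
    -- the square of the sine
    have e3 : |(t' - t) * (Real.sin t' * Real.cos t') -
        1 / 2 * (Real.sin t' ^ 2 - Real.sin t ^ 2)| ≤ (t' - t) ^ 2 := by
      rcases htt.eq_or_lt with hlt | hlt
      · subst hlt; simp
      · have hd : ∀ s, HasDerivAt (fun s => 1 / 2 * Real.sin s ^ 2)
            (Real.sin s * Real.cos s) s := by
          intro s
          have h2 := ((Real.hasDerivAt_sin s).pow 2).const_mul (1 / 2)
          have h3 : Real.sin s * Real.cos s =
              1 / 2 * (((2 : ℕ) : ℝ) * Real.sin s ^ (2 - 1) * Real.cos s) := by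
            norm_num
            ring
          rw [h3]
          exact h2
        obtain ⟨ξ, hξ, hξ2⟩ := exists_hasDerivAt_eq_slope _ _ hlt
          (fun s _ => (hd s).continuousAt.continuousWithinAt) (fun s _ => hd s)
        rw [eq_div_iff (by linarith only [hlt])] at hξ2
        have e4 : 1 / 2 * (Real.sin t' ^ 2 - Real.sin t ^ 2) =
            Real.sin ξ * Real.cos ξ * (t' - t) := by rw [hξ2]; ring
        rw [e4]
        have e5 : (t' - t) * (Real.sin t' * Real.cos t') - Real.sin ξ * Real.cos ξ * (t' - t) =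
            (t' - t) * (1 / 2 * (Real.sin (2 * t') - Real.sin (2 * ξ))) := by
          rw [Real.sin_two_mul, Real.sin_two_mul]; ring
        rw [e5, abs_mul, abs_of_nonneg (by linarith only [hlt] : 0 ≤ t' - t), sq]
        refine mul_le_mul_of_nonneg_left ?_ (by linarith only [hlt])
        rw [abs_mul, abs_of_pos (by norm_num : (0 : ℝ) < 1 / 2)]
        have e6 := li2_sin (2 * t') (2 * ξ)
        have e7 : |2 * t' - 2 * ξ| = 2 * (t' - ξ) := by
          rw [abs_of_nonneg (by linarith only [hξ.2])]; ring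
        rw [e7] at e6
        linarith only [e6, hξ.1]
    have e8 : b * ((t' - t) * (Real.sin t' * Real.cos t') -
        1 / 2 * (Real.sin t' ^ 2 - Real.sin t ^ 2)) ≤ |b| * (t' - t) ^ 2 := by
      refine (le_abs_self _).trans ?_
      rw [abs_mul]
      exact mul_le_mul_of_nonneg_left e3 (abs_nonneg _)
    simp only [hh, hg]
    linarith
  -- Riemann sums
  have key : ∀ n : ℕ, 0 < n → h (Real.pi / 2) - h 0 ≤ (M₀ + |b|) * (Real.pi / 2) ^ 2 / n := by
    intro n hn
    have hn' : (0 : ℝ) < n := by exact_mod_cast hn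
    set δ := Real.pi / 2 / n with hδ
    have hδ0 : 0 ≤ δ := by positivity
    have hnδ : n * δ = Real.pi / 2 := by rw [hδ]; field_simp
    have ind : ∀ k : ℕ, k ≤ n → h (k * δ) - h 0 ≤ k * ((M₀ + |b|) * δ ^ 2) := by
      intro k
      induction k with
      | zero => intro _; simp
      | succ k ih =>
        intro hk
        have h1 := ih (by omega)
        have hk' : ((k + 1 : ℕ) : ℝ) ≤ n := by exact_mod_cast hk
        have h2 := step (k * δ) ((k + 1 : ℕ) * δ) (by (clear * - hn; positivity))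
          (by push_cast; linarith only [hδ0]) (by
            rw [← hnδ]; exact mul_le_mul_of_nonneg_right hk' hδ0)
        have h3 : ((k + 1 : ℕ) : ℝ) * δ - k * δ = δ := by push_cast; ring
        rw [h3] at h2
        push_cast at h2 ⊢
        linarith only [h1, h2]
    have h4 := ind n le_rfl
    rw [hnδ] at h4
    refine h4.trans (le_of_eq ?_)
    rw [hδ]
    (clear * - hn; field_simp)
  have hle : h (Real.pi / 2) - h 0 ≤ 0 := by
    have hlim : Tendsto (fun n : ℕ => (M₀ + |b|) * (Real.pi / 2) ^ 2 / (n : ℝ)) atTop (𝓝 0) :=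
      tendsto_const_div_atTop_nhds_zero_nat _
    refine ge_of_tendsto hlim ?_
    filter_upwards [eventually_gt_atTop 0] with n hn
    exact key n hn
  simp only [hh, hg, Real.sin_pi_div_two, Real.sin_zero] at hle
  linarith only [hle]

end Vale.Agent.P157.Lv
end

section

/-!
The step from the field of a pattern to a tree field.
-/

open MeasureTheory ProbabilityTheory Filter Topology

namespace Vale.Agent.P157.Lv

set_option linter.unusedSectionVars false

open Par (incr Path)

open Sy

variable {ι X : Type} [Fintype ι] [DecidableEq ι] [Fintype X] [DecidableEq X] [Nonempty X]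
  {S : Sy ι X} {D : ι → (ι → ℝ) → X → ℝ} {f f' f'' : ℝ → ℝ} {C₁ C₂ : ℝ} {α β : X → ι → ℝ}

/-! ### One pattern -/

variable {N : ℕ}

/-- The field of a pattern. -/
noncomputable def pf (φ : X → Fin N → ℝ) (g : Fin N → ι) (z : ι → ℝ) (x : X) : ℝ :=
  1 / √(N : ℝ) * ∑ i, φ x i * z (g i)

/-- The tree field with the path `R`. -/
noncomputable def tf (y : ℕ → ι) (K : ℕ) (R : ℕ → ℝ) (z : ι → ℝ) : ℝ :=
  ∑ l ∈ Finset.range (K + 1), √(incr R l) * z (y l)

/-- New coordinates for a pattern and for a tree field. -/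
structure NewC (S : Sy ι X) (D : ι → (ι → ℝ) → X → ℝ) (g : Fin N → ι) (y : ℕ → ι) : Prop where
  inj : Function.Injective g
  gl : ∀ i, S.lev (g i) = 0
  yl : ∀ l ≤ S.K, S.lev (y l) = l
  ne : ∀ i, ∀ l ≤ S.K, g i ≠ y l
  Dg : ∀ i z x, D (g i) z x = 0
  Dy : ∀ l ≤ S.K, ∀ z x, D (y l) z x = 0

theorem Sy.Reg.pairEx_pert_le (hS : S.Reg) {H' : (ι → ℝ) → X → ℝ} (hS' : (S.wH H').Reg) {B : ℝ}
    (hB : ∀ z x, |H' z x - S.H z x| ≤ B) {l : ℕ} (hl : l ≤ S.K) {ψ : X → X → ℝ}
    (h0 : ∀ x x', 0 ≤ ψ x x') :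
    (S.wH H').pairEx l ψ ≤ Real.exp (6 * B) * S.pairEx l ψ := by
  have hl' : l ≤ (S.wH H').K := hl
  have hpr : ∀ z x, (S.wH H').pr l z x ≤ Real.exp (2 * B) * S.pr l z x := by
    intro z x
    refine hS.T_pert_le hS' hB hl (Nh.snd fun y => if y = x then (1 : ℝ) else 0) ?_ z
    intro z y
    split_ifs <;> norm_num
  have h1 : (S.wH H').pairEx l ψ ≤
      (S.wH H').Ex (fun z _ => Real.exp (4 * B) *
        ∑ x, ∑ x', S.pr l z x * S.pr l z x' * ψ x x') := by
    refine hS'.Ex_mono (Nh.fst (hS'.nh_pair hl' ψ)) (Nh.fst ((hS.nh_pair hl ψ).const_mul _))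
      fun z _ => ?_
    rw [Finset.mul_sum]
    refine Finset.sum_le_sum fun x _ => ?_
    rw [Finset.mul_sum]
    refine Finset.sum_le_sum fun x' _ => ?_
    have e : Real.exp (4 * B) * (S.pr l z x * S.pr l z x' * ψ x x') =
        (Real.exp (2 * B) * S.pr l z x) * (Real.exp (2 * B) * S.pr l z x') * ψ x x' := by
      rw [show (4 : ℝ) * B = 2 * B + 2 * B by ring, Real.exp_add]
      ring
    rw [e]
    refine mul_le_mul_of_nonneg_right ?_ (h0 x x')
    exact mul_le_mul (hpr z x) (hpr z x') (hS'.pr_nonneg hl' z x')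
      (mul_nonneg (Real.exp_pos _).le (hS.pr_nonneg hl z x))
  refine h1.trans ?_
  have h2 := hS.Ex_pert_le hS' hB (h := fun z _ => Real.exp (4 * B) *
        ∑ x, ∑ x', S.pr l z x * S.pr l z x' * ψ x x') (Nh.fst ((hS.nh_pair hl ψ).const_mul _))
      (fun z _ => mul_nonneg (Real.exp_pos _).le (Finset.sum_nonneg fun x _ =>
        Finset.sum_nonneg fun x' _ => mul_nonneg (mul_nonneg (hS.pr_nonneg hl z x)
          (hS.pr_nonneg hl z x')) (h0 x x')))
  refine h2.trans (le_of_eq ?_)
  rw [Sy.Ex_const_mul, Sy.pairEx, ← mul_assoc, ← Real.exp_add]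
  congr 2
  ring

/-! ### The coefficients -/

/-- The coefficients of the field of the pattern. -/
noncomputable def li3a (φ : X → Fin N → ℝ) (g : Fin N → ι) (x : X) (e : ι) : ℝ :=
  ∑ i, if g i = e then φ x i / √(N : ℝ) else 0

/-- The coefficients of the tree field. -/
noncomputable def li3b (y : ℕ → ι) (K : ℕ) (R : ℕ → ℝ) (_ : X) (e : ι) : ℝ :=
  ∑ l ∈ Finset.range (K + 1), if y l = e then √(incr R l) else 0

lemma li3_lin_a (φ : X → Fin N → ℝ) (g : Fin N → ι) (x : X) (z : ι → ℝ) :
    lin (li3a φ g x) z = pf φ g z x := by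
  unfold lin li3a pf
  simp_rw [Finset.sum_mul]
  rw [Finset.sum_comm, Finset.mul_sum]
  refine Finset.sum_congr rfl fun i _ => ?_
  rw [Finset.sum_eq_single (g i)]
  · rw [if_pos rfl]
    ring
  · intro e _ he
    rw [if_neg (Ne.symm he), zero_mul]
  · intro h
    exact absurd (Finset.mem_univ _) h

lemma li3_lin_b (y : ℕ → ι) (K : ℕ) (R : ℕ → ℝ) (x : X) (z : ι → ℝ) :
    lin (li3b y K R x) z = tf y K R z := by
  unfold lin li3b tf
  simp_rw [Finset.sum_mul]
  rw [Finset.sum_comm]
  refine Finset.sum_congr rfl fun l _ => ?_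
  rw [Finset.sum_eq_single (y l)]
  · rw [if_pos rfl]
  · intro e _ he
    rw [if_neg (Ne.symm he), zero_mul]
  · intro h
    exact absurd (Finset.mem_univ _) h

lemma li3a_g {φ : X → Fin N → ℝ} {g : Fin N → ι} (hg : Function.Injective g) (x : X)
    (i : Fin N) : li3a φ g x (g i) = φ x i / √(N : ℝ) := by
  unfold li3a
  rw [Finset.sum_eq_single i]
  · rw [if_pos rfl]
  · intro j _ hj
    rw [if_neg fun h => hj (hg h)]
  · intro h
    exact absurd (Finset.mem_univ _) h

lemma li3a_ne {φ : X → Fin N → ℝ} {g : Fin N → ι} {x : X} {e : ι} (h : li3a φ g x e ≠ 0) :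
    ∃ i, g i = e := by
  by_contra hc
  push Not at hc
  apply h
  unfold li3a
  exact Finset.sum_eq_zero fun i _ => if_neg (hc i)

lemma li3b_y {y : ℕ → ι} {K : ℕ} (hy : ∀ l ≤ K, ∀ l' ≤ K, y l = y l' → l = l') (R : ℕ → ℝ)
    (x : X) {l : ℕ} (hl : l ≤ K) : li3b y K R x (y l) = √(incr R l) := by
  unfold li3b
  rw [Finset.sum_eq_single l]
  · rw [if_pos rfl]
  · intro j hj hne
    rw [if_neg fun h => hne (hy j (by simpa only [Finset.mem_range, Order.lt_add_one_iff] using hj) l hl h)]
  · intro h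
    exact absurd (Finset.mem_range.2 (Nat.lt_succ_of_le hl)) h

lemma li3b_ne {y : ℕ → ι} {K : ℕ} {R : ℕ → ℝ} {x : X} {e : ι} (h : li3b y K R x e ≠ 0) :
    ∃ l ≤ K, y l = e := by
  by_contra hc
  push Not at hc
  apply h
  unfold li3b
  refine Finset.sum_eq_zero fun l hl => if_neg (hc l ?_)
  simpa only [Finset.mem_range, Order.lt_add_one_iff] using hl

/-- Sums over the new coordinates of the pattern. -/
lemma li3_sum_a {φ : X → Fin N → ℝ} {g : Fin N → ι} (hg : Function.Injective g)
    {Q : (X → ℝ) → ℝ} (hQ : Q (fun _ => 0) = 0) {P : ι → Prop} [DecidablePred P]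
    (hP : ∀ i, P (g i)) :
    ∑ e, (if P e then Q (fun x => li3a φ g x e) else 0) =
      ∑ i, Q (fun x => φ x i / √(N : ℝ)) := by
  have h1 : ∑ i, Q (fun x => φ x i / √(N : ℝ)) =
      ∑ i, (fun e => if P e then Q (fun x => li3a φ g x e) else 0) (g i) := by
    refine Finset.sum_congr rfl fun i _ => ?_
    simp only [hP i, if_true, li3a_g hg]
  rw [h1]
  symm
  have h2 := Finset.sum_image (s := (Finset.univ : Finset (Fin N))) (g := g)
    (f := fun e => if P e then Q (fun x => li3a φ g x e) else 0) (fun i _ j _ h => hg h)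
  rw [← h2]
  refine Finset.sum_subset (Finset.subset_univ _) fun e _ he => ?_
  have h3 : (fun x => li3a φ g x e) = fun _ => 0 := by
    funext x
    by_contra hc
    obtain ⟨i, hi⟩ := li3a_ne hc
    exact he (Finset.mem_image.2 ⟨i, Finset.mem_univ _, hi⟩)
  rw [h3, hQ, ite_self]

/-- Sums over the new coordinates of the tree field. -/
lemma li3_sum_b {y : ℕ → ι} {K : ℕ} (hy : ∀ l ≤ K, ∀ l' ≤ K, y l = y l' → l = l') (R : ℕ → ℝ)
    {Q : (X → ℝ) → ℝ} (hQ : Q (fun _ => 0) = 0) {P : ι → Prop} [DecidablePred P] {k : ℕ}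
    (hk : k ≤ K) (hP : ∀ l ≤ K, (P (y l) ↔ l ≤ k)) :
    ∑ e, (if P e then Q (fun x => li3b y K R x e) else 0) =
      ∑ l ∈ Finset.range (k + 1), Q (fun _ => √(incr R l)) := by
  have h1 : ∑ l ∈ Finset.range (k + 1), Q (fun _ : X => √(incr R l)) =
      ∑ l ∈ Finset.range (k + 1), (fun e => if P e then Q (fun x => li3b y K R x e) else 0)
        (y l) := by
    refine Finset.sum_congr rfl fun l hl => ?_
    have hl1 : l ≤ k := by simpa only [Finset.mem_range, Order.lt_add_one_iff] using hl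
    have hl2 : l ≤ K := hl1.trans hk
    simp only [(hP l hl2).2 hl1, if_true, li3b_y hy R _ hl2]
  rw [h1]
  symm
  have h2 := Finset.sum_image (s := Finset.range (k + 1)) (g := y)
    (f := fun e => if P e then Q (fun x => li3b y K R x e) else 0) (fun i hi j hj h => by
      have hi1 : i ≤ k := by simpa only [Finset.coe_range, Set.mem_Iio, Order.lt_add_one_iff] using hi
      have hj1 : j ≤ k := by simpa only [Finset.coe_range, Set.mem_Iio, Order.lt_add_one_iff] using hj
      exact hy i (hi1.trans hk) j (hj1.trans hk) h)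
  rw [← h2]
  refine Finset.sum_subset (Finset.subset_univ _) fun e _ he => ?_
  by_cases hPe : P e
  · have h3 : (fun x : X => li3b y K R x e) = fun _ => 0 := by
      funext x
      by_contra hc
      obtain ⟨l, hl, hi⟩ := li3b_ne hc
      refine he (Finset.mem_image.2 ⟨l, ?_, hi⟩)
      rw [← hi] at hPe
      exact Finset.mem_range.2 (Nat.lt_succ_of_le ((hP l hl).1 hPe))
    rw [h3, hQ, ite_self]
  · rw [if_neg hPe]

lemma li3_sum_incr (R : ℕ → ℝ) (k : ℕ) : ∑ l ∈ Finset.range (k + 1), incr R l = R k := by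
  induction k with
  | zero => simp [Par.incr_zero_def]
  | succ k ih => rw [Finset.sum_range_succ, ih, Par.incr_succ_def]; ring

lemma li3_incr_nonneg {K : ℕ} {R : ℕ → ℝ} (hR : Path K R) {l : ℕ} (hl : l ≤ K) :
    0 ≤ incr R l := by
  cases l with
  | zero => exact hR.1
  | succ l => exact sub_nonneg.2 (hR.2 l hl)

/-- The tilted average of an observable in terms of the averages of its restrictions to the
points. -/
lemma li3_T {S : Sy ι X} (hS : S.Reg) {l : ℕ} (hl : l ≤ S.K) {h : (ι → ℝ) → X → ℝ} (hh : Nh h)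
    (a : X → ℝ) (z : ι → ℝ) :
    S.T l (fun z x => h z x * a x) z =
      ∑ y, S.T l (fun z x => h z x * (if x = y then 1 else 0)) z * a y := by
  have e : (fun (z : ι → ℝ) (x : X) => h z x * a x) =
      fun z x => ∑ y, a y * (h z x * (if x = y then 1 else 0)) := by
    funext z x
    rw [Finset.sum_eq_single x]
    · rw [if_pos rfl]
      ring
    · intro y _ hy
      rw [if_neg (Ne.symm hy)]
      ring
    · intro h
      exact absurd (Finset.mem_univ _) h
  have hn : ∀ y : X, Nh fun (z : ι → ℝ) (x : X) => h z x * (if x = y then 1 else 0) :=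
    fun y => Nh.mul hh (Nh.snd fun x => if x = y then (1 : ℝ) else 0)
  rw [e, hS.T_sum hl _ fun y _ => Nh.const_mul _ (hn y)]
  refine Finset.sum_congr rfl fun y _ => ?_
  rw [Sy.T_const_mul, mul_comm]

/-- The bound of the bracket at one level. -/
lemma li3_level {S : Sy ι X} (hS : S.Reg) {l : ℕ} (hl : l ≤ S.K) {h : (ι → ℝ) → X → ℝ}
    (hh : Nh h) {C : ℝ} (hC : ∀ z x, |h z x| ≤ C) {φ : X → Fin N → ℝ} (hN : 0 < N)
    {R : ℕ → ℝ} (hR : Path S.K R) :
    ∑ k ∈ Finset.range (l + 1), S.Ex (fun z _ => S.T l (fun z x => h z x * √(incr R k)) z ^ 2) -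
      ∑ i, S.Ex (fun z _ => S.T l (fun z x => h z x * (φ x i / √(N : ℝ))) z ^ 2) ≤
      C ^ 2 * S.pairEx l (fun x x' => |Rov φ x x' - R l|) := by
  set c : (ι → ℝ) → X → ℝ := fun z y => S.T l (fun z x => h z x * (if x = y then 1 else 0)) z
    with hc
  have hC0 : 0 ≤ C := (abs_nonneg _).trans (hC 0 (Classical.arbitrary X))
  have hn : ∀ y : X, Nh fun (z : ι → ℝ) (x : X) => h z x * (if x = y then 1 else 0) :=
    fun y => Nh.mul hh (Nh.snd fun x => if x = y then (1 : ℝ) else 0)
  have hcE : ∀ y, EG fun z => c z y := fun y => hS.eg_T hl (hn y)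
  have hcb : ∀ z y, |c z y| ≤ C * S.pr l z y := by
    intro z y
    have hb : ∀ (z : ι → ℝ) (x : X), |h z x * (if x = y then 1 else 0)| ≤
        C * (if x = y then 1 else 0) := by
      intro z x
      split_ifs
      · simpa only [mul_one] using hC z x
      · simp
    have hn1 : Nh fun (_ : ι → ℝ) (x : X) => C * (if x = y then (1 : ℝ) else 0) :=
      Nh.snd fun x => C * (if x = y then (1 : ℝ) else 0)
    have e1 : S.T l (fun _ x => C * (if x = y then (1 : ℝ) else 0)) z = C * S.pr l z y :=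
      Sy.T_const_mul S l C _ z
    rw [abs_le, ← e1]
    constructor
    · have h2 := hS.T_mono hl (f := fun _ x => (-1) * (C * (if x = y then (1 : ℝ) else 0)))
        (g := fun z x => h z x * (if x = y then 1 else 0)) (Nh.const_mul (-1) hn1) (hn y)
        (fun z x => by
          have := (abs_le.1 (hb z x)).1
          linarith only [this]) z
      rw [Sy.T_const_mul] at h2
      linarith only [h2]
    · exact hS.T_mono hl (hn y) hn1 (fun z x => (abs_le.1 (hb z x)).2) z
  have hT : ∀ (a : X → ℝ) z, S.T l (fun z x => h z x * a x) z = ∑ y, c z y * a y :=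
    fun a z => li3_T hS hl hh a z
  have hTE : ∀ (a : X → ℝ), Nh (X := X) fun z _ => S.T l (fun z x => h z x * a x) z ^ 2 :=
    fun a => Nh.pow (Nh.fst (hS.eg_T hl (Nh.mul hh (Nh.snd a)))) 2
  rw [← hS.Ex_sum _ (fun k _ => hTE fun _ => √(incr R k)),
    ← hS.Ex_sum _ (fun i _ => hTE fun x => φ x i / √(N : ℝ)),
    ← hS.Ex_sub (Nh.sum _ fun k _ => hTE fun _ => √(incr R k))
      (Nh.sum _ fun i _ => hTE fun x => φ x i / √(N : ℝ))]
  have hpE := (hS.nh_pair hl (fun x x' => |Rov φ x x' - R l|)).const_mul (C ^ 2)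
  rw [Sy.pairEx, ← Sy.Ex_const_mul]
  refine hS.Ex_mono (Nh.sub (Nh.sum _ fun k _ => hTE fun _ => √(incr R k))
      (Nh.sum _ fun i _ => hTE fun x => φ x i / √(N : ℝ))) (Nh.fst hpE) fun z _ => ?_
  have hNpos : (0 : ℝ) < N := by exact_mod_cast hN
  have e2 : ∑ k ∈ Finset.range (l + 1), S.T l (fun z x => h z x * √(incr R k)) z ^ 2 =
      ∑ x, ∑ x', c z x * c z x' * R l := by
    have e3 : ∀ k ∈ Finset.range (l + 1), S.T l (fun z x => h z x * √(incr R k)) z ^ 2 =
        incr R k * (∑ x, ∑ x', c z x * c z x') := by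
      intro k hk
      have hk1 : k ≤ l := by simpa only [Finset.mem_range, Order.lt_add_one_iff] using hk
      rw [hT (fun _ => √(incr R k)) z, ← Finset.sum_mul, mul_pow,
        Real.sq_sqrt (li3_incr_nonneg hR (hk1.trans hl)), sq, Finset.sum_mul_sum]
      ring
    rw [Finset.sum_congr rfl e3, ← Finset.sum_mul, li3_sum_incr, Finset.mul_sum]
    refine Finset.sum_congr rfl fun x _ => ?_
    rw [Finset.mul_sum]
    refine Finset.sum_congr rfl fun x' _ => ?_
    ring
  have e4 : ∑ i, S.T l (fun z x => h z x * (φ x i / √(N : ℝ))) z ^ 2 =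
      ∑ x, ∑ x', c z x * c z x' * Rov φ x x' := by
    have e5 : ∀ i : Fin N, S.T l (fun z x => h z x * (φ x i / √(N : ℝ))) z ^ 2 =
        ∑ x, ∑ x', c z x * c z x' * (1 / N * (φ x i * φ x' i)) := by
      intro i
      rw [hT (fun x => φ x i / √(N : ℝ)) z, sq, Finset.sum_mul_sum]
      refine Finset.sum_congr rfl fun x _ => Finset.sum_congr rfl fun x' _ => ?_
      have h3 : √(N : ℝ) * √(N : ℝ) = N := Real.mul_self_sqrt hNpos.le
      have h4 : √(N : ℝ) ≠ 0 := (Real.sqrt_pos.2 hNpos).ne'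
      field_simp
      rw [sq, h3]
      ring
    simp_rw [e5]
    rw [Finset.sum_comm]
    refine Finset.sum_congr rfl fun x _ => ?_
    rw [Finset.sum_comm]
    refine Finset.sum_congr rfl fun x' _ => ?_
    unfold Rov
    rw [← Finset.mul_sum, ← Finset.mul_sum]
  rw [e2, e4, ← Finset.sum_sub_distrib, Finset.mul_sum]
  refine Finset.sum_le_sum fun x _ => ?_
  rw [← Finset.sum_sub_distrib, Finset.mul_sum]
  refine Finset.sum_le_sum fun x' _ => ?_
  have h5 : c z x * c z x' * R l - c z x * c z x' * Rov φ x x' =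
      -(c z x * c z x' * (Rov φ x x' - R l)) := by ring
  rw [h5]
  refine (neg_le_abs _).trans ?_
  rw [abs_mul, abs_mul]
  have h6 : |c z x| * |c z x'| ≤ (C * S.pr l z x) * (C * S.pr l z x') :=
    mul_le_mul (hcb z x) (hcb z x') (abs_nonneg _)
      (mul_nonneg hC0 (hS.pr_nonneg hl z x))
  refine (mul_le_mul_of_nonneg_right h6 (abs_nonneg _)).trans (le_of_eq ?_)
  ring

/-- **One pattern.** Proof: `int_le` with `α x e = φ x i / √N` if `e = g i` and
`β x e = √(incr R l)` if `e = y l`; both have square sum `1`; with `c_x = T_l (f'(u) 1_x)`,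
`|c_x| ≤ C₁ pr l x`, the bracket is `-∑_l p_l Ex_θ ∑_{x,x'} c_x c_{x'} (Rov x x' - R l)`. -/
theorem pattern_step {φ : X → Fin N → ℝ} {zc : ℕ → Fin N → ι} {s : ℕ → ℝ}
    (F : Fld S D φ zc s) {g : Fin N → ι} {y : ℕ → ι} (hn : NewC S D g y)
    (hf : Pot f f' f'' C₁ C₂) {B : ℝ} (hB : ∀ x, |f x| ≤ B) {R : ℕ → ℝ} (hR : Path S.K R)
    (hR1 : R S.K = 1) :
    (S.wH fun z x => S.H z x + f (pf φ g z x)).fe -
      (S.wH fun z x => S.H z x + f (tf y S.K R z)).fe ≤
      1 / 2 * C₁ ^ 2 * Real.exp (6 * B) *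
        ∑ l ∈ Finset.range (S.K + 1), S.p l * S.pairEx l (fun x x' => |Rov φ x x' - R l|) := by
  have hS := F.hreg
  have hNpos := F.N_pos
  have hyi : ∀ l ≤ S.K, ∀ l' ≤ S.K, y l = y l' → l = l' := by
    intro l hl l' hl' h
    rw [← hn.yl l hl, ← hn.yl l' hl', h]
  have hP : ∀ l ≤ S.K, 0 ≤ S.p l := fun l hl => sub_nonneg.2 (hS.mono l hl)
  -- the square sums
  have ha : ∀ x, ∑ e, li3a φ g x e ^ 2 = 1 := by
    intro x
    have h := li3_sum_a (φ := φ) (g := g) hn.inj (Q := fun a : X → ℝ => a x ^ 2) (by simp)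
      (P := fun _ => True) (fun _ => trivial)
    simp only [if_true] at h
    rw [h]
    simp_rw [div_pow, Real.sq_sqrt hNpos.le]
    rw [← Finset.sum_div, F.norm x]
    exact div_self hNpos.ne'
  have hb : ∀ x : X, ∑ e, li3b y S.K R x e ^ 2 = 1 := by
    intro x
    have h := li3_sum_b (y := y) (K := S.K) hyi R (Q := fun a : X → ℝ => a x ^ 2) (by simp)
      (P := fun _ => True) (le_refl S.K) (fun l hl => ⟨fun _ => hl, fun _ => trivial⟩)
    simp only [if_true] at h
    rw [h]
    have e : ∀ l ∈ Finset.range (S.K + 1), √(incr R l) ^ 2 = incr R l := fun l hl =>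
      Real.sq_sqrt (li3_incr_nonneg hR (by simpa only [Finset.mem_range, Order.lt_add_one_iff] using hl))
    rw [Finset.sum_congr rfl e, li3_sum_incr, hR1]
  -- separation
  have hs : Sep D (li3a φ g) (li3b (X := X) y S.K R) := by
    constructor
    · intro e x x'
      by_contra hc
      obtain ⟨i, hi⟩ := li3a_ne (left_ne_zero_of_mul hc)
      obtain ⟨l, hl, hl'⟩ := li3b_ne (right_ne_zero_of_mul hc)
      exact hn.ne i l hl (hi.trans hl'.symm)
    · intro e x hx z x'
      rcases hx with hx | hx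
      · obtain ⟨i, hi⟩ := li3a_ne hx
        rw [← hi]
        exact hn.Dg i z x'
      · obtain ⟨l, hl, hl'⟩ := li3b_ne hx
        rw [← hl']
        exact hn.Dy l hl z x'
  set b : ℝ := C₁ ^ 2 * Real.exp (6 * B) *
        ∑ l ∈ Finset.range (S.K + 1), S.p l * S.pairEx l (fun x x' => |Rov φ x x' - R l|)
    with hbdef
  have key : ∀ θ, 0 ≤ θ → θ ≤ Real.pi / 2 →
      brk S f f' f'' (li3a φ g) (li3b (X := X) y S.K R) θ ≤ b := by
    intro θ _ _
    obtain ⟨H', hH'⟩ : ∃ H', H' = it S.H f (li3a φ g) (li3b (X := X) y S.K R) θ := ⟨_, rfl⟩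
    have hS' : (S.wH H').Reg := by
      rw [hH']
      exact (regD_it F.reg hf θ).toReg
    have hH'B : ∀ z x, |H' z x - S.H z x| ≤ B := by
      intro z x
      rw [hH', it, add_sub_cancel_left]
      exact hB _
    have hmu : ∀ x, Measurable fun z => itU (li3a φ g) (li3b (X := X) y S.K R) θ z x := by
      intro x
      unfold itU lin
      exact ((Finset.measurable_sum _ fun e _ =>
        (measurable_pi_apply e).const_mul _).const_mul _).add
        ((Finset.measurable_sum _ fun e _ => (measurable_pi_apply e).const_mul _).const_mul _)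
    have hh : Nh fun z x => f' (itU (li3a φ g) (li3b (X := X) y S.K R) θ z x) := fun x =>
      EG.of_bdd (hf.measurable.2.1.comp (hmu x)) fun z => hf.b1 _
    unfold brk
    rw [← hH']
    have z1 : (S.wH H').Ex (fun z x => (f'' (itU (li3a φ g) (li3b (X := X) y S.K R) θ z x) +
        f' (itU (li3a φ g) (li3b (X := X) y S.K R) θ z x) ^ 2) *
        (∑ e, li3a φ g x e ^ 2 - ∑ e, li3b (X := X) y S.K R x e ^ 2)) = 0 := by
      have e : (fun (z : ι → ℝ) (x : X) =>
          (f'' (itU (li3a φ g) (li3b (X := X) y S.K R) θ z x) +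
            f' (itU (li3a φ g) (li3b (X := X) y S.K R) θ z x) ^ 2) *
          (∑ e, li3a φ g x e ^ 2 - ∑ e, li3b (X := X) y S.K R x e ^ 2)) = fun _ _ => 0 := by
        funext z x
        rw [ha, hb, sub_self, mul_zero]
      rw [e, hS'.Ex_const]
    rw [z1, zero_sub, ← Finset.sum_neg_distrib, hbdef, Finset.mul_sum]
    refine Finset.sum_le_sum fun l hl => ?_
    have hl1 : l ≤ S.K := by simpa only [Finset.mem_range, Order.lt_add_one_iff] using hl
    have hl2 : l ≤ (S.wH H').K := hl1
    set h : (ι → ℝ) → X → ℝ := fun z x => f' (itU (li3a φ g) (li3b (X := X) y S.K R) θ z x)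
      with hhdef
    have s1 := li3_sum_a (φ := φ) (g := g) hn.inj
      (Q := fun a : X → ℝ => (S.wH H').Ex (fun z _ => (S.wH H').T l (fun z x => h z x * a x) z ^ 2))
      (by
        have e : (fun (z : ι → ℝ) (_ : X) =>
            (S.wH H').T l (fun z x => h z x * (fun _ => (0 : ℝ)) x) z ^ 2) = fun _ _ => 0 := by
          funext z _
          simp only [mul_zero]
          rw [hS'.T_const hl2]
          norm_num
        rw [e, hS'.Ex_const])
      (P := fun e => S.lev e ≤ l) (fun i => by rw [hn.gl i]; exact Nat.zero_le _)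
    have s2 := li3_sum_b (y := y) (K := S.K) hyi R
      (Q := fun a : X → ℝ => (S.wH H').Ex (fun z _ => (S.wH H').T l (fun z x => h z x * a x) z ^ 2))
      (by
        have e : (fun (z : ι → ℝ) (_ : X) =>
            (S.wH H').T l (fun z x => h z x * (fun _ => (0 : ℝ)) x) z ^ 2) = fun _ _ => 0 := by
          funext z _
          simp only [mul_zero]
          rw [hS'.T_const hl2]
          norm_num
        rw [e, hS'.Ex_const])
      (P := fun e => S.lev e ≤ l) hl1 (fun k hk => by rw [hn.yl k hk])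
    have s3 : (∑ e, if S.lev e ≤ l then
        ((S.wH H').Ex (fun z _ => (S.wH H').T l (fun z x => h z x * li3a φ g x e) z ^ 2) -
        (S.wH H').Ex (fun z _ => (S.wH H').T l (fun z x => h z x * li3b (X := X) y S.K R x e) z ^ 2))
        else 0) =
        ∑ i, (S.wH H').Ex (fun z _ => (S.wH H').T l (fun z x => h z x * (φ x i / √(N : ℝ))) z ^ 2) -
        ∑ k ∈ Finset.range (l + 1),
          (S.wH H').Ex (fun z _ => (S.wH H').T l (fun z x => h z x * √(incr R k)) z ^ 2) := by
      rw [← s1, ← s2, ← Finset.sum_sub_distrib]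
      refine Finset.sum_congr rfl fun e _ => ?_
      split_ifs
      · rfl
      · rw [sub_zero]
    have s4 := li3_level hS' hl2 hh (fun z x => hf.b1 _) (φ := φ) F.N0
      (R := R) (show Path (S.wH H').K R from hR)
    have s5 := hS.pairEx_pert_le hS' hH'B hl1 (ψ := fun x x' => |Rov φ x x' - R l|)
      (fun x x' => abs_nonneg _)
    have s6 : -(S.p l * ∑ e, if S.lev e ≤ l then
        ((S.wH H').Ex (fun z _ => (S.wH H').T l (fun z x => h z x * li3a φ g x e) z ^ 2) -
        (S.wH H').Ex (fun z _ => (S.wH H').T l (fun z x => h z x * li3b (X := X) y S.K R x e) z ^ 2))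
        else 0) ≤ S.p l * (C₁ ^ 2 * (Real.exp (6 * B) *
          S.pairEx l (fun x x' => |Rov φ x x' - R l|))) := by
      rw [s3, ← mul_neg, neg_sub]
      refine mul_le_mul_of_nonneg_left ?_ (hP l hl1)
      refine s4.trans ?_
      exact mul_le_mul_of_nonneg_left s5 (sq_nonneg _)
    refine s6.trans (le_of_eq ?_)
    ring
  have hfin := int_le F.reg hf hs key
  have e1 : it S.H f (li3a φ g) (li3b (X := X) y S.K R) (Real.pi / 2) =
      fun z x => S.H z x + f (pf φ g z x) := by
    funext z x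
    rw [it, itU, Real.sin_pi_div_two, Real.cos_pi_div_two, one_mul, zero_mul, add_zero,
      li3_lin_a]
  have e2 : it S.H f (li3a φ g) (li3b (X := X) y S.K R) 0 =
      fun z x => S.H z x + f (tf y S.K R z) := by
    funext z x
    rw [it, itU, Real.sin_zero, Real.cos_zero, one_mul, zero_mul, zero_add, li3_lin_b]
  rw [e1, e2] at hfin
  refine hfin.trans (le_of_eq ?_)
  rw [hbdef]
  ring

end Vale.Agent.P157.Lv
end

section

/-!
Free energies of tree fields and of the fields of the spins, in terms of the cascades.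
-/

open MeasureTheory ProbabilityTheory Filter Topology

namespace Vale.Agent.P157.Lv

set_option linter.unusedSectionVars false

open Par (incr Path Exponents cascade gstep patternPart spinPart topN lw)

variable {ι X : Type} [Fintype ι] [DecidableEq ι] [Fintype X] [Nonempty X]
  {S : Sy ι X} {D : ι → (ι → ℝ) → X → ℝ}

/-! ### Independence of a coordinate -/

/-- The function `h` does not depend on the coordinate `e`. -/
def brIndep (e : ι) (h : (ι → ℝ) → ℝ) : Prop := ∀ z t, h (Function.update z e t) = h z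

lemma brIndep_of_pd {e : ι} {H : (ι → ℝ) → ℝ} {H' : (ι → ℝ) → ℝ} (hd : PD e H H')
    (h0 : ∀ z, H' z = 0) : brIndep e H := by
  intro z t
  have h1 : ∀ s, HasDerivAt (fun t => H (Function.update z e t)) 0 s := by
    intro s
    have := hd z s
    rwa [h0] at this
  have h2 := is_const_of_deriv_eq_zero (f := fun t => H (Function.update z e t))
    (fun s => (h1 s).differentiableAt) (fun s => (h1 s).deriv) t (z e)
  simpa using h2

lemma br_mix_update_of_lt {lev : ι → ℕ} {l : ℕ} {e : ι} (he : l < lev e) (z w : ι → ℝ) (t : ℝ) :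
    mix lev l (Function.update z e t) w = mix lev l z w := by
  funext j
  unfold mix
  by_cases hj : lev j ≤ l
  · rw [if_pos hj, if_pos hj, Function.update_of_ne]
    rintro rfl
    omega
  · rw [if_neg hj, if_neg hj]

lemma br_mix_update_right {lev : ι → ℕ} {l : ℕ} {e : ι} (he : l < lev e) (z w : ι → ℝ) (t : ℝ) :
    mix lev l z (Function.update w e t) = Function.update (mix lev l z w) e t := by
  funext j
  unfold mix
  by_cases hj : j = e
  · subst hj
    rw [Function.update_self, if_neg (by omega), Function.update_self]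
  · rw [Function.update_of_ne hj, Function.update_of_ne hj]

lemma brIndep.J {e : ι} {h : (ι → ℝ) → ℝ} (hh : brIndep e h) (lev : ι → ℕ) (l : ℕ) :
    brIndep e (Lv.J lev l h) := by
  intro z t
  unfold Lv.J
  by_cases he : lev e ≤ l
  · simp only [mix_update he, hh _ _]
  · simp only [br_mix_update_of_lt (not_le.1 he)]

lemma brIndep_top {e : ι} (h : ∀ x, brIndep e fun z => S.H z x) : brIndep e S.top := by
  intro z t
  unfold Sy.top
  have h1 : ∀ x, S.H (Function.update z e t) x = S.H z x := fun x => h x z t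
  simp only [h1]

lemma brIndep_lg {e : ι} (h : ∀ x, brIndep e fun z => S.H z x) {l : ℕ} (hl : l ≤ S.K) :
    brIndep e (S.lg l) := by
  refine Sy.down_ind (P := fun l => brIndep e (S.lg l)) ?_ ?_ l hl
  · rw [Sy.lg_top]
    exact brIndep_top h
  · intro l hl ih
    rw [Sy.lg_step S hl]
    have h1 : brIndep e (fun z => Real.exp (S.m (l + 1) * S.lg (l + 1) z)) := by
      intro z t
      simp only [ih z t]
    intro z t
    unfold Sy.stp
    rw [h1.J S.lev l z t]

/-- The coordinate `e` is independent of the others. -/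
lemma br_integral_mul {e : ι} {h : (ι → ℝ) → ℝ} (hh : brIndep e h) (hm : Measurable h)
    {g : ℝ → ℝ} (hg : Measurable g) :
    ∫ w, h w * g (w e) ∂(gI ι) = (∫ w, h w ∂(gI ι)) * ∫ x, g x ∂(gaussianReal 0 1) := by
  have hupd : ((gI ι).prod (gaussianReal 0 1)).map
      (fun q : (ι → ℝ) × ℝ => Function.update q.1 e q.2) = gI ι := Vale.Agent.P367.GT.map_update e
  have hmu := Vale.Agent.P367.GT.measurable_upd (ι := ι) e
  have hmeas : Measurable fun w : ι → ℝ => h w * g (w e) :=
    hm.mul (hg.comp (measurable_pi_apply e))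
  conv_lhs => rw [← hupd]
  rw [integral_map hmu.aemeasurable hmeas.aestronglyMeasurable]
  have h1 : ∀ q : (ι → ℝ) × ℝ, h (Function.update q.1 e q.2) * g (Function.update q.1 e q.2 e) =
      h q.1 * g q.2 := by
    intro q
    rw [hh q.1 q.2, Function.update_self]
  simp only [h1]
  exact integral_prod_mul h g

/-! ### The tree field -/

/-- The tree field up to the level `l`. -/
noncomputable def brU (y : ℕ → ι) (R : ℕ → ℝ) (l : ℕ) (z : ι → ℝ) : ℝ :=
  ∑ j ∈ Finset.range (l + 1), √(incr R j) * z (y j)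

lemma br_gstep_pos {m v : ℝ} {G : ℝ → ℝ} (hG : Par.Lip1 G) (hm : 0 < m) (x : ℝ) :
    ∫ t, Real.exp (m * G (x + √v * t)) ∂(gaussianReal 0 1) = Real.exp (m * gstep m v G x) := by
  unfold gstep
  rw [← mul_assoc, mul_one_div_cancel hm.ne', one_mul, Real.exp_log (hG.int_exp_pos m x (√v))]

/-- The potential of a tree field: if the energy does not depend on the coordinates `y l`, then
adding a Lipschitz function of the tree field adds the value of the cascade. (For measurable `F`
bounded and for `F` Lipschitz; here Lipschitz. The coordinates `y l` are independent of the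
others, by downward induction `lg' l z = lg l z + (cascade of level l)(∑_{j ≤ l} √incr z (y j))`.) -/
theorem fe_add_tree (hS : S.RegD D) {y : ℕ → ι} (hy : ∀ l ≤ S.K, S.lev (y l) = l)
    (hD : ∀ l ≤ S.K, ∀ z x, D (y l) z x = 0) {R : ℕ → ℝ} (hR : Path S.K R) {F : ℝ → ℝ} {L : ℝ}
    (hF : ∀ x x', |F x - F x'| ≤ L * |x - x'|) :
    (S.wH fun z x => S.H z x + F (tf y S.K R z)).fe =
      S.fe + ∫ x, cascade S.m R S.K F (√(R 0) * x) ∂(gaussianReal 0 1) := by
  have hL : 0 ≤ L := by
    have := hF 1 0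
    rw [sub_zero, abs_one, mul_one] at this
    exact (abs_nonneg _).trans this
  have hF1 : Par.Lip1 F := ⟨L, hL, hF⟩
  set S' : Sy ι X := S.wH fun z x => S.H z x + F (tf y S.K R z) with hS'
  have hind : ∀ l ≤ S.K, ∀ x, brIndep (y l) fun z => S.H z x := fun l hl x =>
    brIndep_of_pd (hS.pd (y l) x) fun z => hD l hl z x
  have key : ∀ l ≤ S.K, ∃ G : ℝ → ℝ, Par.Lip1 G ∧
      (∀ z, S'.lg l z = S.lg l z + G (brU y R l z)) ∧
      cascade S.m R S.K F = cascade S.m R l G := by
    refine Sy.down_ind ?_ ?_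
    · refine ⟨F, hF1, fun z => ?_, rfl⟩
      have e1 : S'.lg S.K = S'.top := Sy.lg_top S'
      rw [e1, Sy.lg_top S]
      unfold Sy.top
      have e2 : ∀ x, Real.exp (S'.H z x) = Real.exp (S.H z x) * Real.exp (F (brU y R S.K z)) := by
        intro x
        rw [← Real.exp_add]
        rfl
      simp only [e2]
      rw [← Finset.sum_mul, Real.log_mul (Sy.sum_exp_pos z).ne' (Real.exp_pos _).ne', Real.log_exp]
    · rintro l hl ⟨G, hG, h1, h2⟩
      have hm : 0 < S.m (l + 1) := hS.m_pos (by omega) (by omega)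
      refine ⟨gstep (S.m (l + 1)) (R (l + 1) - R l) G, hG.gstep hm _, fun z => ?_, ?_⟩
      · have hl' : l < S'.K := hl
        rw [Sy.lg_step S' hl', Sy.lg_step S hl]
        unfold Sy.stp
        have e0 : S'.m = S.m := rfl
        have e0' : S'.lev = S.lev := rfl
        rw [e0, e0']
        have heg : EG fun z => Real.exp (S.m (l + 1) * S.lg (l + 1) z) :=
          (hS.lip_lg (l := l + 1) hl).exp_eg (S.m (l + 1))
        have e3 : J S.lev l (fun z => Real.exp (S.m (l + 1) * S'.lg (l + 1) z)) z =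
            J S.lev l (fun z => Real.exp (S.m (l + 1) * S.lg (l + 1) z)) z *
              Real.exp (S.m (l + 1) * gstep (S.m (l + 1)) (R (l + 1) - R l) G (brU y R l z)) := by
          unfold J
          rw [← br_gstep_pos hG hm]
          have hli : brIndep (y (l + 1)) fun w =>
              Real.exp (S.m (l + 1) * S.lg (l + 1) (mix S.lev l z w)) := by
            intro w t
            simp only
            rw [br_mix_update_right (by rw [hy (l + 1) hl]; omega),
              brIndep_lg (hind (l + 1) hl) hl]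
          have hgm : Measurable fun t : ℝ =>
              Real.exp (S.m (l + 1) * G (brU y R l z + √(R (l + 1) - R l) * t)) :=
            Real.measurable_exp.comp ((hG.continuous.measurable.comp (by fun_prop)).const_mul _)
          rw [← br_integral_mul hli (heg.meas.comp (measurable_mix_right S.lev l z)) hgm]
          refine integral_congr_ae (Filter.Eventually.of_forall fun w => ?_)
          simp only
          rw [h1, ← Real.exp_add, ← mul_add]
          congr 4
          unfold brU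
          rw [Finset.sum_range_succ]
          congr 1
          · refine Finset.sum_congr rfl fun j hj => ?_
            rw [Finset.mem_range] at hj
            congr 1
            unfold mix
            rw [if_pos]
            rw [hy j (by omega)]
            (clear * - hj; omega)
          · have e4 : incr R (l + 1) = R (l + 1) - R l := rfl
            rw [e4]
            congr 1
            unfold mix
            rw [if_neg]
            rw [hy (l + 1) hl]
            (clear * -; omega)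
        rw [e3, Real.log_mul (J_pos heg (fun _ => Real.exp_pos _) z).ne' (Real.exp_pos _).ne',
          Real.log_exp]
        (clear * - hm; field_simp)
      · rw [h2, Par.cascade_succ_def]
  obtain ⟨G, hG, h1, h2⟩ := key 0 (Nat.zero_le _)
  have e5 : cascade S.m R 0 G = G := rfl
  unfold Sy.fe
  have e6 : ∀ x : ι → ℝ, brU y R 0 x = √(R 0) * x (y 0) := by
    intro x
    unfold brU
    simp [Par.incr_zero_def]
  simp only [h1, h2, e5, e6]
  have h0 : Integrable (fun x => G (√(R 0) * x)) (gaussianReal 0 1) := by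
    simpa only [zero_add] using hG.integrable 0 (√(R 0))
  have h3 : Integrable (fun z : ι → ℝ => G (√(R 0) * z (y 0))) (gI ι) :=
    integrable_comp_eval (μ := fun _ : ι => gaussianReal 0 1) (i := y 0)
      (f := fun x => G (√(R 0) * x)) h0
  rw [integral_add (hS.integrable_lg (Nat.zero_le _)) h3]
  congr 1
  exact integral_comp_eval (μ := fun _ : ι => gaussianReal 0 1) (i := y 0)
      (f := fun x => G (√(R 0) * x)) h0.aestronglyMeasurable

/-- The path followed by the value `1` at the level `k + 1`. -/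
noncomputable def ext1 (k : ℕ) (q : ℕ → ℝ) : ℕ → ℝ := fun l => if l ≤ k then q l else 1

lemma br_cascade_congr {m q q' : ℕ → ℝ} {l : ℕ} (h : ∀ j ≤ l, q j = q' j) (F : ℝ → ℝ) :
    cascade m q l F = cascade m q' l F := by
  induction l generalizing F with
  | zero => rfl
  | succ l ih =>
    rw [Par.cascade_succ_def, Par.cascade_succ_def, h (l + 1) le_rfl, h l (Nat.le_succ l)]
    exact ih (fun j hj => h j (by omega)) _

/-- The pattern part as a cascade with `k + 1` steps, the last one with the exponent `1`. -/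
theorem patternPart_eq_cascade {k : ℕ} {m q : ℕ → ℝ} (hm : Exponents k m) (f : ℝ → ℝ) :
    patternPart f k m q =
      ∫ x, cascade m (ext1 k q) (k + 1) f (√(q 0) * x) ∂(gaussianReal 0 1) := by
  have h1 : ext1 k q (k + 1) = 1 := by simp only [ext1, add_le_iff_nonpos_right, nonpos_iff_eq_zero, one_ne_zero, ↓reduceIte]
  have h2 : ext1 k q k = q k := by simp [ext1]
  have h3 : gstep 1 (1 - q k) f =
      fun x => Real.log (∫ y, Real.exp (f (x + √(1 - q k) * y)) ∂(gaussianReal 0 1)) := by
    funext x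
    unfold gstep
    simp only [ne_eq, one_ne_zero, not_false_eq_true, div_self, one_mul]
  rw [Par.cascade_succ_def, h1, h2, hm.2.1, h3,
    br_cascade_congr (q := ext1 k q) (q' := q) (fun j hj => by simp only [ext1, hj, ↓reduceIte])]
  rfl

/-- If the last overlap is one there is no noise. -/
theorem patternPart_eq_of_one {k : ℕ} {m q : ℕ → ℝ} (hq : q k = 1) (f : ℝ → ℝ) :
    patternPart f k m q = ∫ x, cascade m q k f (√(q 0) * x) ∂(gaussianReal 0 1) := by
  unfold patternPart
  have h1 : (fun x => Real.log (∫ y, Real.exp (f (x + √(1 - q k) * y)) ∂(gaussianReal 0 1))) =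
      f := by
    funext x
    rw [hq]
    simp
  rw [h1]

end Vale.Agent.P157.Lv
end

section

/-!
The model: `A` possible patterns of which the first `a` are active, fields of the levels
`0, …, K` with the strengths `s`, and spare coordinates for a tree field.
-/

open MeasureTheory ProbabilityTheory Filter Topology

namespace Vale.Agent.P157.Lv

set_option linter.unusedSectionVars false

open Par (incr Path Exponents cascade gstep patternPart spinPart topN lw)

/-- The coordinates: patterns, fields, tree. -/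
abbrev Ix (A N K : ℕ) : Type := (Fin A × Fin N) ⊕ ((Fin (K + 1) × Fin N) ⊕ Fin (K + 1))

/-- The levels. -/
def lvl {A N K : ℕ} : Ix A N K → ℕ
  | Sum.inl _ => 0
  | Sum.inr (Sum.inl p) => p.1
  | Sum.inr (Sum.inr l) => l

/-- The coordinates of the field of the level `l`. -/
def zco {A N K : ℕ} (l : ℕ) (i : Fin N) : Ix A N K := Sum.inr (Sum.inl (Fin.ofNat (K + 1) l, i))

/-- The coordinates of the tree field. -/
def yco {A N K : ℕ} (l : ℕ) : Ix A N K := Sum.inr (Sum.inr (Fin.ofNat (K + 1) l))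

/-- The coordinates of the pattern `b`. -/
def gco {A N K : ℕ} (b : Fin A) (i : Fin N) : Ix A N K := Sum.inl (b, i)

variable {X : Type} {A N K : ℕ}

/-- The energy with the first `a` patterns. -/
noncomputable def en (f : ℝ → ℝ) (u : X → ℝ) (φ : X → Fin N → ℝ) (s : ℕ → ℝ) (a : ℕ) :
    (Ix A N K → ℝ) → X → ℝ := fun z x =>
  u x + ∑ b : Fin A, (if (b : ℕ) < a then f (pf φ (gco b) z x) else 0) +
    ∑ l ∈ Finset.range (K + 1), s l * ∑ i, z (zco l i) * φ x i

/-- The partial derivatives of the energy. -/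
noncomputable def enD (f' : ℝ → ℝ) (φ : X → Fin N → ℝ) (s : ℕ → ℝ) (a : ℕ) :
    Ix A N K → (Ix A N K → ℝ) → X → ℝ
  | Sum.inl p, z, x => if (p.1 : ℕ) < a then f' (pf φ (gco p.1) z x) * (1 / √(N : ℝ) * φ x p.2) else 0
  | Sum.inr (Sum.inl p), _, x => s p.1 * φ x p.2
  | Sum.inr (Sum.inr _), _, _ => 0

/-- The model. -/
noncomputable def mdl (A : ℕ) (K : ℕ) (m : ℕ → ℝ) (f : ℝ → ℝ) (u : X → ℝ) (φ : X → Fin N → ℝ)
    (s : ℕ → ℝ) (a : ℕ) : Sy (Ix A N K) X := ⟨lvl, K, m, en f u φ s a⟩

/-- The extensive field of the level `j`. -/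
noncomputable def hx (φ : X → Fin N → ℝ) (j : ℕ) : (Ix A N K → ℝ) → X → ℝ :=
  fun z x => ∑ i, z (zco j i) * φ x i

variable [Fintype X] [DecidableEq X] [Nonempty X]

/-- Standing hypotheses on the model. -/
structure MD (K : ℕ) (m : ℕ → ℝ) (f f' f'' : ℝ → ℝ) (B C₁ C₂ : ℝ) (u : X → ℝ)
    (φ : X → Fin N → ℝ) : Prop where
  hm : Exponents K m
  hf : Pot f f' f'' C₁ C₂
  hB : ∀ x, |f x| ≤ B
  N0 : 0 < N
  norm : ∀ x, ∑ i, φ x i ^ 2 = N

variable {m : ℕ → ℝ} {f f' f'' : ℝ → ℝ} {B C₁ C₂ : ℝ} {u : X → ℝ} {φ : X → Fin N → ℝ}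
  {s : ℕ → ℝ} {a : ℕ}

/-! ### Preparations -/

lemma lm_lvl_zco {l : ℕ} (hl : l ≤ K) (i : Fin N) : lvl (zco l i : Ix A N K) = l := by
  show (Fin.ofNat (K + 1) l : ℕ) = l
  simp [Fin.ofNat, Nat.mod_eq_of_lt (Nat.lt_succ_of_le hl)]

lemma lm_lvl_yco {l : ℕ} (hl : l ≤ K) : lvl (yco l : Ix A N K) = l := by
  show (Fin.ofNat (K + 1) l : ℕ) = l
  simp [Fin.ofNat, Nat.mod_eq_of_lt (Nat.lt_succ_of_le hl)]

lemma lm_val {l : ℕ} (hl : l ≤ K) : (Fin.ofNat (K + 1) l : ℕ) = l := by
  simp [Fin.ofNat, Nat.mod_eq_of_lt (Nat.lt_succ_of_le hl)]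

lemma lm_Npos (h : MD K m f f' f'' B C₁ C₂ u φ) : (0 : ℝ) < N := by exact_mod_cast h.N0

lemma lm_B0 (h : MD K m f f' f'' B C₁ C₂ u φ) : 0 ≤ B := (abs_nonneg _).trans (h.hB 0)

lemma lm_C0 (h : MD K m f f' f'' B C₁ C₂ u φ) : 0 ≤ C₁ := (abs_nonneg _).trans (h.hf.b1 0)

lemma lm_f_lip (h : MD K m f f' f'' B C₁ C₂ u φ) (x y : ℝ) : |f x - f y| ≤ C₁ * |x - y| := by
  have h1 := Convex.norm_image_sub_le_of_norm_hasDerivWithin_le (f := f) (f' := f') (C := C₁)
    (s := Set.univ) (fun x _ => (h.hf.d1 x).hasDerivWithinAt) (fun x _ => h.hf.b1 x)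
    convex_univ (Set.mem_univ y) (Set.mem_univ x)
  simpa only [ge_iff_le, Real.norm_eq_abs] using h1

lemma lm_f'_meas (h : MD K m f f' f'' B C₁ C₂ u φ) : Measurable f' :=
  (continuous_iff_continuousAt.2 fun x => (h.hf.d2 x).continuousAt).measurable

lemma lm_lip_pf {ι : Type} [Fintype ι] (φ : X → Fin N → ℝ) (g : Fin N → ι) (x : X) :
    Lip fun z => pf φ g z x :=
  (Lip.sum _ fun i _ => (Lip.coord (g i)).const_mul (φ x i)).const_mul _

lemma lm_pd_pf {ι : Type} [Fintype ι] [DecidableEq ι] (φ : X → Fin N → ℝ) (g : Fin N → ι) (x : X)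
    (e : ι) : PD e (fun z => pf φ g z x)
      (fun _ => 1 / √(N : ℝ) * ∑ i, φ x i * (if g i = e then 1 else 0)) :=
  (PD.sum Finset.univ fun i _ => (PD.coord (e := e) (g i)).const_mul (φ x i)).const_mul _

lemma lm_lip_en (h : MD K m f f' f'' B C₁ C₂ u φ) (x : X) :
    Lip fun z : Ix A N K → ℝ => en f u φ s a z x := by
  refine ((Lip.const (u x)).add (Lip.sum _ fun b _ => ?_)).add (Lip.sum _ fun l _ =>
    (Lip.sum _ fun i _ => ?_).const_mul (s l))
  · by_cases hb : (b : ℕ) < a
    · simp only [if_pos hb]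
      exact (lm_lip_pf φ (gco b) x).comp (lm_C0 h) (lm_f_lip h)
    · simp only [if_neg hb]
      exact Lip.const 0
  · have h1 := (Lip.coord (zco l i : Ix A N K)).const_mul (φ x i)
    simpa only [mul_comm] using h1

lemma lm_pd_en (h : MD K m f f' f'' B C₁ C₂ u φ) (e : Ix A N K) (x : X) :
    PD e (fun z => en f u φ s a z x) (fun z => enD f' φ s a e z x) := by
  have h1 : PD e (fun z => en f u φ s a z x) (fun z => 0 +
      ∑ b : Fin A, (if (b : ℕ) < a then f' (pf φ (gco b) z x) *
        (1 / √(N : ℝ) * ∑ i, φ x i * (if (gco b i : Ix A N K) = e then 1 else 0)) else 0) +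
      ∑ l ∈ Finset.range (K + 1), s l * ∑ i, (φ x i * (if (zco l i : Ix A N K) = e then 1 else 0))) := by
    refine ((PD.const (u x)).add (PD.sum _ fun b _ => ?_)).add (PD.sum _ fun l _ =>
      (PD.sum _ fun i _ => ?_).const_mul (s l))
    · by_cases hb : (b : ℕ) < a
      · simp only [if_pos hb]
        exact (lm_pd_pf φ (gco b) x e).comp h.hf.d1
      · simp only [if_neg hb]
        exact PD.const 0
    · have h1 := (PD.coord (e := e) (zco l i : Ix A N K)).const_mul (φ x i)
      simpa only [mul_comm] using h1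
  refine h1.congr fun z => ?_
  rw [zero_add]
  rcases e with ⟨b, i⟩ | ⟨l, i⟩ | l
  · have e2 : ∀ (l : ℕ) (j : Fin N), (zco l j : Ix A N K) ≠ Sum.inl (b, i) := by
      intro l j hh
      exact absurd hh (by simp only [zco, Fin.ofNat_eq_cast, reduceCtorEq, not_false_eq_true])
    simp only [e2, if_false, mul_zero, Finset.sum_const_zero, add_zero]
    rw [Finset.sum_eq_single b]
    · simp only [enD]
      congr 2
      rw [Finset.sum_eq_single i]
      · simp only [one_div, gco, ↓reduceIte, mul_one]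
      · intro j _ hj
        simp [gco, hj]
      · intro hh
        exact absurd (Finset.mem_univ _) hh
    · intro b' _ hb'
      have e3 : ∀ j : Fin N, (gco b' j : Ix A N K) ≠ Sum.inl (b, i) := by
        intro j hh
        simp only [gco, Sum.inl.injEq, Prod.mk.injEq] at hh
        exact hb' hh.1
      simp only [one_div, e3, ↓reduceIte, mul_zero, Finset.sum_const_zero, ite_self]
    · intro hh
      exact absurd (Finset.mem_univ _) hh
  · have e2 : ∀ (b : Fin A) (j : Fin N), (gco b j : Ix A N K) ≠ Sum.inr (Sum.inl (l, i)) := by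
      intro b j hh
      exact absurd hh (by simp [gco])
    simp only [e2, if_false, mul_zero, Finset.sum_const_zero, ite_self, zero_add]
    have hl : (l : ℕ) ∈ Finset.range (K + 1) := Finset.mem_range.2 l.2
    rw [Finset.sum_eq_single_of_mem (l : ℕ) hl]
    · simp only [enD]
      congr 1
      rw [Finset.sum_eq_single i]
      · simp only [zco, Fin.ofNat_eq_cast, Fin.cast_val_eq_self, ↓reduceIte, mul_one]
      · intro j _ hj
        simp only [zco, Fin.ofNat_eq_cast, Fin.cast_val_eq_self, Sum.inr.injEq, Sum.inl.injEq, Prod.mk.injEq, hj, and_false, ↓reduceIte, mul_zero]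
      · intro hh
        exact absurd (Finset.mem_univ _) hh
    · intro l' hl' hne
      have e3 : ∀ j : Fin N, (zco l' j : Ix A N K) ≠ Sum.inr (Sum.inl (l, i)) := by
        intro j hh
        simp only [zco, Sum.inr.injEq, Sum.inl.injEq, Prod.mk.injEq] at hh
        apply hne
        have := congrArg Fin.val hh.1
        rw [lm_val (Nat.lt_succ_iff.1 (Finset.mem_range.1 hl'))] at this
        exact this
      simp [e3]
  · have e2 : ∀ (b : Fin A) (j : Fin N), (gco b j : Ix A N K) ≠ Sum.inr (Sum.inr l) := by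
      intro b j hh
      exact absurd hh (by simp [gco])
    have e3 : ∀ (l' : ℕ) (j : Fin N), (zco l' j : Ix A N K) ≠ Sum.inr (Sum.inr l) := by
      intro l' j hh
      exact absurd hh (by simp [zco])
    simp only [one_div, e2, ↓reduceIte, mul_zero, Finset.sum_const_zero, ite_self, e3, add_zero, enD]

lemma lm_meas_enD (h : MD K m f f' f'' B C₁ C₂ u φ) (e : Ix A N K) (x : X) :
    Measurable fun z => enD f' φ s a e z x := by
  rcases e with ⟨b, i⟩ | ⟨l, i⟩ | l
  · by_cases hb : (b : ℕ) < a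
    · simp only [enD, if_pos hb]
      exact ((lm_f'_meas h).comp (lm_lip_pf φ (gco b) x).measurable).mul_const _
    · simp only [enD, if_neg hb]
      exact measurable_const
  · exact measurable_const
  · exact measurable_const

lemma lm_bd_enD (h : MD K m f f' f'' B C₁ C₂ u φ) :
    ∃ C : ℝ, ∀ (e : Ix A N K) (z : Ix A N K → ℝ) (x : X), |enD f' φ s a e z x| ≤ C := by
  refine ⟨∑ x : X, ∑ i : Fin N, C₁ * |1 / √(N : ℝ) * φ x i| +
    ∑ l : Fin (K + 1), ∑ x : X, ∑ i : Fin N, |s l * φ x i|, ?_⟩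
  have hC0 := lm_C0 h
  have h1 : 0 ≤ ∑ x : X, ∑ i : Fin N, C₁ * |1 / √(N : ℝ) * φ x i| :=
    Finset.sum_nonneg fun _ _ => Finset.sum_nonneg fun _ _ => by (clear * - hC0; positivity)
  have h2 : 0 ≤ ∑ l : Fin (K + 1), ∑ x : X, ∑ i : Fin N, |s l * φ x i| :=
    Finset.sum_nonneg fun _ _ => Finset.sum_nonneg fun _ _ => Finset.sum_nonneg fun _ _ => by
      positivity
  intro e z x
  rcases e with ⟨b, i⟩ | ⟨l, i⟩ | l
  · by_cases hb : (b : ℕ) < a
    · simp only [enD, if_pos hb]
      rw [abs_mul]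
      have h3 : |f' (pf φ (gco b) z x)| * |1 / √(N : ℝ) * φ x i| ≤
          C₁ * |1 / √(N : ℝ) * φ x i| :=
        mul_le_mul_of_nonneg_right (h.hf.b1 _) (abs_nonneg _)
      have h4 : C₁ * |1 / √(N : ℝ) * φ x i| ≤ ∑ i : Fin N, C₁ * |1 / √(N : ℝ) * φ x i| :=
        Finset.single_le_sum (f := fun i => C₁ * |1 / √(N : ℝ) * φ x i|)
          (fun _ _ => by (clear * - hC0; positivity)) (Finset.mem_univ i)
      have h5 : ∑ i : Fin N, C₁ * |1 / √(N : ℝ) * φ x i| ≤
          ∑ x : X, ∑ i : Fin N, C₁ * |1 / √(N : ℝ) * φ x i| :=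
        Finset.single_le_sum (f := fun x => ∑ i : Fin N, C₁ * |1 / √(N : ℝ) * φ x i|)
          (fun _ _ => Finset.sum_nonneg fun _ _ => by (clear * - hC0; positivity)) (Finset.mem_univ x)
      linarith only [h2, h3, h4, h5]
    · simp only [enD, if_neg hb, abs_zero]
      linarith only [h1, h2]
  · simp only [enD]
    have h3 : |s l * φ x i| ≤ ∑ i : Fin N, |s l * φ x i| :=
      Finset.single_le_sum (f := fun i => |s l * φ x i|) (fun _ _ => abs_nonneg _)
        (Finset.mem_univ i)
    have h4 : ∑ i : Fin N, |s l * φ x i| ≤ ∑ x : X, ∑ i : Fin N, |s l * φ x i| :=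
      Finset.single_le_sum (f := fun x => ∑ i : Fin N, |s l * φ x i|)
        (fun _ _ => Finset.sum_nonneg fun _ _ => abs_nonneg _) (Finset.mem_univ x)
    have h5 : ∑ x : X, ∑ i : Fin N, |s l * φ x i| ≤
        ∑ l : Fin (K + 1), ∑ x : X, ∑ i : Fin N, |s l * φ x i| :=
      Finset.single_le_sum (f := fun l : Fin (K + 1) => ∑ x : X, ∑ i : Fin N, |s l * φ x i|)
        (fun _ _ => Finset.sum_nonneg fun _ _ => Finset.sum_nonneg fun _ _ => abs_nonneg _)
        (Finset.mem_univ l)
    linarith only [h5, h4, h3, h1]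
  · simp only [enD, abs_zero]
    linarith only [h2, h1]

theorem mdl_regD (h : MD K m f f' f'' B C₁ C₂ u φ) :
    (mdl A K m f u φ s a).RegD (enD f' φ s a) where
  m0 := h.hm.1
  mK := h.hm.2.1
  mono := fun l hl => (h.hm.2.2 l hl).le
  pos := by
    have h1 := h.hm.2.2 0 (Nat.zero_le _)
    rw [h.hm.1] at h1
    exact h1
  lev := by
    intro e
    show lvl e ≤ K
    rcases e with ⟨b, i⟩ | ⟨l, i⟩ | l
    · exact Nat.zero_le _
    · exact Nat.lt_succ_iff.1 l.2
    · exact Nat.lt_succ_iff.1 l.2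
  lip := fun x => lm_lip_en h x
  pd := fun e x => lm_pd_en h e x
  md := fun e x => lm_meas_enD h e x
  bd := lm_bd_enD h

theorem mdl_fld (h : MD K m f f' f'' B C₁ C₂ u φ) (hs : ∀ l ≤ K, 0 ≤ s l) :
    Fld (mdl A K m f u φ s a) (enD f' φ s a) φ zco s where
  reg := mdl_regD h
  N0 := h.N0
  norm := h.norm
  lev := fun _ hl i => lm_lvl_zco (A := A) (K := K) hl i
  D := by
    intro l hl i z x
    have hl' : l ≤ K := hl
    show s (Fin.ofNat (K + 1) l : ℕ) * φ x i = s l * φ x i
    rw [lm_val hl']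
  pos := hs

theorem mdl_new (h : MD K m f f' f'' B C₁ C₂ u φ) (ha : a < A) :
    NewC (mdl A K m f u φ s a) (enD f' φ s a) (gco ⟨a, ha⟩) yco where
  inj := by
    intro i j hij
    simp only [gco, Sum.inl.injEq, Prod.mk.injEq] at hij
    exact hij.2
  gl := fun _ => rfl
  yl := fun _ hl => lm_lvl_yco (A := A) (N := N) (K := K) hl
  ne := by
    intro i l _ hh
    exact absurd hh (by simp only [gco, yco, Fin.ofNat_eq_cast, reduceCtorEq, not_false_eq_true])
  Dg := by
    intro i z x
    show (if a < a then _ else (0 : ℝ)) = 0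
    rw [if_neg (lt_irrefl a)]
  Dy := fun _ _ _ _ => rfl

/-- Adding a pattern. -/
theorem en_succ (ha : a < A) (z : Ix A N K → ℝ) (x : X) :
    en f u φ s (a + 1) z x = en f u φ s a z x + f (pf φ (gco (⟨a, ha⟩ : Fin A)) z x) := by
  unfold en
  have h1 : ∑ b : Fin A, (if (b : ℕ) < a + 1 then f (pf φ (gco b) z x) else 0) =
      ∑ b : Fin A, (if (b : ℕ) < a then f (pf φ (gco b) z x) else 0) +
        f (pf φ (gco (⟨a, ha⟩ : Fin A)) z x) := by
    have h2 : ∀ b : Fin A, (if (b : ℕ) < a + 1 then f (pf φ (gco b) z x) else 0) =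
        (if (b : ℕ) < a then f (pf φ (gco b) z x) else 0) +
          (if b = ⟨a, ha⟩ then f (pf φ (gco b) z x) else 0) := by
      intro b
      by_cases hb : b = ⟨a, ha⟩
      · rw [if_pos hb, hb]
        simp
      · have hb' : (b : ℕ) ≠ a := fun hh => hb (Fin.ext hh)
        rw [if_neg hb, add_zero]
        by_cases hb2 : (b : ℕ) < a
        · rw [if_pos hb2, if_pos (by omega)]
        · rw [if_neg hb2, if_neg (by omega)]
    rw [Finset.sum_congr rfl fun b _ => h2 b, Finset.sum_add_distrib]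
    congr 1
    rw [Finset.sum_ite_eq' Finset.univ (⟨a, ha⟩ : Fin A)]
    simp only [Finset.mem_univ, ↓reduceIte]
  rw [h1]
  ring

theorem mdl_succ (ha : a < A) : mdl A K m f u φ s (a + 1) = (mdl A K m f u φ s a).wH
    (fun z x => (mdl A K m f u φ s a).H z x + f (pf φ (gco (⟨a, ha⟩ : Fin A)) z x)) := by
  have h1 : en f u φ s (a + 1) = fun (z : Ix A N K → ℝ) x =>
      en f u φ s a z x + f (pf φ (gco (⟨a, ha⟩ : Fin A)) z x) := by
    funext z x
    exact en_succ ha z x
  unfold mdl Sy.wH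
  rw [h1]

/-- Changing the strength of the level `j`. -/
theorem mdl_pt {j : ℕ} (hj : j ≤ K) (t : ℝ) :
    mdl A K m f u φ (Function.update s j (s j + t)) a = (mdl A K m f u φ s a).pt (hx φ j) t := by
  have h1 : en f u φ (Function.update s j (s j + t)) a = fun (z : Ix A N K → ℝ) x =>
      en f u φ s a z x + t * hx φ j z x := by
    funext z x
    unfold en hx
    have hj' : j ∈ Finset.range (K + 1) := Finset.mem_range.2 (Nat.lt_succ_of_le hj)
    rw [← Finset.add_sum_erase _ _ hj', ← Finset.add_sum_erase _ _ hj', Function.update_self]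
    have h2 : ∑ l ∈ (Finset.range (K + 1)).erase j, Function.update s j (s j + t) l *
        ∑ i, z (zco l i) * φ x i = ∑ l ∈ (Finset.range (K + 1)).erase j, s l *
        ∑ i, z (zco l i) * φ x i := by
      refine Finset.sum_congr rfl fun l hl => ?_
      rw [Function.update_of_ne (Finset.ne_of_mem_erase hl)]
    rw [h2]
    ring
  unfold mdl Sy.pt Sy.wH
  rw [h1]

/-- The level zero derivatives. -/
theorem sum_enD_le (h : MD K m f f' f'' B C₁ C₂ u φ) (z : Ix A N K → ℝ) (x : X) :
    ∑ e : Ix A N K, (if lvl e = 0 then enD f' φ s a e z x ^ 2 else 0) ≤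
      A * C₁ ^ 2 + N * s 0 ^ 2 := by
  have hN := lm_Npos h
  rw [Fintype.sum_sum_type, Fintype.sum_sum_type]
  have h1 : ∑ p : Fin A × Fin N, (if lvl (Sum.inl p : Ix A N K) = 0 then
      enD f' φ s a (Sum.inl p) z x ^ 2 else 0) ≤ A * C₁ ^ 2 := by
    rw [Fintype.sum_prod_type]
    have h2 : ∀ b : Fin A, ∑ i : Fin N, (if lvl (Sum.inl (b, i) : Ix A N K) = 0 then
        enD f' φ s a (Sum.inl (b, i)) z x ^ 2 else 0) ≤ C₁ ^ 2 := by
      intro b
      have h3 : ∀ i : Fin N, (if lvl (Sum.inl (b, i) : Ix A N K) = 0 then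
          enD f' φ s a (Sum.inl (b, i)) z x ^ 2 else 0) ≤ C₁ ^ 2 * (1 / N) * φ x i ^ 2 := by
        intro i
        rw [if_pos (show lvl (Sum.inl (b, i) : Ix A N K) = 0 from rfl)]
        simp only [enD]
        by_cases hb : (b : ℕ) < a
        · rw [if_pos hb]
          have h4 : f' (pf φ (gco b) z x) ^ 2 ≤ C₁ ^ 2 :=
            sq_le_sq' (abs_le.1 (h.hf.b1 _)).1 (abs_le.1 (h.hf.b1 _)).2
          have h5 : (f' (pf φ (gco b) z x) * (1 / √(N : ℝ) * φ x i)) ^ 2 =
              f' (pf φ (gco b) z x) ^ 2 * ((1 / N) * φ x i ^ 2) := by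
            rw [mul_pow, mul_pow, div_pow, one_pow, Real.sq_sqrt hN.le]
          rw [h5, mul_assoc]
          exact mul_le_mul_of_nonneg_right h4 (by positivity)
        · rw [if_neg hb, zero_pow two_ne_zero]
          positivity
      refine (Finset.sum_le_sum fun i _ => h3 i).trans (le_of_eq ?_)
      rw [← Finset.mul_sum, h.norm, mul_assoc, one_div_mul_cancel hN.ne', mul_one]
    refine (Finset.sum_le_sum fun b _ => h2 b).trans (le_of_eq ?_)
    simp only [Finset.sum_const, Finset.card_univ, Fintype.card_fin, nsmul_eq_mul]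
  have h2 : ∑ p : Fin (K + 1) × Fin N, (if lvl (Sum.inr (Sum.inl p) : Ix A N K) = 0 then
      enD f' φ s a (Sum.inr (Sum.inl p)) z x ^ 2 else 0) = N * s 0 ^ 2 := by
    rw [Fintype.sum_prod_type, Finset.sum_eq_single (0 : Fin (K + 1))]
    · have h3 : ∀ i : Fin N, (if lvl (Sum.inr (Sum.inl ((0 : Fin (K + 1)), i)) : Ix A N K) = 0 then
          enD f' φ s a (Sum.inr (Sum.inl ((0 : Fin (K + 1)), i))) z x ^ 2 else 0) =
          s 0 ^ 2 * φ x i ^ 2 := by
        intro i
        rw [if_pos (by simp only [lvl, Fin.coe_ofNat_eq_mod, Nat.zero_mod])]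
        simp only [enD, Fin.coe_ofNat_eq_mod, Nat.zero_mod, mul_pow]
      rw [Finset.sum_congr rfl fun i _ => h3 i, ← Finset.mul_sum, h.norm, mul_comm]
    · intro l _ hl
      refine Finset.sum_eq_zero fun i _ => if_neg ?_
      simp only [lvl]
      intro hh
      exact hl (Fin.ext hh)
    · intro hh
      exact absurd (Finset.mem_univ _) hh
  have h3 : ∑ l : Fin (K + 1), (if lvl (Sum.inr (Sum.inr l) : Ix A N K) = 0 then
      enD f' φ s a (Sum.inr (Sum.inr l)) z x ^ 2 else 0) = 0 := by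
    refine Finset.sum_eq_zero fun l _ => ?_
    simp [enD]
  rw [h2, h3]
  linarith only [h1]

/-- The free energy per spin. -/
noncomputable def Fe (A K : ℕ) (m : ℕ → ℝ) (f : ℝ → ℝ) (u : X → ℝ) (φ : X → Fin N → ℝ) (a : ℕ)
    (s : ℕ → ℝ) : ℝ := 1 / N * (mdl A K m f u φ s a).fe

lemma lm_hx_eq (h : MD K m f f' f'' B C₁ C₂ u φ) (l : ℕ) (z : Ix A N K → ℝ) (x : X) :
    ∑ i, z (zco l i) * φ x i = N * hz φ zco l z x := by
  unfold hz
  rw [← mul_assoc, mul_one_div_cancel (lm_Npos h).ne', one_mul]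

lemma lm_nh_hz (φ : X → Fin N → ℝ) (l : ℕ) : Nh (hz φ (zco : ℕ → Fin N → Ix A N K) l) :=
  Sy.Nh.const_mul _ (Sy.Nh.sum _ fun i _ => Sy.Nh.mul (Sy.Nh.fst (EG.coord (zco l i))) (Sy.Nh.snd fun x => φ x i))

lemma lm_wH (s s' : ℕ → ℝ) (a a' : ℕ) : (mdl A K m f u φ s a).wH (en f u φ s' a') =
    mdl A K m f u φ s' a' := rfl

/-- The tangent inequality in the strengths. -/
theorem Fe_tangent (h : MD K m f f' f'' B C₁ C₂ u φ) (s s' : ℕ → ℝ) :
    ∑ l ∈ Finset.range (K + 1), (s' l - s l) *
      (mdl A K m f u φ s a).Ex (hz φ zco l) ≤ Fe A K m f u φ a s' - Fe A K m f u φ a s := by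
  have hN := lm_Npos h
  have hR : (mdl A K m f u φ s a).Reg := (mdl_regD h).toReg
  have hR' : ((mdl A K m f u φ s a).wH (en f u φ s' a)).Reg := (mdl_regD (s := s') h).toReg
  have h1 := hR.jensen hR'
  rw [lm_wH] at h1
  have h2 : (mdl A K m f u φ s a).Ex (fun z x => en f u φ s' a z x - (mdl A K m f u φ s a).H z x) =
      N * ∑ l ∈ Finset.range (K + 1), (s' l - s l) * (mdl A K m f u φ s a).Ex (hz φ zco l) := by
    have h3 : (fun (z : Ix A N K → ℝ) x => en f u φ s' a z x - (mdl A K m f u φ s a).H z x) =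
        fun z x => ∑ l ∈ Finset.range (K + 1), (N * (s' l - s l)) * hz φ zco l z x := by
      funext z x
      show en f u φ s' a z x - en f u φ s a z x = _
      unfold en
      rw [add_sub_add_left_eq_sub, ← Finset.sum_sub_distrib]
      refine Finset.sum_congr rfl fun l _ => ?_
      rw [lm_hx_eq h]
      ring
    rw [h3, hR.Ex_sum _ fun l _ => Sy.Nh.const_mul _ (lm_nh_hz φ l), Finset.mul_sum]
    refine Finset.sum_congr rfl fun l _ => ?_
    rw [Sy.Ex_const_mul]
    ring
  rw [h2] at h1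
  unfold Fe
  rw [← mul_sub, one_div, le_inv_mul_iff₀ hN]
  exact h1

/-- The fields increase the free energy. -/
theorem Fe_zero_le (h : MD K m f f' f'' B C₁ C₂ u φ) (s : ℕ → ℝ) :
    Fe A K m f u φ a (fun _ => 0) ≤ Fe A K m f u φ a s := by
  have h1 := Fe_tangent (A := A) (a := a) h (fun _ => 0) s
  have F := mdl_fld (A := A) (a := a) (s := fun _ => 0) h (fun _ _ => le_rfl)
  have h2 : ∑ l ∈ Finset.range (K + 1), (s l - (fun _ => (0 : ℝ)) l) *
      (mdl A K m f u φ (fun _ => 0) a).Ex (hz φ zco l) = 0 := by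
    refine Finset.sum_eq_zero fun l hl => ?_
    rw [F.Ex_hz (Nat.lt_succ_iff.1 (Finset.mem_range.1 hl)), zero_mul, mul_zero]
  rw [h2] at h1
  linarith

/-- The first `a` patterns change the free energy by at most `a B`. -/
theorem abs_Fe_sub_le (h : MD K m f f' f'' B C₁ C₂ u φ) (s : ℕ → ℝ) (ha : a ≤ A) :
    |Fe A K m f u φ a s - Fe A K m f u φ 0 s| ≤ a * B / N := by
  have hN := lm_Npos h
  have hB := lm_B0 h
  have hR : (mdl A K m f u φ s 0).Reg := (mdl_regD h).toReg
  have hR' : ((mdl A K m f u φ s 0).wH (en f u φ s a)).Reg := (mdl_regD (a := a) h).toReg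
  have h1 : ∀ (z : Ix A N K → ℝ) (x : X),
      |en f u φ s a z x - (mdl A K m f u φ s 0).H z x| ≤ a * B := by
    intro z x
    show |en f u φ s a z x - en f u φ s 0 z x| ≤ a * B
    have h2 : en f u φ s a z x - en f u φ s 0 z x =
        ∑ b : Fin A, (if (b : ℕ) < a then f (pf φ (gco b) z x) else 0) := by
      unfold en
      simp only [Nat.not_lt_zero, if_false, Finset.sum_const_zero]
      ring
    rw [h2]
    refine (Finset.abs_sum_le_sum_abs _ _).trans ?_
    have h3 : ∀ b : Fin A, |(if (b : ℕ) < a then f (pf φ (gco b) z x) else 0)| ≤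
        if (b : ℕ) < a then B else 0 := by
      intro b
      by_cases hb : (b : ℕ) < a
      · rw [if_pos hb, if_pos hb]
        exact h.hB _
      · rw [if_neg hb, if_neg hb, abs_zero]
    refine (Finset.sum_le_sum fun b _ => h3 b).trans ?_
    rw [← Finset.sum_filter, Finset.sum_const, nsmul_eq_mul]
    refine mul_le_mul_of_nonneg_right ?_ hB
    have h4 : (Finset.univ.filter fun b : Fin A => (b : ℕ) < a).card ≤ a := by
      have h5 : (Finset.univ.filter fun b : Fin A => (b : ℕ) < a).card ≤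
          (Finset.range a).card := by
        refine Finset.card_le_card_of_injOn (fun b : Fin A => (b : ℕ)) ?_ ?_
        · intro b hb
          simp only [Finset.coe_filter, Finset.mem_univ, true_and, Set.mem_ofPred_eq] at hb
          simpa only [Finset.coe_range, Set.mem_Iio] using hb
        · intro b _ b' _ hbb
          exact Fin.ext hbb
      rwa [Finset.card_range] at h5
    exact_mod_cast h4
  have h2 := hR.fe_sub_le hR' h1
  rw [lm_wH] at h2
  unfold Fe
  rw [← mul_sub, abs_mul, abs_of_pos (by (clear * - hN; positivity) : (0 : ℝ) < 1 / N), one_div,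
    inv_mul_le_iff₀ hN, mul_div_cancel₀ _ hN.ne']
  exact h2

/-- The coordinates of the patterns. -/
lemma lm_map_inl (α β : Type) [Fintype α] [Fintype β] :
    (gI (α ⊕ β)).map (fun z p => z (Sum.inl p)) = gI α := by
  symm
  apply Measure.pi_eq
  intro s hs
  have hm : Measurable fun (z : α ⊕ β → ℝ) (p : α) => z (Sum.inl p) := by
    rw [measurable_pi_iff]
    intro p
    exact measurable_pi_apply _
  rw [Measure.map_apply hm (MeasurableSet.univ_pi hs)]
  have h1 : (fun (z : α ⊕ β → ℝ) (p : α) => z (Sum.inl p)) ⁻¹' (Set.univ.pi s) =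
      Set.univ.pi (Sum.elim s fun _ => Set.univ) := by
    ext z
    simp only [Set.mem_preimage, Set.mem_pi, Set.mem_univ, forall_true_left]
    constructor
    · intro h e
      rcases e with p | q
      · exact h p
      · exact Set.mem_univ _
    · intro h p
      exact h (Sum.inl p)
  rw [h1, Measure.pi_pi, Fintype.prod_sum_type]
  simp only [Sum.elim_inl, Sum.elim_inr, measure_univ, Finset.prod_const_one, mul_one]

/-- Currying. -/
lemma lm_map_curry (A N : ℕ) : (gI (Fin A × Fin N)).map (MeasurableEquiv.curry (Fin A) (Fin N) ℝ) =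
    Measure.pi fun _ => Measure.pi fun _ => gaussianReal 0 1 := by
  have h := Measure.infinitePi_map_curry
    (fun (_ : Fin A) (_ : Fin N) => gaussianReal 0 1)
  simp_rw [Measure.infinitePi_eq_pi] at h
  exact h

/-- Without fields. -/
theorem Fe_no_field (h : MD K m f f' f'' B C₁ C₂ u φ) :
    Fe A K m f u φ A (fun _ => 0) = 1 / N * ∫ g : Fin A → Fin N → ℝ,
      Real.log (∑ x, Real.exp (u x + ∑ b, f (1 / √(N : ℝ) * ∑ i, φ x i * g b i)))
        ∂(Measure.pi fun _ => Measure.pi fun _ => gaussianReal 0 1) := by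
  have hR : (mdl A K m f u φ (fun _ => 0) A).Reg := (mdl_regD h).toReg
  have hen : ∀ (z : Ix A N K → ℝ) (x : X), en f u φ (fun _ => 0) A z x =
      u x + ∑ b : Fin A, f (1 / √(N : ℝ) * ∑ i, φ x i * z (Sum.inl (b, i))) := by
    intro z x
    unfold en
    simp only [zero_mul, Finset.sum_const_zero, add_zero, Fin.is_lt, if_true]
    rfl
  unfold Fe
  congr 1
  rw [fe_level_zero hR]
  · have hfc : Continuous f := continuous_iff_continuousAt.2 fun x => (h.hf.d1 x).continuousAt
    have hG : Continuous fun g : Fin A → Fin N → ℝ =>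
        Real.log (∑ x, Real.exp (u x + ∑ b, f (1 / √(N : ℝ) * ∑ i, φ x i * g b i))) := by
      refine Continuous.log ?_ fun g => ?_
      · fun_prop
      · exact (Finset.sum_pos (fun _ _ => Real.exp_pos _) Finset.univ_nonempty).ne'
    have hm : Measurable fun (z : Ix A N K → ℝ) (p : Fin A × Fin N) => z (Sum.inl p) := by
      rw [measurable_pi_iff]
      intro p
      exact measurable_pi_apply _
    rw [← lm_map_curry A N, integral_map
      (MeasurableEquiv.curry (Fin A) (Fin N) ℝ).measurable.aemeasurable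
      hG.aestronglyMeasurable, ← lm_map_inl (Fin A × Fin N) ((Fin (K + 1) × Fin N) ⊕ Fin (K + 1)),
      integral_map hm.aemeasurable]
    · refine integral_congr_ae (Filter.Eventually.of_forall fun z => ?_)
      show Real.log (∑ x, Real.exp (en f u φ (fun _ => 0) A z x)) = _
      simp only [hen]
      rfl
    · exact (hG.measurable.comp
        (MeasurableEquiv.curry (Fin A) (Fin N) ℝ).measurable).aestronglyMeasurable
  · intro x z w
    show en f u φ (fun _ => 0) A (mix lvl 0 z w) x = en f u φ (fun _ => 0) A z x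
    rw [hen, hen]
    rfl

/-- Without patterns. -/
theorem Fe_no_pattern (h : MD K m f f' f'' B C₁ C₂ u φ) (hs : ∀ l ≤ K, 0 ≤ s l) :
    Fe A K m f u φ 0 s =
      1 / N * topN m (fun l => ∑ j ∈ Finset.range (l + 1), s j ^ 2) K (lw φ 1 u) := by
  unfold Fe
  congr 1
  have h1 := fe_field (S := mdl A K m f u φ s 0) (mdl_regD h) (φ := φ) (u := u) (zc := zco)
    (s := s) (fun l hl i => lm_lvl_zco (A := A) (K := K) hl i) (fun l hl i j hij => by
      simp only [zco, Sum.inr.injEq, Sum.inl.injEq, Prod.mk.injEq] at hij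
      exact hij.2) hs (fun z x => by
      show en f u φ s 0 z x = _
      unfold en
      simp only [Nat.not_lt_zero, if_false, Finset.sum_const_zero, add_zero]
      rfl)
  exact h1

/-- Without patterns and fields. -/
theorem Fe_zero_zero (h : MD K m f f' f'' B C₁ C₂ u φ) :
    Fe A K m f u φ 0 (fun _ => 0) = 1 / N * Real.log (∑ x, Real.exp (u x)) := by
  have hR : (mdl A K m f u φ (fun _ => 0) 0).Reg := (mdl_regD h).toReg
  have hen : ∀ (z : Ix A N K → ℝ) (x : X), en f u φ (fun _ => 0) 0 z x = u x := by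
    intro z x
    unfold en
    simp only [not_lt_zero, ↓reduceIte, Finset.sum_const_zero, add_zero, zero_mul]
  unfold Fe
  congr 1
  rw [fe_level_zero hR]
  · have h1 : (mdl A K m f u φ (fun _ => 0) 0).top = fun _ => Real.log (∑ x, Real.exp (u x)) := by
      funext z
      show Real.log (∑ x, Real.exp (en f u φ (fun _ => 0) 0 z x)) = _
      simp only [hen]
    rw [h1]
    simp only [integral_const, probReal_univ, smul_eq_mul, one_mul]
  · intro x z w
    show en f u φ (fun _ => 0) 0 (mix lvl 0 z w) x = en f u φ (fun _ => 0) 0 z x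
    rw [hen, hen]

/-- The mean of the field of the level zero is at most one (the level zero is not tilted). -/
theorem Ex_hz_zero_le (h : MD K m f f' f'' B C₁ C₂ u φ) :
    (mdl A K m f u φ s a).Ex (hz φ zco 0) ≤ 1 := by
  have hN := lm_Npos h
  have hR : (mdl A K m f u φ s a).Reg := (mdl_regD h).toReg
  have hn := lm_nh_hz (A := A) (K := K) φ 0
  have h1 := hR.Ex_cs hn (g := fun _ _ => 1) (Sy.Nh.snd fun _ => 1)
  simp only [mul_one, one_pow, hR.Ex_const] at h1
  set F : (Ix A N K → ℝ) → ℝ := fun z => 1 / N * ∑ i, z (zco 0 i) ^ 2 with hF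
  have hFe : EG F := EG.const_mul _ (EG.sum _ fun i _ => (EG.coord (zco 0 i)).pow 2)
  have h2 : (mdl A K m f u φ s a).Ex (fun z x => hz φ zco 0 z x ^ 2) ≤
      (mdl A K m f u φ s a).Ex (fun z _ => F z) := by
    refine hR.Ex_mono (Sy.Nh.pow hn 2) (Sy.Nh.fst hFe) fun z x => ?_
    have h3 := Finset.sum_mul_sq_le_sq_mul_sq Finset.univ (fun i => z (zco 0 i)) (φ x)
    rw [h.norm] at h3
    show (1 / N * ∑ i, z (zco 0 i) * φ x i) ^ 2 ≤ 1 / N * ∑ i, z (zco 0 i) ^ 2
    rw [mul_pow]
    calc (1 / (N : ℝ)) ^ 2 * (∑ i, z (zco 0 i) * φ x i) ^ 2 ≤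
        (1 / (N : ℝ)) ^ 2 * ((∑ i, z (zco 0 i) ^ 2) * N) :=
          mul_le_mul_of_nonneg_left h3 (by positivity)
      _ = _ := by (clear * - hN; field_simp)
  have h3 : (mdl A K m f u φ s a).Ex (fun z _ => F z) = ∫ z, F z ∂(gI _) := by
    refine hR.Ex_dep ?_ hFe
    intro z w
    show 1 / (N : ℝ) * ∑ i, mix lvl 0 z w (zco 0 i) ^ 2 = 1 / N * ∑ i, z (zco 0 i) ^ 2
    have h4 : ∀ i : Fin N, mix lvl 0 z w (zco 0 i) = z (zco 0 i) := by
      intro i
      unfold mix
      rw [if_pos (lm_lvl_zco (Nat.zero_le _) i).le]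
    simp only [h4]
  have h4 : ∫ z, F z ∂(gI (Ix A N K)) = 1 := by
    have h5 : ∀ e : Ix A N K, ∫ z : Ix A N K → ℝ, z e ^ 2 ∂(gI _) = 1 := by
      intro e
      have h6 := PD.stein (PD.coord (e := e) e) (EG.coord e) (EG.of_bdd (C := 1)
        measurable_const fun y => by simp)
      have h7 : (fun z : Ix A N K → ℝ => z e ^ 2) = fun z => z e * z e := by
        funext z
        ring
      rw [h7, h6]
      simp
    rw [hF, integral_const_mul, integral_finsetSum _ fun i _ =>
      ((EG.coord (zco 0 i)).pow 2).integrable]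
    simp only [h5]
    rw [Finset.sum_const, Finset.card_univ, Fintype.card_fin, nsmul_eq_mul, mul_one,
      one_div_mul_cancel hN.ne']
  rw [h3, h4] at h2
  have h5 : (mdl A K m f u φ s a).Ex (hz φ zco 0) ^ 2 ≤ 1 := h1.trans h2
  exact (le_abs_self _).trans (abs_le_one_iff_mul_self_le_one.2 (by linarith only [h1, h2]))

end Vale.Agent.P157.Lv
end

section

/-!
Schur monotonicity of the pattern part and of the spin part.
-/

open MeasureTheory ProbabilityTheory Filter Topology

namespace Vale.Agent.P157.Lv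

set_option linter.unusedSectionVars false

open Par (incr Path Exponents cascade gstep patternPart spinPart topN lw)

variable {ι X : Type} [Fintype ι] [DecidableEq ι] [Fintype X] [Nonempty X]
  {S : Sy ι X} {D : ι → (ι → ℝ) → X → ℝ}

/-! ### Auxiliary lemmas -/

namespace Sy

lemma Reg.schur_mono (hS : S.Reg) {l l' : ℕ} (hl : l ≤ l') (hl' : l' ≤ S.K)
    {h : (ι → ℝ) → X → ℝ} (hh : Nh h) :
    S.Ex (fun z _ => S.T l h z ^ 2) ≤ S.Ex (fun z _ => S.T l' h z ^ 2) := by
  have h1 : Nh (X := X) (fun z _ => S.T l' h z) := Nh.fst (hS.eg_T hl' hh)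
  have h2 : Nh (X := X) (fun z (_ : X) => S.T l' h z ^ 2) := Nh.fst ((hS.eg_T hl' hh).pow 2)
  rw [← hS.Ex_T (hl.trans hl') h2]
  refine hS.Ex_mono (Nh.fst ((hS.eg_T (hl.trans hl') hh).pow 2))
    (Nh.fst (hS.eg_T (hl.trans hl') h2)) fun z _ => ?_
  rw [← hS.T_T hl hl' hh z]
  exact hS.sq_T_le (hl.trans hl') h1 z

lemma Reg.schur_nonneg (hS : S.Reg) {l : ℕ} (hl : l ≤ S.K) {h : (ι → ℝ) → X → ℝ} (hh : Nh h) :
    0 ≤ S.Ex (fun z _ => S.T l h z ^ 2) := by
  rw [← hS.Ex_const 0]
  exact hS.Ex_mono (Nh.fst (EG.const 0)) (Nh.fst ((hS.eg_T hl hh).pow 2)) fun z _ => sq_nonneg _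

lemma Reg.schur_le (hS : S.Reg) {l : ℕ} (hl : l ≤ S.K) {h : (ι → ℝ) → X → ℝ} (hh : Nh h)
    {C : ℝ} (hC : ∀ z x, |h z x| ≤ C) : S.Ex (fun z _ => S.T l h z ^ 2) ≤ C ^ 2 := by
  rw [← hS.Ex_const (C ^ 2)]
  refine hS.Ex_mono (Nh.fst ((hS.eg_T hl hh).pow 2)) (Nh.fst (EG.const _)) fun z _ => ?_
  exact sq_le_sq' (abs_le.1 (hS.abs_T_le hl hh hC z)).1 (abs_le.1 (hS.abs_T_le hl hh hC z)).2

end Sy

/-- Abel summation against an increasing sequence. -/
lemma schur_abel {k : ℕ} {a E : ℕ → ℝ} {ε : ℝ} (hE0 : 0 ≤ E 0)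
    (hE : ∀ l < k, E l ≤ E (l + 1)) (h : ∀ j ≤ k, -ε ≤ ∑ l ∈ Finset.Ico j (k + 1), a l) :
    -ε * E k ≤ ∑ l ∈ Finset.range (k + 1), a l * E l := by
  have key : ∀ d, ∀ j, j + d = k →
      (∑ l ∈ Finset.Ico j (k + 1), a l) * E j - ε * (E k - E j) ≤
        ∑ l ∈ Finset.Ico j (k + 1), a l * E l := by
    intro d
    induction d with
    | zero =>
      intro j hj
      rw [add_zero] at hj
      subst hj
      simp only [Nat.Ico_succ_singleton, Finset.sum_singleton, sub_self, mul_zero, sub_zero, Std.le_refl]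
    | succ d ih =>
      intro j hj
      have h1 := ih (j + 1) (by omega)
      have h2 := h (j + 1) (by omega)
      have h3 := hE j (by omega)
      rw [Finset.sum_eq_sum_Ico_succ_bot (show j < k + 1 by omega),
        Finset.sum_eq_sum_Ico_succ_bot (show j < k + 1 by omega) fun l => a l * E l]
      linarith only [h1, mul_nonneg (show 0 ≤ (∑ l ∈ Finset.Ico (j + 1) (k + 1), a l) + ε by linarith)         (sub_nonneg.2 h3)]
  have h0 := key k 0 (by omega)
  have h1 := h 0 (Nat.zero_le _)
  rw [Finset.range_eq_Ico]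
  linarith only [mul_nonneg (sub_nonneg.2 h1) (sub_nonneg.2 hE0), h0]

/-- The cascade depends only on the exponents `m 1, …, m n`. -/
lemma schur_cascade_congr {m m' q : ℕ → ℝ} : ∀ (n : ℕ), (∀ l < n, m (l + 1) = m' (l + 1)) →
    ∀ F x, cascade m q n F x = cascade m' q n F x := by
  intro n
  induction n with
  | zero => intro _ F x; rfl
  | succ n ih =>
    intro h F x
    rw [Par.cascade_succ_def, Par.cascade_succ_def, h n (Nat.lt_succ_self n)]
    exact ih (fun l hl => h l (by omega)) _ x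

/-- The system for the comparison of two paths. -/
def schurSys (K : ℕ) (m : ℕ → ℝ) : Sy (Fin (K + 1) × Bool) Unit where
  lev e := e.1
  K := K
  m := m
  H _ _ := 0

lemma schurSys_regD {K : ℕ} {m : ℕ → ℝ} (h0 : m 0 = 0) (h1 : m (K + 1) = 1)
    (hm : ∀ l ≤ K, m l ≤ m (l + 1)) (hp : 0 < m 1) :
    (schurSys K m).RegD (fun _ _ _ => 0) where
  m0 := h0
  mK := h1
  mono := hm
  pos := hp
  lev e := Nat.le_of_lt_succ e.1.isLt
  lip _ := Lip.const 0
  pd _ _ := PD.const 0
  md _ _ := measurable_const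
  bd := ⟨0, fun _ _ _ => by simp⟩

/-- The coefficients of the field with the path `Q` on the coordinates of the kind `b`. -/
noncomputable def schurC (K : ℕ) (Q : ℕ → ℝ) (b : Bool) (e : Fin (K + 1) × Bool) : ℝ :=
  if e.2 = b then √(incr Q e.1) else 0

/-- The coordinates of the kind `b`. -/
def schurY (K : ℕ) (b : Bool) (l : ℕ) : Fin (K + 1) × Bool := (Fin.ofNat (K + 1) l, b)

lemma schurY_val (K : ℕ) (b : Bool) (i : Fin (K + 1)) : schurY K b i = (i, b) := by
  unfold schurY
  congr 1
  apply Fin.ext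
  change (i : ℕ) % (K + 1) = i
  exact Nat.mod_eq_of_lt i.isLt

lemma schurY_lev {K : ℕ} {m : ℕ → ℝ} (b : Bool) {l : ℕ} (hl : l ≤ K) :
    (schurSys K m).lev (schurY K b l) = l := by
  change ((schurY K b l).1 : ℕ) = l
  simp only [schurY, Fin.ofNat]
  exact Nat.mod_eq_of_lt (Nat.lt_succ_of_le hl)

lemma schur_lin {K : ℕ} (Q : ℕ → ℝ) (b : Bool) (z : Fin (K + 1) × Bool → ℝ) :
    lin (schurC K Q b) z = tf (schurY K b) K Q z := by
  unfold lin tf
  rw [Fintype.sum_prod_type, Finset.sum_range]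
  refine Finset.sum_congr rfl fun i _ => ?_
  rw [schurY_val]
  cases b <;> simp [schurC]

lemma schur_sum {K : ℕ} {Q : ℕ → ℝ} (hQ : Path K Q) (b : Bool) {l : ℕ} (hl : l ≤ K) :
    ∑ e : Fin (K + 1) × Bool, (if (e.1 : ℕ) ≤ l then schurC K Q b e ^ 2 else 0) = Q l := by
  have hinc : ∀ i ≤ K, 0 ≤ incr Q i := by
    intro i hi
    rcases i with _ | i
    · exact hQ.1
    · exact sub_nonneg.2 (hQ.2 i (by omega))
  have h1 : ∀ i : Fin (K + 1), (∑ b', if ((i, b').1 : ℕ) ≤ l then schurC K Q b (i, b') ^ 2 else 0) =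
      if (i : ℕ) ≤ l then incr Q i else 0 := by
    intro i
    have h2 := Real.sq_sqrt (hinc i (Nat.le_of_lt_succ i.isLt))
    by_cases h : (i : ℕ) ≤ l
    · cases b <;> simp [schurC, h, h2]
    · simp only [Fintype.univ_bool, h, ↓reduceIte, Finset.sum_const_zero]
  rw [Fintype.sum_prod_type, Finset.sum_congr rfl fun i _ => h1 i,
    ← Finset.sum_range (fun i => if i ≤ l then incr Q i else 0), ← Finset.sum_filter]
  have h3 : (Finset.range (K + 1)).filter (fun i => i ≤ l) = Finset.range (l + 1) := by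
    ext i
    simp only [Finset.mem_filter, Finset.mem_range]
    (clear * - hl; omega)
  rw [h3]
  clear h3 h1
  induction l with
  | zero => simp [Par.incr_zero_def]
  | succ l ih =>
    rw [Finset.sum_range_succ, ih (by omega)]
    simp [Par.incr_succ_def]

/-- The comparison of two paths. -/
theorem schur_int {K : ℕ} {m : ℕ → ℝ} (h0 : m 0 = 0) (h1 : m (K + 1) = 1)
    (hm : ∀ l ≤ K, m l ≤ m (l + 1)) (hp : 0 < m 1) {Q R : ℕ → ℝ} (hQ : Path K Q) (hR : Path K R)
    {f f' f'' : ℝ → ℝ} {C₁ C₂ : ℝ} (hf : Pot f f' f'' C₁ C₂) {b : ℝ}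
    (hb : ∀ (S' : Sy (Fin (K + 1) × Bool) Unit) (u : (Fin (K + 1) × Bool → ℝ) → Unit → ℝ),
      S'.Reg → S'.K = K → Nh (fun z x => f' (u z x)) →
      (Q K - R K) * S'.Ex (fun z x => f'' (u z x) + f' (u z x) ^ 2) -
        ∑ l ∈ Finset.range (K + 1), (m (l + 1) - m l) * ((Q l - R l) *
          S'.Ex (fun z _ => S'.T l (fun z x => f' (u z x)) z ^ 2)) ≤ b) :
    ∫ x, cascade m Q K f (√(Q 0) * x) ∂(gaussianReal 0 1) -
      ∫ x, cascade m R K f (√(R 0) * x) ∂(gaussianReal 0 1) ≤ b / 2 := by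
  have hreg := schurSys_regD (K := K) h0 h1 hm hp
  have hsep : Sep (fun (_ : Fin (K + 1) × Bool) (_ : (Fin (K + 1) × Bool → ℝ)) (_ : Unit) => (0 : ℝ))
      (fun _ => schurC K Q false) (fun _ => schurC K R true) := by
    refine ⟨fun e _ _ => ?_, fun _ _ _ _ _ => rfl⟩
    rcases e with ⟨i, b'⟩
    cases b' <;> simp [schurC]
  have hlip : ∀ x x', |f x - f x'| ≤ C₁ * |x - x'| := hf.lip
  have e1 : (schurSys K m).wH (it (schurSys K m).H f (fun _ => schurC K Q false)
      (fun _ => schurC K R true) (Real.pi / 2)) =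
      (schurSys K m).wH fun z x => (schurSys K m).H z x +
        f (tf (schurY K false) (schurSys K m).K Q z) := by
    unfold it itU
    simp only [Real.sin_pi_div_two, Real.cos_pi_div_two, one_mul, zero_mul, add_zero, schur_lin]
    rfl
  have e2 : (schurSys K m).wH (it (schurSys K m).H f (fun _ => schurC K Q false)
      (fun _ => schurC K R true) 0) =
      (schurSys K m).wH fun z x => (schurSys K m).H z x +
        f (tf (schurY K true) (schurSys K m).K R z) := by
    unfold it itU
    simp only [Real.sin_zero, Real.cos_zero, one_mul, zero_mul, zero_add, schur_lin]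
    rfl
  have key := int_le hreg hf hsep (b := b) (fun θ _ _ => ?_)
  · rw [e1, e2, fe_add_tree hreg (y := schurY K false) (fun l hl => schurY_lev _ hl)
      (fun _ _ _ _ => rfl) (R := Q) hQ hlip, fe_add_tree hreg (y := schurY K true)
      (fun l hl => schurY_lev _ hl) (fun _ _ _ _ => rfl) (R := R) hR hlip] at key
    have key' : ∫ x, cascade m Q K f (√(Q 0) * x) ∂(gaussianReal 0 1) -
      ∫ x, cascade m R K f (√(R 0) * x) ∂(gaussianReal 0 1) =
      (schurSys K m).fe + ∫ x, cascade (schurSys K m).m Q (schurSys K m).K f (√(Q 0) * x)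
        ∂(gaussianReal 0 1) - ((schurSys K m).fe +
        ∫ x, cascade (schurSys K m).m R (schurSys K m).K f (√(R 0) * x) ∂(gaussianReal 0 1)) := by
      change _ = (schurSys K m).fe + ∫ x, cascade m Q K f (√(Q 0) * x)
        ∂(gaussianReal 0 1) - ((schurSys K m).fe +
        ∫ x, cascade m R K f (√(R 0) * x) ∂(gaussianReal 0 1))
      ring
    rw [key']
    exact key
  · obtain ⟨S', hS'⟩ : ∃ S', S' = (schurSys K m).wH (it (schurSys K m).H f
      (fun _ => schurC K Q false) (fun _ => schurC K R true) θ) := ⟨_, rfl⟩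
    have hregD := regD_it (α := fun _ => schurC K Q false) (β := fun _ => schurC K R true) hreg hf θ
    rw [← hS'] at hregD
    obtain ⟨u, hu⟩ : ∃ u, u = fun z (x : Unit) => itU (fun _ => schurC K Q false)
      (fun _ => schurC K R true) θ z x := ⟨_, rfl⟩
    have hum : ∀ x, Measurable fun z => u z x := by
      intro x
      rw [hu]
      unfold itU lin
      fun_prop
    have hnh : Nh (fun z x => f' (u z x)) := fun x =>
      EG.of_bdd (hf.measurable.2.1.comp (hum x)) (C := C₁) fun y => hf.b1 _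
    have hS'K : S'.K = K := by rw [hS']; rfl
    refine le_trans (le_of_eq ?_) (hb S' u hregD.toReg hS'K hnh)
    unfold brk
    rw [← hS']
    have hαs : ∑ e, schurC K Q false e ^ 2 = Q K := by
      rw [← schur_sum hQ false le_rfl]
      refine Finset.sum_congr rfl fun e _ => ?_
      rw [if_pos (Nat.le_of_lt_succ e.1.isLt)]
    have hβs : ∑ e, schurC K R true e ^ 2 = R K := by
      rw [← schur_sum hR true le_rfl]
      refine Finset.sum_congr rfl fun e _ => ?_
      rw [if_pos (Nat.le_of_lt_succ e.1.isLt)]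
    congr 1
    · rw [← Sy.Ex_const_mul]
      congr 1
      funext z x
      simp only [hu, hαs, hβs]
      ring
    · refine Finset.sum_congr rfl fun l hl => ?_
      have hlK : l ≤ K := Nat.le_of_lt_succ (Finset.mem_range.1 hl)
      congr 1
      have hT : ∀ (c : ℝ), S'.Ex (fun z _ => S'.T l (fun z x => f' (itU
          (fun _ => schurC K Q false) (fun _ => schurC K R true) θ z x) * c) z ^ 2) =
          c ^ 2 * S'.Ex (fun z _ => S'.T l (fun z x => f' (u z x)) z ^ 2) := by
        intro c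
        rw [← Sy.Ex_const_mul]
        congr 1
        funext z _
        rw [← mul_pow, ← Sy.T_const_mul]
        congr 2
        funext z x
        rw [hu]
        ring
      rw [sub_mul, ← schur_sum hQ false hlK, ← schur_sum hR true hlK, Finset.sum_mul,
        Finset.sum_mul, ← Finset.sum_sub_distrib]
      refine Finset.sum_congr rfl fun e _ => ?_
      change (if (e.1 : ℕ) ≤ l then _ else (0 : ℝ)) = _
      by_cases h : (e.1 : ℕ) ≤ l
      · rw [if_pos h, if_pos h, if_pos h, hT, hT]
      · rw [if_neg h, if_neg h, if_neg h]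
        ring

/-- **Schur monotonicity of the pattern part.** Proof: `int_le` for `X = Unit`, `H = 0`, the levels
`0, …, k + 1`, exponents `m 1, …, m k, 1` (and `m (k+2) = 1`), fields with the paths `ext1 k q'` and
`ext1 k q`; the bracket is `-∑_{l ≤ k} p_l (q' l - q l) E_l`, `E_l = Ex_θ (T_l f')²`, with
`0 ≤ E_0 ≤ … ≤ E_k ≤ C₁²`; Abel summation. -/
theorem pattern_schur {k : ℕ} {m q q' : ℕ → ℝ} (hm : Exponents k m) (hq : Path k q)
    (hq1 : q k ≤ 1) (hq' : Path k q') (hq1' : q' k ≤ 1) {f f' f'' : ℝ → ℝ} {C₁ C₂ : ℝ}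
    (hf : Pot f f' f'' C₁ C₂) {ε : ℝ} (hε : 0 ≤ ε)
    (h : ∀ j ≤ k, -ε ≤ ∑ l ∈ Finset.Ico j (k + 1), (m (l + 1) - m l) * (q' l - q l)) :
    patternPart f k m q' ≤ patternPart f k m q + 1 / 2 * C₁ ^ 2 * ε := by
  obtain ⟨mm, hmm⟩ : ∃ mm : ℕ → ℝ, mm = fun l => if l ≤ k + 1 then m l else 1 := ⟨_, rfl⟩
  have hml : ∀ l ≤ k + 1, mm l = m l := fun l hl => by rw [hmm]; exact if_pos hl
  have hm2 : mm (k + 2) = 1 := by rw [hmm]; exact if_neg (by omega)
  have hext : ∀ {q : ℕ → ℝ}, Path k q → q k ≤ 1 → Path (k + 1) (ext1 k q) := by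
    intro q hq hq1
    refine ⟨?_, fun l hl => ?_⟩
    · rw [ext1, if_pos (Nat.zero_le _)]; exact hq.1
    · rcases Nat.lt_or_ge l k with h1 | h1
      · rw [ext1, ext1, if_pos h1.le, if_pos (show l + 1 ≤ k from h1)]; exact hq.2 l h1
      · have : l = k := by omega
        subst this
        rw [ext1, ext1, if_pos le_rfl, if_neg (by omega)]; exact hq1
  have hcas : ∀ q F x, cascade m (ext1 k q) (k + 1) F x = cascade mm (ext1 k q) (k + 1) F x :=
    fun q F x => schur_cascade_congr (k + 1) (fun l hl => (hml _ (by omega)).symm) F x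
  have he0 : ∀ q : ℕ → ℝ, ext1 k q 0 = q 0 := fun q => by rw [ext1, if_pos (Nat.zero_le _)]
  have key := schur_int (K := k + 1) (m := mm) (Q := ext1 k q') (R := ext1 k q)
    (by rw [hml 0 (by omega)]; exact hm.1) hm2 (fun l hl => ?_)
    (by rw [hml 1 (by omega)]; have := hm.2.2 0 (Nat.zero_le _); rw [hm.1] at this; exact this)
    (hext hq' hq1') (hext hq hq1) hf (b := C₁ ^ 2 * ε) (fun S' u hS' hK hu => ?_)
  · rw [patternPart_eq_cascade hm, patternPart_eq_cascade hm]
    simp only [hcas, he0] at key ⊢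
    linarith only [key]
  · rcases Nat.lt_or_ge l (k + 1) with h1 | h1
    · rw [hml l hl, hml (l + 1) h1]; exact (hm.2.2 l (by omega)).le
    · have : l = k + 1 := by omega
      subst this
      rw [hml _ le_rfl, hm.2.1]
      exact hm2.ge
  · have e1 : ext1 k q' (k + 1) = 1 := by rw [ext1, if_neg (by omega)]
    have e2 : ext1 k q (k + 1) = 1 := by rw [ext1, if_neg (by omega)]
    rw [e1, e2, sub_self, zero_mul, zero_sub, Finset.sum_range_succ, e1, e2, sub_self, zero_mul,
      mul_zero, add_zero]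
    have e3 : ∑ l ∈ Finset.range (k + 1), (mm (l + 1) - mm l) * ((ext1 k q' l - ext1 k q l) *
        S'.Ex (fun z _ => S'.T l (fun z x => f' (u z x)) z ^ 2)) =
        ∑ l ∈ Finset.range (k + 1), ((m (l + 1) - m l) * (q' l - q l)) *
        S'.Ex (fun z _ => S'.T l (fun z x => f' (u z x)) z ^ 2) := by
      refine Finset.sum_congr rfl fun l hl => ?_
      have hl' : l ≤ k := Nat.le_of_lt_succ (Finset.mem_range.1 hl)
      rw [hml l (by omega), hml (l + 1) (by omega), ext1, ext1, if_pos hl', if_pos hl']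
      ring
    rw [e3]
    have h1 := schur_abel (k := k) (a := fun l => (m (l + 1) - m l) * (q' l - q l))
      (E := fun l => S'.Ex (fun z _ => S'.T l (fun z x => f' (u z x)) z ^ 2)) (ε := ε)
      (hS'.schur_nonneg (Nat.zero_le _) hu)
      (fun l hl => hS'.schur_mono (Nat.le_succ l) (by omega) hu) h
    have h2 := hS'.schur_le (l := k) (by omega) hu (fun z x => hf.b1 _)
    have h3 : ε * S'.Ex (fun z _ => S'.T k (fun z x => f' (u z x)) z ^ 2) ≤ C₁ ^ 2 * ε := by
      rw [mul_comm]
      exact mul_le_mul_of_nonneg_right h2 hε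
    simp only [neg_mul] at h1
    linarith only [h3, h1]

/-- **Schur monotonicity of the spin part.** Proof: `int_le` for `X = Unit`, `H = 0`, the function
`log cosh` (`f' = tanh`, `f'' + f'² = 1`), paths `r'` and `r`: the bracket is
`(r' k - r k) - ∑ p_l (r' l - r l) E_l` with `0 ≤ E_0 ≤ … ≤ E_k`. -/
theorem spin_schur {k : ℕ} {m r r' : ℕ → ℝ} (hm : Exponents k m) (hr : Path k r)
    (hr' : Path k r')
    (h : ∀ j ≤ k, 0 ≤ ∑ l ∈ Finset.Ico j (k + 1), (m (l + 1) - m l) * (r' l - r l)) :
    spinPart k m r' ≤ spinPart k m r := by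
  have hpot : Pot (fun x => Real.log (Real.cosh x)) Real.tanh (fun x => 1 - Real.tanh x ^ 2) 1 1 := by
    refine ⟨fun x => ?_, fun x => ?_, fun x => (Real.abs_tanh_lt_one x).le, fun x => ?_⟩
    · have h1 := (Real.hasDerivAt_cosh x).log (Real.cosh_pos x).ne'
      rw [← Real.tanh_eq_sinh_div_cosh] at h1
      exact h1
    · have h1 : Real.tanh = Real.sinh / Real.cosh := by
        funext y
        exact Real.tanh_eq_sinh_div_cosh y
      have h2 := (Real.hasDerivAt_sinh x).div (Real.hasDerivAt_cosh x) (Real.cosh_pos x).ne'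
      rw [← h1] at h2
      refine h2.congr_deriv ?_
      rw [Real.tanh_eq_sinh_div_cosh]
      have h3 := (Real.cosh_pos x).ne'
      (clear * - h3; field_simp)
    · have h1 := Real.tanh_sq_lt_one x
      have h2 := sq_nonneg (Real.tanh x)
      rw [abs_le]
      constructor <;> linarith only [h1, h2]
  have hm0 := hm.2.2 0 (Nat.zero_le _)
  rw [hm.1] at hm0
  have key := schur_int (K := k) (m := m) (Q := r') (R := r) hm.1 hm.2.1
    (fun l hl => (hm.2.2 l hl).le) hm0 hr' hr hpot (b := r' k - r k) (fun S' u hS' hK hu => ?_)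
  · unfold spinPart
    linarith only [key]
  · have e0 : (fun z x => 1 - Real.tanh (u z x) ^ 2 + Real.tanh (u z x) ^ 2) =
        fun (_ : Fin (k + 1) × Bool → ℝ) (_ : Unit) => (1 : ℝ) := by
      funext z x
      ring
    have e1 : (r' k - r k) * S'.Ex (fun z x => 1 - Real.tanh (u z x) ^ 2 +
        Real.tanh (u z x) ^ 2) = r' k - r k := by
      rw [e0, hS'.Ex_const, mul_one]
    simp only [e1]
    have h1 := schur_abel (k := k) (a := fun l => (m (l + 1) - m l) * (r' l - r l))
      (E := fun l => S'.Ex (fun z _ => S'.T l (fun z x => Real.tanh (u z x)) z ^ 2)) (ε := 0)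
      (hS'.schur_nonneg (Nat.zero_le _) hu)
      (fun l hl => hS'.schur_mono (Nat.le_succ l) (by omega) hu)
      (fun j hj => by rw [neg_zero]; exact h j hj)
    simp only [neg_zero, zero_mul, mul_assoc] at h1
    linarith only [h1]

end Vale.Agent.P157.Lv
end

section

/-!
Refinement of the exponents: each level is split into `n` levels. Block averages of paths.
-/

open MeasureTheory ProbabilityTheory Filter Topology

namespace Vale.Agent.P157.Lv

set_option linter.unusedSectionVars false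

open Par (incr Path Exponents cascade gstep patternPart spinPart parisi)

/-- The refined exponents: `m' l = m (l / n) + ((l % n) / n) (m (l / n + 1) - m (l / n))`. -/
noncomputable def rfm (n : ℕ) (m : ℕ → ℝ) : ℕ → ℝ := fun l =>
  m (l / n) + ((l % n : ℕ) : ℝ) / n * (m (l / n + 1) - m (l / n))

/-- The refined path. -/
def rfp (n : ℕ) (q : ℕ → ℝ) : ℕ → ℝ := fun l => q (l / n)

/-- The number of the last level: `(k + 1) n - 1`. -/
def rfk (n k : ℕ) : ℕ := (k + 1) * n - 1

/-- The block averages of a path. -/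
noncomputable def bav (n : ℕ) (r : ℕ → ℝ) : ℕ → ℝ := fun b => 1 / n * ∑ i ∈ Finset.range n, r (b * n + i)

variable {n k : ℕ} {m q r : ℕ → ℝ}

/-- A step with increment zero does nothing. -/
lemma gstep_zero {m : ℝ} (hm : m ≠ 0) (F : ℝ → ℝ) : gstep m 0 F = F := by
  funext x
  unfold gstep
  simp only [Real.sqrt_zero, zero_mul, add_zero, integral_const, probReal_univ, one_smul,
    Real.log_exp]
  field_simp

lemma rf_rfk_succ (hn : 0 < n) : rfk n k + 1 = (k + 1) * n := by
  unfold rfk
  have : 0 < (k + 1) * n := by positivity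
  (clear * - this; omega)

lemma rf_div (b : ℕ) {i : ℕ} (hi : i < n) : (b * n + i) / n = b := by
  have hn : 0 < n := by omega
  rw [mul_comm, Nat.mul_add_div hn, Nat.div_eq_of_lt hi, add_zero]

lemma rf_mod (b : ℕ) {i : ℕ} (hi : i < n) : (b * n + i) % n = i := by
  rw [mul_comm, Nat.mul_add_mod, Nat.mod_eq_of_lt hi]

lemma rf_div_le (hn : 0 < n) {l : ℕ} (hl : l ≤ rfk n k) : l / n ≤ k := by
  have h1 := rf_rfk_succ (k := k) hn
  have h2 : l / n < k + 1 := (Nat.div_lt_iff_lt_mul hn).2 (by omega)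
  omega

lemma rf_decomp (hn : 0 < n) (l : ℕ) : ∃ b i, i < n ∧ l = b * n + i ∧ l / n = b := by
  refine ⟨l / n, l % n, Nat.mod_lt _ hn, ?_, rfl⟩
  have := Nat.div_add_mod l n
  rw [mul_comm] at this
  exact this.symm

lemma rf_rfm_block (b : ℕ) {i : ℕ} (hn : 0 < n) (hi : i ≤ n) :
    rfm n m (b * n + i) = m b + (i : ℝ) / n * (m (b + 1) - m b) := by
  have hn' : (n : ℝ) ≠ 0 := by exact_mod_cast hn.ne'
  rcases hi.eq_or_lt with h | h
  · subst h
    have e : b * i + i = (b + 1) * i + 0 := by ring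
    have h1 : (b * i + i) / i = b + 1 := by rw [e]; exact rf_div (b + 1) hn
    have h2 : (b * i + i) % i = 0 := by rw [e]; exact rf_mod (b + 1) hn
    unfold rfm
    rw [h1, h2]
    simp only [Nat.cast_zero, zero_div, zero_mul, add_zero]
    rw [div_self hn']
    ring
  · unfold rfm
    rw [rf_div b h, rf_mod b h]

lemma rf_sub_block (b : ℕ) {i : ℕ} (hi : i < n) :
    rfm n m (b * n + i + 1) - rfm n m (b * n + i) = 1 / n * (m (b + 1) - m b) := by
  have hn : 0 < n := by omega
  have h1 := rf_rfm_block (m := m) b hn (i := i + 1) (by omega)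
  have h2 := rf_rfm_block (m := m) b hn (i := i) hi.le
  rw [← add_assoc] at h1
  rw [h1, h2]
  push_cast
  ring

theorem rfm_sub (hn : 0 < n) (hm : Exponents k m) {l : ℕ} (hl : l ≤ rfk n k) :
    rfm n m (l + 1) - rfm n m l = 1 / n * (m (l / n + 1) - m (l / n)) := by
  obtain ⟨b, i, hi, hl1, hb⟩ := rf_decomp hn l
  rw [hb, hl1]
  exact rf_sub_block b hi

theorem rfm_exponents (hn : 0 < n) (hm : Exponents k m) : Exponents (rfk n k) (rfm n m) := by
  refine ⟨?_, ?_, ?_⟩
  · have h := rf_rfm_block (m := m) 0 hn (i := 0) (by omega)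
    simp only [zero_mul, add_zero, Nat.cast_zero, zero_div] at h
    rw [h]
    exact hm.1
  · have h := rf_rfm_block (m := m) (k + 1) hn (i := 0) (by omega)
    simp only [add_zero, Nat.cast_zero, zero_div, zero_mul] at h
    rw [rf_rfk_succ hn, h]
    exact hm.2.1
  · intro l hl
    have h1 := rfm_sub hn hm hl
    have h2 := hm.2.2 (l / n) (rf_div_le hn hl)
    have h3 : 0 < 1 / (n : ℝ) * (m (l / n + 1) - m (l / n)) := by
      have : (0 : ℝ) < n := by exact_mod_cast hn
      have h4 : 0 < m (l / n + 1) - m (l / n) := by linarith only [h2]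
      positivity
    linarith only [h1, h3]

lemma rf_exp_nonneg (hm : Exponents k m) : ∀ j ≤ k + 1, 0 ≤ m j := by
  intro j
  induction j with
  | zero => intro _; exact hm.1.ge
  | succ j ih =>
    intro hj
    have h1 := ih (by omega)
    have h2 := hm.2.2 j (by omega)
    linarith only [h1, h2]

lemma rf_exp_le_one (hm : Exponents k m) : ∀ d ≤ k + 1, m (k + 1 - d) ≤ 1 := by
  intro d
  induction d with
  | zero => intro _; exact hm.2.1.le
  | succ d ih =>
    intro hd
    have h1 := ih (by omega)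
    have h2 := hm.2.2 (k + 1 - (d + 1)) (by omega)
    have e : k + 1 - (d + 1) + 1 = k + 1 - d := by omega
    rw [e] at h2
    linarith only [h1, h2]

theorem rfm_mesh (hn : 0 < n) (hm : Exponents k m) {l : ℕ} (hl : l ≤ rfk n k) :
    rfm n m (l + 1) - rfm n m l ≤ 1 / n := by
  rw [rfm_sub hn hm hl]
  have hb := rf_div_le hn hl
  generalize l / n = c at hb ⊢
  have h1 := rf_exp_nonneg hm c (by omega)
  have h2 := rf_exp_le_one hm (k + 1 - (c + 1)) (by (clear * - hb; omega))
  have e : k + 1 - (k + 1 - (c + 1)) = c + 1 := by omega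
  rw [e] at h2
  have hn' : (0 : ℝ) < n := by exact_mod_cast hn
  calc 1 / (n : ℝ) * (m (c + 1) - m c) ≤ 1 / (n : ℝ) * 1 :=
        mul_le_mul_of_nonneg_left (by (clear * - h1 h2; linarith)) (by positivity)
    _ = 1 / n := mul_one _

theorem rfp_path (hn : 0 < n) (hq : Path k q) : Path (rfk n k) (rfp n q) := by
  refine ⟨?_, ?_⟩
  · unfold rfp
    rw [Nat.zero_div]
    exact hq.1
  · intro l hl
    unfold rfp
    have h1 : (l + 1) / n ≤ k := rf_div_le hn (by omega)
    rw [Nat.succ_div] at h1 ⊢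
    split_ifs at h1 ⊢
    · exact hq.2 (l / n) (by omega)
    · exact le_rfl

theorem rfp_last (hn : 0 < n) : rfp n q (rfk n k) = q k := by
  unfold rfp
  have h1 : rfk n k = k * n + (n - 1) := by
    have h := rf_rfk_succ (k := k) hn
    have : (k + 1) * n = k * n + n := by ring
    omega
  rw [h1, rf_div k (by omega)]

lemma rf_path_mono (hr : Path k r) : ∀ j d, j + d ≤ k → r j ≤ r (j + d) := by
  intro j d
  induction d with
  | zero => intro _; exact le_rfl
  | succ d ih =>
    intro h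
    have h1 := ih (by (clear * - h; omega))
    have h2 := hr.2 (j + d) (by omega)
    exact h1.trans h2

lemma rf_path_nonneg (hr : Path k r) {j : ℕ} (hj : j ≤ k) : 0 ≤ r j := by
  have h := rf_path_mono hr 0 j (by omega)
  rw [zero_add] at h
  exact hr.1.trans h

lemma rf_lt (hn : 0 < n) {b i : ℕ} (hb : b ≤ k) (hi : i < n) : b * n + i ≤ rfk n k := by
  have h := rf_rfk_succ (k := k) hn
  have h2 : (b + 1) * n ≤ (k + 1) * n := Nat.mul_le_mul_right _ (by omega)
  have h3 : (b + 1) * n = b * n + n := by ring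
  omega

theorem bav_path (hn : 0 < n) (hr : Path (rfk n k) r) : Path k (bav n r) := by
  have hn' : (0 : ℝ) < n := by exact_mod_cast hn
  refine ⟨?_, ?_⟩
  · unfold bav
    refine mul_nonneg (by positivity) (Finset.sum_nonneg fun i hi => ?_)
    rw [Finset.mem_range] at hi
    exact rf_path_nonneg hr (rf_lt hn (Nat.zero_le k) hi)
  · intro b hb
    unfold bav
    refine mul_le_mul_of_nonneg_left (Finset.sum_le_sum fun i hi => ?_) (by positivity)
    rw [Finset.mem_range] at hi
    have e : (b + 1) * n + i = b * n + i + n := by ring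
    have h1 : (b + 1) * n + i ≤ rfk n k := rf_lt hn (by omega) hi
    rw [e] at h1 ⊢
    exact rf_path_mono hr _ _ h1

lemma rf_rfm_ne (hn : 0 < n) (hm : Exponents k m) {l : ℕ} (h0 : 1 ≤ l) (hl : l ≤ rfk n k + 1) :
    rfm n m l ≠ 0 := by
  have he := rfm_exponents hn hm
  have h1 := rf_exp_nonneg he (l - 1) (by omega)
  have h2 := he.2.2 (l - 1) (by omega)
  have e : l - 1 + 1 = l := by (clear * - h0; omega)
  rw [e] at h2
  linarith only [h1, h2]

lemma rf_cascade (hn : 0 < n) (hm : Exponents k m) : ∀ b ≤ k, ∀ i < n, ∀ F : ℝ → ℝ,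
    cascade (rfm n m) (rfp n q) (b * n + i) F = cascade m q b F := by
  have step : ∀ b ≤ k, (∀ F : ℝ → ℝ, cascade (rfm n m) (rfp n q) (b * n) F = cascade m q b F) →
      ∀ i < n, ∀ F : ℝ → ℝ, cascade (rfm n m) (rfp n q) (b * n + i) F = cascade m q b F := by
    intro b hb h0 i
    induction i with
    | zero => intro _ F; exact h0 F
    | succ i ih =>
      intro hi F
      have e : b * n + (i + 1) = b * n + i + 1 := by ring
      rw [e, Par.cascade_succ_def]
      have e1 : rfp n q (b * n + i + 1) - rfp n q (b * n + i) = 0 := by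
        unfold rfp
        rw [← e, rf_div b hi, rf_div b (by omega : i < n), sub_self]
      have h1 : b * n + (i + 1) ≤ rfk n k := rf_lt hn hb hi
      rw [e1, gstep_zero (rf_rfm_ne hn hm (by (clear * -; omega)) (by omega))]
      exact ih (by omega) F
  intro b
  induction b with
  | zero =>
    intro hb
    refine step 0 hb (fun F => ?_)
    rw [zero_mul]
    rfl
  | succ b ih =>
    intro hb
    refine step (b + 1) hb (fun F => ?_)
    have e : (b + 1) * n = b * n + (n - 1) + 1 := by
      have : (b + 1) * n = b * n + n := by ring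
      (clear * - hn this; omega)
    rw [e, Par.cascade_succ_def, ih (by omega) (n - 1) (by omega), ← e,
      Par.cascade_succ_def m q b F]
    have e1 : rfm n m ((b + 1) * n) = m (b + 1) := by
      have h := rf_rfm_block (m := m) (b + 1) hn (i := 0) (by omega)
      simp only [add_zero, Nat.cast_zero, zero_div, zero_mul] at h
      exact h
    have e2 : rfp n q ((b + 1) * n) = q (b + 1) := by
      unfold rfp
      rw [Nat.mul_div_cancel _ hn]
    have e3 : rfp n q (b * n + (n - 1)) = q b := by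
      unfold rfp
      rw [rf_div b (by omega)]
    rw [e1, e2, e3]

lemma rf_cascade_top (hn : 0 < n) (hm : Exponents k m) (F : ℝ → ℝ) :
    cascade (rfm n m) (rfp n q) (rfk n k) F = cascade m q k F := by
  have h1 : rfk n k = k * n + (n - 1) := by
    have h := rf_rfk_succ (k := k) hn
    have : (k + 1) * n = k * n + n := by ring
    omega
  rw [h1]
  exact rf_cascade hn hm k le_rfl (n - 1) (by omega) F

/-- The cascade does not change. -/
theorem patternPart_rf (hn : 0 < n) (hm : Exponents k m) (f : ℝ → ℝ) :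
    patternPart f (rfk n k) (rfm n m) (rfp n q) = patternPart f k m q := by
  have h0 : rfp n q 0 = q 0 := by
    unfold rfp
    rw [Nat.zero_div]
  unfold patternPart
  rw [rf_cascade_top hn hm, rfp_last hn, h0]

theorem spinPart_rf (hn : 0 < n) (hm : Exponents k m) :
    spinPart (rfk n k) (rfm n m) (rfp n r) = spinPart k m r := by
  have h0 : rfp n r 0 = r 0 := by
    unfold rfp
    rw [Nat.zero_div]
  unfold spinPart
  rw [rf_cascade_top hn hm, rfp_last hn, h0]

/-- tails of a nondecreasing sequence minus its average -/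
lemma rf_tail_avg (hn : 0 < n) {s : ℕ → ℝ} (hs : ∀ i j, i ≤ j → j < n → s i ≤ s j) {i0 : ℕ}
    (hi0 : i0 < n) :
    0 ≤ ∑ i ∈ Finset.Ico i0 n, (s i - 1 / n * ∑ j ∈ Finset.range n, s j) := by
  have hn' : (0 : ℝ) < n := by exact_mod_cast hn
  obtain ⟨c, hc⟩ : ∃ c, c = 1 / (n : ℝ) * ∑ j ∈ Finset.range n, s j := ⟨_, rfl⟩
  rw [← hc]
  by_cases h : c ≤ s i0
  · refine Finset.sum_nonneg fun i hi => ?_
    rw [Finset.mem_Ico] at hi
    have := hs i0 i hi.1 hi.2
    linarith only [h, this]
  · push Not at h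
    have h0 : ∑ i ∈ Finset.range n, (s i - c) = 0 := by
      rw [Finset.sum_sub_distrib, Finset.sum_const, Finset.card_range, nsmul_eq_mul, hc]
      field_simp
      ring
    have h1 : ∑ i ∈ Finset.range i0, (s i - c) + ∑ i ∈ Finset.Ico i0 n, (s i - c)
        = ∑ i ∈ Finset.range n, (s i - c) := Finset.sum_range_add_sum_Ico _ hi0.le
    have h2 : ∑ i ∈ Finset.range i0, (s i - c) ≤ 0 := by
      refine Finset.sum_nonpos fun i hi => ?_
      rw [Finset.mem_range] at hi
      have := hs i i0 hi.le hi0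
      linarith only [h, this]
    linarith only [h0, h1, h2]

lemma rf_shift (f : ℕ → ℝ) (a i0 : ℕ) :
    ∑ l ∈ Finset.Ico (a + i0) (a + n), f l = ∑ i ∈ Finset.Ico i0 n, f (a + i) := by
  rw [add_comm a i0, add_comm a n, ← Finset.sum_Ico_add' f i0 n a]
  exact Finset.sum_congr rfl fun i _ => by rw [add_comm]

/-- The spin part of a path is at most the spin part of its block averages. Proof:
`spin_schur`, the tails of a nondecreasing sequence minus its average are nonnegative. -/
theorem spinPart_bav (hn : 0 < n) (hm : Exponents k m) (hr : Path (rfk n k) r) :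
    spinPart (rfk n k) (rfm n m) r ≤ spinPart k m (bav n r) := by
  rw [← spinPart_rf hn hm]
  refine spin_schur (rfm_exponents hn hm) (rfp_path hn (bav_path hn hr)) hr ?_
  have hn' : (0 : ℝ) < n := by exact_mod_cast hn
  obtain ⟨a, ha⟩ : ∃ a : ℕ → ℝ, a = fun l =>
    (rfm n m (l + 1) - rfm n m l) * (r l - rfp n (bav n r) l) := ⟨_, rfl⟩
  have hblk : ∀ b i, i < n → a (b * n + i) =
      1 / n * (m (b + 1) - m b) * (r (b * n + i) - bav n r b) := by
    intro b i hi
    rw [ha]
    simp only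
    rw [rf_sub_block b hi]
    congr 2
    unfold rfp
    rw [rf_div b hi]
  have hpart : ∀ b ≤ k, ∀ i0 < n, 0 ≤ ∑ l ∈ Finset.Ico (b * n + i0) (b * n + n), a l := by
    intro b hb i0 hi0
    rw [rf_shift a (b * n) i0]
    have h1 : ∑ i ∈ Finset.Ico i0 n, a (b * n + i) = 1 / n * (m (b + 1) - m b) *
        ∑ i ∈ Finset.Ico i0 n, (r (b * n + i) - bav n r b) := by
      rw [Finset.mul_sum]
      refine Finset.sum_congr rfl fun i hi => ?_
      rw [Finset.mem_Ico] at hi
      exact hblk b i hi.2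
    rw [h1]
    have h2 := hm.2.2 b hb
    refine mul_nonneg (mul_nonneg (by (clear * - hn; positivity)) (by linarith only [h2])) ?_
    unfold bav
    refine rf_tail_avg hn (s := fun i => r (b * n + i)) (fun i j hij hj => ?_) hi0
    have h3 : b * n + j ≤ rfk n k := rf_lt hn hb hj
    have h4 := rf_path_mono hr (b * n + i) (j - i) (by omega)
    have e : b * n + i + (j - i) = b * n + j := by omega
    rw [e] at h4
    exact h4
  have hall : ∀ d ≤ k + 1, 0 ≤ ∑ l ∈ Finset.Ico ((k + 1 - d) * n) ((k + 1) * n), a l := by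
    intro d
    induction d with
    | zero => intro _; simp
    | succ d ih =>
      intro hd
      have h1 := ih (by omega)
      obtain ⟨b, hb⟩ : ∃ b, b = k + 1 - (d + 1) := ⟨_, rfl⟩
      have e : k + 1 - d = b + 1 := by omega
      rw [e] at h1
      rw [← hb]
      have h2 := hpart b (by omega) 0 hn
      have e2 : b * n + n = (b + 1) * n := by ring
      rw [add_zero, e2] at h2
      have h3 := Finset.sum_Ico_consecutive a (m := b * n) (n := (b + 1) * n)
        (k := (k + 1) * n) (Nat.mul_le_mul_right _ (by (clear * -; omega))) (Nat.mul_le_mul_right _ (by omega))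
      rw [← h3]
      linarith only [h1, h2]
  intro j hj
  obtain ⟨b, i0, hi0, hj1, hb⟩ := rf_decomp hn j
  have hbk : b ≤ k := by rw [← hb]; exact rf_div_le hn hj
  change 0 ≤ ∑ l ∈ Finset.Ico j (rfk n k + 1),
    (rfm n m (l + 1) - rfm n m l) * (r l - rfp n (bav n r) l)
  have e3 : ∑ l ∈ Finset.Ico j (rfk n k + 1),
      (rfm n m (l + 1) - rfm n m l) * (r l - rfp n (bav n r) l)
      = ∑ l ∈ Finset.Ico j ((k + 1) * n), a l := by
    rw [rf_rfk_succ hn, ha]
  rw [e3, hj1]
  have h2 := hpart b hbk i0 hi0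
  have h4 := hall (k + 1 - (b + 1)) (by (clear * - hbk; omega))
  have e4 : k + 1 - (k + 1 - (b + 1)) = b + 1 := by (clear * - hbk; omega)
  rw [e4] at h4
  have e2 : b * n + n = (b + 1) * n := by ring
  rw [e2] at h2
  have h3 := Finset.sum_Ico_consecutive a (m := b * n + i0) (n := (b + 1) * n)
    (k := (k + 1) * n) (by rw [← e2]; omega) (Nat.mul_le_mul_right _ (by (clear * - hbk e4; omega)))
  rw [← h3]
  linarith only [h2, h4]

lemma rf_blk_sum (f : ℕ → ℝ) (K : ℕ) :
    ∑ l ∈ Finset.range (K * n), f l = ∑ b ∈ Finset.range K, ∑ i ∈ Finset.range n, f (b * n + i) := by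
  induction K with
  | zero => simp only [zero_mul, Finset.range_zero, Finset.sum_empty]
  | succ K ih =>
    have e : (K + 1) * n = K * n + n := by ring
    rw [e, Finset.sum_range_add, ih, Finset.sum_range_succ]

/-- Sums against a block constant path. -/
theorem sum_bav (hn : 0 < n) (hm : Exponents k m) :
    ∑ l ∈ Finset.range (rfk n k + 1), (rfm n m (l + 1) - rfm n m l) * r l * rfp n q l =
      ∑ l ∈ Finset.range (k + 1), (m (l + 1) - m l) * bav n r l * q l := by
  rw [rf_rfk_succ hn, rf_blk_sum]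
  refine Finset.sum_congr rfl fun b hb => ?_
  have h1 : ∀ i ∈ Finset.range n, (rfm n m (b * n + i + 1) - rfm n m (b * n + i)) * r (b * n + i) *
      rfp n q (b * n + i) = (m (b + 1) - m b) * q b * (1 / n) * r (b * n + i) := by
    intro i hi
    rw [Finset.mem_range] at hi
    rw [rf_sub_block b hi]
    unfold rfp
    rw [rf_div b hi]
    ring
  rw [Finset.sum_congr rfl h1, ← Finset.mul_sum]
  unfold bav
  ring

end Vale.Agent.P157.Lv
end

section

/-!
Approximation of bounded measurable potentials by smooth ones in `L¹(γ)`.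
-/

open MeasureTheory ProbabilityTheory Filter Topology

namespace Vale.Agent.P157.Lv

variable {f g : ℝ → ℝ} {B : ℝ}

/-- Truncation to `[-B, B]` is a contraction towards points of `[-B, B]`. -/
lemma bor_trunc_le {B x y : ℝ} (hx : |x| ≤ B) : |x - max (-B) (min B y)| ≤ |x - y| := by
  have h1 := abs_le.1 hx
  have hB : 0 ≤ B := le_trans (abs_nonneg x) hx
  rcases le_total B y with h | h
  · rw [min_eq_left h, max_eq_right (by linarith only [h1])]
    rw [abs_of_nonpos (by linarith only [h1]), abs_of_nonpos (by linarith only [h1, h])]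
    linarith only [h]
  · rw [min_eq_right h]
    rcases le_total (-B) y with h' | h'
    · rw [max_eq_right h']
    · rw [max_eq_left h']
      rw [abs_of_nonneg (by linarith only [h1]), abs_of_nonneg (by linarith only [h1, h'])]
      linarith only [h']

lemma bor_trunc_abs {B y : ℝ} (hB : 0 ≤ B) : |max (-B) (min B y)| ≤ B := by
  rw [abs_le]
  refine ⟨le_max_left _ _, max_le (by linarith) (min_le_left _ _)⟩

/-- First step: a continuous function with compact support. -/
lemma bor_exists_cont (hf : Measurable f) (hB : ∀ x, |f x| ≤ B) {ε : ℝ} (hε : 0 < ε) :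
    ∃ h : ℝ → ℝ, Continuous h ∧ HasCompactSupport h ∧ (∀ x, |h x| ≤ B) ∧
      ∫ x, |f x - h x| ∂(gaussianReal 0 1) ≤ ε := by
  have hB0 : 0 ≤ B := le_trans (abs_nonneg _) (hB 0)
  have hfi : Integrable f (gaussianReal 0 1) := by
    refine Integrable.of_bound hf.aestronglyMeasurable B (ae_of_all _ fun x => ?_)
    rw [Real.norm_eq_abs]
    exact hB x
  obtain ⟨h, h1, h2, h3, h4⟩ := hfi.exists_hasCompactSupport_integral_sub_le hε
  refine ⟨fun x => max (-B) (min B (h x)), ?_, ?_, fun x => bor_trunc_abs hB0, ?_⟩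
  · exact continuous_const.max (continuous_const.min h3)
  · have := h1.comp_left (g := fun y => max (-B) (min B y)) (by
      show max (-B) (min B 0) = 0
      rw [min_eq_right hB0, max_eq_right (by (clear * - hB0; linarith))])
    exact this
  · refine le_trans (integral_mono_of_nonneg (ae_of_all _ fun x => abs_nonneg _) ?_
      (ae_of_all _ fun x => ?_)) h2
    · exact (hfi.sub h4).norm
    · exact bor_trunc_le (hB x)

/-- Second step: a smooth function with compact support, uniformly close. -/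
lemma bor_exists_smooth {h : ℝ → ℝ} (hc : Continuous h) (hs : HasCompactSupport h)
    {ε : ℝ} (hε : 0 < ε) :
    ∃ g : ℝ → ℝ, ContDiff ℝ 2 g ∧ HasCompactSupport g ∧ ∀ x, |g x - h x| ≤ ε := by
  have hu : UniformContinuous h := hs.uniformContinuous_of_continuous hc
  obtain ⟨δ, hδ, hfδ⟩ := Metric.uniformContinuous_iff.mp hu ε hε
  obtain ⟨g, hg1, hg2⟩ := hc.exists_contDiff_dist_le_of_forall_mem_ball_dist_le
    (lt_min one_pos hδ)
  refine ⟨g, contDiff_infty.1 hg1 2, ?_, fun x => ?_⟩
  · refine HasCompactSupport.intro (K := Metric.cthickening 1 (tsupport h))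
      hs.isCompact.cthickening fun x hx => ?_
    have h0 : ∀ y ∈ Metric.ball x (min 1 δ), h y = 0 := fun y hy => by
      by_contra hne
      apply hx
      refine Metric.mem_cthickening_of_dist_le x y 1 _ (subset_tsupport _ hne) ?_
      rw [Metric.mem_ball, lt_min_iff] at hy
      rw [dist_comm]
      exact hy.1.le
    have hx0 : h x = 0 := h0 x (Metric.mem_ball_self (lt_min one_pos hδ))
    have := hg2 x 0 fun y hy => by
      rw [h0 y hy, hx0, dist_self]
    rw [hx0] at this
    exact dist_le_zero.1 this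
  · have := hg2 x ε fun y hy => by
      rw [Metric.mem_ball, lt_min_iff] at hy
      exact (hfδ hy.2).le
    rwa [Real.dist_eq] at this

/-- Smooth functions with compact support are potentials. -/
lemma bor_pot {g : ℝ → ℝ} (hg : ContDiff ℝ 2 g) (hs : HasCompactSupport g) :
    ∃ C₁ C₂ : ℝ, Pot g (deriv g) (deriv (deriv g)) C₁ C₂ := by
  have h1 : ContDiff ℝ 1 (deriv g) := by
    have : ContDiff ℝ (1 + 1) g := by
      have h2 : (1 + 1 : WithTop ℕ∞) = 2 := by norm_num
      rw [h2]
      exact hg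
    exact (contDiff_succ_iff_deriv.1 this).2.2
  have hd1 : Differentiable ℝ g := hg.differentiable (by norm_num)
  have hd2 : Differentiable ℝ (deriv g) := h1.differentiable (by norm_num)
  have hc1 : Continuous (deriv g) := h1.continuous
  have hc2 : Continuous (deriv (deriv g)) := h1.continuous_deriv (le_refl _)
  obtain ⟨C₁, hC₁⟩ := hc1.bounded_above_of_compact_support hs.deriv
  obtain ⟨C₂, hC₂⟩ := hc2.bounded_above_of_compact_support hs.deriv.deriv
  exact ⟨C₁, C₂, ⟨fun x => (hd1 x).hasDerivAt, fun x => (hd2 x).hasDerivAt,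
    fun x => hC₁ x, fun x => hC₂ x⟩⟩

/-- Approximation by smooth potentials. -/
theorem bor_exists_pot (hf : Measurable f) (hB : ∀ x, |f x| ≤ B) {ε : ℝ} (hε : 0 < ε) :
    ∃ (g g' g'' : ℝ → ℝ) (C₁ C₂ : ℝ), Pot g g' g'' C₁ C₂ ∧ (∀ x, |g x| ≤ B) ∧
      ∫ x, |f x - g x| ∂(gaussianReal 0 1) ≤ ε := by
  have hB0 : 0 ≤ B := le_trans (abs_nonneg _) (hB 0)
  obtain ⟨h, h1, h2, h3, h4⟩ := bor_exists_cont hf hB (half_pos hε)
  obtain ⟨g, g1, g2, g3⟩ := bor_exists_smooth h1 h2 (ε := ε / 4) (by positivity)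
  have hpos : 0 < B + ε / 4 := by (clear * - hB0 hε; positivity)
  have hg4 : ∀ x, |g x| ≤ B + ε / 4 := fun x => by
    calc |g x| = |h x + (g x - h x)| := by congr 1; ring
      _ ≤ |h x| + |g x - h x| := abs_add_le _ _
      _ ≤ B + ε / 4 := add_le_add (h3 x) (g3 x)
  have hG1 : ContDiff ℝ 2 (fun x => B / (B + ε / 4) * g x) := contDiff_const.mul g1
  have hG2 : HasCompactSupport (fun x => B / (B + ε / 4) * g x) := g2.mul_left
  obtain ⟨C₁, C₂, hP⟩ := bor_pot hG1 hG2
  refine ⟨_, _, _, C₁, C₂, hP, fun x => ?_, ?_⟩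
  · rw [abs_mul, abs_of_nonneg (by (clear * - hB0 hε; positivity)), div_mul_eq_mul_div, div_le_iff₀ hpos]
    exact mul_le_mul_of_nonneg_left (hg4 x) hB0
  · have hpt : ∀ x, |f x - B / (B + ε / 4) * g x| ≤ |f x - h x| + ε / 2 := fun x => by
      have e1 : f x - B / (B + ε / 4) * g x = (f x - h x) + (-(g x - h x) +
          ε / 4 * (g x / (B + ε / 4))) := by
        field_simp
        ring
      have e2 : |ε / 4 * (g x / (B + ε / 4))| ≤ ε / 4 := by
        rw [abs_mul, abs_of_pos (by positivity : (0 : ℝ) < ε / 4), abs_div, abs_of_pos hpos]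
        have : |g x| / (B + ε / 4) ≤ 1 := by
          rw [div_le_one hpos]
          exact hg4 x
        linarith only [mul_nonneg (le_of_lt (sub_pos.2 hε)) (sub_nonneg.2 this)]
      rw [e1]
      calc |(f x - h x) + (-(g x - h x) + ε / 4 * (g x / (B + ε / 4)))|
          ≤ |f x - h x| + |-(g x - h x) + ε / 4 * (g x / (B + ε / 4))| := abs_add_le _ _
        _ ≤ |f x - h x| + (|-(g x - h x)| + |ε / 4 * (g x / (B + ε / 4))|) := by
          gcongr
          exact abs_add_le _ _
        _ ≤ |f x - h x| + (ε / 4 + ε / 4) := by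
          rw [abs_neg]
          gcongr
          exact g3 x
        _ = |f x - h x| + ε / 2 := by ring
    have hfi : Integrable (fun x => |f x - h x|) (gaussianReal 0 1) := by
      refine Integrable.of_bound ((hf.sub h1.measurable).aestronglyMeasurable.norm) (2 * B)
        (ae_of_all _ fun x => ?_)
      rw [Real.norm_eq_abs, abs_abs]
      have := abs_sub (f x) (h x)
      linarith only [this, hB x, h3 x]
    have hint : Integrable (fun x => |f x - h x| + ε / 2) (gaussianReal 0 1) :=
      hfi.add (integrable_const _)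
    calc ∫ x, |f x - B / (B + ε / 4) * g x| ∂(gaussianReal 0 1)
        ≤ ∫ x, (|f x - h x| + ε / 2) ∂(gaussianReal 0 1) :=
          integral_mono_of_nonneg (ae_of_all _ fun x => abs_nonneg _) hint (ae_of_all _ hpt)
      _ = (∫ x, |f x - h x| ∂(gaussianReal 0 1)) + ε / 2 := by
          rw [integral_add hfi (integrable_const _)]
          simp
      _ ≤ ε / 2 + ε / 2 := by (clear * - h4; gcongr)
      _ = ε := by ring

end Vale.Agent.P157.Lv
end

section

/-!
The mean pressure is Lipschitz in the potential for the `L¹(γ)` distance.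
-/

open MeasureTheory ProbabilityTheory Filter Topology

namespace Vale.Agent.P157.Lv

set_option linter.unusedSectionVars false

lemma bor_exp_sub_le {x y B : ℝ} (hx : x ≤ B) (hy : y ≤ B) :
    |Real.exp x - Real.exp y| ≤ Real.exp B * |x - y| := by
  have key : ∀ {x y : ℝ}, x ≤ B → y ≤ x → |Real.exp x - Real.exp y| ≤ Real.exp B * |x - y| := by
    intro x y hx hxy
    rw [abs_of_nonneg (sub_nonneg.2 (Real.exp_le_exp.2 hxy)), abs_of_nonneg (sub_nonneg.2 hxy)]
    have h1 : Real.exp y = Real.exp x * Real.exp (y - x) := by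
      rw [← Real.exp_add]
      congr 1
      ring
    have h2 : y - x + 1 ≤ Real.exp (y - x) := Real.add_one_le_exp _
    have h3 : Real.exp x ≤ Real.exp B := Real.exp_le_exp.2 hx
    have h4 := Real.exp_pos x
    calc Real.exp x - Real.exp y = Real.exp x * (1 - Real.exp (y - x)) := by rw [h1]; ring
      _ ≤ Real.exp x * (x - y) := by
        apply mul_le_mul_of_nonneg_left _ h4.le
        linarith
      _ ≤ Real.exp B * (x - y) := mul_le_mul_of_nonneg_right h3 (sub_nonneg.2 hxy)
  rcases le_total y x with h | h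
  · exact key hx h
  · rw [abs_sub_comm, abs_sub_comm x y]
    exact key hy h

lemma bor_log_sub_le {a b c : ℝ} (hc : 0 < c) (ha : c ≤ a) (hb : c ≤ b) :
    |Real.log a - Real.log b| ≤ |a - b| / c := by
  have key : ∀ {a b : ℝ}, c ≤ a → c ≤ b → Real.log a - Real.log b ≤ |a - b| / c := by
    intro a b ha hb
    have ha0 : 0 < a := lt_of_lt_of_le hc ha
    have hb0 : 0 < b := lt_of_lt_of_le hc hb
    rw [← Real.log_div ha0.ne' hb0.ne']
    calc Real.log (a / b) ≤ a / b - 1 := Real.log_le_sub_one_of_pos (by positivity)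
      _ = (a - b) / b := by field_simp
      _ ≤ |a - b| / b := by gcongr; exact le_abs_self _
      _ ≤ |a - b| / c := by gcongr
  rw [abs_sub_le_iff]
  refine ⟨key ha hb, ?_⟩
  rw [abs_sub_comm]
  exact key hb ha

section Weight

variable {X : Type*} [MeasurableSpace X] {μ : Measure X} [IsProbabilityMeasure μ]

/-- `|log ∫ w e^F - log ∫ w e^G| ≤ e^{2B} ∫ w |F - G| / ∫ w`. -/
lemma bor_weight {w F G : X → ℝ} {B c C : ℝ} (hc : 0 < c) (hw : Measurable w)
    (hwc : ∀ x, c ≤ w x) (hwC : ∀ x, w x ≤ C) (hF : Measurable F) (hG : Measurable G)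
    (hFB : ∀ x, |F x| ≤ B) (hGB : ∀ x, |G x| ≤ B) :
    |Real.log (∫ x, w x * Real.exp (F x) ∂μ) - Real.log (∫ x, w x * Real.exp (G x) ∂μ)| ≤
      Real.exp (2 * B) * ((∫ x, w x * |F x - G x| ∂μ) / ∫ x, w x ∂μ) := by
  have hw0 : ∀ x, 0 ≤ w x := fun x => le_trans hc.le (hwc x)
  have iw : Integrable w μ := by
    refine Integrable.of_bound hw.aestronglyMeasurable C (ae_of_all _ fun x => ?_)
    rw [Real.norm_eq_abs, abs_of_nonneg (hw0 x)]
    exact hwC x
  have hC0 : 0 ≤ C := by
    obtain ⟨x⟩ : Nonempty X := by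
      by_contra h
      rw [not_nonempty_iff] at h
      have h1 : μ Set.univ = 1 := measure_univ
      rw [Set.eq_empty_of_isEmpty (Set.univ : Set X), measure_empty] at h1
      exact zero_ne_one h1
    exact le_trans (hw0 x) (hwC x)
  have iwe : ∀ {F : X → ℝ}, Measurable F → (∀ x, |F x| ≤ B) →
      Integrable (fun x => w x * Real.exp (F x)) μ := by
    intro F hF hFB
    refine Integrable.of_bound (hw.mul hF.exp).aestronglyMeasurable (C * Real.exp B)
      (ae_of_all _ fun x => ?_)
    rw [Real.norm_eq_abs, abs_mul, abs_of_nonneg (hw0 x), Real.abs_exp]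
    exact mul_le_mul (hwC x) (Real.exp_le_exp.2 (abs_le.1 (hFB x)).2) (Real.exp_pos _).le hC0
  have hW : 0 < ∫ x, w x ∂μ := by
    have : ∫ _, c ∂μ ≤ ∫ x, w x ∂μ := integral_mono (integrable_const _) iw hwc
    simp only [integral_const, probReal_univ, smul_eq_mul, one_mul] at this
    linarith
  have hlow : ∀ {F : X → ℝ}, Measurable F → (∀ x, |F x| ≤ B) →
      Real.exp (-B) * ∫ x, w x ∂μ ≤ ∫ x, w x * Real.exp (F x) ∂μ := by
    intro F hF hFB
    rw [← integral_const_mul]
    refine integral_mono (iw.const_mul _) (iwe hF hFB) fun x => ?_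
    simp only
    rw [mul_comm]
    exact mul_le_mul_of_nonneg_left (Real.exp_le_exp.2 (abs_le.1 (hFB x)).1) (hw0 x)
  have hdiff : |(∫ x, w x * Real.exp (F x) ∂μ) - ∫ x, w x * Real.exp (G x) ∂μ| ≤
      Real.exp B * ∫ x, w x * |F x - G x| ∂μ := by
    rw [← integral_sub (iwe hF hFB) (iwe hG hGB), ← integral_const_mul]
    refine le_trans (abs_integral_le_integral_abs) ?_
    refine integral_mono ((iwe hF hFB).sub (iwe hG hGB)).abs ?_ fun x => ?_
    · refine Integrable.const_mul ?_ _
      refine Integrable.of_bound ((hw.mul (hF.sub hG).abs).aestronglyMeasurable) (C * (2 * B))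
        (ae_of_all _ fun x => ?_)
      have hBB : |F x - G x| ≤ 2 * B := by
        have := abs_sub (F x) (G x)
        linarith only [this, hFB x, hGB x]
      show ‖w x * |F x - G x|‖ ≤ _
      rw [Real.norm_eq_abs, abs_mul, abs_abs, abs_of_nonneg (hw0 x)]
      exact mul_le_mul (hwC x) hBB (abs_nonneg _) hC0
    · simp only
      rw [← mul_sub, abs_mul, abs_of_nonneg (hw0 x)]
      calc w x * |Real.exp (F x) - Real.exp (G x)|
          ≤ w x * (Real.exp B * |F x - G x|) := mul_le_mul_of_nonneg_left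
            (bor_exp_sub_le (abs_le.1 (hFB x)).2 (abs_le.1 (hGB x)).2) (hw0 x)
        _ = Real.exp B * (w x * |F x - G x|) := by ring
  calc |Real.log (∫ x, w x * Real.exp (F x) ∂μ) - Real.log (∫ x, w x * Real.exp (G x) ∂μ)|
      ≤ |(∫ x, w x * Real.exp (F x) ∂μ) - ∫ x, w x * Real.exp (G x) ∂μ| /
          (Real.exp (-B) * ∫ x, w x ∂μ) :=
        bor_log_sub_le (by (clear * - hW; positivity)) (hlow hF hFB) (hlow hG hGB)
    _ ≤ (Real.exp B * ∫ x, w x * |F x - G x| ∂μ) / (Real.exp (-B) * ∫ x, w x ∂μ) := by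
        (clear * - hdiff hW; gcongr)
    _ = Real.exp (2 * B) * ((∫ x, w x * |F x - G x| ∂μ) / ∫ x, w x ∂μ) := by
        have h1 : Real.exp (2 * B) = Real.exp B * Real.exp B := by
          rw [← Real.exp_add]; congr 1; ring
        rw [Real.exp_neg, h1]
        have := Real.exp_pos B
        (clear * - hW; field_simp)

end Weight

section Resample

variable {E : Type*} [MeasurableSpace E] {ι : Type*} [Fintype ι] [DecidableEq ι]

lemma bor_measurable_upd (e : ι) :
    Measurable (fun q : (ι → E) × E => Function.update q.1 e q.2) := by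
  rw [measurable_pi_iff]
  intro i
  by_cases h : i = e
  · subst h
    simp only [Function.update_self]
    exact measurable_snd
  · simp only [Function.update_of_ne h]
    exact (measurable_pi_apply i).comp measurable_fst

/-- Resampling one coordinate. -/
lemma bor_map_update (μ : Measure E) [IsProbabilityMeasure μ] (e : ι) :
    ((Measure.pi fun _ : ι => μ).prod μ).map
      (fun q : (ι → E) × E => Function.update q.1 e q.2) = Measure.pi fun _ : ι => μ := by
  symm
  apply Measure.pi_eq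
  intro s hs
  rw [Measure.map_apply (bor_measurable_upd e) (MeasurableSet.univ_pi hs)]
  have h1 : (fun q : (ι → E) × E => Function.update q.1 e q.2) ⁻¹' (Set.univ.pi s)
      = (Set.univ.pi (Function.update s e Set.univ)) ×ˢ (s e) := by
    ext ⟨J, x⟩
    simp only [Set.mem_preimage, Set.mem_pi, Set.mem_univ, forall_true_left, Set.mem_prod]
    constructor
    · intro h
      refine ⟨fun i => ?_, ?_⟩
      · by_cases hi : i = e
        · subst hi; simp
        · have := h i
          simpa [Function.update_of_ne hi] using this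
      · simpa using h e
    · rintro ⟨h, h'⟩ i
      by_cases hi : i = e
      · subst hi; simpa using h'
      · have := h i
        simpa [Function.update_of_ne hi] using this
  rw [h1, Measure.prod_prod, Measure.pi_pi]
  rw [← Finset.prod_erase_mul _ _ (Finset.mem_univ e),
    ← Finset.prod_erase_mul (s := Finset.univ) (a := e) _ (Finset.mem_univ e)]
  simp only [Function.update_self, measure_univ, mul_one]
  congr 1
  apply Finset.prod_congr rfl
  intro i hi
  rw [Function.update_of_ne (Finset.ne_of_mem_erase hi)]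

lemma bor_resample (μ : Measure E) [IsProbabilityMeasure μ] (e : ι) {F : (ι → E) → ℝ}
    (hF : Integrable F (Measure.pi fun _ : ι => μ)) :
    ∫ J, F J ∂(Measure.pi fun _ : ι => μ) =
      ∫ J, ∫ x, F (Function.update J e x) ∂μ ∂(Measure.pi fun _ : ι => μ) := by
  have hF' : Integrable F (((Measure.pi fun _ : ι => μ).prod μ).map
      (fun q : (ι → E) × E => Function.update q.1 e q.2)) := by
    rw [bor_map_update]; exact hF
  conv_lhs => rw [← bor_map_update μ e]
  rw [integral_map (bor_measurable_upd e).aemeasurable hF'.aestronglyMeasurable]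
  rw [integral_prod]
  exact (integrable_map_measure hF'.aestronglyMeasurable
    (bor_measurable_upd e).aemeasurable).mp hF'

end Resample

/-- The law of a linear form of a standard Gaussian vector. -/
lemma bor_law {N : ℕ} (hN : 0 < N) {x : Fin N → ℝ} (hx : ∑ i, x i ^ 2 = (N : ℝ)) {D : ℝ → ℝ}
    (hD : Measurable D) :
    ∫ y : Fin N → ℝ, D ((∑ i, y i * x i) / √(N : ℝ)) ∂(Measure.pi fun _ => gaussianReal 0 1) =
      ∫ t, D t ∂(gaussianReal 0 1) := by
  have hN' : (0 : ℝ) < N := by exact_mod_cast hN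
  have h := Par.integral_lin_congr (J := Unit) (K := Fin N) (K' := Unit)
    (U := fun _ i => x i / √(N : ℝ)) (V := fun _ _ => 1) (F := fun z => D (z ())) (by
      intro a b
      simp only [Par.gram, Finset.univ_unique, mul_one, Finset.sum_const, Finset.card_singleton, one_smul]
      have : ∀ c, x c / √(N : ℝ) * (x c / √(N : ℝ)) = x c ^ 2 / N := fun c => by
        rw [div_mul_div_comm, Real.mul_self_sqrt hN'.le, sq]
      simp_rw [this]
      rw [← Finset.sum_div, hx]
      exact div_self hN'.ne') (hD.comp (measurable_pi_apply ()))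
  have h1 : ∀ y : Fin N → ℝ, Par.lin (fun (_ : Unit) i => x i / √(N : ℝ)) y () =
      (∑ i, y i * x i) / √(N : ℝ) := fun y => by
    unfold Par.lin
    rw [Finset.sum_div]
    refine Finset.sum_congr rfl fun i _ => ?_
    ring
  have h2 : ∀ y : Unit → ℝ, Par.lin (fun (_ : Unit) (_ : Unit) => (1 : ℝ)) y () = y () := fun y => by
    simp [Par.lin]
  simp only [h1, h2] at h
  refine h.trans ?_
  exact (measurePreserving_eval (fun _ : Unit => gaussianReal 0 1) ()).integral_comp'
    (f := MeasurableEquiv.funUnique Unit ℝ) D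

section Hybrid

variable {M N : ℕ} {μ : Measure (Fin N → ℝ)} [IsProbabilityMeasure μ] {B : ℝ}
  {s s' : Fin M → ℝ → ℝ}

/-- The normalised product. -/
noncomputable def borU (y x : Fin N → ℝ) : ℝ := (∑ i, y i * x i) / √(N : ℝ)

/-- The Gibbs weight. -/
noncomputable def borE (s : Fin M → ℝ → ℝ) (g : Fin M → Fin N → ℝ) (x : Fin N → ℝ) : ℝ :=
  Real.exp (∑ a, s a (borU (g a) x))

lemma borU_meas : Measurable fun p : (Fin N → ℝ) × (Fin N → ℝ) => borU p.1 p.2 := by
  unfold borU
  fun_prop

lemma borU_meas' (b : Fin M) :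
    Measurable fun p : (Fin M → Fin N → ℝ) × (Fin N → ℝ) => borU (p.1 b) p.2 :=
  borU_meas.comp (Measurable.prodMk ((measurable_pi_apply b).comp measurable_fst) measurable_snd)

lemma borE_meas (hs : ∀ a, Measurable (s a)) :
    Measurable fun p : (Fin M → Fin N → ℝ) × (Fin N → ℝ) => borE s p.1 p.2 := by
  unfold borE
  refine Real.measurable_exp.comp (Finset.measurable_sum _ fun a _ => ?_)
  exact (hs a).comp (borU_meas' a)

lemma borE_bd (hs : ∀ a x, |s a x| ≤ B) (g : Fin M → Fin N → ℝ) (x : Fin N → ℝ) :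
    Real.exp (-(M * B)) ≤ borE s g x ∧ borE s g x ≤ Real.exp (M * B) := by
  have h : |∑ a, s a (borU (g a) x)| ≤ M * B := by
    refine le_trans (Finset.abs_sum_le_sum_abs _ _) ?_
    refine le_trans (Finset.sum_le_sum fun a _ => hs a _) ?_
    simp only [Finset.sum_const, Finset.card_univ, Fintype.card_fin, nsmul_eq_mul, Std.le_refl]
  exact ⟨Real.exp_le_exp.2 (abs_le.1 h).1, Real.exp_le_exp.2 (abs_le.1 h).2⟩

lemma borE_split (s : Fin M → ℝ → ℝ) (b : Fin M) (g : Fin M → Fin N → ℝ) (x : Fin N → ℝ) :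
    borE s g x = borE (Function.update s b fun _ => 0) g x * Real.exp (s b (borU (g b) x)) := by
  unfold borE
  rw [← Real.exp_add]
  congr 1
  rw [← Finset.sum_erase_add _ _ (Finset.mem_univ b),
    ← Finset.sum_erase_add (s := Finset.univ) (a := b) _ (Finset.mem_univ b)]
  rw [Function.update_self, add_zero]
  congr 1
  refine Finset.sum_congr rfl fun a ha => ?_
  rw [Function.update_of_ne (Finset.ne_of_mem_erase ha)]

lemma borE_upd (s : Fin M → ℝ → ℝ) (b : Fin M) (g : Fin M → Fin N → ℝ) (y x : Fin N → ℝ) :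
    borE (Function.update s b fun _ => 0) (Function.update g b y) x =
      borE (Function.update s b fun _ => 0) g x := by
  unfold borE
  congr 1
  refine Finset.sum_congr rfl fun a _ => ?_
  by_cases h : a = b
  · subst h
    rw [Function.update_self]
  · rw [Function.update_of_ne h, Function.update_of_ne h]

/-- The logarithm of the partition function. -/
noncomputable def borP (μ : Measure (Fin N → ℝ)) (s : Fin M → ℝ → ℝ)
    (g : Fin M → Fin N → ℝ) : ℝ := Real.log (∫ x, borE s g x ∂μ)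

lemma borInt_meas {F : (Fin M → Fin N → ℝ) → (Fin N → ℝ) → ℝ}
    (hF : Measurable fun p : (Fin M → Fin N → ℝ) × (Fin N → ℝ) => F p.1 p.2) :
    Measurable fun g => ∫ x, F g x ∂μ :=
  (hF.stronglyMeasurable.integral_prod_right (ν := μ)).measurable

lemma borE_int (hs : ∀ a, Measurable (s a)) (hB : ∀ a x, |s a x| ≤ B)
    (g : Fin M → Fin N → ℝ) : Integrable (fun x => borE s g x) μ := by
  refine Integrable.of_bound ((borE_meas hs).comp
    (measurable_prodMk_left (x := g))).aestronglyMeasurable (Real.exp (M * B))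
    (ae_of_all _ fun x => ?_)
  show ‖borE s g x‖ ≤ _
  rw [Real.norm_eq_abs, abs_of_pos (show 0 < borE s g x from Real.exp_pos _)]
  exact (borE_bd hB g x).2

lemma borE_int_bd (hs : ∀ a, Measurable (s a)) (hB : ∀ a x, |s a x| ≤ B)
    (g : Fin M → Fin N → ℝ) : Real.exp (-(M * B)) ≤ ∫ x, borE s g x ∂μ ∧
      ∫ x, borE s g x ∂μ ≤ Real.exp (M * B) := by
  constructor
  · have : ∫ _, Real.exp (-(M * B)) ∂μ ≤ ∫ x, borE s g x ∂μ :=
      integral_mono (integrable_const _) (borE_int hs hB g) fun x => (borE_bd hB g x).1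
    simpa only [ge_iff_le, integral_const, probReal_univ, smul_eq_mul, one_mul] using this
  · have : ∫ x, borE s g x ∂μ ≤ ∫ _, Real.exp (M * B) ∂μ :=
      integral_mono (borE_int hs hB g) (integrable_const _) fun x => (borE_bd hB g x).2
    simpa only [ge_iff_le, integral_const, probReal_univ, smul_eq_mul, one_mul] using this

lemma borP_int (hs : ∀ a, Measurable (s a)) (hB : ∀ a x, |s a x| ≤ B) :
    Integrable (borP μ s) (patterns M N) := by
  have : IsProbabilityMeasure (patterns M N) := by unfold patterns; infer_instance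
  refine Integrable.of_bound (Real.measurable_log.comp
    (borInt_meas (borE_meas hs))).aestronglyMeasurable (M * B) (ae_of_all _ fun g => ?_)
  show ‖Real.log (∫ x, borE s g x ∂μ)‖ ≤ _
  rw [Real.norm_eq_abs, abs_le]
  have h := borE_int_bd (μ := μ) hs hB g
  have h0 : 0 < ∫ x, borE s g x ∂μ := lt_of_lt_of_le (Real.exp_pos _) h.1
  constructor
  · rw [← Real.log_exp (-(M * B))]
    exact Real.log_le_log (Real.exp_pos _) h.1
  · rw [Real.log_le_iff_le_exp h0]
    exact h.2

/-- The average of the observable over the changed pattern. -/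
lemma bor_avg (hN : 0 < N) (hμ : ∀ᵐ x ∂μ, ∑ i, x i ^ 2 = (N : ℝ)) {b : Fin M}
    {w : (Fin M → Fin N → ℝ) → (Fin N → ℝ) → ℝ}
    (hw : Measurable fun p : (Fin M → Fin N → ℝ) × (Fin N → ℝ) => w p.1 p.2)
    {c C : ℝ} (hc : 0 < c) (hwc : ∀ g x, c ≤ w g x) (hwC : ∀ g x, w g x ≤ C)
    (hwu : ∀ g y x, w (Function.update g b y) x = w g x) {D : ℝ → ℝ} (hD : Measurable D)
    {C' : ℝ} (hDC : ∀ x, |D x| ≤ C') :
    Integrable (fun g => (∫ x, w g x * D (borU (g b) x) ∂μ) / ∫ x, w g x ∂μ) (patterns M N) ∧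
    ∫ g, (∫ x, w g x * D (borU (g b) x) ∂μ) / (∫ x, w g x ∂μ) ∂(patterns M N) =
      ∫ t, D t ∂(gaussianReal 0 1) := by
  have : IsProbabilityMeasure (patterns M N) := by unfold patterns; infer_instance
  have hw0 : ∀ g x, 0 ≤ w g x := fun g x => hc.le.trans (hwc g x)
  have hC'0 : 0 ≤ C' := (abs_nonneg _).trans (hDC 0)
  have mwg : ∀ g, Measurable (w g) := fun g => hw.comp (measurable_prodMk_left (x := g))
  have iw : ∀ g, Integrable (w g) μ := fun g => by
    refine Integrable.of_bound (mwg g).aestronglyMeasurable C (ae_of_all _ fun x => ?_)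
    rw [Real.norm_eq_abs, abs_of_nonneg (hw0 g x)]
    exact hwC g x
  have hW : ∀ g, 0 < ∫ x, w g x ∂μ := fun g => by
    have : ∫ _, c ∂μ ≤ ∫ x, w g x ∂μ := integral_mono (integrable_const _) (iw g) (hwc g)
    simp only [integral_const, probReal_univ, smul_eq_mul, one_mul] at this
    linarith only [hc, this]
  have mD : Measurable fun p : (Fin M → Fin N → ℝ) × (Fin N → ℝ) =>
      w p.1 p.2 * D (borU (p.1 b) p.2) := hw.mul (hD.comp (borU_meas' b))
  have hint : Integrable (fun g => (∫ x, w g x * D (borU (g b) x) ∂μ) / ∫ x, w g x ∂μ)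
      (patterns M N) := by
    refine Integrable.of_bound ((borInt_meas mD).div (borInt_meas hw)).aestronglyMeasurable C'
      (ae_of_all _ fun g => ?_)
    rw [Real.norm_eq_abs, abs_div, abs_of_pos (hW g), div_le_iff₀ (hW g)]
    refine le_trans abs_integral_le_integral_abs ?_
    rw [← integral_const_mul]
    refine integral_mono_of_nonneg (ae_of_all _ fun x => abs_nonneg _) ((iw g).const_mul _)
      (ae_of_all _ fun x => ?_)
    simp only
    rw [abs_mul, abs_of_nonneg (hw0 g x), mul_comm C']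
    exact mul_le_mul_of_nonneg_left (hDC _) (hw0 g x)
  refine ⟨hint, ?_⟩
  unfold patterns at hint ⊢
  rw [bor_resample _ b hint]
  have key : ∀ g : Fin M → Fin N → ℝ, ∫ y : Fin N → ℝ,
      (∫ x, w (Function.update g b y) x * D (borU (Function.update g b y b) x) ∂μ) /
        (∫ x, w (Function.update g b y) x ∂μ) ∂(Measure.pi fun _ => gaussianReal 0 1) =
      ∫ t, D t ∂(gaussianReal 0 1) := by
    intro g
    simp only [hwu, Function.update_self]
    rw [integral_div, integral_integral_swap]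
    · have h1 : ∀ᵐ x ∂μ, ∫ y : Fin N → ℝ, w g x * D (borU y x)
          ∂(Measure.pi fun _ => gaussianReal 0 1) =
          w g x * ∫ t, D t ∂(gaussianReal 0 1) := by
        filter_upwards [hμ] with x hx
        rw [integral_const_mul]
        congr 1
        exact bor_law hN hx hD
      rw [integral_congr_ae h1, integral_mul_const, mul_div_assoc, mul_comm,
        div_mul_cancel₀ _ (hW g).ne']
    · refine Integrable.of_bound (Measurable.aestronglyMeasurable ?_) (C * C')
        (ae_of_all _ fun p => ?_)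
      · exact ((mwg g).comp measurable_snd).mul (hD.comp borU_meas)
      · show ‖w g p.2 * D (borU p.1 p.2)‖ ≤ _
        rw [Real.norm_eq_abs, abs_mul, abs_of_nonneg (hw0 g p.2)]
        exact mul_le_mul (hwC g p.2) (hDC _) (abs_nonneg _) ((hw0 g p.2).trans (hwC g p.2))
  simp_rw [key]
  simp

/-- The potentials with one entry removed. -/
noncomputable def borZ (s : Fin M → ℝ → ℝ) (b : Fin M) : Fin M → ℝ → ℝ :=
  Function.update s b fun _ => 0

lemma borZ_meas (hs : ∀ a, Measurable (s a)) (b a : Fin M) : Measurable (borZ s b a) := by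
  unfold borZ
  by_cases h : a = b
  · subst h
    rw [Function.update_self]
    exact measurable_const
  · rw [Function.update_of_ne h]
    exact hs a

lemma borZ_bd (hB : ∀ a x, |s a x| ≤ B) (b a : Fin M) (x : ℝ) : |borZ s b a x| ≤ B := by
  unfold borZ
  by_cases h : a = b
  · subst h
    rw [Function.update_self, abs_zero]
    exact (abs_nonneg _).trans (hB a 0)
  · rw [Function.update_of_ne h]
    exact hB a x

lemma borZ_eq {b : Fin M} (hss : ∀ a, a ≠ b → s a = s' a) : borZ s' b = borZ s b := by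
  unfold borZ
  funext a
  by_cases h : a = b
  · subst h
    rw [Function.update_self, Function.update_self]
  · rw [Function.update_of_ne h, Function.update_of_ne h, hss a h]

lemma borE_slice (hs : ∀ a, Measurable (s a)) (g : Fin M → Fin N → ℝ) :
    Measurable fun x => borE s g x := by
  have h2 : Measurable fun x : Fin N → ℝ => (g, x) := measurable_prodMk_left
  have h3 := (borE_meas (N := N) hs).comp h2
  exact h3

lemma borU_slice (b : Fin M) (g : Fin M → Fin N → ℝ) {f : ℝ → ℝ} (hf : Measurable f) :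
    Measurable fun x => f (borU (g b) x) := by
  have h2 : Measurable fun x : Fin N → ℝ => (g, x) := measurable_prodMk_left
  have h3 := (borU_meas' (N := N) b).comp h2
  exact hf.comp h3

/-- One changed potential, pointwise in the patterns. -/
lemma bor_step_pt (b : Fin M) (g : Fin M → Fin N → ℝ)
    (hs : ∀ a, Measurable (s a)) (hs' : ∀ a, Measurable (s' a)) (hB : ∀ a x, |s a x| ≤ B)
    (hB' : ∀ a x, |s' a x| ≤ B) (hss : ∀ a, a ≠ b → s a = s' a) :
    |borP μ s g - borP μ s' g| ≤
      Real.exp (2 * B) * ((∫ x, borE (borZ s b) g x * |s b (borU (g b) x) - s' b (borU (g b) x)| ∂μ)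
        / ∫ x, borE (borZ s b) g x ∂μ) := by
  have e1 : borP μ s g = Real.log (∫ x, borE (borZ s b) g x * Real.exp (s b (borU (g b) x)) ∂μ) := by
    unfold borP borZ
    simp_rw [← borE_split s b g]
  have e2 : borP μ s' g =
      Real.log (∫ x, borE (borZ s b) g x * Real.exp (s' b (borU (g b) x)) ∂μ) := by
    rw [← borZ_eq hss]
    unfold borP borZ
    simp_rw [← borE_split s' b g]
  rw [e1, e2]
  exact bor_weight (Real.exp_pos (-(M * B))) (borE_slice (borZ_meas hs b) g)
    (fun x => (borE_bd (borZ_bd hB b) g x).1) (fun x => (borE_bd (borZ_bd hB b) g x).2)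
    (borU_slice b g (hs b)) (borU_slice b g (hs' b)) (fun x => hB b _) (fun x => hB' b _)

/-- One changed potential. -/
lemma bor_step (hN : 0 < N) (hμ : ∀ᵐ x ∂μ, ∑ i, x i ^ 2 = (N : ℝ)) (b : Fin M)
    (hs : ∀ a, Measurable (s a)) (hs' : ∀ a, Measurable (s' a)) (hB : ∀ a x, |s a x| ≤ B)
    (hB' : ∀ a x, |s' a x| ≤ B) (hss : ∀ a, a ≠ b → s a = s' a) :
    |(∫ g, borP μ s g ∂(patterns M N)) - ∫ g, borP μ s' g ∂(patterns M N)| ≤
      Real.exp (2 * B) * ∫ t, |s b t - s' b t| ∂(gaussianReal 0 1) := by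
  have hD : Measurable fun t => |s b t - s' b t| := ((hs b).sub (hs' b)).abs
  have hDC : ∀ t, |(|s b t - s' b t|)| ≤ 2 * B := fun t => by
    rw [abs_abs]
    have := abs_sub (s b t) (s' b t)
    linarith only [this, hB b t, hB' b t]
  obtain ⟨hi, he⟩ := bor_avg (M := M) (b := b) (w := borE (borZ s b)) hN hμ
    (borE_meas (borZ_meas hs b)) (Real.exp_pos (-(M * B)))
    (fun g x => (borE_bd (borZ_bd hB b) g x).1)
    (fun g x => (borE_bd (borZ_bd hB b) g x).2) (fun g y x => borE_upd s b g y x) hD hDC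
  rw [← integral_sub (borP_int hs hB) (borP_int hs' hB'), ← he, ← integral_const_mul]
  refine le_trans abs_integral_le_integral_abs ?_
  exact integral_mono_of_nonneg (ae_of_all _ fun g => abs_nonneg _) (hi.const_mul _)
    (ae_of_all _ fun g => bor_step_pt b g hs hs' hB hB' hss)

/-- The hybrid potentials. -/
noncomputable def borH (M : ℕ) (f g : ℝ → ℝ) (j : ℕ) : Fin M → ℝ → ℝ :=
  fun a => if a.val < j then g else f

lemma bor_hybrid (hN : 0 < N) (hμ : ∀ᵐ x ∂μ, ∑ i, x i ^ 2 = (N : ℝ)) {f g : ℝ → ℝ}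
    (hf : Measurable f) (hg : Measurable g) (hfB : ∀ x, |f x| ≤ B) (hgB : ∀ x, |g x| ≤ B)
    (j : ℕ) (hj : j ≤ M) :
    |(∫ p, borP μ (borH M f g 0) p ∂(patterns M N)) -
      ∫ p, borP μ (borH M f g j) p ∂(patterns M N)| ≤
      j * (Real.exp (2 * B) * ∫ t, |f t - g t| ∂(gaussianReal 0 1)) := by
  have hm : ∀ j a, Measurable (borH M f g j a) := fun j a => by
    unfold borH
    split_ifs
    · exact hg
    · exact hf
  have hb : ∀ j a x, |borH M f g j a x| ≤ B := fun j a x => by
    unfold borH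
    split_ifs
    · exact hgB x
    · exact hfB x
  induction j with
  | zero => simp
  | succ j ih =>
    have h1 := ih (by omega)
    have h2 := bor_step (M := M) (s := borH M f g j) (s' := borH M f g (j + 1)) hN hμ ⟨j, hj⟩
      (hm j) (hm (j + 1)) (hb j) (hb (j + 1)) (fun a ha => by
        have hne : a.val ≠ j := fun h => ha (Fin.ext h)
        unfold borH
        by_cases h3 : a.val < j
        · rw [if_pos h3, if_pos (by omega)]
        · rw [if_neg h3, if_neg (by omega)])
    have e1 : borH M f g j ⟨j, hj⟩ = f := by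
      unfold borH
      rw [if_neg (by simp only [lt_self_iff_false, not_false_eq_true])]
    have e2 : borH M f g (j + 1) ⟨j, hj⟩ = g := by
      unfold borH
      rw [if_pos (by simp only [lt_add_iff_pos_right, Order.lt_one_iff])]
    rw [e1, e2] at h2
    push_cast
    rw [add_mul, one_mul]
    exact le_trans (abs_sub_le _ _ _) (add_le_add h1 h2)

end Hybrid

/-- The mean pressure is Lipschitz in the potential. -/
theorem bor_meanPressure_lip (μ : (N : ℕ) → Measure (Fin N → ℝ)) {N : ℕ} (hN : 0 < N)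
    [IsProbabilityMeasure (μ N)] (hμ : ∀ᵐ x ∂(μ N), ∑ i, x i ^ 2 = (N : ℝ)) {f g : ℝ → ℝ}
    {B : ℝ} (hf : Measurable f)
    (hg : Measurable g) (hfB : ∀ x, |f x| ≤ B) (hgB : ∀ x, |g x| ≤ B) {α : ℝ} (hα : 0 ≤ α) :
    |meanPressure μ α f N - meanPressure μ α g N| ≤
      α * Real.exp (2 * B) * ∫ t, |f t - g t| ∂(gaussianReal 0 1) := by
  have hN' : (0 : ℝ) < N := by exact_mod_cast hN
  have e1 : ∀ h : ℝ → ℝ, ∀ s : Fin ⌊α * N⌋₊ → ℝ → ℝ, (∀ a, s a = h) →
      meanPressure μ α h N = 1 / N * ∫ p, borP (μ N) s p ∂(patterns ⌊α * N⌋₊ N) := by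
    intro h s hs
    unfold meanPressure pressure borP borE
    rw [← integral_const_mul]
    simp_rw [hs]
    rfl
  rw [e1 f (borH _ f g 0) (fun a => by simp [borH]),
    e1 g (borH _ f g ⌊α * N⌋₊) (fun a => by simp only [borH, Fin.is_lt, ↓reduceIte]), ← mul_sub, abs_mul,
    abs_of_pos (by positivity)]
  have h := bor_hybrid (M := ⌊α * N⌋₊) (μ := μ N) hN hμ hf hg hfB hgB ⌊α * N⌋₊ le_rfl
  have h0 : 0 ≤ Real.exp (2 * B) * ∫ t, |f t - g t| ∂(gaussianReal 0 1) :=
    mul_nonneg (Real.exp_pos _).le (integral_nonneg fun t => abs_nonneg _)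
  have hfl : (⌊α * N⌋₊ : ℝ) ≤ α * N := Nat.floor_le (by (clear * - hα hN; positivity))
  calc 1 / (N : ℝ) * |(∫ p, borP (μ N) (borH ⌊α * N⌋₊ f g 0) p ∂(patterns ⌊α * N⌋₊ N)) -
        ∫ p, borP (μ N) (borH ⌊α * N⌋₊ f g ⌊α * N⌋₊) p ∂(patterns ⌊α * N⌋₊ N)|
      ≤ 1 / (N : ℝ) * ((α * N) *
        (Real.exp (2 * B) * ∫ t, |f t - g t| ∂(gaussianReal 0 1))) := by
        gcongr
        exact h.trans (mul_le_mul_of_nonneg_right hfl h0)
    _ = α * Real.exp (2 * B) * ∫ t, |f t - g t| ∂(gaussianReal 0 1) := by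
        (clear * - hN; field_simp)

end Vale.Agent.P157.Lv
end
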