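import Vale.Agent.P157.Bdl.B10
import Vale.Agent.P157.Bdl.B4
import Vale.Agent.P157.Bdl.B9
import Vale.Agent.P157.Bdl.B11
import Vale.Agent.P157.Bdl.B7
import Vale.Agent.P157.Bdl.B8
attribute [-instance] ProperSMul.toContinuousSMul IsTopologicalTorsor.toContinuousSMul IdemSemiring.toCanonicallyOrderedAdd IdemSemiring.toMulLeftMono IdemSemiring.toMulRightMono AddQuantale.instAddLeftMono AddQuantale.instAddRightMono Quantale.instMulLeftMono Quantale.instMulRightMono FiniteDimensional.rclike_to_real IsScalarTower.complexToReal FiniteDimensional.complexToReal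

set_option linter.all false

section

/-! Truncation of the two cavity terms. -/

open MeasureTheory ProbabilityTheory Filter Topology

namespace Vale.Agent.P157.Par

open Vale.Agent.P367.GT (gM)

/-! ### The truncated identity -/

lemma trn_hasDerivAt_tanh (x : ℝ) : HasDerivAt Real.tanh (1 - Real.tanh x ^ 2) x := by
  have hc : Real.cosh x ≠ 0 := (Real.cosh_pos x).ne'
  have h := (Real.hasDerivAt_sinh x).div (Real.hasDerivAt_cosh x) hc
  have e : Real.tanh = fun y => Real.sinh y / Real.cosh y := by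
    funext y; exact Real.tanh_eq_sinh_div_cosh y
  rw [e]
  refine HasDerivAt.congr_deriv h ?_
  (clear * - hc; field_simp)

lemma trn_tanh_nonneg {x : ℝ} (hx : 0 ≤ x) : 0 ≤ Real.tanh x := by
  rw [Real.tanh_eq_sinh_div_cosh]
  exact div_nonneg (Real.sinh_nonneg_iff.2 hx) (Real.cosh_pos x).le

lemma trn_tanh_le_self {x : ℝ} (hx : 0 ≤ x) : Real.tanh x ≤ x := by
  have hd : ∀ y, HasDerivAt (fun y : ℝ => y - Real.tanh y) (1 - (1 - Real.tanh y ^ 2)) y :=
    fun y => (hasDerivAt_id y).sub (trn_hasDerivAt_tanh y)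
  have hm : MonotoneOn (fun y : ℝ => y - Real.tanh y) (Set.Ici 0) := by
    apply monotoneOn_of_deriv_nonneg (convex_Ici 0)
    · exact fun y _ => (hd y).continuousAt.continuousWithinAt
    · exact fun y _ => (hd y).differentiableAt.differentiableWithinAt
    · intro y _
      rw [(hd y).deriv]
      have := sq_nonneg (Real.tanh y)
      linarith
  have h := hm (Set.mem_Ici.2 le_rfl) (Set.mem_Ici.2 hx) hx
  simp only [Real.tanh_zero] at h
  linarith only [h]

lemma trn_self_sub_tanh_le {x : ℝ} (hx : 0 ≤ x) : x - Real.tanh x ≤ x ^ 3 / 3 := by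
  have hd : ∀ y, HasDerivAt (fun y : ℝ => y ^ 3 / 3 - (y - Real.tanh y))
      (y ^ 2 - (1 - (1 - Real.tanh y ^ 2))) y := by
    intro y
    have h1 : HasDerivAt (fun y : ℝ => y ^ 3 / 3) (y ^ 2) y :=
      HasDerivAt.congr_deriv ((hasDerivAt_pow 3 y).div_const 3) (by norm_num)
    exact h1.sub ((hasDerivAt_id y).sub (trn_hasDerivAt_tanh y))
  have hm : MonotoneOn (fun y : ℝ => y ^ 3 / 3 - (y - Real.tanh y)) (Set.Ici 0) := by
    apply monotoneOn_of_deriv_nonneg (convex_Ici 0)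
    · exact fun y _ => (hd y).continuousAt.continuousWithinAt
    · exact fun y _ => (hd y).differentiableAt.differentiableWithinAt
    · intro y hy
      rw [(hd y).deriv]
      have hy0 : 0 ≤ y := by simpa only [Set.mem_Ici] using (interior_subset hy)
      have h1 := trn_tanh_le_self hy0
      have h2 := trn_tanh_nonneg hy0
      nlinarith only [h1, h2]
  have h := hm (Set.mem_Ici.2 le_rfl) (Set.mem_Ici.2 hx) hx
  simp only [Real.tanh_zero] at h
  linarith only [h]

lemma trn_abs_tanh_le (x : ℝ) : |Real.tanh x| ≤ |x| := by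
  rcases le_total 0 x with h | h
  · rw [abs_of_nonneg (trn_tanh_nonneg h), abs_of_nonneg h]; exact trn_tanh_le_self h
  · have h' : 0 ≤ -x := by linarith only [h]
    have h1 := trn_tanh_le_self h'
    have h2 := trn_tanh_nonneg h'
    rw [Real.tanh_neg] at h1 h2
    rw [abs_of_nonpos (by linarith only [h2]), abs_of_nonpos h]; exact h1

lemma trn_abs_sub_tanh_le (x : ℝ) : |x - Real.tanh x| ≤ |x| ^ 3 / 3 := by
  rcases le_total 0 x with h | h
  · rw [abs_of_nonneg (by linarith [trn_tanh_le_self h]), abs_of_nonneg h]; exact trn_self_sub_tanh_le h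
  · have h' : 0 ≤ -x := by linarith only [h]
    have h1 := trn_tanh_le_self h'
    have h2 := trn_self_sub_tanh_le h'
    rw [Real.tanh_neg] at h1 h2
    rw [abs_of_nonpos (by linarith only [h1]), abs_of_nonpos h]; linarith

lemma abs_trn_le {T : ℝ} (hT : 0 < T) (y : ℝ) : |trn T y| ≤ |y| := by
  unfold trn
  rw [abs_mul, abs_of_pos hT]
  have h := trn_abs_tanh_le (y / T)
  rw [abs_div, abs_of_pos hT] at h
  calc T * |Real.tanh (y / T)| ≤ T * (|y| / T) := mul_le_mul_of_nonneg_left h hT.le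
    _ = |y| := by (clear * - hT; field_simp)

lemma abs_sub_trn_le {T : ℝ} (hT : 0 < T) (y : ℝ) : |y - trn T y| ≤ |y| ^ 3 / (3 * T ^ 2) := by
  unfold trn
  have e : y - T * Real.tanh (y / T) = T * (y / T - Real.tanh (y / T)) := by
    field_simp
  rw [e, abs_mul, abs_of_pos hT]
  have h := trn_abs_sub_tanh_le (y / T)
  rw [abs_div, abs_of_pos hT] at h
  calc T * |y / T - Real.tanh (y / T)| ≤ T * ((|y| / T) ^ 3 / 3) :=
        mul_le_mul_of_nonneg_left h hT.le
    _ = |y| ^ 3 / (3 * T ^ 2) := by (clear * - hT; field_simp)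

lemma measurable_trn (T : ℝ) : Measurable (trn T) := by
  have h : Continuous Real.tanh :=
    continuous_iff_continuousAt.2 fun x => (trn_hasDerivAt_tanh x).continuousAt
  unfold trn
  exact (h.comp (continuous_id.div_const T)).measurable.const_mul T

/-! ### Log-sums with probability weights -/

section det

variable {X : Type} [Fintype X]

lemma tr_logsum_abs_le {w : X → ℝ} (hw0 : ∀ x, 0 ≤ w x) (hw1 : ∑ x, w x = 1) (E : X → ℝ) :
    |Real.log (∑ x, w x * Real.exp (E x))| ≤ ∑ x, |E x| := by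
  set M := ∑ x, |E x| with hM
  have hE : ∀ x, |E x| ≤ M := fun x => Finset.single_le_sum (f := fun x => |E x|)
    (fun x _ => abs_nonneg _) (Finset.mem_univ x)
  have h1 : Real.exp (-M) ≤ ∑ x, w x * Real.exp (E x) := by
    calc Real.exp (-M) = ∑ x, w x * Real.exp (-M) := by rw [← Finset.sum_mul, hw1, one_mul]
      _ ≤ _ := Finset.sum_le_sum fun x _ => mul_le_mul_of_nonneg_left
        (Real.exp_le_exp.2 (by linarith [neg_abs_le (E x), hE x])) (hw0 x)
  have h2 : ∑ x, w x * Real.exp (E x) ≤ Real.exp M := by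
    calc ∑ x, w x * Real.exp (E x) ≤ ∑ x, w x * Real.exp M :=
          Finset.sum_le_sum fun x _ => mul_le_mul_of_nonneg_left
            (Real.exp_le_exp.2 (by linarith only [le_abs_self (E x), hE x])) (hw0 x)
      _ = Real.exp M := by rw [← Finset.sum_mul, hw1, one_mul]
  have hS : 0 < ∑ x, w x * Real.exp (E x) := lt_of_lt_of_le (Real.exp_pos _) h1
  have l1 := Real.log_le_log (Real.exp_pos _) h1
  have l2 := Real.log_le_log hS h2
  rw [Real.log_exp] at l1 l2
  exact abs_le.2 ⟨l1, l2⟩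

lemma tr_sum_pos {w : X → ℝ} (hw0 : ∀ x, 0 ≤ w x) (hw1 : ∑ x, w x = 1) {g : X → ℝ}
    (hg : ∀ x, 0 < g x) : 0 < ∑ x, w x * g x := by
  have h0 : ∀ x, 0 ≤ w x * g x := fun x => mul_nonneg (hw0 x) (hg x).le
  rcases (Finset.sum_nonneg fun x _ => h0 x : 0 ≤ ∑ x, w x * g x).lt_or_eq with h | h
  · exact h
  · exfalso
    have h1 := (Finset.sum_eq_zero_iff_of_nonneg fun x _ => h0 x).1 h.symm
    have h2 : ∀ x, w x = 0 := fun x => by
      rcases mul_eq_zero.1 (h1 x (Finset.mem_univ x)) with h | h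
      · exact h
      · exact absurd h (hg x).ne'
    simp only [h2, Finset.sum_const_zero, zero_ne_one] at hw1

/-- Jensen for `log` with weights of mass `Q`. -/
lemma tr_jensen {w : X → ℝ} (hw0 : ∀ x, 0 ≤ w x) (hw1 : ∑ x, w x = 1) {g : X → ℝ}
    (hg : ∀ x, 0 < g x) (u : X → ℝ) :
    (∑ x, w x * (u x * g x)) / (∑ x, w x * g x) ≤
      Real.log (∑ x, w x * (Real.exp (u x) * g x)) - Real.log (∑ x, w x * g x) := by
  set Q := ∑ x, w x * g x with hQ
  have hQ0 : 0 < Q := tr_sum_pos hw0 hw1 hg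
  set m := (∑ x, w x * (u x * g x)) / Q with hm
  have h1 : Q * Real.exp m ≤ ∑ x, w x * (Real.exp (u x) * g x) := by
    have h2 : ∀ x, w x * g x * (Real.exp m * (u x - m + 1)) ≤ w x * (Real.exp (u x) * g x) := by
      intro x
      have h3 : Real.exp m * (u x - m + 1) ≤ Real.exp (u x) := by
        have h4 := Real.add_one_le_exp (u x - m)
        calc Real.exp m * (u x - m + 1) ≤ Real.exp m * Real.exp (u x - m) :=
              mul_le_mul_of_nonneg_left h4 (Real.exp_pos _).le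
          _ = Real.exp (u x) := by rw [← Real.exp_add]; congr 1; ring
      calc w x * g x * (Real.exp m * (u x - m + 1)) ≤ w x * g x * Real.exp (u x) :=
            mul_le_mul_of_nonneg_left h3 (mul_nonneg (hw0 x) (hg x).le)
        _ = _ := by ring
    have h5 : ∑ x, w x * g x * (Real.exp m * (u x - m + 1)) = Q * Real.exp m := by
      have e : ∀ x, w x * g x * (Real.exp m * (u x - m + 1)) =
          Real.exp m * (w x * (u x * g x)) + Real.exp m * (1 - m) * (w x * g x) := by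
        intro x; ring
      simp_rw [e]
      rw [Finset.sum_add_distrib, ← Finset.mul_sum, ← Finset.mul_sum, ← hQ]
      have : ∑ x, w x * (u x * g x) = m * Q := by rw [hm]; (clear * - hQ0; field_simp)
      rw [this]; ring
    rw [← h5]
    exact Finset.sum_le_sum fun x _ => h2 x
  have h6 := Real.log_le_log (mul_pos hQ0 (Real.exp_pos _)) h1
  rw [Real.log_mul hQ0.ne' (Real.exp_pos _).ne', Real.log_exp] at h6
  linarith only [h6]

/-- The deterministic part of `trunc_cosh`. -/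
lemma tr_cosh_det {w : X → ℝ} (hw0 : ∀ x, 0 ≤ w x) (hw1 : ∑ x, w x = 1) (B Y : X → ℝ) (b : ℝ)
    {T : ℝ} (hT : 0 < T) :
    b + Real.log (∑ x, w x * Real.exp (Real.log (Real.cosh (trn T (Y x))))) -
        ∑ x, w x * (|B x - b| * Real.cosh (Y x)) ≤
      Real.log (∑ x, w x * (Real.exp (B x) * Real.cosh (Y x))) := by
  have hG1 : ∀ x, 1 ≤ Real.cosh (trn T (Y x)) := fun x => Real.one_le_cosh _
  have hG0 : ∀ x, 0 < Real.cosh (trn T (Y x)) := fun x => Real.cosh_pos _
  have hGY : ∀ x, Real.cosh (trn T (Y x)) ≤ Real.cosh (Y x) := fun x =>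
    Real.cosh_le_cosh.2 (abs_trn_le hT (Y x))
  have e1 : ∀ x, Real.exp (Real.log (Real.cosh (trn T (Y x)))) = Real.cosh (trn T (Y x)) :=
    fun x => Real.exp_log (hG0 x)
  simp_rw [e1]
  set Q := ∑ x, w x * Real.cosh (trn T (Y x)) with hQ
  have hQ1 : 1 ≤ Q := by
    rw [← hw1, hQ]
    exact Finset.sum_le_sum fun x _ => by nlinarith only [hw0 x, hG1 x]
  have hJ := tr_jensen hw0 hw1 hG0 (fun x => B x - b)
  rw [← hQ] at hJ
  -- lower bound of the quotient
  have h1 : -(∑ x, w x * (|B x - b| * Real.cosh (Y x))) ≤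
      (∑ x, w x * ((B x - b) * Real.cosh (trn T (Y x)))) / Q := by
    have h2 : -(∑ x, w x * (|B x - b| * Real.cosh (Y x))) ≤
        ∑ x, w x * ((B x - b) * Real.cosh (trn T (Y x))) := by
      rw [← Finset.sum_neg_distrib]
      refine Finset.sum_le_sum fun x _ => ?_
      have h3 : -(|B x - b| * Real.cosh (Y x)) ≤ (B x - b) * Real.cosh (trn T (Y x)) := by
        have h4 := neg_abs_le (B x - b)
        have h5 := mul_le_mul_of_nonneg_left (hGY x) (abs_nonneg (B x - b))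
        have h6 := mul_le_mul_of_nonneg_right h4 (hG0 x).le
        linarith only [h5, h6]
      have h7 := mul_le_mul_of_nonneg_left h3 (hw0 x)
      linarith only [h7]
    rcases le_total 0 (∑ x, w x * ((B x - b) * Real.cosh (trn T (Y x)))) with h | h
    · have h3 : 0 ≤ (∑ x, w x * ((B x - b) * Real.cosh (trn T (Y x)))) / Q :=
        div_nonneg h (by linarith only [hQ1])
      have h4 : 0 ≤ ∑ x, w x * (|B x - b| * Real.cosh (Y x)) :=
        Finset.sum_nonneg fun x _ => mul_nonneg (hw0 x)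
          (mul_nonneg (abs_nonneg _) (Real.cosh_pos _).le)
      linarith only [h3, h4]
    · have h3 : (∑ x, w x * ((B x - b) * Real.cosh (trn T (Y x)))) ≤
          (∑ x, w x * ((B x - b) * Real.cosh (trn T (Y x)))) / Q := by
        rw [le_div_iff₀ (by linarith only [hQ1])]
        nlinarith only [hQ1, h]
      linarith
  -- remove the truncation and the shift
  have h8 : b + Real.log (∑ x, w x * (Real.exp (B x - b) * Real.cosh (trn T (Y x)))) ≤
      Real.log (∑ x, w x * (Real.exp (B x) * Real.cosh (Y x))) := by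
    have hp : 0 < ∑ x, w x * (Real.exp (B x - b) * Real.cosh (trn T (Y x))) :=
      tr_sum_pos hw0 hw1 fun x => mul_pos (Real.exp_pos _) (hG0 x)
    have h9 : Real.exp b * (∑ x, w x * (Real.exp (B x - b) * Real.cosh (trn T (Y x)))) ≤
        ∑ x, w x * (Real.exp (B x) * Real.cosh (Y x)) := by
      rw [Finset.mul_sum]
      refine Finset.sum_le_sum fun x _ => ?_
      have e : Real.exp b * (w x * (Real.exp (B x - b) * Real.cosh (trn T (Y x)))) =
          w x * (Real.exp (B x) * Real.cosh (trn T (Y x))) := by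
        have : Real.exp (B x) = Real.exp b * Real.exp (B x - b) := by
          rw [← Real.exp_add]; congr 1; ring
        rw [this]; ring
      rw [e]
      exact mul_le_mul_of_nonneg_left
        (mul_le_mul_of_nonneg_left (hGY x) (Real.exp_pos _).le) (hw0 x)
    have h10 := Real.log_le_log (mul_pos (Real.exp_pos b) hp) h9
    rwa [Real.log_mul (Real.exp_pos _).ne' hp.ne', Real.log_exp] at h10
  linarith

lemma tr_abs_exp_sub_le (a c M : ℝ) (ha : a ≤ M) (hc : c ≤ M) :
    |Real.exp a - Real.exp c| ≤ |a - c| * Real.exp M := by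
  rcases le_total a c with h | h
  · rw [abs_of_nonpos (by linarith only [Real.exp_le_exp.2 h]), abs_of_nonpos (by linarith only [h])]
    have h1 := Real.add_one_le_exp (a - c)
    have h2 : Real.exp a = Real.exp c * Real.exp (a - c) := by
      rw [← Real.exp_add]; congr 1; ring
    have h3 := Real.exp_le_exp.2 hc
    have h4 := Real.exp_pos c
    rw [h2]
    nlinarith only [h, h3, h1, h4]
  · rw [abs_of_nonneg (by linarith [Real.exp_le_exp.2 h]), abs_of_nonneg (by linarith only [h])]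
    have h1 := Real.add_one_le_exp (c - a)
    have h2 : Real.exp c = Real.exp a * Real.exp (c - a) := by
      rw [← Real.exp_add]; congr 1; ring
    have h3 := Real.exp_le_exp.2 ha
    have h4 := Real.exp_pos a
    rw [h2]
    nlinarith only [h, h3, h1, h4]

/-- pointwise bound of the error terms -/
lemma tr_term_bound {u p q T : ℝ} (hT : 1 ≤ T) :
    |Real.exp (u + p) - Real.exp (trn T p)| * Real.exp |q| ≤
      |Real.exp u - 1| * ((Real.exp (2 * |p|) + Real.exp (2 * |q|)) / 2) +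
        1 / T ^ 2 * (Real.exp (4 * |p|) + Real.exp (2 * |q|)) := by
  have hT0 : 0 < T := by linarith only [hT]
  have hp := abs_nonneg p
  have hq := abs_nonneg q
  have h1 : |Real.exp (u + p) - Real.exp (trn T p)| ≤
      |Real.exp u - 1| * Real.exp |p| + |p| ^ 3 / (3 * T ^ 2) * Real.exp |p| := by
    have e : Real.exp (u + p) - Real.exp (trn T p) =
        (Real.exp u - 1) * Real.exp p + (Real.exp p - Real.exp (trn T p)) := by
      rw [Real.exp_add]; ring
    rw [e]
    refine (abs_add_le _ _).trans (add_le_add ?_ ?_)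
    · rw [abs_mul, abs_of_pos (Real.exp_pos p)]
      exact mul_le_mul_of_nonneg_left (Real.exp_le_exp.2 (le_abs_self p)) (abs_nonneg _)
    · refine (tr_abs_exp_sub_le p (trn T p) |p| (le_abs_self p)
        ((le_abs_self _).trans (abs_trn_le hT0 p))).trans ?_
      exact mul_le_mul_of_nonneg_right (abs_sub_trn_le hT0 p) (Real.exp_pos _).le
  have h2 : Real.exp |p| * Real.exp |q| ≤ (Real.exp (2 * |p|) + Real.exp (2 * |q|)) / 2 := by
    have e1 : Real.exp (2 * |p|) = Real.exp |p| ^ 2 := by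
      rw [← Real.exp_nat_mul]; norm_num
    have e2 : Real.exp (2 * |q|) = Real.exp |q| ^ 2 := by
      rw [← Real.exp_nat_mul]; norm_num
    rw [e1, e2]
    linarith only [sq_nonneg (Real.exp |p| - Real.exp |q|)]
  have h3 : |p| ^ 3 ≤ 6 * Real.exp |p| := by
    have h := Real.pow_div_factorial_le_exp |p| hp 3
    have e : ((Nat.factorial 3 : ℕ) : ℝ) = 6 := by norm_num [Nat.factorial]
    rw [e] at h
    linarith only [h]
  have h4 : |p| ^ 3 / (3 * T ^ 2) * Real.exp |p| * Real.exp |q| ≤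
      1 / T ^ 2 * (Real.exp (4 * |p|) + Real.exp (2 * |q|)) := by
    have e1 : Real.exp (4 * |p|) = (Real.exp |p| ^ 2) ^ 2 := by
      rw [← pow_mul, ← Real.exp_nat_mul]; norm_num
    have e2 : Real.exp (2 * |q|) = Real.exp |q| ^ 2 := by
      rw [← Real.exp_nat_mul]; (clear * -; norm_num)
    have h5 : 2 * (Real.exp |p| ^ 2 * Real.exp |q|) ≤ Real.exp (4 * |p|) + Real.exp (2 * |q|) := by
      rw [e1, e2]
      linarith only [sq_nonneg (Real.exp |p| ^ 2 - Real.exp |q|)]
    have h6 : |p| ^ 3 * (Real.exp |p| * Real.exp |q|) ≤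
        6 * Real.exp |p| * (Real.exp |p| * Real.exp |q|) :=
      mul_le_mul_of_nonneg_right h3 (by positivity)
    have h7 : |p| ^ 3 / (3 * T ^ 2) * Real.exp |p| * Real.exp |q| =
        1 / T ^ 2 * ((|p| ^ 3 * (Real.exp |p| * Real.exp |q|)) / 3) := by
      (clear * - hT; field_simp)
    rw [h7]
    apply mul_le_mul_of_nonneg_left _ (by positivity)
    linarith only [h5, h6]
  calc |Real.exp (u + p) - Real.exp (trn T p)| * Real.exp |q|
      ≤ (|Real.exp u - 1| * Real.exp |p| + |p| ^ 3 / (3 * T ^ 2) * Real.exp |p|) *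
        Real.exp |q| := mul_le_mul_of_nonneg_right h1 (Real.exp_pos _).le
    _ = |Real.exp u - 1| * (Real.exp |p| * Real.exp |q|) +
        |p| ^ 3 / (3 * T ^ 2) * Real.exp |p| * Real.exp |q| := by ring
    _ ≤ _ := add_le_add (mul_le_mul_of_nonneg_left h2 (abs_nonneg _)) h4

/-- The deterministic part of `trunc_id`. -/
lemma tr_id_det {w : X → ℝ} (hw0 : ∀ x, 0 ≤ w x) (hw1 : ∑ x, w x = 1) (B Y : X → ℝ) (b : ℝ)
    {T : ℝ} (hT : 1 ≤ T) :
    Real.log (∑ x, w x * Real.exp (B x + Y x)) ≤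
      b + Real.log (∑ x, w x * Real.exp (trn T (Y x))) +
        ∑ x, ∑ y, w x * w y * (|Real.exp (B x - b) - 1| *
          ((Real.exp (2 * |Y x|) + Real.exp (2 * |Y y|)) / 2) +
          1 / T ^ 2 * (Real.exp (4 * |Y x|) + Real.exp (2 * |Y y|))) := by
  have hT0 : 0 < T := by linarith only [hT]
  set p := ∑ x, w x * Real.exp (B x - b + Y x) with hp
  set q := ∑ x, w x * Real.exp (trn T (Y x)) with hq
  have hp0 : 0 < p := tr_sum_pos hw0 hw1 fun x => Real.exp_pos _
  have hq0 : 0 < q := tr_sum_pos hw0 hw1 fun x => Real.exp_pos _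
  have e1 : ∑ x, w x * Real.exp (B x + Y x) = Real.exp b * p := by
    rw [hp, Finset.mul_sum]
    refine Finset.sum_congr rfl fun x _ => ?_
    have : Real.exp (B x + Y x) = Real.exp b * Real.exp (B x - b + Y x) := by
      rw [← Real.exp_add]; congr 1; ring
    rw [this]; ring
  rw [e1, Real.log_mul (Real.exp_pos _).ne' hp0.ne', Real.log_exp]
  have h1 : Real.log p - Real.log q ≤ |p - q| * q⁻¹ := by
    have h2 : Real.log p - Real.log q = Real.log (p / q) := by
      rw [Real.log_div hp0.ne' hq0.ne']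
    have h3 := Real.log_le_sub_one_of_pos (div_pos hp0 hq0)
    have h4 : p / q - 1 = (p - q) * q⁻¹ := by (clear * - hq0; field_simp)
    rw [h2]
    calc Real.log (p / q) ≤ (p - q) * q⁻¹ := by rw [← h4]; exact h3
      _ ≤ |p - q| * q⁻¹ := mul_le_mul_of_nonneg_right (le_abs_self _) (inv_nonneg.2 hq0.le)
  have h2 : |p - q| ≤ ∑ x, w x * |Real.exp (B x - b + Y x) - Real.exp (trn T (Y x))| := by
    rw [hp, hq, ← Finset.sum_sub_distrib]
    refine (Finset.abs_sum_le_sum_abs _ _).trans (Finset.sum_le_sum fun x _ => ?_)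
    rw [← mul_sub, abs_mul, abs_of_nonneg (hw0 x)]
  have h3 : q⁻¹ ≤ ∑ y, w y * Real.exp |Y y| := by
    refine (Lin.inv_sum_le hw0 hw1 (fun x => Real.exp_pos (trn T (Y x))) hq hq0).trans ?_
    refine Finset.sum_le_sum fun y _ => mul_le_mul_of_nonneg_left ?_ (hw0 y)
    rw [← Real.exp_neg]
    exact Real.exp_le_exp.2 ((neg_le_abs _).trans (abs_trn_le hT0 _))
  have h4 : |p - q| * q⁻¹ ≤
      (∑ x, w x * |Real.exp (B x - b + Y x) - Real.exp (trn T (Y x))|) *
        ∑ y, w y * Real.exp |Y y| :=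
    mul_le_mul h2 h3 (inv_nonneg.2 hq0.le)
      (Finset.sum_nonneg fun x _ => mul_nonneg (hw0 x) (abs_nonneg _))
  have h5 : (∑ x, w x * |Real.exp (B x - b + Y x) - Real.exp (trn T (Y x))|) *
        (∑ y, w y * Real.exp |Y y|) ≤
      ∑ x, ∑ y, w x * w y * (|Real.exp (B x - b) - 1| *
          ((Real.exp (2 * |Y x|) + Real.exp (2 * |Y y|)) / 2) +
          1 / T ^ 2 * (Real.exp (4 * |Y x|) + Real.exp (2 * |Y y|))) := by
    rw [Finset.sum_mul_sum]
    refine Finset.sum_le_sum fun x _ => Finset.sum_le_sum fun y _ => ?_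
    have h6 := tr_term_bound (u := B x - b) (p := Y x) (q := Y y) hT
    calc w x * |Real.exp (B x - b + Y x) - Real.exp (trn T (Y x))| * (w y * Real.exp |Y y|) =
          w x * w y * (|Real.exp (B x - b + Y x) - Real.exp (trn T (Y x))| * Real.exp |Y y|) := by
          ring
      _ ≤ _ := mul_le_mul_of_nonneg_left h6 (mul_nonneg (hw0 x) (hw0 y))
  linarith only [h1, h4, h5]

end det

/-! ### Integrated versions -/

section TRUNC

variable {X K : Type} [Fintype X] [Fintype K] [DecidableEq K]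

omit [Fintype X] [DecidableEq K] in
lemma tr_measurable_lin (κ : X → K → ℝ) (x : X) : Measurable fun z : K → ℝ => lin κ z x := by
  unfold lin; fun_prop

omit [Fintype X] in
lemma tr_integrable_lin (κ : X → K → ℝ) (x : X) :
    Integrable (fun z : K → ℝ => lin κ z x) (gM K) := by
  have h := Cube.integrable_lin (Y := Unit) (K := K) (fun _ => κ x) ()
  exact h

omit [Fintype X] in
lemma tr_exp_lin (κ : X → K → ℝ) (x : X) (t : ℝ) :
    Integrable (fun z : K → ℝ => Real.exp (t * lin κ z x)) (gM K) ∧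
      ∫ z, Real.exp (t * lin κ z x) ∂(gM K) = Real.exp (t ^ 2 * (∑ c, κ x c ^ 2) / 2) := by
  have e : ∀ z : K → ℝ, t * lin κ z x = lin (fun (_ : Unit) c => t * κ x c) z () := by
    intro z
    unfold lin
    rw [Finset.mul_sum]
    exact Finset.sum_congr rfl fun c _ => by ring
  simp_rw [e]
  refine ⟨Cube.integrable_exp_lin (Y := Unit) (K := K) (fun _ c => t * κ x c) (), ?_⟩
  rw [Cube.integral_exp_lin (Y := Unit) (K := K) (fun _ c => t * κ x c) ()]
  congr 1
  rw [Finset.mul_sum]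
  congr 1
  exact Finset.sum_congr rfl fun c _ => by ring

omit [Fintype X] in
lemma tr_exp_abs_lin (κ : X → K → ℝ) (x : X) {A : ℝ} (hκ : ∑ c, κ x c ^ 2 ≤ A) {t : ℝ}
    (_ht : 0 ≤ t) :
    Integrable (fun z : K → ℝ => Real.exp (t * |lin κ z x|)) (gM K) ∧
      ∫ z, Real.exp (t * |lin κ z x|) ∂(gM K) ≤ 2 * Real.exp (t ^ 2 * A / 2) := by
  obtain ⟨i1, v1⟩ := tr_exp_lin κ x t
  obtain ⟨i2, v2⟩ := tr_exp_lin κ x (-t)
  have hle : ∀ z : K → ℝ, Real.exp (t * |lin κ z x|) ≤
      Real.exp (t * lin κ z x) + Real.exp (-t * lin κ z x) := by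
    intro z
    rcases le_total 0 (lin κ z x) with h | h
    · rw [abs_of_nonneg h]
      linarith only [Real.exp_pos (-t * lin κ z x)]
    · rw [abs_of_nonpos h]
      have : t * -lin κ z x = -t * lin κ z x := by ring
      rw [this]
      linarith only [Real.exp_pos (t * lin κ z x)]
  have hm : Measurable fun z : K → ℝ => Real.exp (t * |lin κ z x|) := by
    have := tr_measurable_lin κ x
    fun_prop
  have hi : Integrable (fun z : K → ℝ => Real.exp (t * |lin κ z x|)) (gM K) := by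
    refine Integrable.mono' (i1.add i2) hm.aestronglyMeasurable
      (Filter.Eventually.of_forall fun z => ?_)
    rw [Real.norm_eq_abs, abs_of_pos (Real.exp_pos _)]
    exact hle z
  refine ⟨hi, ?_⟩
  calc ∫ z, Real.exp (t * |lin κ z x|) ∂(gM K)
      ≤ ∫ z, (Real.exp (t * lin κ z x) + Real.exp (-t * lin κ z x)) ∂(gM K) :=
        integral_mono hi (i1.add i2) hle
    _ = Real.exp (t ^ 2 * (∑ c, κ x c ^ 2) / 2) + Real.exp ((-t) ^ 2 * (∑ c, κ x c ^ 2) / 2) := by
        rw [integral_add i1 i2, v1, v2]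
    _ = 2 * Real.exp (t ^ 2 * (∑ c, κ x c ^ 2) / 2) := by rw [neg_sq]; ring
    _ ≤ 2 * Real.exp (t ^ 2 * A / 2) := by
        have : t ^ 2 * (∑ c, κ x c ^ 2) ≤ t ^ 2 * A := mul_le_mul_of_nonneg_left hκ (sq_nonneg t)
        have h2 : Real.exp (t ^ 2 * (∑ c, κ x c ^ 2) / 2) ≤ Real.exp (t ^ 2 * A / 2) :=
          Real.exp_le_exp.2 (by linarith only [this])
        linarith only [h2]

omit [DecidableEq K] in
/-- integrability of log-sums with probability weights -/
lemma tr_integrable_logsum {w : X → ℝ} (hw0 : ∀ x, 0 ≤ w x) (hw1 : ∑ x, w x = 1)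
    {E : (K → ℝ) → X → ℝ} (hm : ∀ x, Measurable fun z => E z x)
    (hE : ∀ x, Integrable (fun z => E z x) (gM K)) :
    Integrable (fun z => Real.log (∑ x, w x * Real.exp (E z x))) (gM K) := by
  refine Integrable.mono' (g := fun z => ∑ x, |E z x|)
    (integrable_finsetSum _ fun x _ => (hE x).abs) ?_
    (Filter.Eventually.of_forall fun z => tr_logsum_abs_le hw0 hw1 (E z))
  refine (Real.measurable_log.comp ?_).aestronglyMeasurable
  exact Finset.measurable_fun_sum _ fun x _ => (Real.measurable_exp.comp (hm x)).const_mul _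

lemma tr_log_cosh_abs_le (y : ℝ) : |Real.log (Real.cosh y)| ≤ |y| := by
  have h1 := Real.one_le_cosh y
  rw [abs_of_nonneg (Real.log_nonneg h1)]
  have h2 : Real.cosh y ≤ Real.exp |y| := by
    rw [Real.cosh_eq]
    have h3 : Real.exp y ≤ Real.exp |y| := Real.exp_le_exp.2 (le_abs_self y)
    have h4 : Real.exp (-y) ≤ Real.exp |y| := Real.exp_le_exp.2 (neg_le_abs y)
    linarith
  calc Real.log (Real.cosh y) ≤ Real.log (Real.exp |y|) :=
        Real.log_le_log (Real.cosh_pos y) h2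
    _ = |y| := Real.log_exp _

omit [Fintype X] [DecidableEq K] in
lemma tr_integral_bsub (b : ℝ) {f g : (K → ℝ) → ℝ} (hf : Integrable f (gM K))
    (hg : Integrable g (gM K)) :
    ∫ z, (b + f z - g z) ∂(gM K) = b + ∫ z, f z ∂(gM K) - ∫ z, g z ∂(gM K) := by
  have e1 : ∫ z, (b + f z - g z) ∂(gM K) =
      ∫ z, (b + f z) ∂(gM K) - ∫ z, g z ∂(gM K) :=
    integral_sub (f := fun z => b + f z) ((integrable_const b).add hf) hg
  have e2 : ∫ z, (b + f z) ∂(gM K) = ∫ _z, b ∂(gM K) + ∫ z, f z ∂(gM K) :=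
    integral_add (f := fun _ => b) (integrable_const b) hf
  rw [e1, e2, integral_const, probReal_univ, one_smul]

omit [Fintype X] [DecidableEq K] in
lemma tr_integral_badd (b : ℝ) {f g : (K → ℝ) → ℝ} (hf : Integrable f (gM K))
    (hg : Integrable g (gM K)) :
    ∫ z, (b + f z + g z) ∂(gM K) = b + ∫ z, f z ∂(gM K) + ∫ z, g z ∂(gM K) := by
  have e1 : ∫ z, (b + f z + g z) ∂(gM K) =
      ∫ z, (b + f z) ∂(gM K) + ∫ z, g z ∂(gM K) :=
    integral_add (f := fun z => b + f z) ((integrable_const b).add hf) hg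
  have e2 : ∫ z, (b + f z) ∂(gM K) = ∫ _z, b ∂(gM K) + ∫ z, f z ∂(gM K) :=
    integral_add (f := fun _ => b) (integrable_const b) hf
  rw [e1, e2, integral_const, probReal_univ, one_smul]

/-- The lower bound for the first cavity term. -/
theorem trunc_cosh {w : X → ℝ} (hw0 : ∀ x, 0 ≤ w x) (hw1 : ∑ x, w x = 1) (B : X → ℝ)
    {κ : X → K → ℝ} {A : ℝ} (hκ : ∀ x, ∑ c, κ x c ^ 2 ≤ A) (b : ℝ) {T : ℝ} (hT : 0 < T) :
    b + ∫ z, Real.log (∑ x, w x * Real.exp (Real.log (Real.cosh (trn T (lin κ z x))))) ∂(gM K) -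
        Real.exp (A / 2) * ∑ x, w x * |B x - b| ≤
      ∫ z, Real.log (∑ x, w x * (Real.exp (B x) * Real.cosh (lin κ z x))) ∂(gM K) := by
  have hml := fun x => tr_measurable_lin κ x
  have mtr := measurable_trn T
  -- the three integrable functions
  have i1 : Integrable (fun z => Real.log (∑ x, w x *
      Real.exp (Real.log (Real.cosh (trn T (lin κ z x)))))) (gM K) := by
    refine tr_integrable_logsum (E := fun z x => Real.log (Real.cosh (trn T (lin κ z x))))
      hw0 hw1 (fun x => ?_) fun x => ?_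
    · exact Real.measurable_log.comp (Real.measurable_cosh.comp (mtr.comp (hml x)))
    · refine Integrable.mono' (tr_integrable_lin κ x).abs
        (Real.measurable_log.comp (Real.measurable_cosh.comp
          (mtr.comp (hml x)))).aestronglyMeasurable
        (Filter.Eventually.of_forall fun z => ?_)
      rw [Real.norm_eq_abs]
      exact (tr_log_cosh_abs_le _).trans (abs_trn_le hT _)
  have e2 : ∀ z : K → ℝ, ∑ x, w x * (Real.exp (B x) * Real.cosh (lin κ z x)) =
      ∑ x, w x * Real.exp (B x + Real.log (Real.cosh (lin κ z x))) := by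
    intro z
    refine Finset.sum_congr rfl fun x _ => ?_
    rw [Real.exp_add, Real.exp_log (Real.cosh_pos _)]
  have i2 : Integrable (fun z => Real.log (∑ x, w x *
      (Real.exp (B x) * Real.cosh (lin κ z x)))) (gM K) := by
    simp_rw [e2]
    refine tr_integrable_logsum (E := fun z x => B x + Real.log (Real.cosh (lin κ z x)))
      hw0 hw1 (fun x => ?_) fun x => ?_
    · exact (Real.measurable_log.comp (Real.measurable_cosh.comp (hml x))).const_add _
    · refine (integrable_const _).add ?_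
      refine Integrable.mono' (tr_integrable_lin κ x).abs
        (Real.measurable_log.comp (Real.measurable_cosh.comp (hml x))).aestronglyMeasurable
        (Filter.Eventually.of_forall fun z => ?_)
      rw [Real.norm_eq_abs]
      exact tr_log_cosh_abs_le _
  have hcosh : ∀ x, Integrable (fun z => Real.cosh (lin κ z x)) (gM K) ∧
      ∫ z, Real.cosh (lin κ z x) ∂(gM K) ≤ Real.exp (A / 2) := by
    intro x
    obtain ⟨j1, v1⟩ := tr_exp_lin κ x 1
    obtain ⟨j2, v2⟩ := tr_exp_lin κ x (-1)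
    have e : ∀ z : K → ℝ, Real.cosh (lin κ z x) =
        (Real.exp (1 * lin κ z x) + Real.exp (-1 * lin κ z x)) / 2 := by
      intro z; rw [Real.cosh_eq]; simp only [one_mul, neg_mul]
    simp_rw [e]
    refine ⟨(j1.add j2).div_const 2, ?_⟩
    rw [integral_div, integral_add j1 j2, v1, v2]
    have h3 : Real.exp (1 ^ 2 * (∑ c, κ x c ^ 2) / 2) ≤ Real.exp (A / 2) :=
      Real.exp_le_exp.2 (by linarith only [hκ x])
    have h4 : Real.exp ((-1) ^ 2 * (∑ c, κ x c ^ 2) / 2) ≤ Real.exp (A / 2) :=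
      Real.exp_le_exp.2 (by linarith only [hκ x])
    linarith only [h3]
  have i3 : Integrable (fun z => ∑ x, w x * (|B x - b| * Real.cosh (lin κ z x))) (gM K) :=
    integrable_finsetSum _ fun x _ => ((hcosh x).1.const_mul _).const_mul _
  have hint : ∫ z, (b + Real.log (∑ x, w x *
        Real.exp (Real.log (Real.cosh (trn T (lin κ z x))))) -
        ∑ x, w x * (|B x - b| * Real.cosh (lin κ z x))) ∂(gM K) ≤
      ∫ z, Real.log (∑ x, w x * (Real.exp (B x) * Real.cosh (lin κ z x))) ∂(gM K) :=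
    integral_mono (((integrable_const _).add i1).sub i3) i2 fun z =>
      tr_cosh_det hw0 hw1 B (fun x => lin κ z x) b hT
  rw [tr_integral_bsub b i1 i3] at hint
  have h3 : ∫ z, (∑ x, w x * (|B x - b| * Real.cosh (lin κ z x))) ∂(gM K) ≤
      Real.exp (A / 2) * ∑ x, w x * |B x - b| := by
    rw [integral_finsetSum _ fun x _ => ((hcosh x).1.const_mul _).const_mul _, Finset.mul_sum]
    refine Finset.sum_le_sum fun x _ => ?_
    rw [integral_const_mul, integral_const_mul]
    have h4 := mul_le_mul_of_nonneg_left (hcosh x).2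
      (mul_nonneg (hw0 x) (abs_nonneg (B x - b)))
    linarith only [h4]
  linarith only [hint, h3]

/-- The upper bound for the second cavity term. -/
theorem trunc_id (A : ℝ) : ∃ D : ℝ, ∀ (X K : Type) [Fintype X] [Fintype K] [DecidableEq K]
    (w : X → ℝ) (_hw0 : ∀ x, 0 ≤ w x) (_hw1 : ∑ x, w x = 1) (B : X → ℝ)
    (κ : X → K → ℝ) (_hκ : ∀ x, ∑ c, κ x c ^ 2 ≤ A) (b T : ℝ) (_hT : 1 ≤ T),
    ∫ z, Real.log (∑ x, w x * Real.exp (B x + lin κ z x)) ∂(gM K) ≤
      b + ∫ z, Real.log (∑ x, w x * Real.exp (trn T (lin κ z x))) ∂(gM K) +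
        D * (∑ x, w x * |Real.exp (B x - b) - 1| + 1 / T ^ 2) := by
  refine ⟨4 * Real.exp (8 * A), ?_⟩
  intro X K _ _ _ w hw0 hw1 B κ hκ b T hT
  have hT0 : 0 < T := by linarith only [hT]
  have hml := fun x => tr_measurable_lin κ x
  have mtr := measurable_trn T
  have hA : 0 ≤ A := by
    have hne : Nonempty X := by
      by_contra h
      rw [not_nonempty_iff] at h
      simp at hw1
    obtain ⟨x⟩ := hne
    exact (Finset.sum_nonneg fun c _ => sq_nonneg _).trans (hκ x)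
  have i1 : Integrable (fun z => Real.log (∑ x, w x * Real.exp (B x + lin κ z x))) (gM K) :=
    tr_integrable_logsum (E := fun z x => B x + lin κ z x) hw0 hw1
      (fun x => (hml x).const_add _) fun x => (integrable_const _).add (tr_integrable_lin κ x)
  have i2 : Integrable (fun z => Real.log (∑ x, w x * Real.exp (trn T (lin κ z x)))) (gM K) := by
    refine tr_integrable_logsum (E := fun z x => trn T (lin κ z x)) hw0 hw1
      (fun x => mtr.comp (hml x)) fun x => ?_
    refine Integrable.mono' (tr_integrable_lin κ x).abs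
      (mtr.comp (hml x)).aestronglyMeasurable (Filter.Eventually.of_forall fun z => ?_)
    rw [Real.norm_eq_abs]
    exact abs_trn_le hT0 _
  have h2 := fun x => tr_exp_abs_lin κ x (hκ x) (t := 2) (by norm_num)
  have h4 := fun x => tr_exp_abs_lin κ x (hκ x) (t := 4) (by norm_num)
  have j1 : ∀ x y, Integrable (fun z : K → ℝ =>
      (Real.exp (2 * |lin κ z x|) + Real.exp (2 * |lin κ z y|)) / 2) (gM K) := fun x y =>
    ((h2 x).1.add (h2 y).1).div_const 2
  have j2 : ∀ x y, Integrable (fun z : K → ℝ =>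
      Real.exp (4 * |lin κ z x|) + Real.exp (2 * |lin κ z y|)) (gM K) := fun x y =>
    (h4 x).1.add (h2 y).1
  have v1 : ∀ x y, ∫ z : K → ℝ,
      (Real.exp (2 * |lin κ z x|) + Real.exp (2 * |lin κ z y|)) / 2 ∂(gM K) ≤
        2 * Real.exp (8 * A) := by
    intro x y
    rw [integral_div, integral_add (h2 x).1 (h2 y).1]
    have e : Real.exp (2 ^ 2 * A / 2) ≤ Real.exp (8 * A) := Real.exp_le_exp.2 (by linarith)
    have := (h2 x).2
    have := (h2 y).2
    linarith
  have v2 : ∀ x y, ∫ z : K → ℝ,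
      (Real.exp (4 * |lin κ z x|) + Real.exp (2 * |lin κ z y|)) ∂(gM K) ≤
        4 * Real.exp (8 * A) := by
    intro x y
    rw [integral_add (h4 x).1 (h2 y).1]
    have e : Real.exp (2 ^ 2 * A / 2) ≤ Real.exp (8 * A) := Real.exp_le_exp.2 (by linarith)
    have e' : Real.exp (4 ^ 2 * A / 2) = Real.exp (8 * A) := by congr 1; ring
    have h5 := (h4 x).2
    have h6 := (h2 y).2
    rw [e'] at h5
    linarith
  have j3 : ∀ x y, Integrable (fun z : K → ℝ => w x * w y * (|Real.exp (B x - b) - 1| *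
          ((Real.exp (2 * |lin κ z x|) + Real.exp (2 * |lin κ z y|)) / 2) +
          1 / T ^ 2 * (Real.exp (4 * |lin κ z x|) + Real.exp (2 * |lin κ z y|)))) (gM K) :=
    fun x y => (((j1 x y).const_mul _).add ((j2 x y).const_mul _)).const_mul _
  have i3 : Integrable (fun z : K → ℝ => ∑ x, ∑ y, w x * w y * (|Real.exp (B x - b) - 1| *
          ((Real.exp (2 * |lin κ z x|) + Real.exp (2 * |lin κ z y|)) / 2) +
          1 / T ^ 2 * (Real.exp (4 * |lin κ z x|) + Real.exp (2 * |lin κ z y|)))) (gM K) :=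
    integrable_finsetSum _ fun x _ => integrable_finsetSum _ fun y _ => j3 x y
  have hint : ∫ z, Real.log (∑ x, w x * Real.exp (B x + lin κ z x)) ∂(gM K) ≤
      ∫ z, (b + Real.log (∑ x, w x * Real.exp (trn T (lin κ z x))) +
        ∑ x, ∑ y, w x * w y * (|Real.exp (B x - b) - 1| *
          ((Real.exp (2 * |lin κ z x|) + Real.exp (2 * |lin κ z y|)) / 2) +
          1 / T ^ 2 * (Real.exp (4 * |lin κ z x|) + Real.exp (2 * |lin κ z y|)))) ∂(gM K) :=
    integral_mono i1 (((integrable_const _).add i2).add i3) fun z =>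
      tr_id_det hw0 hw1 B (fun x => lin κ z x) b hT
  rw [tr_integral_badd b i2 i3] at hint
  have hR : ∫ z, (∑ x, ∑ y, w x * w y * (|Real.exp (B x - b) - 1| *
          ((Real.exp (2 * |lin κ z x|) + Real.exp (2 * |lin κ z y|)) / 2) +
          1 / T ^ 2 * (Real.exp (4 * |lin κ z x|) + Real.exp (2 * |lin κ z y|)))) ∂(gM K) ≤
      4 * Real.exp (8 * A) * (∑ x, w x * |Real.exp (B x - b) - 1| + 1 / T ^ 2) := by
    rw [integral_finsetSum _ fun x _ => integrable_finsetSum _ fun y _ => j3 x y]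
    simp_rw [integral_finsetSum _ fun y _ => j3 _ y]
    have hterm : ∀ x y, ∫ z : K → ℝ, w x * w y * (|Real.exp (B x - b) - 1| *
          ((Real.exp (2 * |lin κ z x|) + Real.exp (2 * |lin κ z y|)) / 2) +
          1 / T ^ 2 * (Real.exp (4 * |lin κ z x|) + Real.exp (2 * |lin κ z y|))) ∂(gM K) ≤
        w x * w y * (4 * Real.exp (8 * A) * (|Real.exp (B x - b) - 1| + 1 / T ^ 2)) := by
      intro x y
      rw [integral_const_mul, integral_add ((j1 x y).const_mul _) ((j2 x y).const_mul _),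
        integral_const_mul, integral_const_mul]
      apply mul_le_mul_of_nonneg_left _ (mul_nonneg (hw0 x) (hw0 y))
      have g1 := mul_le_mul_of_nonneg_left (v1 x y) (abs_nonneg (Real.exp (B x - b) - 1))
      have g2 := mul_le_mul_of_nonneg_left (v2 x y) (by positivity : (0 : ℝ) ≤ 1 / T ^ 2)
      have g3 : 0 ≤ |Real.exp (B x - b) - 1| * Real.exp (8 * A) := by (clear * -; positivity)
      linarith only [g1, g2, g3]
    calc _ ≤ ∑ x, ∑ y, w x * w y *
          (4 * Real.exp (8 * A) * (|Real.exp (B x - b) - 1| + 1 / T ^ 2)) :=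
          Finset.sum_le_sum fun x _ => Finset.sum_le_sum fun y _ => hterm x y
      _ = 4 * Real.exp (8 * A) * (∑ x, w x * |Real.exp (B x - b) - 1| + 1 / T ^ 2) := by
          have e1 : ∀ x, ∑ y, w x * w y *
              (4 * Real.exp (8 * A) * (|Real.exp (B x - b) - 1| + 1 / T ^ 2)) =
              4 * Real.exp (8 * A) * (w x * |Real.exp (B x - b) - 1|) +
                4 * Real.exp (8 * A) * (1 / T ^ 2) * w x := by
            intro x
            rw [← Finset.sum_mul, ← Finset.mul_sum, hw1]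
            ring
          simp_rw [e1]
          rw [Finset.sum_add_distrib, ← Finset.mul_sum, ← Finset.mul_sum, hw1]
          ring
  linarith only [hint, hR]

end TRUNC

end Vale.Agent.P157.Par
end

section

open MeasureTheory ProbabilityTheory Filter Topology

namespace Vale.Agent.P157.Par

open Vale.Agent.P367.GT (gM)
open Vale.Agent.P157.Par.Cube

set_option linter.unusedSectionVars false

namespace Dnl

/-- averages of one replica -/
lemma tav_one (S : Sys) (G : S.T → S.X → ℝ) :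
    S.tav (n := 1) (fun t x => G t (x 0)) = ∫ ω, ∑ x, S.w ω x * G (S.π ω) x ∂S.P := by
  unfold Sys.tav Sys.av
  congr 1
  funext ω
  rw [← (Equiv.funUnique (Fin 1) S.X).sum_comp]
  apply Finset.sum_congr rfl
  intro x _
  simp only [Finset.univ_unique, Fin.default_eq_zero, Fin.isValue, Finset.prod_singleton, Equiv.funUnique_apply]

/-- currying of Gaussian vectors -/
lemma mp_curry (M N : ℕ) : MeasurePreserving (MeasurableEquiv.curry (Fin M) (Fin (N + 1)) ℝ)
    (gM (Fin M × Fin (N + 1))) (pm M N) := by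
  refine ⟨(MeasurableEquiv.curry (Fin M) (Fin (N + 1)) ℝ).measurable, ?_⟩
  have h := Measure.infinitePi_map_curry
    (fun (_ : Fin M) (_ : Fin (N + 1)) => gaussianReal 0 1)
  simp_rw [Measure.infinitePi_eq_pi] at h
  exact h

lemma lin_ker2 {M N : ℕ} (δ : ℝ) (f1 : ℝ → ℝ) (t : Fin M → Fin (N + 1) → ℝ)
    (z : Fin M × Fin (N + 1) → ℝ) (x : Fin (N + 1) → Bool) :
    lin (ker2 δ f1 t) z x = cavY δ f1 (fun a => cubeS (t a) x)
      fun a => cubeS (MeasurableEquiv.curry (Fin M) (Fin (N + 1)) ℝ z a) x := by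
  unfold lin ker2 cavY
  rw [Fintype.sum_prod_type]
  apply Finset.sum_congr rfl
  intro a _
  unfold cubeS
  rw [Finset.mul_sum]
  apply Finset.sum_congr rfl
  intro i _
  simp only [MeasurableEquiv.coe_curry, Function.curry_apply]
  ring

lemma sum_ker1 {C : ℝ} {f1 : ℝ → ℝ} (hf1 : ∀ x, |f1 x| ≤ C) {M N : ℕ} {δ : ℝ} (hδ : 0 ≤ δ)
    (t : Fin M → Fin (N + 1) → ℝ) (x : Fin (N + 1) → Bool) :
    ∑ a, ker1 δ f1 t x a ^ 2 ≤ δ * M * C ^ 2 := by
  unfold ker1
  have h1 : ∀ a : Fin M, (√δ * f1 (cubeS (t a) x)) ^ 2 ≤ δ * C ^ 2 := by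
    intro a
    rw [mul_pow, Real.sq_sqrt hδ]
    refine mul_le_mul_of_nonneg_left ?_ hδ
    rw [← sq_abs]
    exact pow_le_pow_left₀ (abs_nonneg _) (hf1 _) 2
  refine (Finset.sum_le_sum fun a _ => h1 a).trans ?_
  rw [Finset.sum_const, Finset.card_univ, Fintype.card_fin, nsmul_eq_mul]
  apply le_of_eq
  ring

lemma sum_ker2 {C : ℝ} {f1 : ℝ → ℝ} (hf1 : ∀ x, |f1 x| ≤ C) {M N : ℕ} {δ : ℝ} (hδ : 0 ≤ δ)
    (t : Fin M → Fin (N + 1) → ℝ) (x : Fin (N + 1) → Bool) :
    ∑ p, ker2 δ f1 t x p ^ 2 ≤ δ * M * C ^ 2 := by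
  refine le_trans (le_of_eq ?_) (sum_ker1 hf1 hδ t x)
  rw [Fintype.sum_prod_type]
  apply Finset.sum_congr rfl
  intro a _
  unfold ker2 ker1
  simp_rw [mul_pow]
  rw [← Finset.mul_sum, sum_cubeφ_sq, mul_one]

lemma int_exp_abs_cubeS (N : ℕ) (t : ℝ) (x : Fin (N + 1) → Bool) :
    Integrable (fun g : Fin (N + 1) → ℝ => Real.exp (t * |cubeS g x|)) (gM (Fin (N + 1))) := by
  have h : ∀ r : ℝ, Integrable (fun g : Fin (N + 1) → ℝ => Real.exp (r * cubeS g x))
      (gM (Fin (N + 1))) := by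
    intro r
    have h1 := integrable_exp_lin (fun (y : Fin (N + 1) → Bool) i => r * cubeφ N y i) x
    refine h1.congr (Filter.Eventually.of_forall fun g => ?_)
    simp only
    congr 1
    unfold lin cubeS
    rw [Finset.mul_sum]
    apply Finset.sum_congr rfl
    intro i _
    ring
  exact integrable_exp_mul_abs (h t) (h (-t))

section

variable {f f1 f2 f3 : ℝ → ℝ} {C : ℝ}

lemma int_exp_cavB (hf : CB3 C f f1 f2 f3) {δ : ℝ} (hδ : 0 ≤ δ) (M N : ℕ)
    (x : Fin (N + 1) → Bool) :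
    Integrable (fun ω : Fin M → Fin (N + 1) → ℝ =>
      Real.exp (cavB δ f1 f2 fun a => cubeS (ω a) x)) (pm M N) := by
  have m1 := (Lin.continuous_f1 hf).measurable
  have m2 := (Lin.continuous_f2 hf).measurable
  unfold cavB
  simp_rw [Real.exp_sum]
  refine Integrable.fintype_prod (f := fun (_ : Fin M) (g : Fin (N + 1) → ℝ) =>
    Real.exp (δ / 2 * (f2 (cubeS g x) - cubeS g x * f1 (cubeS g x)))) fun a => ?_
  refine Integrable.mono' ((int_exp_abs_cubeS N (δ / 2 * C) x).const_mul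
    (Real.exp (δ / 2 * C))) ?_ (Filter.Eventually.of_forall fun g => ?_)
  · have h1 : Measurable fun g : Fin (N + 1) → ℝ => cubeS g x := by unfold cubeS; fun_prop
    have h2 := m1.comp h1
    have h3 := m2.comp h1
    exact (Real.measurable_exp.comp ((h3.sub (h1.mul h2)).const_mul _)).aestronglyMeasurable
  · rw [Real.norm_eq_abs, abs_of_pos (Real.exp_pos _), ← Real.exp_add]
    apply Real.exp_le_exp.2
    have h1 : f2 (cubeS g x) ≤ C := (le_abs_self _).trans (hf.b2 _)
    have h2 : -(cubeS g x * f1 (cubeS g x)) ≤ C * |cubeS g x| := by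
      have h3 : |cubeS g x * f1 (cubeS g x)| ≤ |cubeS g x| * C := by
        rw [abs_mul]
        exact mul_le_mul_of_nonneg_left (hf.b1 _) (abs_nonneg _)
      linarith only [h3, neg_abs_le (cubeS g x * f1 (cubeS g x))]
    have h4 : 0 ≤ δ / 2 := by linarith
    have h5 := mul_le_mul_of_nonneg_left (add_le_add h1 h2) h4
    calc _ ≤ δ / 2 * (C + C * |cubeS g x|) := by
          refine le_trans (le_of_eq ?_) h5
          ring
      _ = _ := by ring

/-- bounded log-sum-exp -/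
lemma abs_lse_le {X : Type} [Fintype X] {w : X → ℝ} (hw0 : ∀ x, 0 ≤ w x) (hw1 : ∑ x, w x = 1)
    {E : X → ℝ} {T : ℝ} (hE : ∀ x, |E x| ≤ T) : |Real.log (∑ x, w x * Real.exp (E x))| ≤ T := by
  have h1 : Real.exp (-T) ≤ ∑ x, w x * Real.exp (E x) := by
    calc Real.exp (-T) = ∑ x, w x * Real.exp (-T) := by rw [← Finset.sum_mul, hw1, one_mul]
      _ ≤ _ := Finset.sum_le_sum fun x _ =>
        mul_le_mul_of_nonneg_left (Real.exp_le_exp.2 (abs_le.1 (hE x)).1) (hw0 x)
  have h2 : ∑ x, w x * Real.exp (E x) ≤ Real.exp T := by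
    calc _ ≤ ∑ x, w x * Real.exp T := Finset.sum_le_sum fun x _ =>
        mul_le_mul_of_nonneg_left (Real.exp_le_exp.2 (abs_le.1 (hE x)).2) (hw0 x)
      _ = Real.exp T := by rw [← Finset.sum_mul, hw1, one_mul]
  have h3 : 0 < ∑ x, w x * Real.exp (E x) := (Real.exp_pos _).trans_le h1
  rw [abs_le]
  constructor
  · have := Real.log_le_log (Real.exp_pos _) h1
    rwa [Real.log_exp] at this
  · have := Real.log_le_log h3 h2
    rwa [Real.log_exp] at this

lemma abs_trn_le {T : ℝ} (hT : 0 < T) (x : ℝ) : |trn T x| ≤ T := by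
  unfold trn
  rw [abs_mul, abs_of_pos hT]
  have h : |Real.tanh (x / T)| ≤ 1 := by
    rw [abs_le]
    exact ⟨(Real.neg_one_lt_tanh _).le, (Real.tanh_lt_one _).le⟩
  calc T * |Real.tanh (x / T)| ≤ T * 1 := mul_le_mul_of_nonneg_left h hT.le
    _ = T := mul_one T

lemma abs_logcosh_trn_le {T : ℝ} (hT : 0 < T) (x : ℝ) :
    |Real.log (Real.cosh (trn T x))| ≤ T := by
  rw [abs_of_nonneg (log_cosh_nonneg _)]
  exact (log_cosh_le _).trans (abs_trn_le hT x)

lemma measurable_trn (T : ℝ) : Measurable (trn T) := by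
  unfold trn
  simp_rw [Real.tanh_eq_sinh_div_cosh]
  have h1 : Measurable fun x : ℝ => x / T := measurable_id.div_const T
  exact ((Real.measurable_sinh.comp h1).div (Real.measurable_cosh.comp h1)).const_mul T

section abs

variable {Ω X K : Type} [MeasurableSpace Ω] [Fintype X] [Fintype K] [DecidableEq K]
  {Q : Measure Ω} [IsProbabilityMeasure Q] {w B : Ω → X → ℝ} {κ : Ω → X → K → ℝ} {A b T : ℝ}

lemma integrable_bdd_lse (hw0 : ∀ ω x, 0 ≤ w ω x) (hw1 : ∀ ω, ∑ x, w ω x = 1)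
    (hwm : ∀ x, Measurable fun ω => w ω x) (hκ : ∀ x c, Measurable fun ω => κ ω x c)
    {h : ℝ → ℝ} (hh : Measurable h) (hb : ∀ x, |h x| ≤ T) :
    Integrable (fun z : Ω × (K → ℝ) =>
      Real.log (∑ x, w z.1 x * Real.exp (h (lin (κ z.1) z.2 x)))) (Q.prod (gM K)) := by
  refine Integrable.mono' (integrable_const T) ?_ (Filter.Eventually.of_forall fun z => ?_)
  · have h1 : ∀ x, Measurable fun z : Ω × (K → ℝ) => lin (κ z.1) z.2 x := by
      intro x
      unfold lin
      refine Finset.measurable_sum _ fun c _ => ?_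
      exact ((hκ x c).comp measurable_fst).mul ((measurable_pi_apply c).comp measurable_snd)
    have h2 : Measurable fun z : Ω × (K → ℝ) =>
        ∑ x, w z.1 x * Real.exp (h (lin (κ z.1) z.2 x)) :=
      Finset.measurable_sum _ fun x _ =>
        ((hwm x).comp measurable_fst).mul (Real.measurable_exp.comp (hh.comp (h1 x)))
    exact (Real.measurable_log.comp h2).aestronglyMeasurable
  · exact abs_lse_le (hw0 z.1) (hw1 z.1) fun x => hb _

lemma lower_cosh (hw0 : ∀ ω x, 0 ≤ w ω x) (hw1 : ∀ ω, ∑ x, w ω x = 1)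
    (hwm : ∀ x, Measurable fun ω => w ω x) (hκm : ∀ x c, Measurable fun ω => κ ω x c)
    (hκ : ∀ ω x, ∑ c, κ ω x c ^ 2 ≤ A) (hT : 0 < T)
    (hB : Integrable (fun ω => ∑ x, w ω x * |B ω x - b|) Q)
    (hF : Integrable (fun z : Ω × (K → ℝ) => Real.log (∑ x, w z.1 x *
      (Real.exp (B z.1 x) * Real.cosh (lin (κ z.1) z.2 x)))) (Q.prod (gM K))) :
    b + (∫ z : Ω × (K → ℝ), Real.log (∑ x, w z.1 x *
        Real.exp (Real.log (Real.cosh (trn T (lin (κ z.1) z.2 x))))) ∂(Q.prod (gM K))) -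
        Real.exp (A / 2) * ∫ ω, ∑ x, w ω x * |B ω x - b| ∂Q ≤
      ∫ z : Ω × (K → ℝ), Real.log (∑ x, w z.1 x *
        (Real.exp (B z.1 x) * Real.cosh (lin (κ z.1) z.2 x))) ∂(Q.prod (gM K)) := by
  have hI : Integrable (fun z : Ω × (K → ℝ) =>
      Real.log (∑ x, w z.1 x * Real.exp (Real.log (Real.cosh (trn T (lin (κ z.1) z.2 x))))))
      (Q.prod (gM K)) :=
    integrable_bdd_lse (T := T) (h := fun y => Real.log (Real.cosh (trn T y))) hw0 hw1 hwm hκm
      (Real.measurable_log.comp (Real.measurable_cosh.comp (measurable_trn T)))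
      fun y => abs_logcosh_trn_le hT y
  rw [integral_prod _ hI, integral_prod _ hF]
  rw [← integral_const_mul]
  have e1 : b + (∫ ω : Ω, ∫ z : K → ℝ, Real.log (∑ x, w ω x *
        Real.exp (Real.log (Real.cosh (trn T (lin (κ ω) z x))))) ∂(gM K) ∂Q) =
      ∫ ω : Ω, (b + ∫ z : K → ℝ, Real.log (∑ x, w ω x *
        Real.exp (Real.log (Real.cosh (trn T (lin (κ ω) z x))))) ∂(gM K)) ∂Q := by
    rw [integral_add (integrable_const _) hI.integral_prod_left]
    simp only [integral_const, probReal_univ, smul_eq_mul, one_mul]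
  have i1 : Integrable (fun ω : Ω => b + ∫ z : K → ℝ, Real.log (∑ x, w ω x *
      Real.exp (Real.log (Real.cosh (trn T (lin (κ ω) z x))))) ∂(gM K)) Q :=
    (integrable_const b).add hI.integral_prod_left
  rw [e1, ← integral_sub i1 (hB.const_mul _)]
  refine integral_mono (i1.sub (hB.const_mul _)) hF.integral_prod_left fun ω => ?_
  exact trunc_cosh (hw0 ω) (hw1 ω) (B ω) (hκ ω) b hT

lemma upper_id {D : ℝ} (hD : ∀ (X K : Type) [Fintype X] [Fintype K] [DecidableEq K]
    (w : X → ℝ) (_hw0 : ∀ x, 0 ≤ w x) (_hw1 : ∑ x, w x = 1) (B : X → ℝ)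
    (κ : X → K → ℝ) (_hκ : ∀ x, ∑ c, κ x c ^ 2 ≤ A) (b T : ℝ) (_hT : 1 ≤ T),
    ∫ z, Real.log (∑ x, w x * Real.exp (B x + lin κ z x)) ∂(gM K) ≤
      b + ∫ z, Real.log (∑ x, w x * Real.exp (trn T (lin κ z x))) ∂(gM K) +
        D * (∑ x, w x * |Real.exp (B x - b) - 1| + 1 / T ^ 2))
    (hw0 : ∀ ω x, 0 ≤ w ω x) (hw1 : ∀ ω, ∑ x, w ω x = 1)
    (hwm : ∀ x, Measurable fun ω => w ω x) (hκm : ∀ x c, Measurable fun ω => κ ω x c)
    (hκ : ∀ ω x, ∑ c, κ ω x c ^ 2 ≤ A) (hT : 1 ≤ T)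
    (hB : Integrable (fun ω => ∑ x, w ω x * |Real.exp (B ω x - b) - 1|) Q)
    (hF : Integrable (fun z : Ω × (K → ℝ) => Real.log (∑ x, w z.1 x *
      Real.exp (B z.1 x + lin (κ z.1) z.2 x))) (Q.prod (gM K))) :
    ∫ z : Ω × (K → ℝ), Real.log (∑ x, w z.1 x *
        Real.exp (B z.1 x + lin (κ z.1) z.2 x)) ∂(Q.prod (gM K)) ≤
      b + (∫ z : Ω × (K → ℝ), Real.log (∑ x, w z.1 x *
        Real.exp (trn T (lin (κ z.1) z.2 x))) ∂(Q.prod (gM K))) +
        D * ((∫ ω, ∑ x, w ω x * |Real.exp (B ω x - b) - 1| ∂Q) + 1 / T ^ 2) := by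
  have hT0 : 0 < T := lt_of_lt_of_le one_pos hT
  have hI : Integrable (fun z : Ω × (K → ℝ) =>
      Real.log (∑ x, w z.1 x * Real.exp (trn T (lin (κ z.1) z.2 x)))) (Q.prod (gM K)) :=
    integrable_bdd_lse (T := T) (h := trn T) hw0 hw1 hwm hκm (measurable_trn T)
      fun y => abs_trn_le hT0 y
  rw [integral_prod _ hI, integral_prod _ hF]
  have e2 : D * ((∫ ω, ∑ x, w ω x * |Real.exp (B ω x - b) - 1| ∂Q) + 1 / T ^ 2) =
      ∫ ω, D * ((∑ x, w ω x * |Real.exp (B ω x - b) - 1|) + 1 / T ^ 2) ∂Q := by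
    rw [integral_const_mul, integral_add hB (integrable_const _)]
    simp only [one_div, integral_const, probReal_univ, smul_eq_mul, one_mul]
  have e1 : b + (∫ ω : Ω, ∫ z : K → ℝ, Real.log (∑ x, w ω x *
        Real.exp (trn T (lin (κ ω) z x))) ∂(gM K) ∂Q) =
      ∫ ω : Ω, (b + ∫ z : K → ℝ, Real.log (∑ x, w ω x *
        Real.exp (trn T (lin (κ ω) z x))) ∂(gM K)) ∂Q := by
    rw [integral_add (integrable_const _) hI.integral_prod_left]
    simp only [integral_const, probReal_univ, smul_eq_mul, one_mul]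
  have i1 : Integrable (fun ω : Ω => b + ∫ z : K → ℝ, Real.log (∑ x, w ω x *
      Real.exp (trn T (lin (κ ω) z x))) ∂(gM K)) Q :=
    (integrable_const b).add hI.integral_prod_left
  have i2 : Integrable (fun ω : Ω => D * ((∑ x, w ω x * |Real.exp (B ω x - b) - 1|) +
      1 / T ^ 2)) Q :=
    (hB.add (integrable_const (1 / T ^ 2))).const_mul D
  rw [e1, e2, ← integral_add i1 i2]
  refine integral_mono hF.integral_prod_left (i1.add i2) fun ω => ?_
  exact hD X K (w ω) (hw0 ω) (hw1 ω) (B ω) (κ ω) (hκ ω) b T hT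

end abs

/-- integrability with the weights -/
lemma integrable_w (hfm : Measurable f) (hC : ∀ x, |f x| ≤ C) (M N : ℕ) {P : ℕ}
    (s : ℝ) (u : Fin P → ℝ) {H : Type} [MeasurableSpace H] {μ : Measure H}
    [IsProbabilityMeasure μ]
    {A : (Fin M → Fin (N + 1) → ℝ) → H → (Fin (N + 1) → Bool) → ℝ} (hA : ∀ ω η x, 0 < A ω η x)
    (hi : Integrable (fun z : ((Fin M → Fin (N + 1) → ℝ) × (GI P (N + 1) → ℝ)) × H =>
      Real.log (∑ x, Real.exp (EE f s u z.1.1 z.1.2 x) * A z.1.1 z.2 x))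
      (((pm M N).prod (gM (GI P (N + 1)))).prod μ)) :
    Integrable (fun z : ((Fin M → Fin (N + 1) → ℝ) × (GI P (N + 1) → ℝ)) × H =>
      Real.log (∑ x : Fin (N + 1) → Bool, (pS f hfm C hC N M P s u).w z.1 x *
        A z.1.1 z.2 x)) (((pm M N).prod (gM (GI P (N + 1)))).prod μ) := by
  have hlz : Integrable (fun z : (Fin M → Fin (N + 1) → ℝ) × (GI P (N + 1) → ℝ) =>
      Real.log (∑ y, Real.exp (EE f s u z.1 z.2 y))) ((pm M N).prod (gM (GI P (N + 1)))) :=
    integrable_lse (integrable_EE hfm C hC N M s u)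
  have hp : ∀ z : ((Fin M → Fin (N + 1) → ℝ) × (GI P (N + 1) → ℝ)) × H,
      Real.log (∑ x : Fin (N + 1) → Bool, ((cubeBase f hfm C hC N M).sys P s u).w z.1 x *
          A z.1.1 z.2 x) =
      Real.log (∑ x, Real.exp (EE f s u z.1.1 z.1.2 x) * A z.1.1 z.2 x) -
        Real.log (∑ y, Real.exp (EE f s u z.1.1 z.1.2 y)) := by
    intro z
    rw [log_ratio (EE f s u z.1.1 z.1.2) (A z.1.1 z.2) (hA _ _)]
    simp only [w_eq]
    ring
  simp_rw [pS, hp]
  exact hi.sub (hlz.comp_fst _)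

lemma w_le_one (S : Sys) (ω : S.Ω) (x : S.X) : S.w ω x ≤ 1 := by
  rw [← S.w1 ω]
  exact Finset.single_le_sum (f := fun x => S.w ω x) (fun y _ => S.w0 ω y) (Finset.mem_univ x)

/-- integrability of averages -/
lemma integrable_sum_w (S : Sys) {G : S.Ω → S.X → ℝ} (hG : ∀ x, Integrable (fun ω => G ω x) S.P) :
    Integrable (fun ω => ∑ x, S.w ω x * G ω x) S.P := by
  refine integrable_finsetSum _ fun x _ => ?_
  refine (hG x).bdd_mul (c := 1) (S.hw x).aestronglyMeasurable
    (Filter.Eventually.of_forall fun ω => ?_)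
  rw [Real.norm_eq_abs, abs_of_nonneg (S.w0 ω x)]
  exact w_le_one S ω x

lemma fin_arith {I1 I2 X Y b F1 F2 D e q : ℝ} (t1 : b + I1 - e * X ≤ F1)
    (t2 : F2 ≤ b + I2 + D * (Y + q)) (hX : 0 ≤ X) (hY : 0 ≤ Y) (hq : 0 ≤ q) (he : 0 ≤ e)
    (hD : 0 ≤ D) : I1 - I2 - (e + D) * (X + Y + q) ≤ F1 - F2 := by
  linarith only [t1, t2, mul_nonneg he hY, mul_nonneg he hq, mul_nonneg hD hX]

end

end Dnl

open Dnl

/-- Lower bound of the cavity form of the increment by bounded functions of Gaussian fields. -/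
theorem cubeDN_trunc (A : ℝ) : ∃ D : ℝ, 0 ≤ D ∧ ∀ (f f1 f2 f3 : ℝ → ℝ) (C : ℝ)
    (hf : CB3 C f f1 f2 f3) (hfm : Measurable f) (N M P : ℕ) (s : ℝ) (u : Fin P → ℝ),
    1 / ((N : ℝ) + 2) * M * C ^ 2 ≤ A → ∀ b T : ℝ, 1 ≤ T →
    (∫ z : ((Fin M → Fin (N + 1) → ℝ) × (GI P (N + 1) → ℝ)) × (Fin M → ℝ),
      Real.log (∑ x, (pS f hfm C hf.b0 N M P s u).w z.1 x *
        Real.exp (Real.log (Real.cosh
          (trn T (lin (ker1 (1 / ((N : ℝ) + 2)) f1 z.1.1) z.2 x)))))
      ∂((pS f hfm C hf.b0 N M P s u).P.prod (gM (Fin M)))) -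
    (∫ z : ((Fin M → Fin (N + 1) → ℝ) × (GI P (N + 1) → ℝ)) × (Fin M × Fin (N + 1) → ℝ),
      Real.log (∑ x, (pS f hfm C hf.b0 N M P s u).w z.1 x *
        Real.exp (trn T (lin (ker2 (1 / ((N : ℝ) + 2)) f1 z.1.1) z.2 x)))
      ∂((pS f hfm C hf.b0 N M P s u).P.prod (gM (Fin M × Fin (N + 1))))) -
    D * ((pS f hfm C hf.b0 N M P s u).tav (n := 1) (fun t x =>
        |cavB (1 / ((N : ℝ) + 2)) f1 f2 (fun a => cubeS (t a) (x 0)) - b|) +
      (pS f hfm C hf.b0 N M P s u).tav (n := 1) (fun t x =>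
        |Real.exp (cavB (1 / ((N : ℝ) + 2)) f1 f2 (fun a => cubeS (t a) (x 0)) - b) - 1|) +
      1 / T ^ 2) ≤ cubeDN f f1 f2 hfm C hf.b0 N M P s u := by
  obtain ⟨D0, hD0⟩ := trunc_id A
  refine ⟨Real.exp (A / 2) + |D0|, by (clear * -; positivity), ?_⟩
  intro f f1 f2 f3 C hf hfm N M P s u hA b T hT
  have hT0 : 0 < T := lt_of_lt_of_le one_pos hT
  have hD : ∀ (X K : Type) [Fintype X] [Fintype K] [DecidableEq K]
      (w : X → ℝ) (_hw0 : ∀ x, 0 ≤ w x) (_hw1 : ∑ x, w x = 1) (B : X → ℝ)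
      (κ : X → K → ℝ) (_hκ : ∀ x, ∑ c, κ x c ^ 2 ≤ A) (b T : ℝ) (_hT : 1 ≤ T),
      ∫ z, Real.log (∑ x, w x * Real.exp (B x + lin κ z x)) ∂(gM K) ≤
        b + ∫ z, Real.log (∑ x, w x * Real.exp (trn T (lin κ z x))) ∂(gM K) +
          |D0| * (∑ x, w x * |Real.exp (B x - b) - 1| + 1 / T ^ 2) := by
    intro X K _ _ _ w hw0 hw1 B κ hκ b T hT
    refine (hD0 X K w hw0 hw1 B κ hκ b T hT).trans ?_
    have h1 : 0 ≤ ∑ x, w x * |Real.exp (B x - b) - 1| + 1 / T ^ 2 := by
      have : 0 ≤ ∑ x, w x * |Real.exp (B x - b) - 1| :=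
        Finset.sum_nonneg fun x _ => mul_nonneg (hw0 x) (abs_nonneg _)
      (clear * - this hT; positivity)
    have h2 := mul_le_mul_of_nonneg_right (le_abs_self D0) h1
    linarith only [h2]
  set δ : ℝ := 1 / ((N : ℝ) + 2) with hδ
  have hδ0 : 0 ≤ δ := by (clear * -; positivity)
  set S := pS f hfm C hf.b0 N M P s u with hS
  have m1 := (Lin.continuous_f1 hf).measurable
  -- averages
  have iB : Integrable (fun ω : S.Ω => ∑ x : Fin (N + 1) → Bool, S.w ω x *
      |cavB δ f1 f2 (fun a => cubeS (S.π ω a) x) - b|) S.P := by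
    refine integrable_sum_w S (G := fun ω x => |cavB δ f1 f2 (fun a => cubeS (S.π ω a) x) - b|)
      fun x => ?_
    have h := (((integrable_cavB hf δ M N x).sub (integrable_const b)).abs).comp_fst
      (gM (GI P (N + 1)))
    exact h
  have iE : Integrable (fun ω : S.Ω => ∑ x : Fin (N + 1) → Bool, S.w ω x *
      |Real.exp (cavB δ f1 f2 (fun a => cubeS (S.π ω a) x) - b) - 1|) S.P := by
    refine integrable_sum_w S
      (G := fun ω x => |Real.exp (cavB δ f1 f2 (fun a => cubeS (S.π ω a) x) - b) - 1|)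
      fun x => ?_
    have h0 : Integrable (fun ω : Fin M → Fin (N + 1) → ℝ =>
        |Real.exp (cavB δ f1 f2 (fun a => cubeS (ω a) x) - b) - 1|) (pm M N) := by
      have h1 := (int_exp_cavB hf hδ0 M N x).mul_const (Real.exp (-b))
      refine Integrable.abs (Integrable.sub (h1.congr (Filter.Eventually.of_forall fun ω => ?_))
        (integrable_const 1))
      simp only
      rw [← Real.exp_add, ← sub_eq_add_neg]
    exact h0.comp_fst (gM (GI P (N + 1)))
  have mk1 : ∀ (x : Fin (N + 1) → Bool) (c : Fin M), Measurable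
      fun ω : (Fin M → Fin (N + 1) → ℝ) × (GI P (N + 1) → ℝ) => ker1 δ f1 ω.1 x c := by
    intro x c
    unfold ker1
    exact (m1.comp (measurable_cubeS
      (g := fun ω : (Fin M → Fin (N + 1) → ℝ) × (GI P (N + 1) → ℝ) => ω.1 c)
      (by fun_prop) x)).const_mul _
  have mk2 : ∀ (x : Fin (N + 1) → Bool) (c : Fin M × Fin (N + 1)), Measurable
      fun ω : (Fin M → Fin (N + 1) → ℝ) × (GI P (N + 1) → ℝ) => ker2 δ f1 ω.1 x c := by
    intro x c
    unfold ker2
    exact ((m1.comp (measurable_cubeS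
      (g := fun ω : (Fin M → Fin (N + 1) → ℝ) × (GI P (N + 1) → ℝ) => ω.1 c.1)
      (by fun_prop) x)).const_mul _).mul_const _
  -- first term
  have i1 := integrable_w hfm hf.b0 M N s u (A := fun ω η x => A1 δ f1 f2 ω η x)
    (fun ω η x => A1_pos δ f1 f2 ω η x) (integrable_F1 hf hfm δ M N s u)
  have t1 := lower_cosh (Q := S.P) (w := fun ω (x : Fin (N + 1) → Bool) => S.w ω x)
    (κ := fun ω => ker1 δ f1 (S.π ω))
    (B := fun ω x => cavB δ f1 f2 fun a => cubeS (S.π ω a) x) (A := A) (b := b) (T := T)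
    (fun ω x => S.w0 ω x) (fun ω => S.w1 ω) (fun x => S.hw x) mk1
    (fun ω x => (sum_ker1 hf.b1 hδ0 _ x).trans hA) hT0 iB i1
  -- second term
  have i2 := integrable_w hfm hf.b0 M N s u (A := fun ω H x => A2 δ f1 f2 ω H x)
    (fun ω η x => A2_pos δ f1 f2 ω η x) (integrable_F2 hf hfm δ M N s u)
  have mp : MeasurePreserving (fun z : ((Fin M → Fin (N + 1) → ℝ) × (GI P (N + 1) → ℝ)) ×
      (Fin M × Fin (N + 1) → ℝ) => (z.1, MeasurableEquiv.curry (Fin M) (Fin (N + 1)) ℝ z.2))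
      (((pm M N).prod (gM (GI P (N + 1)))).prod (gM (Fin M × Fin (N + 1))))
      (((pm M N).prod (gM (GI P (N + 1)))).prod (pm M N)) :=
    (MeasurePreserving.id _).prod (mp_curry M N)
  have i2' := (mp.integrable_comp i2.aestronglyMeasurable).2 i2
  have e2 := integral_map (μ := ((pm M N).prod (gM (GI P (N + 1)))).prod
    (gM (Fin M × Fin (N + 1)))) mp.measurable.aemeasurable
    (by rw [mp.map_eq]; exact i2.aestronglyMeasurable)
  rw [mp.map_eq] at e2
  have hp : ∀ z : ((Fin M → Fin (N + 1) → ℝ) × (GI P (N + 1) → ℝ)) ×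
      (Fin M × Fin (N + 1) → ℝ),
      Real.log (∑ x : Fin (N + 1) → Bool, S.w z.1 x *
        A2 δ f1 f2 z.1.1 (MeasurableEquiv.curry (Fin M) (Fin (N + 1)) ℝ z.2) x) =
      Real.log (∑ x : Fin (N + 1) → Bool, S.w z.1 x *
        Real.exp (cavB δ f1 f2 (fun a => cubeS (S.π z.1 a) x) +
          lin (ker2 δ f1 (S.π z.1)) z.2 x)) := by
    intro z
    congr 1
    refine Finset.sum_congr rfl fun x _ => ?_
    have h' : A2 δ f1 f2 z.1.1 (MeasurableEquiv.curry (Fin M) (Fin (N + 1)) ℝ z.2) x =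
        Real.exp (cavB δ f1 f2 (fun a => cubeS (z.1.1 a) x) + lin (ker2 δ f1 z.1.1) z.2 x) := by
      rw [lin_ker2]
      rfl
    exact congrArg (S.w z.1 x * ·) h'
  have i2'' : Integrable (fun z : ((Fin M → Fin (N + 1) → ℝ) × (GI P (N + 1) → ℝ)) ×
      (Fin M × Fin (N + 1) → ℝ) => Real.log (∑ x : Fin (N + 1) → Bool, S.w z.1 x *
        Real.exp (cavB δ f1 f2 (fun a => cubeS (S.π z.1 a) x) +
          lin (ker2 δ f1 (S.π z.1)) z.2 x)))
      (((pm M N).prod (gM (GI P (N + 1)))).prod (gM (Fin M × Fin (N + 1)))) :=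
    i2'.congr (Filter.Eventually.of_forall fun z => hp z)
  have t2 := upper_id (Q := S.P) (D := |D0|) hD
    (w := fun ω (x : Fin (N + 1) → Bool) => S.w ω x)
    (κ := fun ω => ker2 δ f1 (S.π ω))
    (B := fun ω x => cavB δ f1 f2 fun a => cubeS (S.π ω a) x) (b := b) (T := T)
    (fun ω x => S.w0 ω x) (fun ω => S.w1 ω) (fun x => S.hw x) mk2
    (fun ω x => (sum_ker2 hf.b1 hδ0 _ x).trans hA) hT iE i2''
  have e3 : cubeDN f f1 f2 hfm C hf.b0 N M P s u =
      (∫ z : S.Ω × (Fin M → ℝ), Real.log (∑ x : Fin (N + 1) → Bool, S.w z.1 x *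
        (Real.exp (cavB δ f1 f2 fun a => cubeS (S.π z.1 a) x) *
          Real.cosh (lin (ker1 δ f1 (S.π z.1)) z.2 x))) ∂(S.P.prod (gM (Fin M)))) -
      ∫ z : S.Ω × (Fin M × Fin (N + 1) → ℝ), Real.log (∑ x : Fin (N + 1) → Bool, S.w z.1 x *
        Real.exp (cavB δ f1 f2 (fun a => cubeS (S.π z.1 a) x) +
          lin (ker2 δ f1 (S.π z.1)) z.2 x)) ∂(S.P.prod (gM (Fin M × Fin (N + 1)))) := by
    have h1 : cubeDN f f1 f2 hfm C hf.b0 N M P s u =
      (∫ z : S.Ω × (Fin M → ℝ), Real.log (∑ x : Fin (N + 1) → Bool, S.w z.1 x *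
        (Real.exp (cavB δ f1 f2 fun a => cubeS (S.π z.1 a) x) *
          Real.cosh (lin (ker1 δ f1 (S.π z.1)) z.2 x))) ∂(S.P.prod (gM (Fin M)))) -
      ∫ z : ((Fin M → Fin (N + 1) → ℝ) × (GI P (N + 1) → ℝ)) × (Fin M → Fin (N + 1) → ℝ),
        Real.log (∑ x, (pS f hfm C hf.b0 N M P s u).w z.1 x * A2 δ f1 f2 z.1.1 z.2 x)
        ∂(((pm M N).prod (gM (GI P (N + 1)))).prod (pm M N)) := rfl
    exact h1.trans (congrArg₂ (· - ·) rfl
      (e2.trans (integral_congr_ae (Filter.Eventually.of_forall fun z => hp z))))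
  have e4 : S.tav (n := 1) (fun t x => |cavB δ f1 f2 (fun a => cubeS (t a) (x 0)) - b|) =
      ∫ ω : S.Ω, ∑ x : Fin (N + 1) → Bool, S.w ω x *
        |cavB δ f1 f2 (fun a => cubeS (S.π ω a) x) - b| ∂S.P :=
    tav_one S fun t x => |cavB δ f1 f2 (fun a => cubeS (t a) x) - b|
  have e5 : S.tav (n := 1)
      (fun t x => |Real.exp (cavB δ f1 f2 (fun a => cubeS (t a) (x 0)) - b) - 1|) =
      ∫ ω : S.Ω, ∑ x : Fin (N + 1) → Bool, S.w ω x *
        |Real.exp (cavB δ f1 f2 (fun a => cubeS (S.π ω a) x) - b) - 1| ∂S.P :=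
    tav_one S fun t x => |Real.exp (cavB δ f1 f2 (fun a => cubeS (t a) x) - b) - 1|
  have n4 : 0 ≤ ∫ ω : S.Ω, ∑ x : Fin (N + 1) → Bool, S.w ω x *
        |cavB δ f1 f2 (fun a => cubeS (S.π ω a) x) - b| ∂S.P :=
    integral_nonneg fun ω => Finset.sum_nonneg fun x _ => mul_nonneg (S.w0 ω x) (abs_nonneg _)
  have n5 : 0 ≤ ∫ ω : S.Ω, ∑ x : Fin (N + 1) → Bool, S.w ω x *
        |Real.exp (cavB δ f1 f2 (fun a => cubeS (S.π ω a) x) - b) - 1| ∂S.P :=
    integral_nonneg fun ω => Finset.sum_nonneg fun x _ => mul_nonneg (S.w0 ω x) (abs_nonneg _)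
  rw [e3, e4, e5]
  have n6 : (0 : ℝ) ≤ 1 / T ^ 2 := by positivity
  have n7 : 0 ≤ Real.exp (A / 2) := (Real.exp_pos _).le
  have n8 : 0 ≤ |D0| := abs_nonneg _
  exact fin_arith t1 t2 n4 n5 n6 n7 n8

end Vale.Agent.P157.Par
end

section

/-!
Values of the truncated cascades of the two cavity terms.
-/

open MeasureTheory ProbabilityTheory Filter Topology

namespace Vale.Agent.P157.Par

/-! ### The truncation -/

lemma spv_tanh_deriv (y : ℝ) : HasDerivAt Real.tanh (1 - Real.tanh y ^ 2) y := by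
  have h1 : Real.tanh = fun y => Real.sinh y / Real.cosh y := funext Real.tanh_eq_sinh_div_cosh
  rw [h1]
  have h2 := (Real.hasDerivAt_sinh y).fun_div (Real.hasDerivAt_cosh y) (Real.cosh_pos y).ne'
  refine h2.congr_deriv ?_
  have := Real.cosh_pos y
  field_simp

lemma spv_tanh_sq_le (y : ℝ) : Real.tanh y ^ 2 ≤ 1 := by
  have h := Real.abs_tanh_lt_one y
  rw [← sq_abs]
  nlinarith only [h, abs_nonneg (Real.tanh y)]

lemma spv_abs_tanh_le (y : ℝ) : |Real.tanh y| ≤ |y| := by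
  have h1 : LipschitzWith 1 Real.tanh := by
    refine lipschitzWith_of_nnnorm_deriv_le (fun x => (spv_tanh_deriv x).differentiableAt)
      fun x => ?_
    rw [(spv_tanh_deriv x).deriv, ← NNReal.coe_le_coe, coe_nnnorm, Real.norm_eq_abs,
      NNReal.coe_one, abs_le]
    constructor <;> linarith only [spv_tanh_sq_le x, sq_nonneg (Real.tanh x)]
  have h2 := h1.dist_le_mul y 0
  rw [Real.dist_eq, Real.dist_eq, Real.tanh_zero, sub_zero, sub_zero, NNReal.coe_one,
    one_mul] at h2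
  exact h2

lemma spv_sub_tanh_le {y : ℝ} (hy : 0 ≤ y) : |y - Real.tanh y| ≤ y ^ 3 / 3 := by
  have h0 : 0 ≤ y - Real.tanh y := by
    have := (abs_le.1 (spv_abs_tanh_le y)).2
    rw [abs_of_nonneg hy] at this
    linarith
  rw [abs_of_nonneg h0]
  have hd : ∀ t : ℝ, HasDerivAt (fun t => t ^ 3 / 3 - (t - Real.tanh t))
      (t ^ 2 - Real.tanh t ^ 2) t := by
    intro t
    have h1 := ((hasDerivAt_pow 3 t).div_const 3).sub ((hasDerivAt_id t).sub (spv_tanh_deriv t))
    refine h1.congr_deriv ?_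
    push_cast
    ring
  have hmono : Monotone fun t : ℝ => t ^ 3 / 3 - (t - Real.tanh t) := by
    refine monotone_of_deriv_nonneg (fun t => (hd t).differentiableAt) fun t => ?_
    rw [(hd t).deriv]
    have := sq_le_sq.2 (spv_abs_tanh_le t)
    linarith only [this]
  have h3 := hmono hy
  simp only [Real.tanh_zero] at h3
  norm_num at h3
  linarith only [h3]

lemma spv_abs_sub_tanh_le (y : ℝ) : |y - Real.tanh y| ≤ |y| ^ 3 / 3 := by
  rcases le_total 0 y with hy | hy
  · rw [abs_of_nonneg hy]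
    exact spv_sub_tanh_le hy
  · have h1 := spv_sub_tanh_le (y := -y) (by linarith only [hy])
    rw [Real.tanh_neg, abs_sub_comm] at h1
    rw [abs_of_nonpos hy]
    have e : -Real.tanh y - -y = y - Real.tanh y := by ring
    rwa [e] at h1

lemma spv_cube_le (x : ℝ) : |x| ^ 3 ≤ 12 * Real.cosh x := by
  have h1 := Real.pow_div_factorial_le_exp |x| (abs_nonneg x) 3
  have h2 : Real.exp |x| ≤ 2 * Real.cosh x := by
    rw [← Real.cosh_abs x, Real.cosh_eq]
    linarith only [Real.exp_pos (-|x|)]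
  have h3 : ((Nat.factorial 3 : ℕ) : ℝ) = 6 := by norm_num [Nat.factorial]
  rw [h3] at h1
  linarith

lemma spv_trn_sub {T : ℝ} (hT : 0 < T) (x : ℝ) : |x - trn T x| ≤ 4 / T ^ 2 * Real.cosh x := by
  have h1 := spv_abs_sub_tanh_le (x / T)
  have e : x - trn T x = T * (x / T - Real.tanh (x / T)) := by
    unfold trn
    field_simp
  rw [e, abs_mul, abs_of_pos hT]
  rw [abs_div, abs_of_pos hT] at h1
  calc T * |x / T - Real.tanh (x / T)| ≤ T * ((|x| / T) ^ 3 / 3) :=
        mul_le_mul_of_nonneg_left h1 hT.le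
    _ = |x| ^ 3 / (3 * T ^ 2) := by (clear * - hT; field_simp)
    _ ≤ 12 * Real.cosh x / (3 * T ^ 2) := by
        gcongr
        exact spv_cube_le x
    _ = 4 / T ^ 2 * Real.cosh x := by field_simp; norm_num

lemma spv_trn_deriv {T : ℝ} (hT : 0 < T) (x : ℝ) :
    HasDerivAt (trn T) (1 - Real.tanh (x / T) ^ 2) x := by
  have h1 : HasDerivAt (fun x : ℝ => x / T) (1 / T) x := (hasDerivAt_id x).div_const T
  have h2 := ((spv_tanh_deriv (x / T)).comp x h1).const_mul T
  have h3 : HasDerivAt (trn T) (T * ((1 - Real.tanh (x / T) ^ 2) * (1 / T))) x := h2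
  refine h3.congr_deriv ?_
  (clear * - hT; field_simp)

lemma spv_trn_cb2 {T : ℝ} (hT : 0 < T) : CB2 (trn T) (fun x => 1 - Real.tanh (x / T) ^ 2)
    (fun x => -(2 * Real.tanh (x / T) * ((1 - Real.tanh (x / T) ^ 2) / T))) := by
  have hc : Continuous Real.tanh :=
    continuous_iff_continuousAt.mpr fun x => (spv_tanh_deriv x).continuousAt
  refine ⟨spv_trn_deriv hT, fun x => ?_, by fun_prop, ⟨T, fun x => ?_⟩, ⟨1, fun x => ?_⟩,
    ⟨2 / T, fun x => ?_⟩⟩
  · have h1 : HasDerivAt (fun x : ℝ => x / T) (1 / T) x := (hasDerivAt_id x).div_const T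
    have h2' := (spv_tanh_deriv (x / T)).comp x h1
    have h2 : HasDerivAt (fun x : ℝ => Real.tanh (x / T))
        ((1 - Real.tanh (x / T) ^ 2) * (1 / T)) x := h2'
    have h3 := (h2.fun_pow 2).const_sub 1
    refine h3.congr_deriv ?_
    push_cast
    ring
  · unfold trn
    rw [abs_mul, abs_of_pos hT]
    nlinarith only [hT, Real.abs_tanh_lt_one (x / T)]
  · rw [abs_le]
    constructor <;> linarith only [spv_tanh_sq_le (x / T), sq_nonneg (Real.tanh (x / T))]
  · rw [abs_neg, abs_mul, abs_mul, abs_div, abs_of_pos hT]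
    have h1 : |1 - Real.tanh (x / T) ^ 2| ≤ 1 := by
      rw [abs_le]
      constructor <;> nlinarith only [spv_tanh_sq_le (x / T)]
    have h2 := (Real.abs_tanh_lt_one (x / T)).le
    have h3 : |(2 : ℝ)| = 2 := by norm_num
    rw [h3]
    calc 2 * |Real.tanh (x / T)| * (|1 - Real.tanh (x / T) ^ 2| / T) ≤ 2 * 1 * (1 / T) := by
          (clear * - h2 h1 hT; gcongr)
      _ = 2 / T := by ring

lemma spv_trn_abs_le {T : ℝ} (hT : 0 < T) (x : ℝ) : |trn T x| ≤ T := by
  unfold trn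
  rw [abs_mul, abs_of_pos hT]
  nlinarith only [hT, Real.abs_tanh_lt_one (x / T)]

lemma spv_trn_lip {T : ℝ} (hT : 0 < T) : LipschitzWith 1 (trn T) := by
  refine lipschitzWith_of_nnnorm_deriv_le (fun x => (spv_trn_deriv hT x).differentiableAt)
    fun x => ?_
  rw [(spv_trn_deriv hT x).deriv, ← NNReal.coe_le_coe, coe_nnnorm, Real.norm_eq_abs,
    NNReal.coe_one, abs_le]
  constructor <;> linarith only [spv_tanh_sq_le (x / T), sq_nonneg (Real.tanh (x / T))]

/-! ### Comparison -/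

/-- The class of outer functions. -/
structure SpvG (G : ℝ → ℝ) : Prop where
  lip : LipschitzWith 1 G
  abs_le : ∀ y, |G y| ≤ |y|
  outer : ∀ T, ∃ F' F'', Outer (-T) T (fun u => Real.exp (G u) / Real.exp T) F' F''

lemma spv_logcosh : SpvG fun y => Real.log (Real.cosh y) where
  lip := by
    have hd : ∀ y, HasDerivAt (fun y => Real.log (Real.cosh y)) (Real.tanh y) y := by
      intro y
      have h1 := (Real.hasDerivAt_cosh y).log (Real.cosh_pos y).ne'
      rwa [← Real.tanh_eq_sinh_div_cosh] at h1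
    refine lipschitzWith_of_nnnorm_deriv_le (fun x => (hd x).differentiableAt) fun x => ?_
    rw [(hd x).deriv, ← NNReal.coe_le_coe, coe_nnnorm, Real.norm_eq_abs, NNReal.coe_one]
    exact (Real.abs_tanh_lt_one x).le
  abs_le y := by
    rw [abs_of_nonneg (Real.log_nonneg (Real.one_le_cosh y))]
    rw [← Real.log_exp |y|]
    refine Real.log_le_log (Real.cosh_pos y) ?_
    rw [← Real.cosh_abs, Real.cosh_eq]
    have : Real.exp (-|y|) ≤ Real.exp |y| := Real.exp_le_exp.2 (by linarith only [abs_nonneg y])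
    linarith only [this]
  outer T := by
    have e : (fun u => Real.exp (Real.log (Real.cosh u)) / Real.exp T) =
        fun u => Real.cosh u / Real.exp T := by
      funext u
      rw [Real.exp_log (Real.cosh_pos u)]
    rw [e]
    refine ⟨fun u => Real.sinh u / Real.exp T, fun u => Real.cosh u / Real.exp T,
      fun u _ => (Real.hasDerivAt_cosh u).div_const _,
      fun u _ => (Real.hasDerivAt_sinh u).div_const _, ?_, ?_, ?_, ?_⟩
    · exact (Real.continuous_cosh.div_const _).continuousOn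
    · exact (Real.continuous_cosh.div_const _).measurable
    · exact (Real.continuous_sinh.div_const _).measurable
    · exact (Real.continuous_cosh.div_const _).measurable

lemma spv_idG : SpvG fun y => y where
  lip := LipschitzWith.id
  abs_le y := le_rfl
  outer T := by
    refine ⟨fun u => Real.exp u / Real.exp T, fun u => Real.exp u / Real.exp T,
      fun u _ => (Real.hasDerivAt_exp u).div_const _,
      fun u _ => (Real.hasDerivAt_exp u).div_const _, ?_, ?_, ?_, ?_⟩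
    · exact (Real.continuous_exp.div_const _).continuousOn
    · exact (Real.continuous_exp.div_const _).measurable
    · exact (Real.continuous_exp.div_const _).measurable
    · exact (Real.continuous_exp.div_const _).measurable

section

variable {G : ℝ → ℝ} {T : ℝ}

lemma spv_W (hG : SpvG G) (hT : 0 < T) :
    (∃ W' W'', CB2 (fun x => Real.exp (G (trn T x)) / Real.exp T) W' W'') ∧
    (∀ x, Real.exp (-(2 * T)) ≤ Real.exp (G (trn T x)) / Real.exp T) ∧
    ∀ x, Real.exp (G (trn T x)) / Real.exp T ≤ 1 := by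
  obtain ⟨F', F'', hO⟩ := hG.outer T
  refine ⟨⟨_, _, (spv_trn_cb2 hT).outer (fun x => abs_le.1 (spv_trn_abs_le hT x)) hO⟩,
    fun x => ?_, fun x => ?_⟩
  · rw [← Real.exp_sub, Real.exp_le_exp]
    have h1 := (abs_le.1 ((hG.abs_le (trn T x)).trans (spv_trn_abs_le hT x))).1
    linarith
  · rw [← Real.exp_sub, Real.exp_le_one_iff]
    have h1 := (abs_le.1 ((hG.abs_le (trn T x)).trans (spv_trn_abs_le hT x))).2
    linarith only [h1]

lemma spv_comp_lip (hG : SpvG G) (hT : 0 < T) : LipschitzWith 1 fun x => G (trn T x) := by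
  have h := hG.lip.comp (spv_trn_lip hT)
  rw [one_mul] at h
  exact h

lemma spv_log_topW (hG : SpvG G) (hT : 0 < T) (τ x : ℝ) :
    Real.log (topW τ (fun x => Real.exp (G (trn T x)) / Real.exp T) x) =
      gstep 1 τ (fun x => G (trn T x)) x + -T := by
  obtain ⟨⟨W', W'', hW⟩, h1, h2⟩ := spv_W hG hT
  rw [topW_eq, ← flowW_log one_pos (Real.exp_pos _) hW.cont.measurable h1 h2,
    ← val_gstep_add_const one_pos (spv_comp_lip hG hT)]
  congr 1
  funext y
  rw [← Real.exp_sub, Real.log_exp]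
  ring

lemma spv_lvW (hG : SpvG G) (hT : 0 < T) {k : ℕ} {m r : ℕ → ℝ} {τ : ℝ}
    (hm : ∀ l, 1 ≤ l → l ≤ k → 0 < m l ∧ m l ≤ 1) (x : ℝ) :
    T + Real.log (lvW m (incr r) k
      (topW τ fun x => Real.exp (G (trn T x)) / Real.exp T) 0 x) =
      cascade m r k (gstep 1 τ (fun x => G (trn T x))) x := by
  have hm' : ∀ l, 1 ≤ l → l ≤ k → 0 < m l := fun l h1 h2 => (hm l h1 h2).1
  obtain ⟨hW, h1, h2⟩ := spv_W hG hT
  obtain ⟨hV, h3, h4⟩ := topW_spec τ (Real.exp_pos _) hW h1 h2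
  rw [← cascade_log hm' (Real.exp_pos _) hV h3 h4]
  have e : (fun x => Real.log (topW τ (fun x => Real.exp (G (trn T x)) / Real.exp T) x)) =
      fun x => gstep 1 τ (fun x => G (trn T x)) x + -T := funext (spv_log_topW hG hT τ)
  rw [e, cascade_add_const hm' (val_gstep_lip one_pos (spv_comp_lip hG hT))]
  ring

end

lemma spv_close : ∃ C : ℝ → ℝ, ∀ (R : ℝ) (G : ℝ → ℝ) (T : ℝ) (k : ℕ) (m r : ℕ → ℝ) (τ : ℝ),
    SpvG G → 0 < T → (∀ l, 1 ≤ l → l ≤ k → 0 < m l ∧ m l ≤ 1) → 0 ≤ r 0 →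
    (∀ l < k, r l ≤ r (l + 1)) → 0 ≤ τ → r k + τ ≤ R → ∀ x,
    |T + Real.log (lvW m (incr r) k
      (topW τ fun x => Real.exp (G (trn T x)) / Real.exp T) 0 x) -
      cascade m r k (gstep 1 τ G) x| ≤ C R / T ^ 2 * Real.cosh x := by
  obtain ⟨C, hC⟩ := cascade_close
  refine ⟨fun R => 4 * (|C R| * |C R|), fun R G T k m r τ hG hT hm hr0 hr hτ hR x => ?_⟩
  have hmono : ∀ j ≤ k, r 0 ≤ r j := by
    intro j
    induction j with
    | zero => intro _; exact le_rfl
    | succ j ih => intro hj; exact (ih (by omega)).trans (hr j (by omega))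
  have hk := hmono k le_rfl
  rw [spv_lvW hG hT hm]
  have h1 : ∀ x, |G (trn T x) - G x| ≤ 4 / T ^ 2 * Real.cosh x := by
    intro x
    have h2 := hG.lip.dist_le_mul (trn T x) x
    rw [Real.dist_eq, Real.dist_eq, NNReal.coe_one, one_mul] at h2
    refine h2.trans ?_
    rw [abs_sub_comm]
    exact spv_trn_sub hT x
  -- the top step
  have h2 : ∀ x, |gstep 1 τ (fun x => G (trn T x)) x - gstep 1 τ G x| ≤
      4 / T ^ 2 * |C R| * Real.cosh x := by
    intro x
    have h3 := hC R 1 (fun _ => 1) (fun n => if n = 0 then 0 else τ) (fun x => G (trn T x)) G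
      (4 / T ^ 2) (fun _ _ _ => ⟨one_pos, le_rfl⟩) (fun l hl => by
        have : l = 0 := by omega
        subst this
        simpa only [↓reduceIte, zero_add, one_ne_zero, ge_iff_le] using hτ) (by simp only [one_ne_zero, ↓reduceIte, sub_zero]; linarith) (spv_comp_lip hG hT) hG.lip (by positivity) h1 x
    simp only [cascade, zero_add, one_ne_zero, if_false, if_true, sub_zero] at h3
    refine h3.trans ?_
    have hc := Real.cosh_pos x
    gcongr
    exact le_abs_self _
  have h4 := hC R k m r (gstep 1 τ (fun x => G (trn T x))) (gstep 1 τ G) (4 / T ^ 2 * |C R|)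
    hm hr (by linarith only [hr0, hτ, hR]) (clo_gstep_lip (spv_comp_lip hG hT) one_pos le_rfl τ)
    (clo_gstep_lip hG.lip one_pos le_rfl τ) (by (clear * - hT; positivity)) h2 x
  refine h4.trans ?_
  have hc := Real.cosh_pos x
  calc 4 / T ^ 2 * |C R| * C R * Real.cosh x ≤ 4 / T ^ 2 * |C R| * |C R| * Real.cosh x := by
        gcongr
        exact le_abs_self _
    _ = _ := by ring

/-- Integrated version. -/
lemma spv_int_close : ∃ C : ℝ → ℝ, ∀ (R : ℝ) (G : ℝ → ℝ) (T : ℝ) (k : ℕ) (m r : ℕ → ℝ) (τ : ℝ),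
    SpvG G → 0 < T → (∀ l, 1 ≤ l → l ≤ k → 0 < m l ∧ m l ≤ 1) → 0 ≤ r 0 →
    (∀ l < k, r l ≤ r (l + 1)) → 0 ≤ τ → r k + τ ≤ R →
    |T + ∫ z, Real.log (lvW m (incr r) k
      (topW τ fun x => Real.exp (G (trn T x)) / Real.exp T) 0
        (√(incr r 0) * z)) ∂(gaussianReal 0 1) -
      ∫ z, cascade m r k (gstep 1 τ G) (√(r 0) * z) ∂(gaussianReal 0 1)| ≤ C R / T ^ 2 := by
  obtain ⟨C, hC⟩ := spv_close
  refine ⟨fun R => |C R| * Real.exp (R / 2), fun R G T k m r τ hG hT hm hr0 hr hτ hR => ?_⟩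
  have hm' : ∀ l, 1 ≤ l → l ≤ k → 0 < m l := fun l h1 h2 => (hm l h1 h2).1
  have hmono : ∀ j ≤ k, r 0 ≤ r j := by
    intro j
    induction j with
    | zero => intro _; exact le_rfl
    | succ j ih => intro hj; exact (ih (by omega)).trans (hr j (by omega))
  have hk := hmono k le_rfl
  obtain ⟨hW, h1, h2⟩ := spv_W hG hT
  obtain ⟨hV, h3, h4⟩ := topW_spec τ (Real.exp_pos _) hW h1 h2
  obtain ⟨⟨U', U'', hU⟩, h5, h6⟩ := lvW_spec (v := incr r) hm' (Real.exp_pos _) hV h3 h4 0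
    (Nat.zero_le k)
  set V := lvW m (incr r) k (topW τ fun x => Real.exp (G (trn T x)) / Real.exp T) 0 with hVdef
  have e0 : incr r 0 = r 0 := rfl
  rw [e0]
  have hint1 : Integrable (fun z => Real.log (V (√(r 0) * z))) (gaussianReal 0 1) := by
    refine Integrable.mono' (integrable_const (2 * T)) ?_
      (Filter.Eventually.of_forall fun z => ?_)
    · exact ((Real.measurable_log.comp hU.cont.measurable).comp
        (by fun_prop)).aestronglyMeasurable
    · rw [Real.norm_eq_abs]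
      have h7 := Real.log_le_log (Real.exp_pos _) (h5 (√(r 0) * z))
      have h8 := Real.log_nonpos ((Real.exp_pos _).le.trans (h5 (√(r 0) * z))) (h6 (√(r 0) * z))
      rw [Real.log_exp] at h7
      rw [abs_of_nonpos h8]
      linarith only [h7]
  have hintT : Integrable (fun z => T + Real.log (V (√(r 0) * z))) (gaussianReal 0 1) :=
    (integrable_const T).add hint1
  -- the error term
  have hcosh : Integrable (fun z => Real.cosh (√(r 0) * z)) (gaussianReal 0 1) := by
    have e : (fun z : ℝ => Real.cosh (√(r 0) * z)) = fun z =>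
        1 / 2 * (Real.exp (√(r 0) * z) + Real.exp (-√(r 0) * z)) := by
      funext z
      rw [Real.cosh_eq, show -(√(r 0) * z) = -√(r 0) * z by ring]
      ring
    rw [e]
    exact ((integrable_exp_mul_gaussianReal _).add (integrable_exp_mul_gaussianReal _)).const_mul _
  have hcosh2 : ∫ z, Real.cosh (√(r 0) * z) ∂(gaussianReal 0 1) = Real.exp (r 0 / 2) := by
    have e : (fun z : ℝ => Real.cosh (√(r 0) * z)) = fun z =>
        1 / 2 * (Real.exp (√(r 0) * z) + Real.exp (-√(r 0) * z)) := by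
      funext z
      rw [Real.cosh_eq, show -(√(r 0) * z) = -√(r 0) * z by ring]
      ring
    rw [e, integral_const_mul, integral_add (integrable_exp_mul_gaussianReal _)
      (integrable_exp_mul_gaussianReal _), clo_int_exp, clo_int_exp, neg_sq, Real.sq_sqrt hr0]
    ring
  have hbd : ∀ z, |T + Real.log (V (√(r 0) * z)) - cascade m r k (gstep 1 τ G) (√(r 0) * z)| ≤
      |C R| / T ^ 2 * Real.cosh (√(r 0) * z) := by
    intro z
    refine (hC R G T k m r τ hG hT hm hr0 hr hτ hR (√(r 0) * z)).trans ?_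
    have hc := Real.cosh_pos (√(r 0) * z)
    gcongr
    exact le_abs_self _
  have hlip : ∀ (j : ℕ) (F : ℝ → ℝ), j ≤ k → LipschitzWith 1 F →
      LipschitzWith 1 (cascade m r j F) := by
    intro j
    induction j with
    | zero => intro F _ hF; exact hF
    | succ j ih =>
      intro F hj hF
      obtain ⟨hm0, hm1⟩ := hm (j + 1) (by omega) hj
      exact ih _ (by omega) (clo_gstep_lip hF hm0 hm1 _)
  have hK := hlip k _ le_rfl (clo_gstep_lip hG.lip one_pos le_rfl τ)
  have hint2 : Integrable (fun z => T + Real.log (V (√(r 0) * z)) -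
      cascade m r k (gstep 1 τ G) (√(r 0) * z)) (gaussianReal 0 1) := by
    refine Integrable.mono' (hcosh.const_mul (|C R| / T ^ 2)) ?_
      (Filter.Eventually.of_forall fun z => ?_)
    · have hKc := hK.continuous
      exact (((Real.measurable_log.comp hU.cont.measurable).comp
        (by fun_prop : Measurable fun z : ℝ => √(r 0) * z)).const_add T |>.sub
        (hKc.measurable.comp (by fun_prop))).aestronglyMeasurable
    · rw [Real.norm_eq_abs]
      exact hbd z
  have hint3 : Integrable (fun z => cascade m r k (gstep 1 τ G) (√(r 0) * z))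
      (gaussianReal 0 1) := by
    have h7 := hintT.sub hint2
    refine h7.congr (Filter.Eventually.of_forall fun z => ?_)
    simp only [Pi.sub_apply]
    ring
  have e1 : T + ∫ z, Real.log (V (√(r 0) * z)) ∂(gaussianReal 0 1) -
      ∫ z, cascade m r k (gstep 1 τ G) (√(r 0) * z) ∂(gaussianReal 0 1) =
      ∫ z, (T + Real.log (V (√(r 0) * z)) - cascade m r k (gstep 1 τ G) (√(r 0) * z))
        ∂(gaussianReal 0 1) := by
    rw [integral_sub hintT hint3, integral_add (integrable_const _) hint1,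
      integral_const]
    simp only [probReal_univ, one_smul]
  rw [e1]
  have h9 : ‖∫ z, (T + Real.log (V (√(r 0) * z)) - cascade m r k (gstep 1 τ G) (√(r 0) * z))
        ∂(gaussianReal 0 1)‖ ≤ ∫ z, |C R| / T ^ 2 * Real.cosh (√(r 0) * z) ∂(gaussianReal 0 1) :=
    norm_integral_le_of_norm_le (hcosh.const_mul _) (Filter.Eventually.of_forall fun z => by
      rw [Real.norm_eq_abs]; exact hbd z)
  rw [Real.norm_eq_abs, integral_const_mul, hcosh2] at h9
  refine h9.trans ?_
  have h10 : Real.exp (r 0 / 2) ≤ Real.exp (R / 2) := Real.exp_le_exp.2 (by linarith only [hτ, hR, hk])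
  calc |C R| / T ^ 2 * Real.exp (r 0 / 2) ≤ |C R| / T ^ 2 * Real.exp (R / 2) := by (clear * - h10 hT; gcongr)
    _ = _ := by ring

lemma spv_choose (c : ℝ) {ε : ℝ} (hε : 0 < ε) : ∃ T₀ : ℝ, ∀ T ≥ T₀, 0 < T ∧ c / T ^ 2 ≤ ε := by
  refine ⟨max 1 (c / ε), fun T hT => ?_⟩
  have h1 : 1 ≤ T := (le_max_left _ _).trans hT
  have h2 : c / ε ≤ T := (le_max_right _ _).trans hT
  have h3 : 0 < T := by linarith only [h1]
  refine ⟨h3, ?_⟩
  rw [div_le_iff₀ (by positivity)]
  rw [div_le_iff₀ hε] at h2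
  nlinarith only [h2, h1, mul_pos hε h3]

/-- Evaluation of the first cavity term. -/
theorem spin_val_cosh (R : ℝ) : ∀ ε > 0, ∃ T₀ : ℝ, ∀ T ≥ T₀, ∀ (k : ℕ) (m r : ℕ → ℝ) (τ : ℝ),
    (∀ l, 1 ≤ l → l ≤ k → 0 < m l ∧ m l ≤ 1) → 0 ≤ r 0 → (∀ l < k, r l ≤ r (l + 1)) → 0 ≤ τ →
    r k + τ ≤ R →
    ∫ z, cascade m r k (fun x => Real.log (Real.cosh x)) (√(r 0) * z) ∂(gaussianReal 0 1) + τ / 2 ≤
      T + ∫ z, Real.log (lvW m (incr r) k
        (topW τ fun x => Real.exp (Real.log (Real.cosh (trn T x))) / Real.exp T) 0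
          (√(incr r 0) * z)) ∂(gaussianReal 0 1) + ε := by
  intro ε hε
  obtain ⟨C, hC⟩ := spv_int_close
  obtain ⟨T₀, hT₀⟩ := spv_choose (C R) hε
  refine ⟨T₀, fun T hT k m r τ hm hr0 hr hτ hR => ?_⟩
  obtain ⟨hT0, hT1⟩ := hT₀ T hT
  have h1 := (abs_le.1 (hC R _ T k m r τ spv_logcosh hT0 hm hr0 hr hτ hR)).1
  have hm' : ∀ l, 1 ≤ l → l ≤ k → 0 < m l := fun l h1 h2 => (hm l h1 h2).1
  have e1 : gstep 1 τ (fun x => Real.log (Real.cosh x)) =
      fun x => Real.log (Real.cosh x) + τ / 2 := funext (gstep_one_logcosh hτ)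
  have hlip : ∀ (j : ℕ) (F : ℝ → ℝ), j ≤ k → LipschitzWith 1 F →
      LipschitzWith 1 (cascade m r j F) := by
    intro j
    induction j with
    | zero => intro F _ hF; exact hF
    | succ j ih =>
      intro F hj hF
      obtain ⟨hm0, hm1⟩ := hm (j + 1) (by omega) hj
      exact ih _ (by omega) (clo_gstep_lip hF hm0 hm1 _)
  have hK := hlip k _ le_rfl spv_logcosh.lip
  have hint : Integrable (fun z => cascade m r k (fun x => Real.log (Real.cosh x))
      (√(r 0) * z)) (gaussianReal 0 1) := by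
    refine Integrable.mono' ((integrable_const
      (|cascade m r k (fun x => Real.log (Real.cosh x)) 0|)).add
      ((clo_integrable_exp_abs 1).const_mul √(r 0))) ?_ (Filter.Eventually.of_forall fun z => ?_)
    · exact (hK.continuous.measurable.comp (by fun_prop)).aestronglyMeasurable
    · rw [Real.norm_eq_abs]
      have h2 := clo_lip hK 0 (√(r 0) * z)
      rw [zero_add, clo_abs_sqrt_mul] at h2
      have h3 : |z| ≤ Real.exp (1 * |z|) := by
        rw [one_mul]
        linarith only [Real.add_one_le_exp |z|]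
      have h4 : √(r 0) * |z| ≤ √(r 0) * Real.exp (1 * |z|) := by (clear * - h3; gcongr)
      have h5 := abs_sub_abs_le_abs_sub
        (cascade m r k (fun x => Real.log (Real.cosh x)) (√(r 0) * z))
        (cascade m r k (fun x => Real.log (Real.cosh x)) 0)
      simp only [Pi.add_apply]
      linarith only [h2, h4, h5]
  have e2 : ∫ z, cascade m r k (gstep 1 τ fun x => Real.log (Real.cosh x)) (√(r 0) * z)
      ∂(gaussianReal 0 1) = ∫ z, cascade m r k (fun x => Real.log (Real.cosh x)) (√(r 0) * z)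
      ∂(gaussianReal 0 1) + τ / 2 := by
    rw [e1]
    have e3 : ∀ z, cascade m r k (fun x => Real.log (Real.cosh x) + τ / 2) (√(r 0) * z) =
        cascade m r k (fun x => Real.log (Real.cosh x)) (√(r 0) * z) + τ / 2 :=
      fun z => cascade_add_const hm' spv_logcosh.lip _ _
    simp only [e3]
    rw [integral_add hint (integrable_const _), integral_const]
    simp only [probReal_univ, one_smul]
  rw [e2] at h1
  linarith

/-- Evaluation of the second cavity term. -/
theorem spin_val_id (R : ℝ) : ∀ ε > 0, ∃ T₀ : ℝ, ∀ T ≥ T₀, ∀ (k : ℕ) (m r : ℕ → ℝ) (τ : ℝ),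
    (∀ l, 1 ≤ l → l ≤ k → 0 < m l ∧ m l ≤ 1) → 0 ≤ r 0 → (∀ l < k, r l ≤ r (l + 1)) → 0 ≤ τ →
    r k + τ ≤ R →
    T + ∫ z, Real.log (lvW m (incr r) k
        (topW τ fun x => Real.exp (trn T x) / Real.exp T) 0
          (√(incr r 0) * z)) ∂(gaussianReal 0 1) ≤
      1 / 2 * ∑ l ∈ Finset.range k, m (l + 1) * (r (l + 1) - r l) + τ / 2 + ε := by
  intro ε hε
  obtain ⟨C, hC⟩ := spv_int_close
  obtain ⟨T₀, hT₀⟩ := spv_choose (C R) hε
  refine ⟨T₀, fun T hT k m r τ hm hr0 hr hτ hR => ?_⟩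
  obtain ⟨hT0, hT1⟩ := hT₀ T hT
  have h1 := (abs_le.1 (hC R _ T k m r τ spv_idG hT0 hm hr0 hr hτ hR)).2
  have hm' : ∀ l, 1 ≤ l → l ≤ k → 0 < m l := fun l h1 h2 => (hm l h1 h2).1
  have e1 : gstep 1 τ (fun x => x) = fun x => x + τ / 2 := funext (gstep_one_id hτ)
  have e2 : ∫ z, cascade m r k (gstep 1 τ fun x => x) (√(r 0) * z) ∂(gaussianReal 0 1) =
      1 / 2 * ∑ l ∈ Finset.range k, m (l + 1) * (r (l + 1) - r l) + τ / 2 := by
    rw [e1]
    have e3 : ∀ z, cascade m r k (fun x => x + τ / 2) (√(r 0) * z) =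
        √(r 0) * z + (1 / 2 * ∑ l ∈ Finset.range k, m (l + 1) * (r (l + 1) - r l) + τ / 2) := by
      intro z
      rw [cascade_add_const hm' spv_idG.lip, cascade_id hm' hr]
      ring
    simp only [e3]
    have hi : Integrable (fun z : ℝ => √(r 0) * z) (gaussianReal 0 1) := by
      refine clo_integrable (C := √(r 0)) (a := 1) (by fun_prop) fun z => ?_
      rw [clo_abs_sqrt_mul]
      gcongr
      linarith only [Real.add_one_le_exp (1 * |z|)]
    rw [integral_add hi (integrable_const _), integral_const_mul, integral_id_gaussianReal,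
      integral_const]
    simp only [mul_zero, probReal_univ, one_div, smul_eq_mul, one_mul, zero_add]
  rw [e2] at h1
  linarith only [hT1, h1]

end Vale.Agent.P157.Par
end

section

open MeasureTheory ProbabilityTheory Filter Topology Finset

namespace Vale.Agent.P157.Par

set_option linter.unusedSectionVars false

open Vale.Agent.P367.GT (gM)

/-- Transfer of the logarithm of the average of a truncated exponential. -/
theorem trn_lim {G : ℝ → ℝ} (hG : SpvG G) {T : ℝ} (hT : 0 < T) : ∃ D : ℝ, 0 ≤ D ∧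
    ∀ (U : Ultrafilter ℕ) (S : ℕ → Sys) (k : ℕ) (b : Fin k → ℝ) (w : Fin (k + 1) → ℝ),
      LimData U S b w → ∀ (v : ℕ → ℝ), (∀ l, 0 ≤ v l) → ∀ (τ ε B : ℝ), 0 ≤ τ → 0 ≤ ε →
      ∀ (K : ℕ → Type) [∀ j, Fintype (K j)] [∀ j, DecidableEq (K j)]
        (κ : ∀ j, (S j).T → (S j).X → K j → ℝ), KerClose U S b (cut v k) τ ε B κ →
      ∀ η > 0, ∀ᶠ j in (U : Filter ℕ),
        |(∫ z : (S j).Ω × (K j → ℝ), Real.log (∑ x, (S j).w z.1 x *
            Real.exp (G (trn T (lin (κ j ((S j).π z.1)) z.2 x)))) ∂((S j).P.prod (gM (K j)))) -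
          (T + ∫ z, Real.log (lvW (mOf w) v k
            (topW τ fun x => Real.exp (G (trn T x)) / Real.exp T) 0 (√(v 0) * z))
              ∂(gaussianReal 0 1))| ≤ D * ε + η := by
  obtain ⟨⟨W', W'', hW⟩, hWa, hW1⟩ := spv_W hG hT
  obtain ⟨C1, hC1, hC1'⟩ := exists_SB hW
  set a := Real.exp (-(2 * T)) with ha
  have ha0 : 0 < a := Real.exp_pos _
  set α := max (1 - a) (1 / 2) with hα
  have hα1 : α < 1 := max_lt (by linarith only [ha0]) (by norm_num)
  have hα0 : 0 < α := lt_of_lt_of_le (by norm_num) (le_max_right _ _)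
  refine ⟨Dl C1 α, tsum_nonneg fun n => by (clear * - hC1; positivity), ?_⟩
  intro U S k b w hL v hv τ ε B hτ hε K _ _ κ hκ η hη
  have h1 := trans_log hL (m := mOf w) hv (fun l hl _ => mOf_pos hL.wpos hl)
    (fun l => up_eq_mOf hL.wsum l) hτ hε hκ hC1 ha0 (le_max_left (1 - a) (1 / 2)) hα0 hα1
    hC1' hWa hW1 η hη
  filter_upwards [h1] with j hj
  have h3 : (∫ z : (S j).Ω × (K j → ℝ), Real.log (∑ x, (S j).w z.1 x *
      Real.exp (G (trn T (lin (κ j ((S j).π z.1)) z.2 x)))) ∂((S j).P.prod (gM (K j)))) =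
      T + ∫ z : (S j).Ω × (K j → ℝ), Real.log (∑ x, (S j).w z.1 x *
      (Real.exp (G (trn T (lin (κ j ((S j).π z.1)) z.2 x))) / Real.exp T))
        ∂((S j).P.prod (gM (K j))) := by
    have hmem : ∀ z : (S j).Ω × (K j → ℝ),
        a ≤ ∑ x, (S j).w z.1 x *
          (Real.exp (G (trn T (lin (κ j ((S j).π z.1)) z.2 x))) / Real.exp T) ∧
        ∑ x, (S j).w z.1 x *
          (Real.exp (G (trn T (lin (κ j ((S j).π z.1)) z.2 x))) / Real.exp T) ≤ 1 := by
      intro z
      constructor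
      · calc a = ∑ x, (S j).w z.1 x * a := by rw [← Finset.sum_mul, (S j).w1, one_mul]
          _ ≤ _ := Finset.sum_le_sum fun x _ =>
            mul_le_mul_of_nonneg_left (hWa _) ((S j).w0 _ _)
      · calc _ ≤ ∑ x, (S j).w z.1 x * 1 := Finset.sum_le_sum fun x _ =>
            mul_le_mul_of_nonneg_left (hW1 _) ((S j).w0 _ _)
          _ = 1 := by rw [← Finset.sum_mul, (S j).w1, one_mul]
    have h4 : ∀ z : (S j).Ω × (K j → ℝ), Real.log (∑ x, (S j).w z.1 x *
        Real.exp (G (trn T (lin (κ j ((S j).π z.1)) z.2 x)))) = T + Real.log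
        (∑ x, (S j).w z.1 x *
          (Real.exp (G (trn T (lin (κ j ((S j).π z.1)) z.2 x))) / Real.exp T)) := by
      intro z
      have h5 : ∑ x, (S j).w z.1 x *
          Real.exp (G (trn T (lin (κ j ((S j).π z.1)) z.2 x))) = Real.exp T *
          ∑ x, (S j).w z.1 x *
          (Real.exp (G (trn T (lin (κ j ((S j).π z.1)) z.2 x))) / Real.exp T) := by
        rw [Finset.mul_sum]
        refine Finset.sum_congr rfl fun x _ => ?_
        have hc := (Real.exp_pos T).ne'
        (clear * - hc; field_simp)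
      rw [h5, Real.log_mul (Real.exp_pos T).ne' (ha0.trans_le (hmem z).1).ne', Real.log_exp]
    simp only [h4]
    have h9 : Integrable (fun z : (S j).Ω × (K j → ℝ) => Real.log
        (∑ x, (S j).w z.1 x *
          (Real.exp (G (trn T (lin (κ j ((S j).π z.1)) z.2 x))) / Real.exp T)))
        ((S j).P.prod (gM (K j))) := by
      refine Integrable.of_bound (C := -Real.log a) ?_ (Eventually.of_forall fun z => ?_)
      · apply Measurable.aestronglyMeasurable
        apply Real.measurable_log.comp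
        apply Finset.measurable_sum
        intro x _
        refine (((S j).hw x).comp measurable_fst).mul ?_
        exact hW.cont.measurable.comp (measurable_field (S j) (hκ.meas j) x)
      · rw [Real.norm_eq_abs, abs_le]
        obtain ⟨h10, h11⟩ := hmem z
        have h12 := Real.log_le_log ha0 h10
        have h13 := Real.log_nonpos (ha0.le.trans h10) h11
        constructor
        · linarith only [h12]
        · linarith only [h12, h13]
    rw [integral_add (integrable_const _) h9]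
    simp only [integral_const, probReal_univ, smul_eq_mul, one_mul]
  rw [h3]
  have e1 : ∀ X Y Z : ℝ, X + Y - (X + Z) = Y - Z := fun X Y Z => by ring
  rw [e1]
  exact hj

end Vale.Agent.P157.Par
end

section

open MeasureTheory ProbabilityTheory Filter Topology

namespace Vale.Agent.P157.Par

open Vale.Agent.P367.GT (gM)

namespace Sys

variable {S : Sys}

/-- integrable test functions -/
def TI (S : Sys) {n : ℕ} (F : S.T → (Fin n → S.X) → ℝ) : Prop :=
  ∀ x : Fin n → S.X, Integrable (fun ω => (∏ i, S.w ω (x i)) * F (S.π ω) x) S.P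

theorem TI.inn {n : ℕ} {F : S.T → (Fin n → S.X) → ℝ} (h : TI S F) :
    Integrable (fun ω => S.inn ω (F (S.π ω))) S.P :=
  integrable_finsetSum _ fun x _ => h x

theorem TI.add {n : ℕ} {F G : S.T → (Fin n → S.X) → ℝ} (hF : TI S F) (hG : TI S G) :
    TI S (fun t x => F t x + G t x) := fun x => by
  refine ((hF x).add (hG x)).congr (Eventually.of_forall fun ω => ?_)
  simp only [Pi.add_apply]
  ring

theorem TI.smul {n : ℕ} {F : S.T → (Fin n → S.X) → ℝ} (hF : TI S F) (c : ℝ) :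
    TI S (fun t x => c * F t x) := fun x => by
  refine ((hF x).const_mul c).congr (Eventually.of_forall fun ω => ?_)
  simp only
  ring

theorem TI.sum {n : ℕ} {I : Type*} (s : Finset I) {F : I → S.T → (Fin n → S.X) → ℝ}
    (hF : ∀ i ∈ s, TI S (F i)) : TI S (fun t x => ∑ i ∈ s, F i t x) := fun x => by
  have h := integrable_finsetSum s (fun i hi => hF i hi x)
  refine h.congr (Eventually.of_forall fun ω => ?_)
  simp only [Finset.mul_sum]

theorem TI.of_bdd {n : ℕ} {F : S.T → (Fin n → S.X) → ℝ} (hm : ∀ x, Measurable fun t => F t x)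
    {C : ℝ} (hC : ∀ t x, |F t x| ≤ C) : TI S F := fun x => by
  refine Integrable.of_bound (C := C) ?_ (Eventually.of_forall fun ω => ?_)
  · exact ((Finset.measurable_prod _ fun i _ => S.hw (x i)).mul
      ((hm x).comp S.hπ)).aestronglyMeasurable
  · rw [Real.norm_eq_abs, abs_mul, abs_of_nonneg (prod_w_nonneg ω x)]
    have h1 : ∏ i, S.w ω (x i) ≤ 1 :=
      Finset.prod_le_one (fun i _ => S.w0 ω (x i)) (fun i _ => w_le_one ω (x i))
    calc (∏ i, S.w ω (x i)) * |F (S.π ω) x| ≤ 1 * |F (S.π ω) x| :=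
          mul_le_mul_of_nonneg_right h1 (abs_nonneg _)
      _ ≤ C := by rw [one_mul]; exact hC _ _

theorem TI.const {n : ℕ} (c : ℝ) : TI S (n := n) (fun _ _ => c) :=
  TI.of_bdd (fun _ => measurable_const) (C := |c|) (fun _ _ => le_rfl)

theorem tavI_add {n : ℕ} {F G : S.T → (Fin n → S.X) → ℝ} (hF : TI S F) (hG : TI S G) :
    S.tav (fun t x => F t x + G t x) = S.tav F + S.tav G := by
  rw [tav_def, tav_def, tav_def, ← integral_add hF.inn hG.inn]
  exact integral_congr_ae (Eventually.of_forall fun ω => inn_add ω _ _)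

theorem tavI_sum {n : ℕ} {I : Type*} (s : Finset I) {F : I → S.T → (Fin n → S.X) → ℝ}
    (hF : ∀ i ∈ s, TI S (F i)) :
    S.tav (fun t x => ∑ i ∈ s, F i t x) = ∑ i ∈ s, S.tav (F i) := by
  classical
  induction s using Finset.induction_on with
  | empty => simp [tav_const]
  | insert a s ha ih =>
    have h1 : ∀ t (x : Fin n → S.X), ∑ i ∈ insert a s, F i t x = F a t x + ∑ i ∈ s, F i t x :=
      fun t x => Finset.sum_insert ha
    rw [tav_congr h1, tavI_add (hF a (Finset.mem_insert_self a s))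
      (TI.sum s fun i hi => hF i (Finset.mem_insert_of_mem hi)), Finset.sum_insert ha,
      ih fun i hi => hF i (Finset.mem_insert_of_mem hi)]

theorem TI.mono {n : ℕ} {F G : S.T → (Fin n → S.X) → ℝ} (hm : ∀ x, Measurable fun t => F t x)
    (h : ∀ t x, |F t x| ≤ G t x) (hG : TI S G) : TI S F := fun x => by
  refine (hG x).mono' ((Finset.measurable_prod _ fun i _ => S.hw (x i)).mul
      ((hm x).comp S.hπ)).aestronglyMeasurable (Eventually.of_forall fun ω => ?_)
  rw [Real.norm_eq_abs, abs_mul, abs_of_nonneg (prod_w_nonneg ω x)]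
  exact mul_le_mul_of_nonneg_left (h _ _) (prod_w_nonneg ω x)

/-- monotonicity; the smaller function need not be measurable -/
theorem tavI_mono {n : ℕ} {F G : S.T → (Fin n → S.X) → ℝ} (hF : ∀ t x, 0 ≤ F t x)
    (h : ∀ t x, F t x ≤ G t x) (hG : TI S G) : S.tav F ≤ S.tav G := by
  rw [tav_def, tav_def]
  exact integral_mono_of_nonneg (Eventually.of_forall fun ω => inn_nonneg ω (hF _)) hG.inn
    (Eventually.of_forall fun ω => inn_mono ω (h _))

theorem TI.absSub {n : ℕ} {F G : S.T → (Fin n → S.X) → ℝ} {v : ℝ}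
    (hm : ∀ x, Measurable fun t => |F t x - v|) (h : ∀ t x, |F t x| ≤ G t x) (hG : TI S G) :
    TI S (fun t x => |F t x - v|) := by
  refine TI.mono hm (fun t x => ?_) (hG.add (TI.const |v|))
  rw [abs_abs]
  exact (_root_.abs_sub _ _).trans (add_le_add (h t x) le_rfl)

/-- first moment from a second moment -/
theorem tavI_abs_of_sq {n : ℕ} {F G H : S.T → (Fin n → S.X) → ℝ} {v ε : ℝ} (hε : 0 < ε)
    (h : ∀ t x, |F t x - H t x| ≤ G t x) (hG : TI S G) (hG' : S.tav G ≤ ε / 2)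
    (hH : TI S (fun t x => (H t x - v) ^ 2))
    (hH' : S.tav (fun t x => (H t x - v) ^ 2) ≤ (ε / 2) ^ 2) :
    S.tav (fun t x => |F t x - v|) ≤ ε := by
  have hTI2 := hH.smul (1 / ε)
  have hTI1 := TI.const (S := S) (n := n) (ε / 4)
  refine (tavI_mono (fun t x => abs_nonneg _) (fun t x => ?_) (hG.add (hTI1.add hTI2))).trans ?_
  · have h2 : |H t x - v| ≤ ε / 4 + 1 / ε * (H t x - v) ^ 2 := by
      generalize H t x - v = y
      rw [← sq_abs y]
      have : ε / 4 + 1 / ε * |y| ^ 2 - |y| = 1 / ε * (|y| - ε / 2) ^ 2 := by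
        field_simp
        ring
      have h3 : 0 ≤ 1 / ε * (|y| - ε / 2) ^ 2 := by (clear * - hε; positivity)
      linarith only [this, h3]
    exact (abs_sub_le (F t x) (H t x) v).trans (add_le_add (h t x) h2)
  · rw [tavI_add hG (hTI1.add hTI2), tavI_add hTI1 hTI2, tav_const, tav_smul]
    have h2 : 1 / ε * S.tav (fun t x => (H t x - v) ^ 2) ≤ ε / 4 := by
      refine (mul_le_mul_of_nonneg_left hH' (by positivity)).trans (le_of_eq ?_)
      field_simp
      ring
    linarith only [hG', h2]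

/-- the constant is bounded -/
theorem tavI_const_le {n : ℕ} {F G : S.T → (Fin n → S.X) → ℝ} {v ε K : ℝ}
    (h : ∀ t x, |F t x| ≤ G t x) (hG : TI S G) (hG' : S.tav G ≤ K)
    (hF : TI S (fun t x => |F t x - v|)) (hF' : S.tav (fun t x => |F t x - v|) ≤ ε) :
    |v| ≤ K + ε := by
  have h2 : S.tav (n := n) (fun _ _ => |v|) ≤ S.tav (fun t x => G t x + |F t x - v|) := by
    refine tavI_mono (fun t x => abs_nonneg _) (fun t x => ?_) (hG.add hF)
    have h3 := abs_sub_abs_le_abs_sub v (F t x)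
    rw [abs_sub_comm v] at h3
    have h4 := h t x
    linarith
  rw [tav_const, tavI_add hG hF] at h2
  linarith only [hG', hF', h2]

end Sys

lemma bc_abs_exp_sub_one (x : ℝ) : |Real.exp x - 1| ≤ |x| * Real.exp |x| := by
  rcases le_total 0 x with h | h
  · rw [abs_of_nonneg h, abs_of_nonneg (by linarith [Real.add_one_le_exp x])]
    have h1 := Real.add_one_le_exp (-x)
    have h2 : Real.exp x * Real.exp (-x) = 1 := by rw [← Real.exp_add]; simp
    have h3 := Real.exp_pos x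
    nlinarith only [h2, h1, h3]
  · rw [abs_of_nonpos h, abs_of_nonpos (by
      have : Real.exp x ≤ 1 := Real.exp_le_one_iff.2 h
      linarith)]
    have h1 := Real.add_one_le_exp x
    have h2 : 1 ≤ Real.exp (-x) := Real.one_le_exp (by linarith only [h])
    nlinarith only [h1, h, h2]

/-- the estimate which replaces Cauchy-Schwarz -/
lemma bc_exp_young {lam : ℝ} (hl : 0 < lam) (x : ℝ) :
    |Real.exp x - 1| ≤ lam / 2 * |x| + 1 / (2 * lam) * Real.exp (3 * |x|) := by
  refine (bc_abs_exp_sub_one x).trans ?_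
  set y := |x| with hy
  have hy0 : 0 ≤ y := abs_nonneg x
  have e1 : Real.exp (3 * y) = Real.exp y * (Real.exp y) ^ 2 := by
    rw [← Real.exp_nat_mul, ← Real.exp_add]
    congr 1
    push_cast
    ring
  have e2 : y ≤ Real.exp y := by linarith [Real.add_one_le_exp y]
  have e3 : y * Real.exp y ^ 2 ≤ Real.exp (3 * y) := by
    rw [e1]
    exact mul_le_mul_of_nonneg_right e2 (by positivity)
  have e4 : y * Real.exp y ≤ lam / 2 * y + 1 / (2 * lam) * (y * Real.exp y ^ 2) := by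
    have h1 : lam / 2 * y + 1 / (2 * lam) * (y * Real.exp y ^ 2) - y * Real.exp y =
        y / (2 * lam) * (lam - Real.exp y) ^ 2 := by
      field_simp
      ring
    have h2 : 0 ≤ y / (2 * lam) * (lam - Real.exp y) ^ 2 := by (clear * - hl; positivity)
    linarith only [h1, h2]
  refine e4.trans ?_
  (clear * - e3 hl; gcongr)

/-- the exponential estimate -/
theorem Sys.tavI_exp {S : Sys} {n : ℕ} {F E : S.T → (Fin n → S.X) → ℝ} {b K K1 lam ε : ℝ}
    (hl : 0 < lam) (hK1 : 0 ≤ K1) (h : ∀ t x, Real.exp (3 * |F t x - b|) ≤ K1 * E t x)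
    (hE : TI S E) (hE' : S.tav E ≤ K) (hF : TI S (fun t x => |F t x - b|))
    (hF' : lam / 2 * S.tav (fun t x => |F t x - b|) ≤ ε / 2)
    (hK : K1 / (2 * lam) * K ≤ ε / 2) :
    S.tav (fun t x => |Real.exp (F t x - b) - 1|) ≤ ε := by
  refine (tavI_mono (fun t x => abs_nonneg _) (fun t x => ?_)
    ((hF.smul (lam / 2)).add (hE.smul (K1 / (2 * lam))))).trans ?_
  · refine (bc_exp_young hl _).trans (add_le_add le_rfl ?_)
    refine (mul_le_mul_of_nonneg_left (h t x) (by positivity)).trans (le_of_eq ?_)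
    ring
  · rw [tavI_add (hF.smul (lam / 2)) (hE.smul (K1 / (2 * lam))), tav_smul, tav_smul]
    have h2 := (mul_le_mul_of_nonneg_left hE' (show 0 ≤ K1 / (2 * lam) by positivity)).trans hK
    linarith only [hF', h2]

/-! ### the truncation -/

lemma bc_tanh_deriv (x : ℝ) : HasDerivAt Real.tanh (1 - Real.tanh x ^ 2) x := by
  have h1 : Real.tanh = Real.sinh / Real.cosh := by
    funext y
    exact Real.tanh_eq_sinh_div_cosh y
  have h2 := (Real.hasDerivAt_sinh x).div (Real.hasDerivAt_cosh x) (Real.cosh_pos x).ne'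
  rw [← h1] at h2
  refine h2.congr_deriv ?_
  rw [Real.tanh_eq_sinh_div_cosh]
  have h3 := (Real.cosh_pos x).ne'
  field_simp

lemma bc_tanh_sq_le (x : ℝ) : Real.tanh x ^ 2 ≤ 1 := by
  have h := (Real.abs_tanh_lt_one x).le
  rw [← sq_abs]
  nlinarith only [h, abs_nonneg (Real.tanh x)]

lemma bc_abs_tanh_le (x : ℝ) : |Real.tanh x| ≤ |x| := by
  have h := Convex.norm_image_sub_le_of_norm_hasDerivWithin_le (f := Real.tanh)
    (f' := fun x => 1 - Real.tanh x ^ 2) (C := 1) (s := Set.univ) (x := 0) (y := x)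
    (fun y _ => (bc_tanh_deriv y).hasDerivWithinAt)
    (fun y _ => by
      rw [Real.norm_eq_abs, abs_le]
      have := bc_tanh_sq_le y
      have := sq_nonneg (Real.tanh y)
      constructor <;> linarith) convex_univ (Set.mem_univ _) (Set.mem_univ _)
  simpa only [ge_iff_le, Real.tanh_zero, sub_zero, Real.norm_eq_abs, one_mul] using h

lemma bc_sub_tanh (y : ℝ) : |y - Real.tanh y| ≤ |y| ^ 3 := by
  have h := Convex.norm_image_sub_le_of_norm_hasDerivWithin_le (f := fun y => y - Real.tanh y)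
    (f' := fun x => 1 - (1 - Real.tanh x ^ 2)) (C := |y| ^ 2) (s := Set.Icc (-|y|) |y|) (x := 0)
    (y := y)
    (fun z _ => ((hasDerivAt_id z).sub (bc_tanh_deriv z)).hasDerivWithinAt)
    (fun z hz => by
      rw [Real.norm_eq_abs]
      have h1 : 1 - (1 - Real.tanh z ^ 2) = Real.tanh z ^ 2 := by ring
      rw [h1, abs_of_nonneg (sq_nonneg _), ← sq_abs]
      have h2 : |z| ≤ |y| := abs_le.2 hz
      exact pow_le_pow_left₀ (abs_nonneg _) ((bc_abs_tanh_le z).trans h2) 2)
    (convex_Icc _ _) ⟨by simp only [Left.neg_nonpos_iff, abs_nonneg], by simp only [abs_nonneg]⟩ ⟨neg_abs_le y, le_abs_self y⟩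
  simp only [Real.tanh_zero, sub_zero, Real.norm_eq_abs] at h
  calc |y - Real.tanh y| ≤ |y| ^ 2 * |y| := h
    _ = |y| ^ 3 := by ring

lemma bc_sub_trn {T : ℝ} (hT : 0 < T) (x : ℝ) : |x - trn T x| ≤ |x| ^ 3 / T ^ 2 := by
  have h1 : x - trn T x = T * (x / T - Real.tanh (x / T)) := by
    unfold trn
    field_simp
  rw [h1, abs_mul, abs_of_pos hT]
  calc T * |x / T - Real.tanh (x / T)| ≤ T * |x / T| ^ 3 :=
        mul_le_mul_of_nonneg_left (bc_sub_tanh _) hT.le
    _ = |x| ^ 3 / T ^ 2 := by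
        rw [abs_div, abs_of_pos hT]
        field_simp

lemma bc_trn_CB2 {T : ℝ} (hT : 0 < T) :
    CB2 (trn T) (fun x => 1 - Real.tanh (x / T) ^ 2)
      (fun x => -(2 * Real.tanh (x / T) * (1 - Real.tanh (x / T) ^ 2) / T)) := by
  have hc : Continuous Real.tanh := continuous_iff_continuousAt.2 fun x =>
    (bc_tanh_deriv x).continuousAt
  have hd : ∀ x, HasDerivAt (fun x => Real.tanh (x / T)) ((1 - Real.tanh (x / T) ^ 2) * (1 / T)) x :=
    fun x => (bc_tanh_deriv (x / T)).comp x (h := fun x => x / T) ((hasDerivAt_id x).div_const T)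
  refine ⟨fun x => ?_, fun x => ?_, by fun_prop, ⟨T, fun x => ?_⟩, ⟨1, fun x => ?_⟩,
    ⟨2 / T, fun x => ?_⟩⟩
  · refine ((hd x).const_mul T).congr_deriv ?_
    field_simp
  · refine (((hd x).pow 2).const_sub 1).congr_deriv ?_
    push_cast
    ring
  · unfold trn
    rw [abs_mul, abs_of_pos hT]
    exact mul_le_of_le_one_right hT.le (Real.abs_tanh_lt_one _).le
  · rw [abs_le]
    have := bc_tanh_sq_le (x / T)
    have := sq_nonneg (Real.tanh (x / T))
    constructor <;> linarith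
  · rw [abs_neg, abs_div, abs_of_pos hT]
    refine div_le_div_of_nonneg_right ?_ hT.le
    rw [abs_mul, abs_mul, abs_two]
    have h1 := (Real.abs_tanh_lt_one (x / T)).le
    have h2 : |1 - Real.tanh (x / T) ^ 2| ≤ 1 := by
      rw [abs_le]
      have := bc_tanh_sq_le (x / T)
      have := sq_nonneg (Real.tanh (x / T))
      constructor <;> linarith
    calc 2 * |Real.tanh (x / T)| * |1 - Real.tanh (x / T) ^ 2| ≤ 2 * 1 * 1 := by (clear * - h1 h2; gcongr)
      _ = 2 := by norm_num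

lemma bc_CB2_lin {g g' g'' k k' k'' : ℝ → ℝ} (h : CB2 g g' g'') (l : CB2 k k' k'') (a b : ℝ) :
    CB2 (fun x => a * g x + b * k x) (fun x => a * g' x + b * k' x)
      (fun x => a * g'' x + b * k'' x) := by
  obtain ⟨G0, g0⟩ := h.b0
  obtain ⟨G1, g1⟩ := h.b1
  obtain ⟨G2, g2⟩ := h.b2
  obtain ⟨K0, k0⟩ := l.b0
  obtain ⟨K1, k1⟩ := l.b1
  obtain ⟨K2, k2⟩ := l.b2
  have hm : ∀ {u v A B : ℝ}, |u| ≤ A → |v| ≤ B → |a * u + b * v| ≤ |a| * A + |b| * B := by
    intro u v A B hu hv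
    refine (abs_add_le _ _).trans ?_
    rw [abs_mul, abs_mul]
    gcongr
  exact ⟨fun x => ((h.d1 x).const_mul a).add ((l.d1 x).const_mul b),
    fun x => ((h.d2 x).const_mul a).add ((l.d2 x).const_mul b),
    (continuous_const.mul h.c2).add (continuous_const.mul l.c2),
    ⟨_, fun x => hm (g0 x) (k0 x)⟩, ⟨_, fun x => hm (g1 x) (k1 x)⟩, ⟨_, fun x => hm (g2 x) (k2 x)⟩⟩

/-! ### moments of sums of fields -/

section

variable {f : ℝ → ℝ} (hf : Measurable f) (C : ℝ) (hC : ∀ x, |f x| ≤ C)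

/-- first moments of the additive functionals of nonnegative functions -/
lemma bc_field {g : ℝ → ℝ} (hg0 : ∀ x, 0 ≤ g x) (hg : Integrable g (gaussianReal 0 1))
    (hgm : Measurable g) (N M P : ℕ) (s : ℝ) (u : Fin P → ℝ) :
    Sys.TI (pS f hf C hC N (M + 1) P s u) (n := 1)
      (fun t x => 1 / ((N : ℝ) + 2) * ∑ b, g (cubeS (t b) (x 0))) ∧
    (pS f hf C hC N (M + 1) P s u).tav (n := 1)
      (fun t x => 1 / ((N : ℝ) + 2) * ∑ b, g (cubeS (t b) (x 0))) ≤
        ((M : ℝ) + 1) / (N + 2) * (Real.exp (2 * C) * ∫ z, g z ∂(gaussianReal 0 1)) := by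
  have hW : ∀ x, (fun x => Real.exp (f x) / Real.exp C) x = Real.exp (f x) / Real.exp C :=
    fun _ => rfl
  have hWa : ∀ x, Real.exp (-(2 * C)) ≤ Real.exp (f x) / Real.exp C := fun x => by
    rw [← Real.exp_sub]
    refine Real.exp_le_exp.2 ?_
    linarith only [(abs_le.1 (hC x)).1]
  have hW1 : ∀ x, Real.exp (f x) / Real.exp C ≤ 1 := fun x => by
    rw [← Real.exp_sub]
    refine Real.exp_le_one_iff.2 ?_
    linarith only [(abs_le.1 (hC x)).2]
  have h := fun b => tav_field_le hf C hC N M P s u (Real.exp_pos C) hW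
    (Real.exp_pos (-(2 * C))) hWa hW1 hg0 hg hgm b
  have hTI : ∀ b ∈ Finset.univ, Sys.TI (pS f hf C hC N (M + 1) P s u) (n := 1)
      (fun t x => g (cubeS (t b) (x 0))) := fun b _ => (h b).1
  have hs := Sys.TI.sum Finset.univ hTI
  refine ⟨hs.smul _, ?_⟩
  rw [Sys.tav_smul, Sys.tavI_sum Finset.univ hTI]
  have h1 := Finset.sum_le_sum fun (b : Fin (M + 1)) (_ : b ∈ Finset.univ) => (h b).2
  rw [Finset.sum_const, Finset.card_univ, Fintype.card_fin, nsmul_eq_mul] at h1
  have e1 : (1 : ℝ) / Real.exp (-(2 * C)) = Real.exp (2 * C) := by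
    rw [Real.exp_neg, one_div, inv_inv]
  rw [e1] at h1
  push_cast at h1
  refine (mul_le_mul_of_nonneg_left h1 (by (clear * -; positivity))).trans (le_of_eq ?_)
  ring

end

lemma bc_addF {M N : ℕ} (δ : ℝ) (h : ℝ → ℝ) (t : Fin M → Fin (N + 1) → ℝ)
    (x : Fin 1 → Fin (N + 1) → Bool) : addF δ h t x = δ * ∑ a, h (cubeS (t a) (x 0)) := by
  unfold addF
  congr 1
  refine Finset.sum_congr rfl fun a _ => ?_
  simp only [Finset.univ_unique, Fin.default_eq_zero, Fin.isValue, Finset.prod_singleton]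

lemma bc_measurable_addF {M N : ℕ} {g : ℝ → ℝ} (hg : Measurable g) (δ v : ℝ)
    (x : Fin 1 → Fin (N + 1) → Bool) :
    Measurable fun t : Fin M → Fin (N + 1) → ℝ => (addF δ g t x - v) ^ 2 := by
  have h3 : ∀ a, Measurable fun t : Fin M → Fin (N + 1) → ℝ => cubeS (t a) (x 0) := fun a => by
    unfold cubeS
    fun_prop
  simp_rw [bc_addF]
  exact (((Finset.measurable_sum _ fun a _ => hg.comp (h3 a)).const_mul _).sub_const v).pow_const 2

lemma bc_addF_bdd {M N : ℕ} {g : ℝ → ℝ} {G0 : ℝ} (hG0 : ∀ x, |g x| ≤ G0) {δ : ℝ} (hδ : 0 ≤ δ)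
    (v : ℝ) (t : Fin M → Fin (N + 1) → ℝ) (x : Fin 1 → Fin (N + 1) → Bool) :
    |(addF δ g t x - v) ^ 2| ≤ (δ * (M * G0) + |v|) ^ 2 := by
  rw [abs_of_nonneg (sq_nonneg _), ← sq_abs]
  refine pow_le_pow_left₀ (abs_nonneg _) ?_ 2
  refine (abs_sub _ _).trans (add_le_add ?_ le_rfl)
  rw [bc_addF, abs_mul, abs_of_nonneg hδ]
  refine mul_le_mul_of_nonneg_left ?_ hδ
  refine (Finset.abs_sum_le_sum_abs _ _).trans ?_
  refine (Finset.sum_le_sum fun a _ => hG0 _).trans (le_of_eq ?_)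
  rw [Finset.sum_const, Finset.card_univ, Fintype.card_fin, nsmul_eq_mul]

lemma bc_cavB {M N : ℕ} (δ : ℝ) (f1 f2 : ℝ → ℝ) (t : Fin M → Fin (N + 1) → ℝ)
    (x : Fin 1 → Fin (N + 1) → Bool) :
    cavB δ f1 f2 (fun a => cubeS (t a) (x 0)) =
      δ * ∑ a, (f2 (cubeS (t a) (x 0)) - cubeS (t a) (x 0) * f1 (cubeS (t a) (x 0))) / 2 := by
  unfold cavB
  rw [Finset.mul_sum]
  refine Finset.sum_congr rfl fun a _ => ?_
  ring

lemma bc_int_abs_pow (k : ℕ) : Integrable (fun z : ℝ => |z| ^ k) (gaussianReal 0 1) := by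
  have h : MemLp (id : ℝ → ℝ) k (gaussianReal 0 1) := memLp_id_gaussianReal k
  have h2 := h.integrable_norm_pow'
  simpa only [id_eq, Real.norm_eq_abs] using h2

section

variable {f f1 f2 f3 : ℝ → ℝ} {C : ℝ}

lemma bc_measurable_cavB (hf : CB3 C f f1 f2 f3) {M N : ℕ} (δ b : ℝ)
    (x : Fin 1 → Fin (N + 1) → Bool) :
    Measurable fun t : Fin M → Fin (N + 1) → ℝ =>
      |cavB δ f1 f2 (fun a => cubeS (t a) (x 0)) - b| := by
  have h1 : Measurable f1 := (continuous_iff_continuousAt.2 fun x => (hf.d2 x).continuousAt).measurable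
  have h2 : Measurable f2 := (continuous_iff_continuousAt.2 fun x => (hf.d3 x).continuousAt).measurable
  have h3 : ∀ a, Measurable fun t : Fin M → Fin (N + 1) → ℝ => cubeS (t a) (x 0) := fun a => by
    unfold cubeS
    (clear * -; fun_prop)
  unfold cavB
  refine measurable_norm.comp (f := fun t : Fin M → Fin (N + 1) → ℝ =>
    (∑ a, δ / 2 * (f2 (cubeS (t a) (x 0)) - cubeS (t a) (x 0) * f1 (cubeS (t a) (x 0)))) - b) ?_
  refine (Finset.measurable_sum _ fun a _ => ?_).sub_const b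
  exact ((h2.comp (h3 a)).sub ((h3 a).mul (h1.comp (h3 a)))).const_mul _

/-- pointwise bound for the drift term -/
lemma bc_abs_cavB_le (hf : CB3 C f f1 f2 f3) {M N : ℕ} {δ : ℝ} (hδ : 0 ≤ δ)
    (t : Fin M → Fin (N + 1) → ℝ) (x : Fin 1 → Fin (N + 1) → Bool) :
    |cavB δ f1 f2 (fun a => cubeS (t a) (x 0))| ≤
      δ * ∑ a, C / 2 * (1 + |cubeS (t a) (x 0)|) := by
  have hC0 : 0 ≤ C := (abs_nonneg _).trans (hf.b0 0)
  rw [bc_cavB, abs_mul, abs_of_nonneg hδ]
  refine mul_le_mul_of_nonneg_left ?_ hδ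
  refine (Finset.abs_sum_le_sum_abs _ _).trans (Finset.sum_le_sum fun a _ => ?_)
  set z := cubeS (t a) (x 0)
  rw [abs_div, abs_two]
  have h1 : |f2 z - z * f1 z| ≤ C + |z| * C := by
    refine (abs_sub _ _).trans ?_
    rw [abs_mul]
    exact add_le_add (hf.b2 z) (mul_le_mul_of_nonneg_left (hf.b1 z) (abs_nonneg _))
  linarith only [h1]

/-- the drift term against its truncation -/
lemma bc_trunc (hf : CB3 C f f1 f2 f3) {T : ℝ} (hT : 0 < T) {M N : ℕ} {δ : ℝ} (hδ : 0 ≤ δ)
    (t : Fin M → Fin (N + 1) → ℝ) (x : Fin 1 → Fin (N + 1) → Bool) :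
    |cavB δ f1 f2 (fun a => cubeS (t a) (x 0)) -
      addF δ (fun s => 1 / 2 * f2 s + (-(1 / 2)) * (trn T s * f1 s)) t x| ≤
      δ * ∑ a, C / 2 / T ^ 2 * |cubeS (t a) (x 0)| ^ 3 := by
  have hC0 : 0 ≤ C := (abs_nonneg _).trans (hf.b0 0)
  rw [bc_cavB, bc_addF, ← mul_sub, ← Finset.sum_sub_distrib, abs_mul, abs_of_nonneg hδ]
  refine mul_le_mul_of_nonneg_left ?_ hδ
  refine (Finset.abs_sum_le_sum_abs _ _).trans (Finset.sum_le_sum fun a _ => ?_)
  set z := cubeS (t a) (x 0)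
  have h1 : (f2 z - z * f1 z) / 2 - (1 / 2 * f2 z + (-(1 / 2)) * (trn T z * f1 z)) =
      -(1 / 2 * ((z - trn T z) * f1 z)) := by ring
  rw [h1, abs_neg, abs_mul, abs_mul]
  have h2 := bc_sub_trn hT z
  have h3 := hf.b1 z
  have h4 : |(1 / 2 : ℝ)| = 1 / 2 := abs_of_pos (by norm_num)
  rw [h4]
  calc 1 / 2 * (|z - trn T z| * |f1 z|) ≤ 1 / 2 * (|z| ^ 3 / T ^ 2 * C) := by (clear * - h2 h3 hT; gcongr)
    _ = C / 2 / T ^ 2 * |z| ^ 3 := by ring

end

section

variable {f f1 f2 f3 : ℝ → ℝ} {C : ℝ}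

/-- first moment of the distance to a constant, from the second moment of the truncation -/
lemma bc_A1 (hf : CB3 C f f1 f2 f3) (hfm : Measurable f) (N M P : ℕ) (s : ℝ) (u : Fin P → ℝ)
    {T : ℝ} (hT : 0 < T) {g' g'' : ℝ → ℝ}
    (hg : CB2 (fun s => 1 / 2 * f2 s + (-(1 / 2)) * (trn T s * f1 s)) g' g'') {η₀ v : ℝ}
    (hη₀ : 0 < η₀)
    (hv : (pS f hfm C hf.b0 N (M + 1) P s u).tav (n := 1) (fun t x =>
      (addF (1 / ((N : ℝ) + 2)) (fun s => 1 / 2 * f2 s + (-(1 / 2)) * (trn T s * f1 s)) t x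
        - v) ^ 2) ≤ (η₀ / 2) ^ 2)
    (hB : ((M : ℝ) + 1) / (N + 2) *
      (Real.exp (2 * C) * ∫ z, C / 2 / T ^ 2 * |z| ^ 3 ∂(gaussianReal 0 1)) ≤ η₀ / 2) :
    (pS f hfm C hf.b0 N (M + 1) P s u).tav (n := 1) (fun t x =>
        |cavB (1 / ((N : ℝ) + 2)) f1 f2 (fun a => cubeS (t a) (x 0)) - v|) ≤ η₀ := by
  have hC0 : 0 ≤ C := (abs_nonneg _).trans (hf.b0 0)
  have hδ : 0 ≤ 1 / ((N : ℝ) + 2) := by (clear * -; positivity)
  obtain ⟨G0, hG0⟩ := hg.b0
  have hF := bc_field hfm C hf.b0 (g := fun z => C / 2 / T ^ 2 * |z| ^ 3)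
    (fun z => by (clear * - hC0 hT; positivity)) ((bc_int_abs_pow 3).const_mul _) (by fun_prop) N M P s u
  exact Sys.tavI_abs_of_sq (S := pS f hfm C hf.b0 N (M + 1) P s u) (n := 1)
    (F := fun t x => cavB (1 / ((N : ℝ) + 2)) f1 f2 (fun a => cubeS (t a) (x 0)))
    (H := fun t x =>
      addF (1 / ((N : ℝ) + 2)) (fun s => 1 / 2 * f2 s + (-(1 / 2)) * (trn T s * f1 s)) t x)
    hη₀ (fun t x => bc_trunc hf hT hδ t x) hF.1 (hF.2.trans hB)
    (Sys.TI.of_bdd (fun x => bc_measurable_addF hg.cont.measurable _ v x)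
      (fun t x => bc_addF_bdd hG0 hδ v t x)) hv

/-- the distance of the drift term to a constant is integrable -/
lemma bc_TI_abs (hf : CB3 C f f1 f2 f3) (hfm : Measurable f) (N M P : ℕ) (s : ℝ) (u : Fin P → ℝ)
    (hTI : Sys.TI (pS f hfm C hf.b0 N M P s u) (n := 1)
        (fun t x => 1 / ((N : ℝ) + 2) * ∑ a, C / 2 * (1 + |cubeS (t a) (x 0)|))) (v : ℝ) :
    Sys.TI (pS f hfm C hf.b0 N M P s u) (n := 1)
        (fun t x => |cavB (1 / ((N : ℝ) + 2)) f1 f2 (fun a => cubeS (t a) (x 0)) - v|) :=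
  Sys.TI.absSub (S := pS f hfm C hf.b0 N M P s u) (n := 1)
    (F := fun t x => cavB (1 / ((N : ℝ) + 2)) f1 f2 (fun a => cubeS (t a) (x 0)))
    (fun x => bc_measurable_cavB hf _ v x)
    (fun t x => bc_abs_cavB_le hf (by (clear * -; positivity)) t x) hTI

/-- the constant is bounded -/
lemma bc_A2 (hf : CB3 C f f1 f2 f3) (hfm : Measurable f) (N M P : ℕ) (s : ℝ) (u : Fin P → ℝ)
    (hTI : Sys.TI (pS f hfm C hf.b0 N M P s u) (n := 1)
        (fun t x => 1 / ((N : ℝ) + 2) * ∑ a, C / 2 * (1 + |cubeS (t a) (x 0)|))) {K0 η₀ v : ℝ}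
    (h0 : (pS f hfm C hf.b0 N M P s u).tav (n := 1)
        (fun t x => 1 / ((N : ℝ) + 2) * ∑ a, C / 2 * (1 + |cubeS (t a) (x 0)|)) ≤ K0)
    (h1 : (pS f hfm C hf.b0 N M P s u).tav (n := 1) (fun t x =>
        |cavB (1 / ((N : ℝ) + 2)) f1 f2 (fun a => cubeS (t a) (x 0)) - v|) ≤ η₀) :
    |v| ≤ K0 + η₀ :=
  Sys.tavI_const_le (S := pS f hfm C hf.b0 N M P s u) (n := 1)
    (F := fun t x => cavB (1 / ((N : ℝ) + 2)) f1 f2 (fun a => cubeS (t a) (x 0)))
    (G := fun t x => 1 / ((N : ℝ) + 2) * ∑ a, C / 2 * (1 + |cubeS (t a) (x 0)|))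
    (fun t x => bc_abs_cavB_le hf (by (clear * -; positivity)) t x) hTI h0
    (bc_TI_abs hf hfm N M P s u hTI v) h1

/-- the pointwise exponential bound -/
lemma bc_exp_pt (hf : CB3 C f f1 f2 f3) {N M : ℕ} {α B b : ℝ}
    (hM : (M : ℝ) ≤ (α + 1) * ((N : ℝ) + 2)) (hb : |b| ≤ B)
    (t : Fin M → Fin (N + 1) → ℝ) (x : Fin 1 → Fin (N + 1) → Bool) :
    Real.exp (3 * |cavB (1 / ((N : ℝ) + 2)) f1 f2 (fun a => cubeS (t a) (x 0)) - b|) ≤
      Real.exp (3 * B + 3 * ((α + 1) * (C / 2))) *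
        Real.exp (3 * (C / 2) * (1 / ((N : ℝ) + 2) * ∑ a, |cubeS (t a) (x 0)|)) := by
  have hC0 : 0 ≤ C := (abs_nonneg _).trans (hf.b0 0)
  have h3 := bc_abs_cavB_le hf (show 0 ≤ 1 / ((N : ℝ) + 2) by (clear * -; positivity)) t x
  rw [← Finset.mul_sum, Finset.sum_add_distrib, Finset.sum_const, Finset.card_univ,
    Fintype.card_fin, nsmul_eq_mul] at h3
  have h4 : |cavB (1 / ((N : ℝ) + 2)) f1 f2 (fun a => cubeS (t a) (x 0)) - b| ≤
      C / 2 * (1 / ((N : ℝ) + 2) * ∑ a, |cubeS (t a) (x 0)|) + (α + 1) * (C / 2) + B := by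
    refine (abs_sub _ _).trans (add_le_add (h3.trans ?_) hb)
    have h5 : 1 / ((N : ℝ) + 2) * M ≤ α + 1 := by
      rw [one_div, inv_mul_le_iff₀ (by positivity)]
      linarith only [hM]
    have h6 := mul_le_mul_of_nonneg_right h5 (show 0 ≤ C / 2 by (clear * - hC0; positivity))
    have h7 : ∀ y : ℝ, 1 / ((N : ℝ) + 2) * (C / 2 * (M * 1 + y)) =
        C / 2 * (1 / ((N : ℝ) + 2) * y) + 1 / ((N : ℝ) + 2) * M * (C / 2) := by
      intro y
      ring
    rw [h7]
    exact add_le_add le_rfl h6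
  rw [← Real.exp_add]
  refine Real.exp_le_exp.2 ?_
  refine (mul_le_mul_of_nonneg_left h4 (by norm_num : (0 : ℝ) ≤ 3)).trans (le_of_eq ?_)
  ring

/-- the exponential estimate -/
lemma bc_B (hf : CB3 C f f1 f2 f3) (hfm : Measurable f) (N M P : ℕ) (s : ℝ) (u : Fin P → ℝ)
    (hTI : Sys.TI (pS f hfm C hf.b0 N M P s u) (n := 1)
        (fun t x => 1 / ((N : ℝ) + 2) * ∑ a, C / 2 * (1 + |cubeS (t a) (x 0)|)))
    {α K B b lam η : ℝ} (hM : (M : ℝ) ≤ (α + 1) * ((N : ℝ) + 2)) (hb : |b| ≤ B)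
    (hE : Sys.TI (pS f hfm C hf.b0 N M P s u) (n := 1)
      (fun t x => Real.exp (3 * (C / 2) * (1 / ((N : ℝ) + 2) * ∑ a, |cubeS (t a) (x 0)|))))
    (hE2 : (pS f hfm C hf.b0 N M P s u).tav (n := 1) (fun t x =>
        Real.exp (3 * (C / 2) * (1 / ((N : ℝ) + 2) * ∑ a, |cubeS (t a) (x 0)|))) ≤ K)
    (hl : 0 < lam)
    (h1 : lam / 2 * (pS f hfm C hf.b0 N M P s u).tav (n := 1) (fun t x =>
        |cavB (1 / ((N : ℝ) + 2)) f1 f2 (fun a => cubeS (t a) (x 0)) - b|) ≤ η / 2)
    (h2 : Real.exp (3 * B + 3 * ((α + 1) * (C / 2))) / (2 * lam) * K ≤ η / 2) :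
    (pS f hfm C hf.b0 N M P s u).tav (n := 1) (fun t x =>
        |Real.exp (cavB (1 / ((N : ℝ) + 2)) f1 f2 (fun a => cubeS (t a) (x 0)) - b) - 1|) ≤
          η :=
  Sys.tavI_exp (S := pS f hfm C hf.b0 N M P s u) (n := 1)
    (F := fun t x => cavB (1 / ((N : ℝ) + 2)) f1 f2 (fun a => cubeS (t a) (x 0)))
    (E := fun t x => Real.exp (3 * (C / 2) * (1 / ((N : ℝ) + 2) * ∑ a, |cubeS (t a) (x 0)|)))
    hl (Real.exp_pos _).le (fun t x => bc_exp_pt hf hM hb t x) hE hE2
    (bc_TI_abs hf hfm N M P s u hTI b) h1 h2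

end

section BCONC

/-- The order `δ` term of the linearized energy is asymptotically constant. -/
theorem cavB_conc {f f1 f2 f3 : ℝ → ℝ} {C : ℝ} (hf : CB3 C f f1 f2 f3) (hfm : Measurable f)
    (hf1 : ∃ g' g'', CB2 f1 g' g'') (hf2 : ∃ g' g'', CB2 f2 g' g'')
    {U : Ultrafilter ℕ} {N M P : ℕ → ℕ} {s : ℕ → ℝ} {u : ∀ j, Fin (P j) → ℝ} {α : ℝ}
    (hα : 0 < α) (hMN : Tendsto (fun j => ((M j : ℝ) + 1) / (N j + 2)) U (𝓝 α))
    (hconc : ∀ g g' g'' : ℝ → ℝ, CB2 g g' g'' → ∀ η > 0, ∃ v : ℝ, ∀ᶠ j in (U : Filter ℕ),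
      (pS f hfm C hf.b0 (N j) (M j + 1) (P j) (s j) (u j)).tav (n := 1)
        (fun t x => (addF (1 / ((N j : ℝ) + 2)) g t x - v) ^ 2) ≤ η) :
    ∀ η > 0, ∃ b : ℝ, ∀ᶠ j in (U : Filter ℕ),
      (pS f hfm C hf.b0 (N j) (M j + 1) (P j) (s j) (u j)).tav (n := 1) (fun t x =>
        |cavB (1 / ((N j : ℝ) + 2)) f1 f2 (fun a => cubeS (t a) (x 0)) - b|) ≤ η ∧
      (pS f hfm C hf.b0 (N j) (M j + 1) (P j) (s j) (u j)).tav (n := 1) (fun t x =>
        |Real.exp (cavB (1 / ((N j : ℝ) + 2)) f1 f2 (fun a => cubeS (t a) (x 0)) - b) - 1|) ≤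
          η := by
  have hC0 : 0 ≤ C := (abs_nonneg _).trans (hf.b0 0)
  obtain ⟨f1', f1'', hf1⟩ := hf1
  obtain ⟨f2', f2'', hf2⟩ := hf2
  -- the number of patterns
  have hMα : ∀ᶠ j in (U : Filter ℕ), ((M j : ℝ) + 1) / (N j + 2) ≤ α + 1 :=
    hMN.eventually (ge_mem_nhds (show α < α + 1 by linarith only []))
  -- the moments of the fields
  have hI0 : Integrable (fun z : ℝ => C / 2 * (1 + |z|)) (gaussianReal 0 1) := by
    have h1 : Integrable (fun z : ℝ => |z|) (gaussianReal 0 1) := by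
      have := bc_int_abs_pow 1
      simpa only [pow_one] using this
    exact ((integrable_const _).add h1).const_mul _
  have hm0 : Measurable (fun z : ℝ => C / 2 * (1 + |z|)) := by fun_prop
  have hI00 : 0 ≤ ∫ z, C / 2 * (1 + |z|) ∂(gaussianReal 0 1) :=
    integral_nonneg fun z => by (clear * - hC0; positivity)
  set K0 : ℝ := (α + 1) * (Real.exp (2 * C) * ∫ z, C / 2 * (1 + |z|) ∂(gaussianReal 0 1)) with hK0
  -- first moment of the drift term
  have hfirst : ∀ᶠ j in (U : Filter ℕ),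
      Sys.TI (pS f hfm C hf.b0 (N j) (M j + 1) (P j) (s j) (u j)) (n := 1)
        (fun t x => 1 / ((N j : ℝ) + 2) * ∑ a, C / 2 * (1 + |cubeS (t a) (x 0)|)) ∧
      (pS f hfm C hf.b0 (N j) (M j + 1) (P j) (s j) (u j)).tav (n := 1)
        (fun t x => 1 / ((N j : ℝ) + 2) * ∑ a, C / 2 * (1 + |cubeS (t a) (x 0)|)) ≤ K0 := by
    filter_upwards [hMα] with j hj
    have h := bc_field hfm C hf.b0 (g := fun z => C / 2 * (1 + |z|)) (fun z => by (clear * - hC0; positivity))
      hI0 hm0 (N j) (M j) (P j) (s j) (u j)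
    exact ⟨h.1, h.2.trans (mul_le_mul_of_nonneg_right hj (by (clear * - hC0; positivity)))⟩
  -- STEP A
  have stepA : ∀ η₀ > 0, ∃ v : ℝ, |v| ≤ K0 + η₀ ∧ ∀ᶠ j in (U : Filter ℕ),
      (pS f hfm C hf.b0 (N j) (M j + 1) (P j) (s j) (u j)).tav (n := 1) (fun t x =>
        |cavB (1 / ((N j : ℝ) + 2)) f1 f2 (fun a => cubeS (t a) (x 0)) - v|) ≤ η₀ := by
    intro η₀ hη₀
    set m3 : ℝ := ∫ z, |z| ^ 3 ∂(gaussianReal 0 1) with hm3
    have hm30 : 0 ≤ m3 := integral_nonneg fun z => by (clear * -; positivity)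
    -- the truncation level
    obtain ⟨T, hT1, hT2⟩ : ∃ T : ℝ, 1 ≤ T ∧
        (α + 1) * (Real.exp (2 * C) * (C / 2 / T ^ 2 * m3)) ≤ η₀ / 2 := by
      set A : ℝ := (α + 1) * (Real.exp (2 * C) * (C / 2 * m3)) with hA
      have hA0 : 0 ≤ A := by (clear * - hα hC0; positivity)
      have hA1 : 0 ≤ A / (η₀ / 2) := by (clear * - hα hC0 hη₀; positivity)
      refine ⟨1 + A / (η₀ / 2), by linarith only [hA1], ?_⟩
      set T := 1 + A / (η₀ / 2) with hT
      have hT1 : 1 ≤ T := by linarith only [hA1, hT]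
      have e1 : (α + 1) * (Real.exp (2 * C) * (C / 2 / T ^ 2 * m3)) = A / T ^ 2 := by
        rw [hA]
        ring
      rw [e1, div_le_iff₀ (by (clear * - hα hC0 hη₀; positivity))]
      have e2 : A ≤ η₀ / 2 * T := by
        rw [hT]
        have : η₀ / 2 * (1 + A / (η₀ / 2)) = η₀ / 2 + A := by
          (clear * - hη₀ hA0; field_simp)
        rw [this]
        linarith only [hη₀]
      have e3 : T ≤ T ^ 2 := by nlinarith only [hA1, hT]
      exact e2.trans (mul_le_mul_of_nonneg_left e3 (by (clear * - hη₀; positivity)))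
    have hT0 : 0 < T := by linarith only [hT1]
    have hgC := bc_CB2_lin hf2 ((bc_trn_CB2 hT0).mul hf1) (1 / 2) (-(1 / 2))
    obtain ⟨v, hv⟩ := hconc _ _ _ hgC ((η₀ / 2) ^ 2) (by (clear * - hη₀; positivity))
    have hev : ∀ᶠ j in (U : Filter ℕ),
      (pS f hfm C hf.b0 (N j) (M j + 1) (P j) (s j) (u j)).tav (n := 1) (fun t x =>
        |cavB (1 / ((N j : ℝ) + 2)) f1 f2 (fun a => cubeS (t a) (x 0)) - v|) ≤ η₀ := by
      filter_upwards [hMα, hv] with j hj hvj
      refine bc_A1 hf hfm (N j) (M j) (P j) (s j) (u j) hT0 hgC hη₀ hvj ?_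
      rw [integral_const_mul]
      exact (mul_le_mul_of_nonneg_right hj (by (clear * - hC0 hT1; positivity))).trans hT2
    obtain ⟨j, hj1, hj2⟩ := (hev.and hfirst).exists
    exact ⟨v, bc_A2 hf hfm (N j) (M j + 1) (P j) (s j) (u j) hj2.1 hj2.2 hj1, hev⟩
  -- STEP B
  intro η hη
  obtain ⟨K, hK⟩ := exp_moment hfm C hf.b0 α (3 * (C / 2)) (by (clear * - hC0; positivity))
  set K1 : ℝ := Real.exp (3 * (K0 + 1) + 3 * ((α + 1) * (C / 2))) with hK1
  set K2 : ℝ := K1 * (|K| + 1) with hK2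
  have hK1p : 0 < K1 := Real.exp_pos _
  have hK2p : 0 < K2 := by (clear * -; positivity)
  set lam : ℝ := K2 / η with hlam
  have hlp : 0 < lam := by (clear * - hη; positivity)
  set η₀ : ℝ := min (min η 1) (η / lam) with hη₀
  have hη₀p : 0 < η₀ := by (clear * - hη; positivity)
  have hη₀1 : η₀ ≤ 1 := (min_le_left _ _).trans (min_le_right _ _)
  have hη₀η : η₀ ≤ η := (min_le_left _ _).trans (min_le_left _ _)
  have hη₀l : η₀ ≤ η / lam := min_le_right _ _
  obtain ⟨b, hb, hev⟩ := stepA η₀ hη₀p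
  refine ⟨b, ?_⟩
  filter_upwards [hev, hfirst, hMα] with j hj hj2 hjM
  refine ⟨hj.trans hη₀η, ?_⟩
  have hN2 : (0 : ℝ) < (N j : ℝ) + 2 := by (clear * -; positivity)
  have hM1 : ((M j + 1 : ℕ) : ℝ) ≤ (α + 1) * ((N j : ℝ) + 2) := by
    rw [div_le_iff₀ hN2] at hjM
    push_cast
    exact hjM
  have hKj := hK (N j) (M j + 1) (P j) (s j) (u j) hM1
  refine bc_B (α := α) (K := |K| + 1) (B := K0 + 1) (lam := lam) hf hfm (N j) (M j + 1) (P j)
    (s j) (u j) hj2.1 hM1 (hb.trans (by linarith only [hη₀1])) hKj.1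
    (hKj.2.trans (by linarith only [le_abs_self K])) hlp ?_ ?_
  · calc _ ≤ lam / 2 * (η / lam) := mul_le_mul_of_nonneg_left (hj.trans hη₀l) (by (clear * - hη; positivity))
      _ = η / 2 := by (clear * - hlp hη; field_simp)
  · rw [← hK1]
    apply le_of_eq
    have : K1 / (2 * lam) * (|K| + 1) = K2 / (2 * lam) := by rw [hK2]; ring
    rw [this, hlam]
    (clear * - hK2p hη; field_simp)

end BCONC

end Vale.Agent.P157.Par
end

section

open MeasureTheory ProbabilityTheory Filter Topology Finset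

namespace Vale.Agent.P157.Par

set_option linter.unusedSectionVars false

open Vale.Agent.P367.GT (gM)

lemma final_arith {X1 Y1 X2 Y2 dM Ψ DN p ε α tB tE DA iT casc ao rk xk Sg Dc Di Dm e0 e1 : ℝ}
    (hε : 0 < ε) (hα : 0 < α) (hDA : 0 ≤ DA) (hDc : 0 ≤ Dc) (hDi : 0 ≤ Di)
    (he1 : e1 = ε / (24 * (Dc + Di + 1))) (he0 : e0 ≤ ε / (12 * (α * Dm + 1)))
    (hDm : 0 ≤ Dm)
    (h1 : |X1 - Y1| ≤ Dc * (e1 / 2) + ε / 12) (h2 : |X2 - Y2| ≤ Di * e1 + ε / 12)
    (h3 : |dM - Ψ| ≤ Dm * e0 + ε / (12 * (α + 1))) (h4 : DN + α * dM ≤ p + ε / 12)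
    (h5 : tB ≤ ε / (24 * (DA + 1)) ∧ tE ≤ ε / (24 * (DA + 1)))
    (v1 : casc + (ao - rk) / 2 ≤ Y1 + ε / 12)
    (v2 : Y2 ≤ 1 / 2 * Sg + (ao - xk) / 2 + ε / 12)
    (v3 : X1 - X2 - DA * (tB + tE + iT) ≤ DN) (v4 : DA * iT ≤ ε / 12) :
    α * Ψ + (casc - rk / 2) + 1 / 2 * (xk - Sg) ≤ p + ε := by
  have a1 := (abs_le.1 h1).1
  have a2 := (abs_le.1 h2).2
  have a3 := (abs_le.1 h3).1
  have b1 : (Dc + Di) * e1 ≤ ε / 24 := by
    rw [he1, show (Dc + Di) * (ε / (24 * (Dc + Di + 1))) =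
      ((Dc + Di) / (Dc + Di + 1)) * (ε / 24) by (clear * - hDc hDi hε; field_simp)]
    apply mul_le_of_le_one_left (by positivity)
    rw [div_le_one (by (clear * - hDc hDi; positivity))]
    linarith only []
  have b2 : α * (Dm * e0) ≤ ε / 12 := by
    have h6 : α * Dm * e0 ≤ α * Dm * (ε / (12 * (α * Dm + 1))) :=
      mul_le_mul_of_nonneg_left he0 (by (clear * - hα hDm; positivity))
    have h7 : α * Dm * (ε / (12 * (α * Dm + 1))) ≤ ε / 12 := by
      rw [show α * Dm * (ε / (12 * (α * Dm + 1))) = (α * Dm / (α * Dm + 1)) * (ε / 12) by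
        field_simp]
      apply mul_le_of_le_one_left (by positivity)
      rw [div_le_one (by (clear * - hα hDm; positivity))]
      linarith only []
    linarith only [h6, h7]
  have b3 : α * (ε / (12 * (α + 1))) ≤ ε / 12 := by
    rw [show α * (ε / (12 * (α + 1))) = (α / (α + 1)) * (ε / 12) by field_simp]
    apply mul_le_of_le_one_left (by positivity)
    rw [div_le_one (by positivity)]
    linarith only []
  have b4 : DA * (ε / (24 * (DA + 1))) ≤ ε / 24 := by
    rw [show DA * (ε / (24 * (DA + 1))) = (DA / (DA + 1)) * (ε / 24) by (clear * - hDA hε; field_simp)]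
    apply mul_le_of_le_one_left (by positivity)
    rw [div_le_one (by positivity)]
    linarith only []
  have b5 := mul_le_mul_of_nonneg_left h5.1 hDA
  have b6 := mul_le_mul_of_nonneg_left h5.2 hDA
  have b7 : α * Ψ ≤ α * dM + α * (Dm * e0) + α * (ε / (12 * (α + 1))) := by
    have : Ψ ≤ dM + Dm * e0 + ε / (12 * (α + 1)) := by linarith only [a3]
    have h8 := mul_le_mul_of_nonneg_left this hα.le
    linarith only [h8]
  have b8 : Dc * (e1 / 2) + Di * e1 ≤ ε / 24 := by
    have h9 : 0 ≤ e1 := by rw [he1]; (clear * - hε hDc hDi; positivity)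
    have h10 : Dc * (e1 / 2) ≤ Dc * e1 := mul_le_mul_of_nonneg_left (by linarith only [h9]) hDc
    linarith only [b1, h10]
  linarith only [hε, h4, v1, v2, v3, v4, a1, a2, b2, b3, b4, b5, b6, b7, b8]

section

variable {C c₀ a : ℝ} {f f1 f2 f3 : ℝ → ℝ} (hf : Pot C c₀ a f f1 f2 f3) (hfm : Measurable f)
  {α : ℝ} (hα : 0 < α) {U : Ultrafilter ℕ} {N M P : ℕ → ℕ} {s : ℕ → ℝ} {u : ∀ j, Fin (P j) → ℝ}
  (hs : SeqOK f hfm C hf.cb3.b0 α U N M P s u)

include hα hs

/-- The drift is asymptotically constant. -/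
theorem drift_const : ∀ η > 0, ∃ b : ℝ, ∀ᶠ j in (U : Filter ℕ),
      (pS f hfm C hf.cb3.b0 (N j) (M j + 1) (P j) (s j) (u j)).tav (n := 1) (fun t x =>
        |cavB (1 / ((N j : ℝ) + 2)) f1 f2 (fun a => cubeS (t a) (x 0)) - b|) ≤ η ∧
      (pS f hfm C hf.cb3.b0 (N j) (M j + 1) (P j) (s j) (u j)).tav (n := 1) (fun t x =>
        |Real.exp (cavB (1 / ((N j : ℝ) + 2)) f1 f2 (fun a => cubeS (t a) (x 0)) - b) - 1|) ≤
          η := by
  refine cavB_conc hf.cb3 hfm hf.cf1 hf.cf2 hα hs.hMN fun g g' g'' hg η hη => ?_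
  obtain ⟨D, hD, hD'⟩ := rhoC_one hf hfm hα hg
  obtain ⟨k, b, w, q, hm⟩ := exists_mesh' hs.hgg (ε := η / (2 * (D + 1))) (by positivity)
  refine ⟨α * ov (fun x => Real.exp (f x) / c₀) g k w q, ?_⟩
  filter_upwards [hD' U N M P s u hs k b w q _ hm (η / 2) (by (clear * - hη; positivity))] with j hj
  refine hj.trans ?_
  have h3 : D * (η / (2 * (D + 1))) ≤ η / 2 := by
    rw [show D * (η / (2 * (D + 1))) = (D / (D + 1)) * (η / 2) by (clear * - hD hη; field_simp)]
    apply mul_le_of_le_one_left (by positivity)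
    rw [div_le_one (by positivity)]
    linarith only []
  linarith only [h3]

end

end Vale.Agent.P157.Par
end

section

open MeasureTheory ProbabilityTheory Filter Topology Finset

namespace Vale.Agent.P157.Par

set_option linter.unusedSectionVars false

open Vale.Agent.P367.GT (gM)

section

variable {C c₀ a : ℝ} {f f1 f2 f3 : ℝ → ℝ} (hf : Pot C c₀ a f f1 f2 f3) (hfm : Measurable f)
  {α : ℝ} (hα : 0 < α) {U : Ultrafilter ℕ} {N M P : ℕ → ℕ} {s : ℕ → ℝ} {u : ∀ j, Fin (P j) → ℝ}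
  (hs : SeqOK f hfm C hf.cb3.b0 α U N M P s u)

include hα hs

/-- The value of the two increments. -/
theorem lower_ineq_x {p : ℝ} (hfin : ∀ ε > 0, ∀ᶠ j in (U : Filter ℕ),
      cubeDN f f1 f2 hfm C hf.cb3.b0 (N j) (M j + 1) (P j) (s j) (u j) +
        α * (pS f hfm C hf.cb3.b0 (N j) (M j) (P j) (s j) (u j)).dM f ≤ p + ε) :
    ∀ ε > 0, ∃ e0 > 0, ∀ (k : ℕ) (b : Fin k → ℝ) (w : Fin (k + 1) → ℝ) (q : ℕ → ℝ) (e : ℝ),
      Mesh U (fun j => pS f hfm C hf.cb3.b0 (N j) (M j) (P j) (s j) (u j)) b w q e → e ≤ e0 →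
      parisi α f k (mOf w) q (rr α (fun x => Real.exp (f x) / c₀) f1 k w q) ≤ p + ε := by
  intro ε hε
  obtain ⟨A, hA⟩ := hs.hb
  have hC0 : 0 ≤ C := (abs_nonneg _).trans (hf.cb3.b0 0)
  obtain ⟨g', g'', hg⟩ := hf.cf1
  obtain ⟨p', p'', hp⟩ := hg.sq_fn
  -- the constants
  obtain ⟨DA, hDA, hDA'⟩ := cubeDN_trunc (A * C ^ 2)
  obtain ⟨T1, hT1⟩ := spin_val_cosh (α * C ^ 2) (ε / 12) (by positivity)
  obtain ⟨T2, hT2⟩ := spin_val_id (α * C ^ 2) (ε / 12) (by positivity)
  obtain ⟨T3, hT3⟩ := spv_choose DA (ε := ε / 12) (by positivity)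
  set T := max (max T1 T2) (max T3 1) with hT
  have hTT1 : T1 ≤ T := (le_max_left _ _).trans (le_max_left _ _)
  have hTT2 : T2 ≤ T := (le_max_right _ _).trans (le_max_left _ _)
  have hTT3 : T3 ≤ T := (le_max_left _ _).trans (le_max_right _ _)
  have hT1' : 1 ≤ T := (le_max_right _ _).trans (le_max_right _ _)
  have hT0 : 0 < T := by linarith only [hT1']
  obtain ⟨b₀, hb₀⟩ := drift_const hf hfm hα hs (ε / (24 * (DA + 1))) (by (clear * - hε hDA; positivity))
  obtain ⟨Dc, hDc, hDc'⟩ := trn_lim spv_logcosh hT0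
  obtain ⟨Di, hDi, hDi'⟩ := trn_lim spv_idG hT0
  obtain ⟨Dm, hDm, hDm'⟩ := dM_lim hf hfm
  obtain ⟨Dk, hDk, hDk'⟩ := kerClose_ker1 hf hfm hα
  -- the tolerance of the kernels
  set e1 := ε / (24 * (Dc + Di + 1)) with he1
  have he1' : 0 < e1 := by (clear * - hε hDc hDi; positivity)
  set e0 := min (e1 ^ 2 / (8 * (Dk + 1))) (min (e1 / (4 * (α * C ^ 2 + 1)))
    (ε / (12 * (α * Dm + 1)))) with he0
  have he0' : 0 < e0 := by
    refine lt_min (by (clear * - hε hDc hDi hDk; positivity)) (lt_min (by (clear * - hε hDc hDi hα; positivity)) (by positivity))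
  refine ⟨e0, he0', fun k b w q e hm hle => ?_⟩
  set r := rr α (fun x => Real.exp (f x) / c₀) f1 k w q with hr
  set o := ov (fun x => Real.exp (f x) / c₀) (fun y => f1 y ^ 2) k w q with ho
  have hrpath : Path k r := rr_path hf hα hm.lim.wpos q
  have hro : r k ≤ α * o := rr_le_ov hf hα hm.lim.wpos q
  have hoC : α * o ≤ α * C ^ 2 := by
    apply mul_le_mul_of_nonneg_left _ hα.le
    exact le_of_abs_le (ov_abs_le hf.a0 hf.cb2W hf.Wa hf.W1 hm.lim.wpos q hp (fun y => by
      rw [abs_pow]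
      exact pow_le_pow_left₀ (abs_nonneg _) (hf.cb3.b1 y) 2))
  have hr0 : ∀ l ≤ k, 0 ≤ r l := fun l hl => rr_nonneg hf hα hm.lim.wpos q hl
  have hq0 : ∀ l ≤ k, 0 ≤ q l := fun l hl =>
    hm.path.1.trans (path_mono hm.path.2 0 l (Nat.zero_le _) hl)
  have hqmono := path_mono hm.path.2
  have hrmono := path_mono hrpath.2
  have hxpath : Path k (fun l => r l * q l) :=
    ⟨mul_nonneg (hr0 0 (Nat.zero_le _)) (hq0 0 (Nat.zero_le _)), fun l hl =>
      mul_le_mul (hrpath.2 l hl) (hm.path.2 l hl) (hq0 l hl.le) (hr0 (l + 1) hl)⟩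
  have hxk : r k * q k ≤ r k := mul_le_of_le_one_right (hr0 k le_rfl) hm.le1
  have hmm : ∀ l, 1 ≤ l → l ≤ k → 0 < mOf w l ∧ mOf w l ≤ 1 := fun l hl _ =>
    ⟨mOf_pos hm.lim.wpos hl, mOf_le_one hm.lim.wpos hm.lim.wsum l⟩
  -- the kernels
  have hDk1 : Dk * e < (e1 / 2) ^ 2 := by
    have h0 : Dk * e ≤ Dk * e0 := mul_le_mul_of_nonneg_left hle hDk
    have h1 : Dk * e0 ≤ Dk * (e1 ^ 2 / (8 * (Dk + 1))) :=
      mul_le_mul_of_nonneg_left (min_le_left _ _) hDk
    have h2 : Dk * (e1 ^ 2 / (8 * (Dk + 1))) ≤ e1 ^ 2 / 8 := by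
      rw [show Dk * (e1 ^ 2 / (8 * (Dk + 1))) = (Dk / (Dk + 1)) * (e1 ^ 2 / 8) by (clear * - hDk he1'; field_simp)]
      apply mul_le_of_le_one_left (by (clear * - hε hDc hDi; positivity))
      rw [div_le_one (by (clear * - hDk; positivity))]
      linarith only []
    have h3 : 0 < e1 ^ 2 := by (clear * - hε hDc hDi; positivity)
    have h4 : (e1 / 2) ^ 2 = e1 ^ 2 / 4 := by ring
    rw [h4]
    linarith only [h0, h1, h2, h3]
  obtain ⟨B1, hk1⟩ := hDk' U N M P s u hs k b w q e hm (e1 / 2) (by (clear * - hε hDc hDi; positivity)) hDk1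
  have hαC : 0 ≤ α * C ^ 2 := by (clear * - hα; positivity)
  have hlt : e1 / 2 + α * C ^ 2 * e < e1 := by
    have h0 : α * C ^ 2 * e ≤ α * C ^ 2 * e0 := mul_le_mul_of_nonneg_left hle hαC
    have h1 : α * C ^ 2 * e0 ≤ α * C ^ 2 * (e1 / (4 * (α * C ^ 2 + 1))) :=
      mul_le_mul_of_nonneg_left ((min_le_right _ _).trans (min_le_left _ _)) hαC
    have h2 : α * C ^ 2 * (e1 / (4 * (α * C ^ 2 + 1))) ≤ e1 / 4 := by
      rw [show α * C ^ 2 * (e1 / (4 * (α * C ^ 2 + 1))) =
        (α * C ^ 2 / (α * C ^ 2 + 1)) * (e1 / 4) by (clear * - hα he1'; field_simp)]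
      apply mul_le_of_le_one_left (by (clear * - hε hDc hDi; positivity))
      rw [div_le_one (by (clear * - hα; positivity))]
      linarith only []
    linarith only [he1', h0, h1, h2]
  obtain ⟨B2, hk2⟩ := kerClose_ker2 hf hfm hα hs hm hk1 hlt
  have hL1 := limData_succ hf hfm hs.hgg hs.hgg1 hm.lim
  -- the four limits
  have l1 := hDc' U _ k b w hL1 _ (incr_stop_nonneg hrpath) _ _ B1 (sub_nonneg.2 hro)
    (by (clear * - hε hDc hDi; positivity)) _ _ hk1 (ε / 12) (by positivity)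
  have l2 := hDi' U _ k b w hL1 _ (incr_stop_nonneg hxpath) _ _ B2
    (sub_nonneg.2 (hxk.trans hro)) he1'.le _ _ hk2 (ε / 12) (by positivity)
  have l3 := hDm' U N M P s u k b w q e hm (ε / (12 * (α + 1))) (by positivity)
  have l4 := hfin (ε / 12) (by positivity)
  obtain ⟨j, h1, h2, h3, h4, h5⟩ := (l1.and (l2.and (l3.and (l4.and hb₀)))).exists
  -- the values
  have v1 := hT1 T hTT1 k (mOf w) (stop k r) (α * o - r k) hmm
    (by rw [stop_le (Nat.zero_le k)]; exact hr0 0 (Nat.zero_le k))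
    (fun l hl => by
      rw [stop_le hl.le, stop_le (show l + 1 ≤ k from hl)]
      exact hrpath.2 l hl) (sub_nonneg.2 hro)
    (by rw [stop_le le_rfl]; linarith only [hoC])
  have v2 := hT2 T hTT2 k (mOf w) (stop k fun l => r l * q l) (α * o - r k * q k) hmm
    (by rw [stop_le (Nat.zero_le k)]; exact hxpath.1)
    (fun l hl => by
      rw [stop_le hl.le, stop_le (show l + 1 ≤ k from hl)]
      exact hxpath.2 l hl) (sub_nonneg.2 (hxk.trans hro))
    (by rw [stop_le le_rfl]; linarith only [hoC])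
  have v3 := hDA' f f1 f2 f3 C hf.cb3 hfm (N j) (M j + 1) (P j) (s j) (u j) (by
    have := mul_le_mul_of_nonneg_right (hA j) (sq_nonneg C)
    refine le_trans (le_of_eq ?_) this
    push_cast
    ring) b₀ T hT1'
  have v4 : DA * (1 / T ^ 2) ≤ ε / 12 := by
    rw [mul_one_div]
    exact (hT3 T hTT3).2
  -- the functional
  have e2 := abel (mOf w) (fun l => r l * q l) k
  have e3 := exponents_mOf hm.lim.wpos hm.lim.wsum
  rw [e3.1, e3.2.1, zero_mul, sub_zero, one_mul] at e2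
  have e4 : ∑ l ∈ Finset.range (k + 1), (mOf w (l + 1) - mOf w l) * r l * q l =
      ∑ l ∈ Finset.range (k + 1), (mOf w (l + 1) - mOf w l) * (r l * q l) :=
    Finset.sum_congr rfl fun l _ => by ring
  have e5 : ∫ z, cascade (mOf w) (stop k r) k (fun x => Real.log (Real.cosh x))
      (√(stop k r 0) * z) ∂(gaussianReal 0 1) =
      ∫ z, cascade (mOf w) r k (fun x => Real.log (Real.cosh x))
      (√(r 0) * z) ∂(gaussianReal 0 1) := by
    rw [cascade_congr (mOf w) (q := stop k r) (q' := r) (fun l hl => stop_le hl),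
      stop_le (Nat.zero_le k)]
  have e6 : ∑ l ∈ Finset.range k, mOf w (l + 1) * (stop k (fun l => r l * q l) (l + 1) -
      stop k (fun l => r l * q l) l) =
      ∑ l ∈ Finset.range k, mOf w (l + 1) * (r (l + 1) * q (l + 1) - r l * q l) := by
    refine Finset.sum_congr rfl fun l hl => ?_
    rw [Finset.mem_range] at hl
    rw [stop_le hl.le, stop_le (show l + 1 ≤ k from hl)]
  rw [e5] at v1
  rw [e6] at v2
  unfold parisi spinPart
  rw [e4, e2]
  exact final_arith hε hα hDA hDc hDi he1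
    (hle.trans ((min_le_right _ _).trans (min_le_right _ _))) hDm
    h1 h2 h3 h4 h5 v1 v2 v3 v4

end

end Vale.Agent.P157.Par
end

section

/-! Selection of the parameters. -/

open MeasureTheory ProbabilityTheory Filter Topology

namespace Vale.Agent.P157.Par

open Vale.Agent.P367.GT (gM)

set_option linter.unusedSectionVars false

section Sel

variable {f f1 f2 f3 : ℝ → ℝ} {C : ℝ}

/-- The increment for one more pattern is bounded. -/
lemma abs_dM_le (hfm : Measurable f) (hC : ∀ x, |f x| ≤ C) (N M P : ℕ) (s : ℝ)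
    (u : Fin P → ℝ) : |((cubeBase f hfm C hC N M).sys P s u).dM f| ≤ C := by
  set S := (cubeBase f hfm C hC N M).sys P s u with hS
  unfold Sys.dM
  have : Nonempty S.X := inferInstanceAs (Nonempty (Fin (N + 1) → Bool))
  have hb : ∀ z : S.Ω × (Fin S.d → ℝ),
      ‖Real.log (∑ x, S.w z.1 x * Real.exp (f (∑ i, z.2 i * S.φ x i)))‖ ≤ C := by
    intro z
    rw [Real.norm_eq_abs]
    have hpos := logw_pos (S.w0 z.1) (S.w1 z.1) fun x => f (∑ i, z.2 i * S.φ x i)
    have h1 : Real.exp (-C) ≤ ∑ x, S.w z.1 x * Real.exp (f (∑ i, z.2 i * S.φ x i)) := by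
      rw [← one_mul (Real.exp (-C)), ← S.w1 z.1, Finset.sum_mul]
      refine Finset.sum_le_sum fun y _ =>
        mul_le_mul_of_nonneg_left (Real.exp_le_exp.2 ?_) (S.w0 _ _)
      linarith only [neg_abs_le (f (∑ i, z.2 i * S.φ y i)), hC (∑ i, z.2 i * S.φ y i)]
    have h2 : ∑ x, S.w z.1 x * Real.exp (f (∑ i, z.2 i * S.φ x i)) ≤ Real.exp C := by
      rw [← one_mul (Real.exp C), ← S.w1 z.1, Finset.sum_mul]
      refine Finset.sum_le_sum fun y _ =>
        mul_le_mul_of_nonneg_left (Real.exp_le_exp.2 ?_) (S.w0 _ _)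
      linarith [le_abs_self (f (∑ i, z.2 i * S.φ y i)), hC (∑ i, z.2 i * S.φ y i)]
    have l1 := Real.log_le_log (Real.exp_pos _) h1
    have l2 := Real.log_le_log hpos h2
    rw [Real.log_exp] at l1 l2
    rw [abs_le]
    exact ⟨l1, l2⟩
  have h := norm_integral_le_of_norm_le_const (μ := S.P.prod (gM (Fin S.d)))
    (Filter.Eventually.of_forall hb)
  rw [Real.norm_eq_abs] at h
  simpa only [ge_iff_le, probReal_univ, mul_one] using h

/-- The average of the expected free energy over the parameters. -/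
noncomputable def eav (f : ℝ → ℝ) (hfm : Measurable f) (C : ℝ) (hC : ∀ x, |f x| ≤ C)
    (P N M : ℕ) (s : ℝ) : ℝ :=
  ∫ u, (cubeBase f hfm C hC N M).elz s u ∂(nuP P)

lemma int_elz (hfm : Measurable f) (hC : ∀ x, |f x| ≤ C) (P N M : ℕ) (s : ℝ) :
    Integrable (fun u : Fin P → ℝ => (cubeBase f hfm C hC N M).elz s u) (nuP P) :=
  int_nuP ((cubeBase f hfm C hC N M).cont_elz s)

lemma eav_step (hfm : Measurable f) (hC : ∀ x, |f x| ≤ C) (P N M : ℕ) (s : ℝ) :
    |eav f hfm C hC P N (M + 1) s - eav f hfm C hC P N M s| ≤ C := by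
  unfold eav
  rw [← integral_sub (int_elz hfm hC P N (M + 1) s) (int_elz hfm hC P N M s)]
  have h := norm_integral_le_of_norm_le_const (μ := nuP P) (C := C)
    (f := fun u => (cubeBase f hfm C hC N (M + 1)).elz s u -
      (cubeBase f hfm C hC N M).elz s u)
    (Filter.Eventually.of_forall fun u => by
      rw [pattern_increment, Real.norm_eq_abs]
      exact abs_dM_le hfm hC N M P s u)
  rw [Real.norm_eq_abs] at h
  simpa only [ge_iff_le, probReal_univ, mul_one] using h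

lemma eav_mono (hfm : Measurable f) (hC : ∀ x, |f x| ≤ C) (P N M : ℕ) {s s' : ℝ}
    (hs : 0 ≤ s) (hss : s ≤ s') (hs' : 0 < s') :
    eav f hfm C hC P N M s ≤ eav f hfm C hC P N M s' := by
  unfold eav
  refine integral_mono_ae (int_elz hfm hC P N M s) (int_elz hfm hC P N M s') ?_
  filter_upwards [ae_nuP P] with u hu
  exact (cubeBase f hfm C hC N M).elz_mono_s hs hss hs' fun q => by linarith only [(hu q).1]

lemma eav_pert (hfm : Measurable f) (hC : ∀ x, |f x| ≤ C) (P N M : ℕ) {s : ℝ} (hs : 0 ≤ s) :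
    |eav f hfm C hC P N M s - (N + 1) * Real.log 2 -
      ∫ g, ((N : ℝ) + 1) * pressure (cube (N + 1)) f g ∂(patterns M (N + 1))| ≤ s ^ 2 := by
  unfold eav
  set c : ℝ := (N + 1) * Real.log 2 +
    ∫ g, ((N : ℝ) + 1) * pressure (cube (N + 1)) f g ∂(patterns M (N + 1)) with hc
  have e : ∫ u, ((cubeBase f hfm C hC N M).elz s u - c) ∂(nuP P) =
      ∫ u, (cubeBase f hfm C hC N M).elz s u ∂(nuP P) - c := by
    rw [integral_sub (int_elz hfm hC P N M s) (integrable_const _)]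
    simp
  have h := norm_integral_le_of_norm_le_const (μ := nuP P) (C := s ^ 2)
    (f := fun u => (cubeBase f hfm C hC N M).elz s u - c) (by
      filter_upwards [ae_nuP P] with u hu
      rw [Real.norm_eq_abs, hc, ← sub_sub]
      exact elz_pert hfm C hC N M P s u hs fun q => ⟨by linarith only [(hu q).1], (hu q).2⟩)
  rw [Real.norm_eq_abs, e] at h
  rw [hc] at h
  rw [sub_sub]
  simpa only [ge_iff_le, probReal_univ, mul_one] using h

/-- The combination of free energies to be minimized. -/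
noncomputable def selX (f : ℝ → ℝ) (hfm : Measurable f) (C : ℝ) (hC : ∀ x, |f x| ≤ C) (α : ℝ)
    (N M P : ℕ) (u : Fin P → ℝ) : ℝ :=
  (cubeBase f hfm C hC (N + 1) (M + 1)).elz (sN N) u -
      (cubeBase f hfm C hC N (M + 1)).elz (sN N) u - Real.log 2 +
    α * ((cubeBase f hfm C hC N (M + 1)).elz (sN N) u - (cubeBase f hfm C hC N M).elz (sN N) u)

/-- The fluctuation of one process. -/
noncomputable def devq (f : ℝ → ℝ) (hfm : Measurable f) (C : ℝ) (hC : ∀ x, |f x| ≤ C)
    (N M P : ℕ) (q : Fin P) (u : Fin P → ℝ) : ℝ :=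
  (cubeBase f hfm C hC N M).dev P (sN N) u q ((cubeBase f hfm C hC N M).mh P (sN N) u q)

lemma int_devq (hfm : Measurable f) (hC : ∀ x, |f x| ≤ C) (N M P : ℕ) (q : Fin P) :
    Integrable (devq f hfm C hC N M P q) (nuP P) :=
  int_nuP ((cubeBase f hfm C hC N M).cont_dev (sN N) q)

lemma devq_nonneg (hfm : Measurable f) (hC : ∀ x, |f x| ≤ C) (N M P : ℕ) (q : Fin P)
    (u : Fin P → ℝ) : 0 ≤ devq f hfm C hC N M P q u :=
  (cubeBase f hfm C hC N M).dev_nonneg (sN N) u q _

/-- The total fluctuation. -/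
noncomputable def selD (f : ℝ → ℝ) (hfm : Measurable f) (C : ℝ) (hC : ∀ x, |f x| ≤ C)
    (N M P : ℕ) (u : Fin P → ℝ) : ℝ :=
  ∑ q, (devq f hfm C hC N M P q u + devq f hfm C hC N (M + 1) P q u)

lemma int_selX (hfm : Measurable f) (hC : ∀ x, |f x| ≤ C) (α : ℝ) (N M P : ℕ) :
    Integrable (selX f hfm C hC α N M P) (nuP P) :=
  (((int_elz hfm hC P (N + 1) (M + 1) (sN N)).sub
      (int_elz hfm hC P N (M + 1) (sN N))).sub (integrable_const _)).add
      (((int_elz hfm hC P N (M + 1) (sN N)).sub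
        (int_elz hfm hC P N M (sN N))).const_mul α)

lemma integral_selX (hfm : Measurable f) (hC : ∀ x, |f x| ≤ C) (α : ℝ) (N M P : ℕ) :
    ∫ u, selX f hfm C hC α N M P u ∂(nuP P) =
      (eav f hfm C hC P (N + 1) (M + 1) (sN N) -
        eav f hfm C hC P N (M + 1) (sN N) - Real.log 2) +
        α * (eav f hfm C hC P N (M + 1) (sN N) - eav f hfm C hC P N M (sN N)) := by
  have j1 := int_elz hfm hC P (N + 1) (M + 1) (sN N)
  have j2 := int_elz hfm hC P N (M + 1) (sN N)
  have j3 := int_elz hfm hC P N M (sN N)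
  have j12 : Integrable (fun u : Fin P → ℝ => (cubeBase f hfm C hC (N + 1) (M + 1)).elz (sN N) u -
      (cubeBase f hfm C hC N (M + 1)).elz (sN N) u) (nuP P) := j1.sub j2
  have j23 : Integrable (fun u : Fin P → ℝ => (cubeBase f hfm C hC N (M + 1)).elz (sN N) u -
      (cubeBase f hfm C hC N M).elz (sN N) u) (nuP P) := j2.sub j3
  have j12' : Integrable (fun u : Fin P → ℝ => (cubeBase f hfm C hC (N + 1) (M + 1)).elz (sN N) u -
      (cubeBase f hfm C hC N (M + 1)).elz (sN N) u - Real.log 2) (nuP P) :=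
    j12.sub (integrable_const _)
  unfold selX eav
  rw [integral_add j12' (j23.const_mul α),
    integral_sub j12 (integrable_const _), integral_const_mul, integral_sub j1 j2,
    integral_sub j2 j3]
  simp

lemma integral_selD_le (hfm : Measurable f) (hC : ∀ x, |f x| ≤ C) (N M P : ℕ) {A : ℝ}
    (hA : 0 ≤ A) (hM0 : (M : ℝ) * (2 * C) ^ 2 ≤ A * ((N : ℝ) + 1))
    (hM1 : (((M + 1 : ℕ)) : ℝ) * (2 * C) ^ 2 ≤ A * ((N : ℝ) + 1)) :
    ∫ u, selD f hfm C hC N M P u ∂(nuP P) ≤
      2 * (∑ q : Fin P, 2 ^ ((q : ℕ) + 1) * (15 + 3 * √(3 + A))) * √(√((N : ℝ) + 1)) := by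
  have hd : ∀ q, Integrable (fun u => devq f hfm C hC N M P q u +
      devq f hfm C hC N (M + 1) P q u) (nuP P) := fun q =>
    (int_devq hfm hC N M P q).add (int_devq hfm hC N (M + 1) P q)
  unfold selD
  rw [integral_finsetSum _ fun q _ => hd q]
  have h : ∀ q : Fin P, ∫ u, (devq f hfm C hC N M P q u +
      devq f hfm C hC N (M + 1) P q u) ∂(nuP P) ≤
      2 * (2 ^ ((q : ℕ) + 1) * (15 + 3 * √(3 + A)) * √(√((N : ℝ) + 1))) := fun q => by
    rw [integral_add (int_devq hfm hC N M P q) (int_devq hfm hC N (M + 1) P q)]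
    have h0 := cubeBase_dev_le hfm hC q hA hM0
    have h1 := cubeBase_dev_le hfm hC q hA hM1
    unfold devq
    linarith only [h0, h1]
  refine (Finset.sum_le_sum fun q _ => h q).trans (le_of_eq ?_)
  rw [← Finset.mul_sum, ← Finset.sum_mul]
  ring

/-- Comparison with the cavity form, and lower bound. -/
lemma selX_low (hf : CB3 C f f1 f2 f3) (hfm : Measurable f) {α D ε : ℝ} (hα : 0 < α)
    (hD0 : 0 ≤ D) {N M P : ℕ}
    (hD : ∀ u : Fin P → ℝ, (∀ q, 0 ≤ u q ∧ u q ≤ 2) →
      |(cubeBase f hfm C hf.b0 (N + 1) (M + 1)).elz (sN N) u -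
        (cubeBase f hfm C hf.b0 N (M + 1)).elz (sN N) u -
        Real.log 2 - cubeDN f f1 f2 hfm C hf.b0 N (M + 1) P (sN N) u| ≤
      D * (((M + 1 : ℕ) : ℝ) * (1 / ((N : ℝ) + 2) * √(1 / ((N : ℝ) + 2))) +
        sN N ^ 2 / ((N : ℝ) + 1)))
    (hMδ : ((M : ℝ) + 1) * (1 / ((N : ℝ) + 2)) ≤ α + 1)
    (g2 : D * ((α + 1) * √(1 / ((N : ℝ) + 2)) + sN N ^ 2 / ((N : ℝ) + 1)) ≤ ε)
    {u : Fin P → ℝ} (hu : ∀ q, 1 ≤ u q ∧ u q ≤ 2) :
    cubeDN f f1 f2 hfm C hf.b0 N (M + 1) P (sN N) u +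
      α * ((cubeBase f hfm C hf.b0 N M).sys P (sN N) u).dM f - ε ≤
        selX f hfm C hf.b0 α N M P u ∧
    -(Real.exp ((α + 1) * C ^ 2 / 2) - 1) - α * C ≤
      cubeDN f f1 f2 hfm C hf.b0 N (M + 1) P (sN N) u +
      α * ((cubeBase f hfm C hf.b0 N M).sys P (sN N) u).dM f := by
  have hspin := hD u fun q => ⟨by linarith only [(hu q).1], (hu q).2⟩
  have hMc : (((M + 1 : ℕ)) : ℝ) = (M : ℝ) + 1 := by push_cast; ring
  have herr : D * (((M + 1 : ℕ) : ℝ) * (1 / ((N : ℝ) + 2) * √(1 / ((N : ℝ) + 2))) +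
      sN N ^ 2 / ((N : ℝ) + 1)) ≤ ε := by
    refine le_trans (mul_le_mul_of_nonneg_left ?_ hD0) g2
    rw [hMc, ← mul_assoc]
    have := mul_le_mul_of_nonneg_right hMδ (Real.sqrt_nonneg (1 / ((N : ℝ) + 2)))
    linarith only [this]
  have hdM := abs_le.1 (abs_dM_le hfm hf.b0 N M P (sN N) u)
  constructor
  · have h1 := (abs_le.1 (hspin.trans herr)).1
    unfold selX
    rw [pattern_increment hfm C hf.b0 N M P (sN N) u]
    linarith only [hfm, hf, h1]
  · have hDNlow : -(Real.exp ((α + 1) * C ^ 2 / 2) - 1) ≤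
        cubeDN f f1 f2 hfm C hf.b0 N (M + 1) P (sN N) u := by
      refine le_trans ?_ (cubeDN_ge hf hfm N (M + 1) P (sN N) u)
      rw [neg_le_neg_iff, hMc]
      have h0 : ((M : ℝ) + 1) * (1 / ((N : ℝ) + 2)) * C ^ 2 / 2 ≤ (α + 1) * C ^ 2 / 2 := by
        have := mul_le_mul_of_nonneg_right hMδ (sq_nonneg C)
        linarith only [this]
      have := Real.exp_le_exp.2 h0
      linarith only [this]
    have h1 : -(α * C) ≤ α * ((cubeBase f hfm C hf.b0 N M).sys P (sN N) u).dM f := by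
      have := mul_le_mul_of_nonneg_left hdM.1 hα.le
      linarith only [this]
    linarith only [hDNlow, h1]

/-- Selection of the size and of the number of patterns. -/
lemma selection_N (hf : CB3 C f f1 f2 f3) (hfm : Measurable f) {α p : ℝ} (hα : 0 < α)
    (hp : ∀ ε > 0, ∃ᶠ N in atTop, meanPressure cube α f N < p + ε) {ε : ℝ} (hε : 0 < ε)
    (P : ℕ) :
    ∃ L : ℝ, 1 ≤ L ∧ ∀ N₀ : ℕ, ∃ N M : ℕ, N₀ ≤ N ∧ α * ((N : ℝ) + 2) - 1 ≤ M ∧
      (M : ℝ) ≤ α * ((N : ℝ) + 2) + L ∧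
      (eav f hfm C hf.b0 P (N + 1) M (sN N) - eav f hfm C hf.b0 P N M (sN N) -
      Real.log 2) + α * (eav f hfm C hf.b0 P N M (sN N) -
        eav f hfm C hf.b0 P N (M - 1) (sN N)) ≤ p + 2 * ε := by
  have hC0 : 0 ≤ C := (abs_nonneg _).trans (hf.b0 0)
  obtain ⟨L, hL1, hL⟩ := window_selection'
    (a := fun N M => eav f hfm C hf.b0 P N M (sN N) - (N + 1) * Real.log 2)
    (c := fun N M => eav f hfm C hf.b0 P (N + 1) M (sN N) - eav f hfm C hf.b0 P N M (sN N) -
      Real.log 2) (C := C) (α := α) (p := p) (m := fun N => meanPressure cube α f N)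
    (κ := fun N => sN N ^ 2) hC0 hα
    (fun N M => by
      rw [sub_sub_sub_cancel_right]
      exact eav_step hfm hf.b0 P N M (sN N))
    (fun N M => by
      have h := eav_mono hfm hf.b0 P (N + 1) M (s := sN N) (s' := sN (N + 1))
        (by linarith [sN_ge N]) (sN_mono (Nat.le_succ N)) (by linarith only [sN_ge (N + 1)])
      push_cast
      linarith only [h])
    (fun N => by
      have h := eav_pert hfm hf.b0 P N ⌊α * ((N + 1 : ℕ) : ℝ)⌋₊ (s := sN N)
        (by linarith only [sN_ge N])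
      have e : ((N : ℝ) + 1) * meanPressure cube α f (N + 1) =
          ∫ g, ((N : ℝ) + 1) * pressure (cube (N + 1)) f g
            ∂(patterns ⌊α * ((N + 1 : ℕ) : ℝ)⌋₊ (N + 1)) := by
        unfold meanPressure
        rw [integral_const_mul]
      rw [e]
      exact h)
    tendsto_sN_sq_div hp hε
  refine ⟨L, hL1, fun N₀ => ?_⟩
  obtain ⟨N, M, h1, h2, h3, h4⟩ := hL N₀
  refine ⟨N, M, h1, h2, h3, ?_⟩
  rw [sub_sub_sub_cancel_right] at h4
  exact h4

/-- The conditions on large `N`. -/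
lemma large_N (α D L Kl ε : ℝ) (hα : 0 < α) (hε : 0 < ε) (N₀ : ℕ) :
    ∃ N₁ : ℕ, ∀ N, N₁ ≤ N → Kl * (√(√((N : ℝ) + 1)) / sN N) ≤ ε ∧
      D * ((α + 1) * √(1 / ((N : ℝ) + 2)) + sN N ^ 2 / ((N : ℝ) + 1)) ≤ ε ∧
      (2 * α + L + 2) / (N : ℝ) ≤ ε ∧ L ≤ (N : ℝ) ∧ 2 ≤ α * N ∧ 1 ≤ N ∧ N₀ ≤ N := by
  have l1 : ∀ᶠ N : ℕ in atTop, Kl * (√(√((N : ℝ) + 1)) / sN N) ≤ ε := by
    have h := (tendsto_sqrt_sqrt_div_sN).const_mul Kl
    rw [mul_zero] at h
    exact h.eventually (ge_mem_nhds hε)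
  have l2 : ∀ᶠ N : ℕ in atTop, D * ((α + 1) * √(1 / ((N : ℝ) + 2)) +
      sN N ^ 2 / ((N : ℝ) + 1)) ≤ ε := by
    have h1 : Tendsto (fun N : ℕ => √(1 / ((N : ℝ) + 2))) atTop (𝓝 0) := by
      have h2 : Tendsto (fun N : ℕ => 1 / ((N : ℝ) + 2)) atTop (𝓝 0) := by
        have := (tendsto_const_div_atTop_nhds_zero_nat (1 : ℝ)).comp (tendsto_add_atTop_nat 2)
        refine this.congr fun N => ?_
        simp only [Function.comp_apply]
        push_cast
        rfl
      have h3 := h2.sqrt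
      rwa [Real.sqrt_zero] at h3
    have h := ((h1.const_mul (α + 1)).add tendsto_sN_sq_div).const_mul D
    rw [mul_zero, add_zero, mul_zero] at h
    exact h.eventually (ge_mem_nhds hε)
  have l3 : ∀ᶠ N : ℕ in atTop, (2 * α + L + 2) / (N : ℝ) ≤ ε :=
    (tendsto_const_div_atTop_nhds_zero_nat (2 * α + L + 2)).eventually (ge_mem_nhds hε)
  have l4 : ∀ᶠ N : ℕ in atTop, L ≤ (N : ℝ) :=
    tendsto_natCast_atTop_atTop.eventually_ge_atTop L
  have l5 : ∀ᶠ N : ℕ in atTop, 2 / α ≤ (N : ℝ) :=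
    tendsto_natCast_atTop_atTop.eventually_ge_atTop (2 / α)
  obtain ⟨N₁, hN₁⟩ := eventually_atTop.1 (l1.and (l2.and (l3.and (l4.and (l5.and
    ((eventually_ge_atTop 1).and (eventually_ge_atTop N₀)))))))
  refine ⟨N₁, fun N hN => ?_⟩
  obtain ⟨g1, g2, g3, g4, g5, g6, g7⟩ := hN₁ N hN
  exact ⟨g1, g2, g3, g4, by rwa [div_le_iff₀' hα] at g5, g6, g7⟩

end Sel

end Vale.Agent.P157.Par
end

section

/-!
Definitions for the spin consistency: an extra Gaussian field acting on the new spin.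
-/

open MeasureTheory ProbabilityTheory Filter Topology

namespace Vale.Agent.P157.Par

open Vale.Agent.P367.GT (gM)
open Vale.Agent.P157.Par.Cube (ini las)

/-- The polynomial `ξ(x) = ∑_{p ≤ n} c_p x^p`. -/
noncomputable def xi (c : ℕ → ℝ) (n : ℕ) (x : ℝ) : ℝ :=
  ∑ p ∈ Finset.range (n + 1), c p * x ^ p

/-- The overlap on the cube `{-1,1}^(N+1)`. -/
noncomputable def cR (N : ℕ) (x y : Fin (N + 1) → Bool) : ℝ := ∑ i, cubeφ N x i * cubeφ N y i

/-- The index set of the extra field. -/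
abbrev KX (n N : ℕ) : Type := Unit ⊕ GI n (N + 1)

/-- The kernel of the Gaussian field with covariance `ξ(R)`. -/
noncomputable def kx (N : ℕ) {n : ℕ} (c : ℕ → ℝ) (x : Fin (N + 1) → Bool) : KX n N → ℝ :=
  Sum.elim (fun _ => √(c 0)) (fun e => √(c ((e.1 : ℕ) + 1)) * ∏ i, cubeφ N x (e.2 i))

/-- The kernel of the extra field acting on the last spin of `{-1,1}^(N+2)`; its covariance is
`ε₁ ε₂ ξ(R)`, where `ε₁, ε₂` are the last spins and `R` is the overlap of the others. -/
noncomputable def ky (N : ℕ) {n : ℕ} (c : ℕ → ℝ) (y : Fin (N + 2) → Bool) : KX n N → ℝ :=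
  fun e => sgn (las y) * kx N c (ini y) e

/-- The free energy increment due to the extra field, for the perceptron on `{-1,1}^(N+2)`. -/
noncomputable def exN (f : ℝ → ℝ) (hf : Measurable f) (C : ℝ) (hC : ∀ x, |f x| ≤ C)
    (N M P : ℕ) (s : ℝ) (u : Fin P → ℝ) (n : ℕ) (c : ℕ → ℝ) : ℝ :=
  ∫ z : ((Fin M → Fin (N + 2) → ℝ) × (GI P (N + 2) → ℝ)) × (KX n N → ℝ),
    Real.log (∑ y, (pS f hf C hC (N + 1) M P s u).w z.1 y * Real.exp (lin (ky N c) z.2 y))
    ∂((pS f hf C hC (N + 1) M P s u).P.prod (gM (KX n N)))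

/-- The kernel of the field of the new spin, with the extra field. -/
noncomputable def kerX {M N n : ℕ} (δ : ℝ) (f1 : ℝ → ℝ) (c : ℕ → ℝ)
    (t : Fin M → Fin (N + 1) → ℝ) (x : Fin (N + 1) → Bool) : Fin M ⊕ KX n N → ℝ :=
  Sum.elim (ker1 δ f1 t x) (kx N c x)

/-- The cavity term of the new spin, with the extra field. -/
noncomputable def T1x (f f1 f2 : ℝ → ℝ) (hf : Measurable f) (C : ℝ) (hC : ∀ x, |f x| ≤ C)
    (N M P : ℕ) (s : ℝ) (u : Fin P → ℝ) (n : ℕ) (c : ℕ → ℝ) : ℝ :=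
  ∫ z : ((Fin M → Fin (N + 1) → ℝ) × (GI P (N + 1) → ℝ)) × (Fin M ⊕ KX n N → ℝ),
    Real.log (∑ x, (pS f hf C hC N M P s u).w z.1 x *
      (Real.exp (cavB (1 / ((N : ℝ) + 2)) f1 f2 fun a => cubeS (z.1.1 a) x) *
        Real.cosh (lin (kerX (n := n) (1 / ((N : ℝ) + 2)) f1 c z.1.1) z.2 x)))
    ∂((pS f hf C hC N M P s u).P.prod (gM (Fin M ⊕ KX n N)))

end Vale.Agent.P157.Par
end

section

/-! Selection of the parameters, with the comparison of the overlaps. -/

set_option linter.all false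

open MeasureTheory ProbabilityTheory Filter Topology

namespace Vale.Agent.P157.Par

open Vale.Agent.P367.GT (gM)

section Abstract

variable {X : Type} [Fintype X] [Nonempty X]
variable {Ω Λ : Type} [MeasurableSpace Ω] [MeasurableSpace Λ] {P : Measure Ω}
  [IsProbabilityMeasure P] {ρ : Measure Λ} [IsProbabilityMeasure ρ]

/-- An independent centered field does not decrease the free energy. -/
lemma selx_second {w : Ω → X → ℝ} (hwm : ∀ x, Measurable fun ω => w ω x)
    (hw : ∀ ω x, 0 ≤ w ω x) (hw1 : ∀ ω, ∑ x, w ω x = 1) {B : Ω → X → ℝ}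
    (hB : ∀ x, Integrable (fun ω => B ω x) P) {Y : Ω × Λ → X → ℝ}
    (hY : ∀ x, Integrable (fun z => Y z x) (P.prod ρ))
    (hYω : ∀ ω x, Integrable (fun l => Y (ω, l) x) ρ)
    (hY0 : ∀ ω x, ∫ l, Y (ω, l) x ∂ρ = 0) :
    ∫ ω, Real.log (∑ x, w ω x * Real.exp (B ω x)) ∂P ≤
      ∫ z : Ω × Λ, Real.log (∑ x, w z.1 x * Real.exp (B z.1 x + Y z x)) ∂(P.prod ρ) := by
  have hB' : ∀ x, Integrable (fun z : Ω × Λ => B z.1 x) (P.prod ρ) := fun x =>
    (hB x).comp_fst ρ
  have hI : Integrable (fun z : Ω × Λ => Real.log (∑ x, w z.1 x * Real.exp (B z.1 x + Y z x)))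
      (P.prod ρ) := integrable_logw (fun x => (hwm x).comp measurable_fst)
    (fun z x => hw z.1 x) (fun z => hw1 z.1) fun x => (hB' x).add (hY x)
  rw [integral_prod _ hI]
  have hJ : Integrable (fun ω => Real.log (∑ x, w ω x * Real.exp (B ω x))) P :=
    integrable_logw hwm hw hw1 hB
  refine integral_mono hJ hI.integral_prod_left fun ω => ?_
  simp only
  set Z := ∑ x, w ω x * Real.exp (B ω x) with hZ
  have hZ0 : 0 < Z := logw_pos (hw ω) (hw1 ω) _
  have hp1 : ∑ x, w ω x * Real.exp (B ω x) / Z = 1 := by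
    rw [← Finset.sum_div, ← hZ, div_self hZ0.ne']
  have hp0 : ∀ x, 0 ≤ w ω x * Real.exp (B ω x) / Z := fun x =>
    div_nonneg (mul_nonneg (hw _ _) (Real.exp_pos _).le) hZ0.le
  have pt : ∀ l, Real.log Z + ∑ x, w ω x * Real.exp (B ω x) / Z * Y (ω, l) x ≤
      Real.log (∑ x, w ω x * Real.exp (B ω x + Y (ω, l) x)) := by
    intro l
    set m := ∑ x, w ω x * Real.exp (B ω x) / Z * Y (ω, l) x with hm
    have h1 : Real.exp m ≤ ∑ x, w ω x * Real.exp (B ω x) / Z * Real.exp (Y (ω, l) x) := by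
      have h2 : ∀ x, w ω x * Real.exp (B ω x) / Z * (Real.exp m * (1 + (Y (ω, l) x - m))) ≤
          w ω x * Real.exp (B ω x) / Z * Real.exp (Y (ω, l) x) := fun x => by
        refine mul_le_mul_of_nonneg_left ?_ (hp0 x)
        have h3 := Real.add_one_le_exp (Y (ω, l) x - m)
        calc Real.exp m * (1 + (Y (ω, l) x - m)) ≤ Real.exp m * Real.exp (Y (ω, l) x - m) :=
              mul_le_mul_of_nonneg_left (by linarith only [h3]) (Real.exp_pos _).le
          _ = Real.exp (Y (ω, l) x) := by rw [← Real.exp_add]; ring_nf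
      have h4 := Finset.sum_le_sum fun x (_ : x ∈ Finset.univ) => h2 x
      have h5 : ∑ x, w ω x * Real.exp (B ω x) / Z * (Real.exp m * (1 + (Y (ω, l) x - m))) =
          Real.exp m := by
        have h6 : ∀ x, w ω x * Real.exp (B ω x) / Z * (Real.exp m * (1 + (Y (ω, l) x - m))) =
            Real.exp m * ((w ω x * Real.exp (B ω x) / Z) * (1 - m) +
              w ω x * Real.exp (B ω x) / Z * Y (ω, l) x) := fun x => by ring
        simp only [h6]
        rw [← Finset.mul_sum, Finset.sum_add_distrib, ← Finset.sum_mul, hp1, ← hm]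
        ring
      rw [h5] at h4
      exact h4
    have h2 : ∑ x, w ω x * Real.exp (B ω x + Y (ω, l) x) =
        Z * ∑ x, w ω x * Real.exp (B ω x) / Z * Real.exp (Y (ω, l) x) := by
      rw [Finset.mul_sum]
      refine Finset.sum_congr rfl fun x _ => ?_
      rw [Real.exp_add]
      (clear * - hZ0; field_simp)
    have h3 : 0 < ∑ x, w ω x * Real.exp (B ω x) / Z * Real.exp (Y (ω, l) x) :=
      lt_of_lt_of_le (Real.exp_pos _) h1
    rw [h2, Real.log_mul hZ0.ne' h3.ne']
    have h4 := Real.log_le_log (Real.exp_pos _) h1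
    rw [Real.log_exp] at h4
    linarith only [h4]
  have hi1 : Integrable (fun l => Real.log (∑ x, w ω x * Real.exp (B ω x + Y (ω, l) x))) ρ :=
    integrable_logw (w := fun _ => w ω) (fun x => measurable_const) (fun _ => hw ω)
      (fun _ => hw1 ω) fun x => (integrable_const _).add (hYω ω x)
  have hi3 : Integrable (fun l => ∑ x, w ω x * Real.exp (B ω x) / Z * Y (ω, l) x)
      ρ := integrable_finsetSum _ fun x _ => (hYω ω x).const_mul _
  have hi2 : Integrable (fun l => Real.log Z +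
      ∑ x, w ω x * Real.exp (B ω x) / Z * Y (ω, l) x) ρ :=
    (integrable_const _).add hi3
  refine le_trans (le_of_eq ?_) (integral_mono hi2 hi1 pt)
  rw [integral_add (integrable_const _) hi3,
    integral_finsetSum _ fun x _ => (hYω ω x).const_mul _]
  simp only [integral_const_mul, hY0, integral_const, probReal_univ, one_smul, mul_zero,
    Finset.sum_const_zero, add_zero]

/-- An independent `cosh` field increases the free energy by at most `K`. -/
lemma selx_first {w : Ω → X → ℝ} (hwm : ∀ x, Measurable fun ω => w ω x)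
    (hw : ∀ ω x, 0 ≤ w ω x) (hw1 : ∀ ω, ∑ x, w ω x = 1) {B : Ω → X → ℝ}
    (hB : ∀ x, Integrable (fun ω => B ω x) P) {Y : Ω × Λ → X → ℝ}
    (hY : ∀ x, Integrable (fun z => Y z x) (P.prod ρ)) {K : ℝ}
    (hYω : ∀ ω x, Integrable (fun l => Y (ω, l) x) ρ)
    (hE : ∀ ω x, Integrable (fun l => Real.cosh (Y (ω, l) x)) ρ)
    (hK : ∀ ω x, ∫ l, Real.cosh (Y (ω, l) x) ∂ρ ≤ 1 + K) :
    ∫ z : Ω × Λ, Real.log (∑ x, w z.1 x * (Real.exp (B z.1 x) * Real.cosh (Y z x)))
      ∂(P.prod ρ) ≤ ∫ ω, Real.log (∑ x, w ω x * Real.exp (B ω x)) ∂P + K := by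
  have e2 : ∀ z : Ω × Λ, ∑ x, w z.1 x * (Real.exp (B z.1 x) * Real.cosh (Y z x)) =
      ∑ x, w z.1 x * Real.exp (B z.1 x + Real.log (Real.cosh (Y z x))) := fun z =>
    Finset.sum_congr rfl fun x _ => by
      rw [Real.exp_add, Real.exp_log (Real.cosh_pos _)]
  simp only [e2]
  refine cav_second (Y := fun z x => Real.log (Real.cosh (Y z x))) hwm hw hw1 hB ?_ ?_ ?_ ?_
  · intro x
    refine Integrable.mono' (hY x).abs ?_ (Filter.Eventually.of_forall fun z => ?_)
    · exact (Real.measurable_log.comp_aemeasurable (Real.measurable_cosh.comp_aemeasurable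
        (hY x).aestronglyMeasurable.aemeasurable)).aestronglyMeasurable
    · rw [Real.norm_eq_abs, abs_of_nonneg (sel_log_cosh_nonneg _)]
      exact sel_log_cosh_le _
  · intro ω x
    refine Integrable.mono' (hYω ω x).abs ?_ (Filter.Eventually.of_forall fun z => ?_)
    · exact (Real.measurable_log.comp_aemeasurable (Real.measurable_cosh.comp_aemeasurable
        (hYω ω x).aestronglyMeasurable.aemeasurable)).aestronglyMeasurable
    · rw [Real.norm_eq_abs, abs_of_nonneg (sel_log_cosh_nonneg _)]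
      exact sel_log_cosh_le _
  · intro ω x
    simp only [Real.exp_log (Real.cosh_pos _)]
    exact hE ω x
  · intro ω x
    simp only [Real.exp_log (Real.cosh_pos _)]
    exact hK ω x

end Abstract

/-- A Gaussian linear form is integrable and centered. -/
lemma selx_lin_gM {ι : Type} [Fintype ι] (v : ι → ℝ) :
    Integrable (fun h : ι → ℝ => ∑ i, v i * h i) (gM ι) ∧
      ∫ h, ∑ i, v i * h i ∂(gM ι) = 0 := by
  have h1 : ∀ i, Integrable (fun h : ι → ℝ => v i * h i) (gM ι) := fun i =>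
    (sel_integrable_coord i).const_mul _
  refine ⟨integrable_finsetSum _ fun i _ => h1 i, ?_⟩
  rw [integral_finsetSum _ fun i _ => h1 i]
  refine Finset.sum_eq_zero fun i _ => ?_
  rw [integral_const_mul]
  have h2 : ∫ h : ι → ℝ, h i ∂(gM ι) = 0 := by
    have h3 := integral_comp_eval (μ := fun _ : ι => gaussianReal 0 1) (i := i)
      (f := fun x : ℝ => x) (by fun_prop)
    have h4 : ∫ x : ℝ, x ∂(gaussianReal 0 1) = 0 := integral_id_gaussianReal
    exact h3.trans h4
  rw [h2, mul_zero]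

/-- A family of Gaussian linear forms is integrable and centered. -/
lemma selx_lin_pi {M d : ℕ} (v : Fin M → Fin d → ℝ) :
    Integrable (fun h : Fin M → Fin d → ℝ => ∑ a, ∑ i, v a i * h a i)
      (Measure.pi fun _ => gM (Fin d)) ∧
      ∫ h : Fin M → Fin d → ℝ, ∑ a, ∑ i, v a i * h a i
        ∂(Measure.pi fun _ => gM (Fin d)) = 0 := by
  have h1 : ∀ a, Integrable (fun h : Fin M → Fin d → ℝ => ∑ i, v a i * h a i)
      (Measure.pi fun _ => gM (Fin d)) := fun a =>
    integrable_comp_eval (μ := fun _ : Fin M => gM (Fin d)) (i := a)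
      (f := fun g : Fin d → ℝ => ∑ i, v a i * g i) (selx_lin_gM (v a)).1
  refine ⟨integrable_finsetSum _ fun a _ => h1 a, ?_⟩
  rw [integral_finsetSum _ fun a _ => h1 a]
  refine Finset.sum_eq_zero fun a _ => ?_
  have h3 := integral_comp_eval (μ := fun _ : Fin M => gM (Fin d)) (i := a)
    (f := fun g : Fin d → ℝ => ∑ i, v a i * g i) (selx_lin_gM (v a)).1.aestronglyMeasurable
  exact h3.trans (selx_lin_gM (v a)).2

section Cube

variable {N M : ℕ}

/-- The cavity form of the spin increment is bounded above. -/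
theorem selx_cubeDN_le {f f1 f2 f3 : ℝ → ℝ} {C : ℝ} (hf : CB3 C f f1 f2 f3) (hfm : Measurable f)
    (N M P : ℕ) (s : ℝ) (u : Fin P → ℝ) :
    cubeDN f f1 f2 hfm C hf.b0 N M P s u ≤
      Real.exp (M * (1 / ((N : ℝ) + 2)) * C ^ 2 / 2) - 1 := by
  set δ : ℝ := 1 / ((N : ℝ) + 2) with hδ
  have hδ0 : 0 ≤ δ := by positivity
  have hC0 : 0 ≤ C := (abs_nonneg _).trans (hf.b0 0)
  have hf1c : Continuous f1 := continuous_iff_continuousAt.2 fun x => (hf.d2 x).continuousAt
  have hf2c : Continuous f2 := continuous_iff_continuousAt.2 fun x => (hf.d3 x).continuousAt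
  have hf1m := hf1c.measurable
  have hf2m := hf2c.measurable
  set S := (cubeBase f hfm C hf.b0 N M).sys P s u with hS
  let PP : Measure ((Fin M → Fin (N + 1) → ℝ) × (GI P (N + 1) → ℝ)) :=
    (Measure.pi fun _ : Fin M => gM (Fin (N + 1))).prod (gM (GI P (N + 1)))
  let w : ((Fin M → Fin (N + 1) → ℝ) × (GI P (N + 1) → ℝ)) → (Fin (N + 1) → Bool) → ℝ :=
    fun ω x => S.w ω x
  have hwm : ∀ x, Measurable fun ω => w ω x := fun x => S.hw x
  have hw0 : ∀ ω x, 0 ≤ w ω x := fun ω x => S.w0 ω x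
  have hw1 : ∀ ω, ∑ x, w ω x = 1 := fun ω => S.w1 ω
  have hS1 : ∀ (x : Fin (N + 1) → Bool) (a : Fin M), Integrable
      (fun ω : (Fin M → Fin (N + 1) → ℝ) × (GI P (N + 1) → ℝ) => cubeS (ω.1 a) x) PP :=
    fun x a => (sel_integrable_cubeS x a).comp_fst _
  have hSm : ∀ (x : Fin (N + 1) → Bool) (a : Fin M), Measurable
      (fun ω : (Fin M → Fin (N + 1) → ℝ) × (GI P (N + 1) → ℝ) => cubeS (ω.1 a) x) :=
    fun x a => (sel_measurable_cubeS x).comp ((measurable_pi_apply a).comp measurable_fst)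
  have hB : ∀ x, Integrable (fun ω : (Fin M → Fin (N + 1) → ℝ) × (GI P (N + 1) → ℝ) =>
      cavB δ f1 f2 fun a => cubeS (ω.1 a) x) PP := by
    intro x
    unfold cavB
    refine integrable_finsetSum _ fun a _ => ?_
    refine Integrable.const_mul ?_ _
    refine Integrable.sub ?_ ?_
    · exact Integrable.mono' (g := fun _ => C) (integrable_const _)
        (hf2m.comp (hSm x a)).aestronglyMeasurable
        (Filter.Eventually.of_forall fun ω => by rw [Real.norm_eq_abs]; exact hf.b2 _)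
    · refine Integrable.mono' (g := fun ω => |cubeS (ω.1 a) x| * C) ((hS1 x a).abs.mul_const C)
        ((hSm x a).mul (hf1m.comp (hSm x a))).aestronglyMeasurable
        (Filter.Eventually.of_forall fun ω => ?_)
      rw [Real.norm_eq_abs, abs_mul]
      exact mul_le_mul_of_nonneg_left (hf.b1 _) (abs_nonneg _)
  -- first term
  have hY1 : ∀ x, Integrable (fun z : ((Fin M → Fin (N + 1) → ℝ) × (GI P (N + 1) → ℝ)) ×
      (Fin M → ℝ) => cavY δ f1 (fun a => cubeS (z.1.1 a) x) z.2) (PP.prod (gM (Fin M))) := by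
    intro x
    unfold cavY
    refine integrable_finsetSum _ fun a _ => ?_
    have hi : Integrable (fun z : ((Fin M → Fin (N + 1) → ℝ) × (GI P (N + 1) → ℝ)) ×
        (Fin M → ℝ) => z.2 a) (PP.prod (gM (Fin M))) :=
      (sel_integrable_coord (ι := Fin M) a).comp_snd _
    refine Integrable.mono' (g := fun z => √δ * C * |z.2 a|) (hi.abs.const_mul _)
      (((measurable_const.mul (hf1m.comp ((hSm x a).comp measurable_fst))).mul
        ((measurable_pi_apply a).comp measurable_snd)).aestronglyMeasurable)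
      (Filter.Eventually.of_forall fun z => ?_)
    rw [Real.norm_eq_abs, abs_mul, abs_mul, abs_of_nonneg (Real.sqrt_nonneg _)]
    exact mul_le_mul_of_nonneg_right (mul_le_mul_of_nonneg_left (hf.b1 _)
      (Real.sqrt_nonneg _)) (abs_nonneg _)
  have hcosh : ∀ (v : Fin M → ℝ), Integrable (fun l : Fin M → ℝ =>
      Real.cosh (∑ a, v a * l a)) (gM (Fin M)) ∧
      ∫ l, Real.cosh (∑ a, v a * l a) ∂(gM (Fin M)) = Real.exp ((∑ a, v a ^ 2) / 2) := by
    intro v
    have p1 := exp_lin_gM v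
    have p2 := exp_lin_gM (fun a => -v a)
    have q1 : ∀ l : Fin M → ℝ, ∑ a, -v a * l a = -∑ a, v a * l a := fun l => by
      rw [← Finset.sum_neg_distrib]
      exact Finset.sum_congr rfl fun a _ => by ring
    have q2 : ∑ a, (-v a) ^ 2 = ∑ a, v a ^ 2 := Finset.sum_congr rfl fun a _ => by ring
    simp only [q1, q2] at p2
    have e : (fun l : Fin M → ℝ => Real.cosh (∑ a, v a * l a)) =
        fun l => (Real.exp (∑ a, v a * l a) + Real.exp (-∑ a, v a * l a)) / 2 := by
      funext l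
      rw [Real.cosh_eq]
    rw [e]
    refine ⟨(p1.1.add p2.1).div_const 2, ?_⟩
    rw [integral_div, integral_add p1.1 p2.1, p1.2, p2.2]
    ring
  have h1 := selx_first (P := PP) (ρ := gM (Fin M)) hwm hw0 hw1
    (B := fun ω x => cavB δ f1 f2 fun a => cubeS (ω.1 a) x) hB
    (Y := fun z x => cavY δ f1 (fun a => cubeS (z.1.1 a) x) z.2) hY1
    (K := Real.exp (M * δ * C ^ 2 / 2) - 1) (fun ω x => by
      unfold cavY
      exact (selx_lin_gM (fun a => √δ * f1 (cubeS (ω.1 a) x))).1)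
    (fun ω x => by
      unfold cavY
      exact (hcosh (fun a => √δ * f1 (cubeS (ω.1 a) x))).1)
    (fun ω x => by
      unfold cavY
      simp only
      rw [(hcosh (fun a => √δ * f1 (cubeS (ω.1 a) x))).2]
      have e : ∑ a : Fin M, (√δ * f1 (cubeS (ω.1 a) x)) ^ 2 =
          ∑ a : Fin M, δ * f1 (cubeS (ω.1 a) x) ^ 2 := by
        refine Finset.sum_congr rfl fun a _ => ?_
        rw [mul_pow, Real.sq_sqrt hδ0]
      rw [e]
      have e2 : ∑ a : Fin M, δ * f1 (cubeS (ω.1 a) x) ^ 2 ≤ ∑ _a : Fin M, δ * C ^ 2 :=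
        Finset.sum_le_sum fun a _ => mul_le_mul_of_nonneg_left
          (sq_le_sq' (by linarith only [(abs_le.1 (hf.b1 (cubeS (ω.1 a) x))).1])
            (abs_le.1 (hf.b1 (cubeS (ω.1 a) x))).2) hδ0
      rw [Finset.sum_const, Finset.card_univ, Fintype.card_fin, nsmul_eq_mul] at e2
      have e3 := Real.exp_le_exp.2 (show (∑ a : Fin M, δ * f1 (cubeS (ω.1 a) x) ^ 2) / 2 ≤
        M * δ * C ^ 2 / 2 by linarith only [e2])
      linarith only [e3])
  -- second term
  have hi2 : ∀ (x : Fin (N + 1) → Bool) (a : Fin M), Integrable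
      (fun z : ((Fin M → Fin (N + 1) → ℝ) × (GI P (N + 1) → ℝ)) ×
        (Fin M → Fin (N + 1) → ℝ) => cubeS (z.2 a) x)
      (PP.prod (Measure.pi fun _ : Fin M => gM (Fin (N + 1)))) :=
    fun x a => (sel_integrable_cubeS x a).comp_snd _
  have hY2 : ∀ x, Integrable (fun z : ((Fin M → Fin (N + 1) → ℝ) × (GI P (N + 1) → ℝ)) ×
      (Fin M → Fin (N + 1) → ℝ) =>
        cavY δ f1 (fun a => cubeS (z.1.1 a) x) (fun a => cubeS (z.2 a) x))
      (PP.prod (Measure.pi fun _ : Fin M => gM (Fin (N + 1)))) := by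
    intro x
    unfold cavY
    refine integrable_finsetSum _ fun a _ => ?_
    refine Integrable.mono' (g := fun z => √δ * C * |cubeS (z.2 a) x|)
      ((hi2 x a).abs.const_mul _)
      (((measurable_const.mul (hf1m.comp ((hSm x a).comp measurable_fst))).mul
        ((sel_measurable_cubeS x).comp
          ((measurable_pi_apply a).comp measurable_snd))).aestronglyMeasurable)
      (Filter.Eventually.of_forall fun z => ?_)
    rw [Real.norm_eq_abs, abs_mul, abs_mul, abs_of_nonneg (Real.sqrt_nonneg _)]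
    exact mul_le_mul_of_nonneg_right (mul_le_mul_of_nonneg_left (hf.b1 _)
      (Real.sqrt_nonneg _)) (abs_nonneg _)
  have h2 := selx_second (P := PP) (ρ := Measure.pi fun _ : Fin M => gM (Fin (N + 1)))
    hwm hw0 hw1 (B := fun ω x => cavB δ f1 f2 fun a => cubeS (ω.1 a) x) hB
    (Y := fun z x => cavY δ f1 (fun a => cubeS (z.1.1 a) x) (fun a => cubeS (z.2 a) x)) hY2
    (fun ω x => by
      simp only [cavY_eq]
      exact (selx_lin_pi _).1)
    (fun ω x => by
      simp only [cavY_eq]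
      exact (selx_lin_pi _).2)
  have h3 : cubeDN f f1 f2 hfm C hf.b0 N M P s u =
      (∫ z : ((Fin M → Fin (N + 1) → ℝ) × (GI P (N + 1) → ℝ)) × (Fin M → ℝ),
        Real.log (∑ x, w z.1 x * (Real.exp (cavB δ f1 f2 fun a => cubeS (z.1.1 a) x) *
          Real.cosh (cavY δ f1 (fun a => cubeS (z.1.1 a) x) z.2))) ∂(PP.prod (gM (Fin M)))) -
      ∫ z : ((Fin M → Fin (N + 1) → ℝ) × (GI P (N + 1) → ℝ)) × (Fin M → Fin (N + 1) → ℝ),
        Real.log (∑ x, w z.1 x * Real.exp ((cavB δ f1 f2 fun a => cubeS (z.1.1 a) x) +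
          cavY δ f1 (fun a => cubeS (z.1.1 a) x) fun a => cubeS (z.2 a) x))
        ∂(PP.prod (Measure.pi fun _ : Fin M => gM (Fin (N + 1)))) := rfl
  rw [h3]
  linarith only [h1, h2]

end Cube

section Compare

open scoped RealInnerProductSpace

/-- Comparison of the slopes of two expected free energies. -/
lemma selx_slope (A B : Base) {P : ℕ} (s : ℝ) (u : Fin P → ℝ) (hs : 0 ≤ s) (p : Fin P)
    {c K v h : ℝ} (hh : 0 < h)
    (h1 : |A.elz s (Function.update u p v) - B.elz s (Function.update u p v) - c| ≤ K)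
    (h2 : |A.elz s (Function.update u p (v - h)) - B.elz s (Function.update u p (v - h)) - c| ≤
      K) :
    A.kap s p * |A.mh P s (Function.update u p v) p - B.mh P s (Function.update u p v) p| ≤
      A.kap s p * ((A.mh P s (Function.update u p v) p -
        A.mh P s (Function.update u p (v - h)) p) +
        (B.mh P s (Function.update u p v) p - B.mh P s (Function.update u p (v - h)) p)) +
        2 * K / h := by
  have hκ0 : 0 ≤ A.kap s p := A.kap_nonneg s hs p
  have hκ : B.kap s p = A.kap s p := rfl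
  obtain ⟨a1, a2⟩ := A.elz_slope s u hs p (show v - h < v by linarith only [hh])
  obtain ⟨b1, b2⟩ := B.elz_slope s u hs p (show v - h < v by linarith only [hh])
  have a3 := A.mh_mono s u hs p (show v - h ≤ v by linarith only [hh])
  have b3 := B.mh_mono s u hs p (show v - h ≤ v by linarith only [hh])
  simp only at a3 b3
  rw [hκ] at b1 b2
  have c2 : v - (v - h) = h := by ring
  rw [c2] at a1 a2 b1 b2
  obtain ⟨d1, d2⟩ := abs_le.1 h1
  obtain ⟨d3, d4⟩ := abs_le.1 h2
  set κ := A.kap s p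
  set x := A.mh P s (Function.update u p v) p
  set x' := A.mh P s (Function.update u p (v - h)) p
  set y := B.mh P s (Function.update u p v) p
  set y' := B.mh P s (Function.update u p (v - h)) p
  rw [← sub_le_iff_le_add', le_div_iff₀ hh]
  have m1 := mul_le_mul_of_nonneg_left (mul_le_mul_of_nonneg_left a3 hκ0) hh.le
  have m2 := mul_le_mul_of_nonneg_left (mul_le_mul_of_nonneg_left b3 hκ0) hh.le
  rcases abs_cases (x - y) with ⟨e, -⟩ | ⟨e, -⟩
  · rw [e]
    linarith only [d2, d3, a1, b2, b1]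
  · rw [e]
    linarith only [d1, d4, a2, a1, b1]

/-- Average over one parameter. -/
lemma selx_avg_one (A B : Base) {P : ℕ} (s : ℝ) (u : Fin P → ℝ) (hs : 0 < s) (p : Fin P)
    {c K h : ℝ} (h0 : 0 < h) (h1 : h ≤ 1) (hu : ∀ q, 0 ≤ u q ∧ u q ≤ 2)
    (hK : ∀ u : Fin P → ℝ, (∀ q, 0 ≤ u q ∧ u q ≤ 2) → |A.elz s u - B.elz s u - c| ≤ K) :
    ∫ v, A.kap s p * |A.mh P s (Function.update u p v) p -
      B.mh P s (Function.update u p v) p| ∂nu12 ≤
      24 * h * A.kap s p ^ 2 + 2 * K / h := by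
  have hκ := A.kap_pos s hs p
  have hupd : ∀ v : ℝ, 0 ≤ v → v ≤ 2 → ∀ q, 0 ≤ Function.update u p v q ∧
      Function.update u p v q ≤ 2 := by
    intro v hv0 hv3 q
    by_cases h : q = p
    · subst h
      simp only [Function.update_self, hv0, hv3, and_self]
    · rw [Function.update_of_ne h]
      exact hu q
  have hcA : Continuous fun v => A.mh P s (Function.update u p v) p :=
    (A.cont_mh s p).comp (Base.cont_upd u p)
  have hcB : Continuous fun v => B.mh P s (Function.update u p v) p :=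
    (B.cont_mh s p).comp (Base.cont_upd u p)
  have hi : ∀ {g : ℝ → ℝ}, Continuous g → Integrable g nu12 := fun hg =>
    hg.continuousOn.integrableOn_compact isCompact_Icc
  have i1 : Integrable (fun v => A.mh P s (Function.update u p (v + h)) p -
      A.mh P s (Function.update u p (v - h)) p) nu12 :=
    hi ((hcA.comp (continuous_id.add continuous_const)).sub
        (hcA.comp (continuous_id.sub continuous_const)))
  have i2 : Integrable (fun v => B.mh P s (Function.update u p (v + h)) p -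
      B.mh P s (Function.update u p (v - h)) p) nu12 :=
    hi ((hcB.comp (continuous_id.add continuous_const)).sub
        (hcB.comp (continuous_id.sub continuous_const)))
  have hb : ∀ᵐ v ∂nu12, A.kap s p * |A.mh P s (Function.update u p v) p -
      B.mh P s (Function.update u p v) p| ≤
      A.kap s p * ((A.mh P s (Function.update u p (v + h)) p -
      A.mh P s (Function.update u p (v - h)) p) + (B.mh P s (Function.update u p (v + h)) p -
      B.mh P s (Function.update u p (v - h)) p)) + 2 * K / h := by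
    filter_upwards [ae_restrict_mem measurableSet_Icc] with v hv
    have t1 := selx_slope A B s u hs.le p h0
      (hK _ (hupd v (by linarith [hv.1]) (by linarith only [hv.2])))
      (hK _ (hupd (v - h) (by linarith [hv.1]) (by linarith only [h0, hv.2])))
    have a3 := A.mh_mono s u hs.le p (show v ≤ v + h by linarith only [h0])
    have b3 := B.mh_mono s u hs.le p (show v ≤ v + h by linarith only [h0])
    simp only at a3 b3
    refine t1.trans ?_
    (clear * - a3 b3 hκ; gcongr)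
  have i12 : Integrable (fun v => (A.mh P s (Function.update u p (v + h)) p -
      A.mh P s (Function.update u p (v - h)) p) + (B.mh P s (Function.update u p (v + h)) p -
      B.mh P s (Function.update u p (v - h)) p)) nu12 := i1.add i2
  have i3 : Integrable (fun v => A.kap s p * ((A.mh P s (Function.update u p (v + h)) p -
      A.mh P s (Function.update u p (v - h)) p) + (B.mh P s (Function.update u p (v + h)) p -
      B.mh P s (Function.update u p (v - h)) p)) + 2 * K / h) nu12 :=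
    (i12.const_mul _).add (integrable_const _)
  refine (integral_mono_of_nonneg (Filter.Eventually.of_forall fun v =>
    mul_nonneg hκ.le (abs_nonneg _)) i3 hb).trans ?_
  rw [integral_add (i12.const_mul _) (integrable_const _), integral_const_mul,
    integral_add i1 i2]
  simp only [integral_const, probReal_univ, smul_eq_mul, one_mul]
  have t5 := mono_increment (A.mh_mono s u hs.le p) h0 h1 (L := 6 * A.kap s p)
    (fun v hv => A.mh_nonneg P s _ hs.le p (by rw [Function.update_self]; exact hv)) (by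
      have h2 := A.mh_le P s (Function.update u p 3) hs.le p (by simp only [Function.update_self, Nat.ofNat_nonneg])
      rw [Function.update_self] at h2
      refine h2.trans (le_of_eq ?_)
      unfold Base.kap; ring)
  have t6 := mono_increment (B.mh_mono s u hs.le p) h0 h1 (L := 6 * A.kap s p)
    (fun v hv => B.mh_nonneg P s _ hs.le p (by rw [Function.update_self]; exact hv)) (by
      have h2 := B.mh_le P s (Function.update u p 3) hs.le p (by simp only [Function.update_self, Nat.ofNat_nonneg])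
      rw [Function.update_self] at h2
      refine h2.trans (le_of_eq ?_)
      unfold Base.kap; ring)
  have t7 := mul_le_mul_of_nonneg_left (add_le_add t5 t6) hκ.le
  linarith only [t7]

/-- Average over all parameters. -/
lemma selx_avg (A B : Base) {P : ℕ} (s : ℝ) (hs : 0 < s) (p : Fin P)
    {c K h : ℝ} (h0 : 0 < h) (h1 : h ≤ 1)
    (hK : ∀ u : Fin P → ℝ, (∀ q, 0 ≤ u q ∧ u q ≤ 2) → |A.elz s u - B.elz s u - c| ≤ K) :
    ∫ u, A.kap s p * |A.mh P s u p - B.mh P s u p| ∂(nuP P) ≤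
      24 * h * A.kap s p ^ 2 + 2 * K / h := by
  have hc : Continuous fun u : Fin P → ℝ => A.kap s p * |A.mh P s u p - B.mh P s u p| :=
    continuous_const.mul ((A.cont_mh s p).sub (B.cont_mh s p)).abs
  rw [integral_resample nu12 p (int_nuP hc)]
  have hb : ∀ᵐ u ∂(nuP P), ∫ v, A.kap s p * |A.mh P s (Function.update u p v) p -
      B.mh P s (Function.update u p v) p| ∂nu12 ≤
      24 * h * A.kap s p ^ 2 + 2 * K / h := by
    filter_upwards [ae_nuP P] with u hu
    exact selx_avg_one A B s u hs p h0 h1 (fun q => ⟨by linarith [(hu q).1],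
      by linarith only [(hu q).2]⟩) hK
  refine (integral_mono_of_nonneg (Filter.Eventually.of_forall fun u => ?_)
    (integrable_const _) hb).trans (by simp only [integral_const, probReal_univ, smul_eq_mul, one_mul, Std.le_refl])
  exact integral_nonneg fun v => mul_nonneg (A.kap_nonneg s hs.le p) (abs_nonneg _)

/-- The normalized difference of the averages of the `p`-th process of two systems. -/
noncomputable def selxOv (A B : Base) {P : ℕ} (s : ℝ) (p : Fin P) (u : Fin P → ℝ) : ℝ :=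
  |A.mh P s u p - B.mh P s u p| / A.kap s p

lemma selxOv_nonneg (A B : Base) {P : ℕ} {s : ℝ} (hs : 0 ≤ s) (p : Fin P) (u : Fin P → ℝ) :
    0 ≤ selxOv A B s p u := div_nonneg (abs_nonneg _) (A.kap_nonneg s hs p)

lemma selxOv_int (A B : Base) {P : ℕ} (s : ℝ) (p : Fin P) :
    Integrable (fun u : Fin P → ℝ => selxOv A B s p u) (nuP P) :=
  int_nuP ((((A.cont_mh s p).sub (B.cont_mh s p)).abs).div_const _)

lemma selxOv_avg (A B : Base) {P : ℕ} (s : ℝ) (hs : 1 ≤ s) (p : Fin P) {c K : ℝ}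
    (hK : ∀ u : Fin P → ℝ, (∀ q, 0 ≤ u q ∧ u q ≤ 2) → |A.elz s u - B.elz s u - c| ≤ K) :
    ∫ u, selxOv A B s p u ∂(nuP P) ≤ (24 + 2 * K * 4 ^ ((p : ℕ) + 1)) / s := by
  have hs0 : 0 < s := by (clear * - hs; linarith)
  have hκ := A.kap_pos s hs0 p
  have h := selx_avg A B s hs0 p (h := 1 / s) (by positivity)
    (by rw [div_le_one hs0]; exact hs) hK
  have e : ∀ u : Fin P → ℝ, selxOv A B s p u =
      (A.kap s p ^ 2)⁻¹ * (A.kap s p * |A.mh P s u p - B.mh P s u p|) := fun u => by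
    unfold selxOv
    field_simp
  simp only [e]
  rw [integral_const_mul, inv_mul_le_iff₀ (by positivity)]
  refine h.trans (le_of_eq ?_)
  have h4 : A.kap s p ^ 2 * (4 : ℝ) ^ ((p : ℕ) + 1) = s ^ 2 := by
    unfold Base.kap
    rw [mul_pow, ← pow_mul, mul_comm ((p : ℕ) + 1) 2, pow_mul, mul_assoc, ← mul_pow]
    norm_num
  have h5 : A.kap s p ^ 2 * ((24 + 2 * K * 4 ^ ((p : ℕ) + 1)) / s) =
      24 * (1 / s) * A.kap s p ^ 2 + 2 * K * (A.kap s p ^ 2 * 4 ^ ((p : ℕ) + 1)) / s := by ring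
  rw [h5, h4]
  field_simp

/-- The difference of the averages of the overlaps. -/
lemma selxOv_ge (A B : Base) {P : ℕ} {s : ℝ} (hs : 0 < s) (p : Fin P) {u : Fin P → ℝ}
    (hu : 1 ≤ u p) :
    |rav (A.jl (GI P A.d)) (A.wt (A.coef P s u)) (n := 2)
      (fun _ x => ⟪A.φ (x 0), A.φ (x 1)⟫ ^ ((p : ℕ) + 1)) -
    rav (B.jl (GI P B.d)) (B.wt (B.coef P s u)) (n := 2)
      (fun _ x => ⟪B.φ (x 0), B.φ (x 1)⟫ ^ ((p : ℕ) + 1))| ≤ selxOv A B s p u := by
  have hκ := A.kap_pos s hs p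
  unfold selxOv
  rw [A.mh_formula, B.mh_formula]
  have e1 : A.cc s u p = u p * A.kap s p := by unfold Base.cc Base.kap; ring
  have e2 : B.cc s u p = u p * A.kap s p := by unfold Base.cc Base.kap; ring
  rw [e1, e2, le_div_iff₀ hκ]
  set x := rav (A.jl (GI P A.d)) (A.wt (A.coef P s u)) (n := 2)
      (fun _ x => ⟪A.φ (x 0), A.φ (x 1)⟫ ^ ((p : ℕ) + 1))
  set y := rav (B.jl (GI P B.d)) (B.wt (B.coef P s u)) (n := 2)
      (fun _ x => ⟪B.φ (x 0), B.φ (x 1)⟫ ^ ((p : ℕ) + 1))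
  have e3 : u p * A.kap s p * (1 - x) - u p * A.kap s p * (1 - y) =
      (u p * A.kap s p) * (y - x) := by ring
  rw [e3, abs_mul, abs_of_pos (show 0 < u p * A.kap s p by (clear * - hu hκ; positivity)), abs_sub_comm y x]
  have h1 : |x - y| * A.kap s p * 1 ≤ |x - y| * A.kap s p * u p :=
    mul_le_mul_of_nonneg_left hu (mul_nonneg (abs_nonneg _) hκ.le)
  linarith only [h1]

end Compare

section Sel

variable {f f1 f2 f3 : ℝ → ℝ} {C : ℝ}

/-- The sum of the normalized differences of the systems with `N + 1` and `N + 2` spins. -/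
noncomputable def selxE (f : ℝ → ℝ) (hfm : Measurable f) (C : ℝ) (hC : ∀ x, |f x| ≤ C)
    (N M P : ℕ) (u : Fin P → ℝ) : ℝ :=
  ∑ q, selxOv (cubeBase f hfm C hC (N + 1) (M + 1)) (cubeBase f hfm C hC N (M + 1)) (sN N) q u

lemma selxE_avg (hfm : Measurable f) (hC : ∀ x, |f x| ≤ C) (N M P : ℕ) {c K : ℝ}
    (hK : ∀ u : Fin P → ℝ, (∀ q, 0 ≤ u q ∧ u q ≤ 2) →
      |(cubeBase f hfm C hC (N + 1) (M + 1)).elz (sN N) u -
        (cubeBase f hfm C hC N (M + 1)).elz (sN N) u - c| ≤ K) :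
    ∫ u, selxE f hfm C hC N M P u ∂(nuP P) ≤
      (∑ q : Fin P, (24 + 2 * K * 4 ^ ((q : ℕ) + 1))) / sN N := by
  unfold selxE
  rw [integral_finsetSum _ fun q _ => selxOv_int _ _ (sN N) q, Finset.sum_div]
  exact Finset.sum_le_sum fun q _ => selxOv_avg _ _ (sN N) (sN_ge N) q hK

/-- Choice of the parameters of the perturbation. -/
lemma selx_u (hfm : Measurable f) (hC : ∀ x, |f x| ≤ C) {α : ℝ} (N M P : ℕ) {A : ℝ}
    (hA : 0 ≤ A) (hM0 : (M : ℝ) * (2 * C) ^ 2 ≤ A * ((N : ℝ) + 1))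
    (hM1 : (((M + 1 : ℕ)) : ℝ) * (2 * C) ^ 2 ≤ A * ((N : ℝ) + 1)) {p ε lam K0 K c : ℝ}
    (hε : 0 < ε) (hε1 : ε ≤ 1) (hlam : lam = (|p| + 3 + K0) / ε) (hK0 : 0 ≤ K0)
    (hK00 : 0 ≤ K)
    (g1 : lam * (2 * (∑ q : Fin P, 2 ^ ((q : ℕ) + 1) * (15 + 3 * √(3 + A))) +
      ∑ q : Fin P, (24 + 2 * K * 4 ^ ((q : ℕ) + 1))) *
      (√(√((N : ℝ) + 1)) / sN N) ≤ ε)
    (hK : ∀ u : Fin P → ℝ, (∀ q, 0 ≤ u q ∧ u q ≤ 2) →
      |(cubeBase f hfm C hC (N + 1) (M + 1)).elz (sN N) u -
        (cubeBase f hfm C hC N (M + 1)).elz (sN N) u - c| ≤ K)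
    (hsel : (eav f hfm C hC P (N + 1) (M + 1) (sN N) -
        eav f hfm C hC P N (M + 1) (sN N) - Real.log 2) +
        α * (eav f hfm C hC P N (M + 1) (sN N) - eav f hfm C hC P N M (sN N)) ≤ p + 2 * ε)
    (hlow : ∀ u : Fin P → ℝ, (∀ q, 1 ≤ u q ∧ u q ≤ 2) → -K0 ≤ selX f hfm C hC α N M P u) :
    ∃ u : Fin P → ℝ, (∀ q, 1 ≤ u q ∧ u q ≤ 2) ∧ (∀ q, devq f hfm C hC N M P q u ≤ ε * sN N) ∧
      (∀ q, devq f hfm C hC N (M + 1) P q u ≤ ε * sN N) ∧
      (∀ q, selxOv (cubeBase f hfm C hC (N + 1) (M + 1)) (cubeBase f hfm C hC N (M + 1))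
        (sN N) q u ≤ ε) ∧
      selX f hfm C hC α N M P u ≤ p + 3 * ε := by
  have hs1 := sN_ge N
  have hs0 : 0 < sN N := by linarith only [hs1]
  have hlam0 : 0 < lam := by
    have := abs_nonneg p
    have : 0 < |p| + 3 + K0 := by linarith only [hK0, this]
    rw [hlam]
    (clear * - hK0 hε; positivity)
  have hX := int_selX hfm hC α N M P
  have hDv : Integrable (selD f hfm C hC N M P) (nuP P) :=
    integrable_finsetSum _ fun q _ =>
      (int_devq hfm hC N M P q).add (int_devq hfm hC N (M + 1) P q)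
  have hEv : Integrable (selxE f hfm C hC N M P) (nuP P) :=
    integrable_finsetSum _ fun q _ => selxOv_int _ _ (sN N) q
  have hXD : Integrable (fun u => selX f hfm C hC α N M P u +
      lam / sN N * selD f hfm C hC N M P u) (nuP P) := hX.add (hDv.const_mul _)
  have hY : Integrable (fun u => (selX f hfm C hC α N M P u +
      lam / sN N * selD f hfm C hC N M P u) + lam * selxE f hfm C hC N M P u) (nuP P) :=
    hXD.add (hEv.const_mul _)
  have iY : ∫ u, ((selX f hfm C hC α N M P u + lam / sN N * selD f hfm C hC N M P u) +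
      lam * selxE f hfm C hC N M P u) ∂(nuP P) ≤ p + 3 * ε := by
    rw [integral_add hXD (hEv.const_mul _), integral_const_mul,
      integral_add hX (hDv.const_mul _), integral_const_mul, integral_selX]
    have h1 := mul_le_mul_of_nonneg_left (integral_selD_le hfm hC N M P hA hM0 hM1)
      (show 0 ≤ lam / sN N by positivity)
    have h2 := mul_le_mul_of_nonneg_left (selxE_avg hfm hC N M P hK) hlam0.le
    set T1 := ∑ q : Fin P, 2 ^ ((q : ℕ) + 1) * (15 + 3 * √(3 + A))
    set T2 := ∑ q : Fin P, (24 + 2 * K * 4 ^ ((q : ℕ) + 1)) with hT2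
    have hT20 : 0 ≤ T2 := Finset.sum_nonneg fun q _ => by (clear * - hK00; positivity)
    have h3 : T2 / sN N ≤ T2 * (√(√((N : ℝ) + 1)) / sN N) := by
      rw [div_eq_mul_one_div]
      refine mul_le_mul_of_nonneg_left ?_ hT20
      refine div_le_div_of_nonneg_right ?_ hs0.le
      rw [Real.one_le_sqrt, Real.one_le_sqrt]
      linarith only []
    have h4 := mul_le_mul_of_nonneg_left h3 hlam0.le
    have h5 : lam / sN N * (2 * T1 * √(√((N : ℝ) + 1))) + lam * (T2 * (√(√((N : ℝ) + 1)) / sN N)) =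
        lam * (2 * T1 + T2) * (√(√((N : ℝ) + 1)) / sN N) := by ring
    linarith only [hfm, hC, hsel, h1, h2, g1, h4, h5]
  obtain ⟨u, hu, hYu⟩ := exists_notMem_null_le_integral hY (ae_iff.1 (ae_nuP P))
  have hu' : ∀ q, 1 ≤ u q ∧ u q ≤ 2 := by simpa using hu
  have hYu' := hYu.trans iY
  have hXK := hlow u hu'
  have hDv0 : 0 ≤ selD f hfm C hC N M P u := Finset.sum_nonneg fun q _ =>
    add_nonneg (devq_nonneg hfm hC N M P q u) (devq_nonneg hfm hC N (M + 1) P q u)
  have hEv0 : 0 ≤ selxE f hfm C hC N M P u := Finset.sum_nonneg fun q _ =>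
    selxOv_nonneg _ _ hs0.le q u
  have hD1 : 0 ≤ lam / sN N * selD f hfm C hC N M P u := by (clear * - hfm hC hlam0 hs1 hDv0; positivity)
  have hE1 : 0 ≤ lam * selxE f hfm C hC N M P u := by (clear * - hfm hC hlam0 hEv0; positivity)
  have hlame : |p| + 3 + K0 = lam * ε := by rw [hlam]; (clear * - hε hK0; field_simp)
  have hpa := le_abs_self p
  have hDvle : selD f hfm C hC N M P u ≤ ε * sN N := by
    have h1 : lam / sN N * selD f hfm C hC N M P u ≤ |p| + 3 + K0 := by
      linarith only [hε1, iY, hYu, hXK, hE1, hpa]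
    rw [hlame, div_mul_eq_mul_div, div_le_iff₀ hs0, mul_assoc] at h1
    exact le_of_mul_le_mul_left h1 hlam0
  have hEvle : selxE f hfm C hC N M P u ≤ ε := by
    have h1 : lam * selxE f hfm C hC N M P u ≤ |p| + 3 + K0 := by
      linarith only [hfm, hC, hε1, iY, hYu, hXK, hD1, hpa]
    rw [hlame] at h1
    exact le_of_mul_le_mul_left h1 hlam0
  have hsingle : ∀ q, devq f hfm C hC N M P q u + devq f hfm C hC N (M + 1) P q u ≤
      selD f hfm C hC N M P u := fun q =>
    Finset.single_le_sum (f := fun q => devq f hfm C hC N M P q u +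
      devq f hfm C hC N (M + 1) P q u)
      (fun q _ => add_nonneg (devq_nonneg hfm hC N M P q u)
        (devq_nonneg hfm hC N (M + 1) P q u)) (Finset.mem_univ q)
  refine ⟨u, hu', fun q => ?_, fun q => ?_, fun q => ?_, ?_⟩
  · have := hsingle q
    have := devq_nonneg hfm hC N (M + 1) P q u
    (clear hY hYu' hDv0 hD1 hEvle; linarith)
  · have := hsingle q
    have := devq_nonneg hfm hC N M P q u
    (clear hY hYu' hDv0 hD1 hEvle; linarith)
  · refine le_trans ?_ hEvle
    exact Finset.single_le_sum (f := fun q => selxOv (cubeBase f hfm C hC (N + 1) (M + 1))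
      (cubeBase f hfm C hC N (M + 1)) (sN N) q u)
      (fun q _ => selxOv_nonneg _ _ hs0.le q u) (Finset.mem_univ q)
  · linarith only [hfm, hC, iY, hYu, hD1, hE1]

/-- Selection of the size, of the number of patterns and of the parameters of the perturbation. -/
theorem selx_step (hf : CB3 C f f1 f2 f3) (hfm : Measurable f) {α p : ℝ} (hα : 0 < α)
    (hp : ∀ ε > 0, ∃ᶠ N in atTop, meanPressure cube α f N < p + ε) {ε : ℝ} (hε : 0 < ε)
    (hε1 : ε ≤ 1) (P N₀ : ℕ) :
    ∃ (N M : ℕ) (u : Fin P → ℝ), N₀ ≤ N ∧ |(M : ℝ) / N - α| ≤ ε ∧ (∀ q, 1 ≤ u q ∧ u q ≤ 2) ∧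
      (∀ q, devq f hfm C hf.b0 N M P q u ≤ ε * sN N) ∧
      (∀ q, devq f hfm C hf.b0 N (M + 1) P q u ≤ ε * sN N) ∧
      (∀ q, selxOv (cubeBase f hfm C hf.b0 (N + 1) (M + 1)) (cubeBase f hfm C hf.b0 N (M + 1))
        (sN N) q u ≤ ε) ∧
      cubeDN f f1 f2 hfm C hf.b0 N (M + 1) P (sN N) u +
        α * ((cubeBase f hfm C hf.b0 N M).sys P (sN N) u).dM f ≤ p + 4 * ε := by
  have hC0 : 0 ≤ C := (abs_nonneg _).trans (hf.b0 0)
  obtain ⟨D, hD0, hD⟩ := spin_increment hf hfm
  obtain ⟨L, hL1, hL⟩ := selection_N hf hfm hα hp hε P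
  have hL0 : 0 < L := by linarith
  -- constants
  set A : ℝ := (2 * C) ^ 2 * (2 * α + L + 1) with hA
  have hA0 : 0 ≤ A := by (clear * - hα hL1; positivity)
  have hexp1 : 1 ≤ Real.exp ((α + 1) * C ^ 2 / 2) := Real.one_le_exp (by (clear * - hα; positivity))
  set K0 : ℝ := (Real.exp ((α + 1) * C ^ 2 / 2) - 1) + 1 + α * C with hK0
  have hK00 : 0 ≤ K0 := by
    have h3 : 0 ≤ α * C := by (clear * - hα hC0; positivity)
    linarith only [hexp1, h3]
  set K1 : ℝ := Real.exp ((α + 1) * C ^ 2 / 2) with hK1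
  have hK10 : 0 ≤ K1 := by linarith only [hexp1]
  obtain ⟨N₁, hN₁⟩ := large_N α D L ((|p| + 3 + K0) / ε *
    (2 * (∑ q : Fin P, 2 ^ ((q : ℕ) + 1) * (15 + 3 * √(3 + A))) +
      ∑ q : Fin P, (24 + 2 * K1 * 4 ^ ((q : ℕ) + 1)))) ε hα hε N₀
  obtain ⟨N, M₁, hN, hM1, hM2, hsel⟩ := hL N₁
  obtain ⟨g1, g2, g3, g4, g5, hN1, hN0⟩ := hN₁ N hN
  have hNr : (1 : ℝ) ≤ N := by exact_mod_cast hN1
  -- `M₁ = M + 1`
  have hM1pos : 1 ≤ M₁ := by
    have h2 : (1 : ℝ) ≤ M₁ := by linarith only [hα, hM1, g5]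
    exact_mod_cast h2
  obtain ⟨M, rfl⟩ : ∃ M, M₁ = M + 1 := ⟨M₁ - 1, by omega⟩
  have hMc : (((M + 1 : ℕ)) : ℝ) = (M : ℝ) + 1 := by push_cast; ring
  rw [hMc] at hM1 hM2
  rw [Nat.add_sub_cancel] at hsel
  have hMr0 : (0 : ℝ) ≤ M := Nat.cast_nonneg M
  -- bounds on the number of patterns
  have hMA : ((M : ℝ) + 1) ≤ (2 * α + L + 1) * ((N : ℝ) + 1) := by nlinarith only [hL1, g5, hM2]
  have hMA1 : (((M + 1 : ℕ)) : ℝ) * (2 * C) ^ 2 ≤ A * ((N : ℝ) + 1) := by
    rw [hMc, hA]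
    nlinarith only [hMA, sq_nonneg (2 * C)]
  have hMA0 : (M : ℝ) * (2 * C) ^ 2 ≤ A * ((N : ℝ) + 1) := by
    rw [hMc] at hMA1
    linarith only [hMA1, sq_nonneg (2 * C)]
  have hNp2 : (0 : ℝ) < (N : ℝ) + 2 := by linarith only []
  have hMδ : ((M : ℝ) + 1) * (1 / ((N : ℝ) + 2)) ≤ α + 1 := by
    rw [mul_one_div, div_le_iff₀ hNp2]
    linarith only [g4, hM2]
  have hlow : ∀ u : Fin P → ℝ, (∀ q, 1 ≤ u q ∧ u q ≤ 2) → _ := fun u hu =>
    selX_low hf hfm (u := u) hα hD0 (fun u hu => hD N (M + 1) P (sN N) u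
      (by linarith only [sN_ge N]) hu) hMδ g2 hu
  -- the comparison
  have hcmp : ∀ u : Fin P → ℝ, (∀ q, 0 ≤ u q ∧ u q ≤ 2) →
      |(cubeBase f hfm C hf.b0 (N + 1) (M + 1)).elz (sN N) u -
        (cubeBase f hfm C hf.b0 N (M + 1)).elz (sN N) u - Real.log 2| ≤ K1 := by
    intro u hu
    have hspin := hD N (M + 1) P (sN N) u (by linarith only [sN_ge N]) hu
    have herr : D * (((M + 1 : ℕ) : ℝ) * (1 / ((N : ℝ) + 2) * √(1 / ((N : ℝ) + 2))) +
        sN N ^ 2 / ((N : ℝ) + 1)) ≤ ε := by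
      refine le_trans (mul_le_mul_of_nonneg_left ?_ hD0) g2
      rw [hMc, ← mul_assoc]
      have := mul_le_mul_of_nonneg_right hMδ (Real.sqrt_nonneg (1 / ((N : ℝ) + 2)))
      linarith only [this]
    have h0 : (((M + 1 : ℕ)) : ℝ) * (1 / ((N : ℝ) + 2)) * C ^ 2 / 2 ≤ (α + 1) * C ^ 2 / 2 := by
      rw [hMc]
      have := mul_le_mul_of_nonneg_right hMδ (sq_nonneg C)
      linarith only [this]
    have h1 := Real.exp_le_exp.2 h0
    have h2 := cubeDN_ge hf hfm N (M + 1) P (sN N) u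
    have h3 := selx_cubeDN_le hf hfm N (M + 1) P (sN N) u
    have h4 := abs_le.1 (hspin.trans (herr.trans hε1))
    rw [abs_le]
    constructor <;> linarith only [h1, h2, h4, h3]
  obtain ⟨u, hu, hd0, hd1, hE, hX⟩ := selx_u hfm hf.b0 (α := α) N M P hA0 hMA0 hMA1 hε hε1 rfl
    hK00 hK10 g1 hcmp hsel (fun u hu => by
      obtain ⟨h1, h2⟩ := hlow u hu
      linarith only [hε1, h1, h2])
  refine ⟨N, M, u, hN0, ?_, hu, hd0, hd1, hE, ?_⟩
  · have h1 : |(M : ℝ) - α * N| ≤ 2 * α + L + 2 := by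
      rw [abs_le]
      constructor <;> linarith only [hM2, hα, hL1, hM1]
    have h2 : (M : ℝ) / N - α = ((M : ℝ) - α * N) / N := by (clear * - hN1; field_simp)
    rw [h2, abs_div, abs_of_pos (show (0 : ℝ) < N by linarith only [hL1, g4])]
    exact (div_le_div_of_nonneg_right h1 (by linarith only [hL1, g4])).trans g3
  · have h1 := (hlow u hu).1
    linarith only [hX, h1]

lemma selx_cR (N : ℕ) (x y : Fin (N + 1) → Bool) :
    inner ℝ (cubeφ N x) (cubeφ N y) = cR N x y := by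
  unfold cR
  rw [PiLp.inner_apply]
  exact Finset.sum_congr rfl fun i _ => by simp [mul_comm]

lemma selx_tav (hfm : Measurable f) (hC : ∀ x, |f x| ≤ C) (N M P : ℕ) (s : ℝ)
    (u : Fin P → ℝ) (r : ℕ) :
    (pS f hfm C hC N M P s u).tav (n := 2) (fun _ x => cR N (x 0) (x 1) ^ r) =
      rav ((cubeBase f hfm C hC N M).jl (GI P (cubeBase f hfm C hC N M).d))
        ((cubeBase f hfm C hC N M).wt ((cubeBase f hfm C hC N M).coef P s u)) (n := 2)
        (fun _ x => inner ℝ ((cubeBase f hfm C hC N M).φ (x 0))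
          ((cubeBase f hfm C hC N M).φ (x 1)) ^ r) := by
  have h : (pS f hfm C hC N M P s u).tav (n := 2) (fun _ x => cR N (x 0) (x 1) ^ r) =
      rav ((cubeBase f hfm C hC N M).jl (GI P (cubeBase f hfm C hC N M).d))
        ((cubeBase f hfm C hC N M).wt ((cubeBase f hfm C hC N M).coef P s u)) (n := 2)
        (fun _ x => cR N (x 0) (x 1) ^ r) := rfl
  rw [h]
  refine rav_congr fun z x => ?_
  exact congrArg (· ^ r) (selx_cR N (x 0) (x 1)).symm

/-- Selection of the parameters along a sequence, with the comparison of the overlaps of the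
systems with `N + 1` and `N + 2` spins. -/
theorem exists_selection_x {f f1 f2 f3 : ℝ → ℝ} {C : ℝ} (hf : CB3 C f f1 f2 f3)
    (hfm : Measurable f) {α p : ℝ} (hα : 0 < α)
    (hp : ∀ ε > 0, ∃ᶠ N in atTop, meanPressure cube α f N < p + ε) :
    ∃ (N M P : ℕ → ℕ) (s : ℕ → ℝ) (u : ∀ j, Fin (P j) → ℝ),
      Tendsto N atTop atTop ∧
      Tendsto (fun j => (M j : ℝ) / (N j : ℝ)) atTop (𝓝 α) ∧
      (∀ p : ℕ, AsympGG (hyperfilter ℕ) (fun j =>
        (cubeBase f hfm C hf.b0 (N j) (M j)).sys (P j) (s j) (u j)) (fun x => x ^ p)) ∧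
      (∀ p : ℕ, AsympGG (hyperfilter ℕ) (fun j =>
        (cubeBase f hfm C hf.b0 (N j) (M j + 1)).sys (P j) (s j) (u j)) (fun x => x ^ p)) ∧
      (∀ ε > 0, ∀ᶠ j in atTop,
        cubeDN f f1 f2 hfm C hf.b0 (N j) (M j + 1) (P j) (s j) (u j) +
          α * ((cubeBase f hfm C hf.b0 (N j) (M j)).sys (P j) (s j) (u j)).dM f ≤ p + ε) ∧
      (∀ j, 0 ≤ s j) ∧ (∀ j q, 0 ≤ u j q ∧ u j q ≤ 2) ∧
      Tendsto (fun j => s j ^ 2 / ((N j : ℝ) + 1)) atTop (𝓝 0) ∧
      ∀ p : ℕ, Tendsto (fun j =>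
        (pS f hfm C hf.b0 (N j + 1) (M j + 1) (P j) (s j) (u j)).tav (n := 2)
          (fun _ x => cR (N j + 1) (x 0) (x 1) ^ (p + 1)) -
        (pS f hfm C hf.b0 (N j) (M j + 1) (P j) (s j) (u j)).tav (n := 2)
          (fun _ x => cR (N j) (x 0) (x 1) ^ (p + 1))) atTop (𝓝 0) := by
  have key : ∀ j : ℕ, ∃ (N M : ℕ) (u : Fin j → ℝ), j ≤ N ∧
      |(M : ℝ) / N - α| ≤ 1 / ((j : ℝ) + 1) ∧ (∀ q, 1 ≤ u q ∧ u q ≤ 2) ∧
      (∀ q, devq f hfm C hf.b0 N M j q u ≤ 1 / ((j : ℝ) + 1) * sN N) ∧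
      (∀ q, devq f hfm C hf.b0 N (M + 1) j q u ≤ 1 / ((j : ℝ) + 1) * sN N) ∧
      (∀ q, selxOv (cubeBase f hfm C hf.b0 (N + 1) (M + 1)) (cubeBase f hfm C hf.b0 N (M + 1))
        (sN N) q u ≤ 1 / ((j : ℝ) + 1)) ∧
      cubeDN f f1 f2 hfm C hf.b0 N (M + 1) j (sN N) u +
        α * ((cubeBase f hfm C hf.b0 N M).sys j (sN N) u).dM f ≤
          p + 4 * (1 / ((j : ℝ) + 1)) := fun j =>
    selx_step hf hfm hα hp (by positivity)
      (by rw [div_le_one (by (clear * -; positivity))]; linarith only []) j j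
  choose N M u hN hM hu hd0 hd1 hE hdn using key
  have h0 : Tendsto (fun j : ℕ => 1 / ((j : ℝ) + 1)) atTop (𝓝 0) :=
    tendsto_one_div_add_atTop_nhds_zero_nat
  have hU : (hyperfilter ℕ : Filter ℕ) ≤ atTop := by
    rw [← Nat.cofinite_eq_atTop]
    exact hyperfilter_le_cofinite
  have hsmall : ∀ ε > 0, ∀ᶠ j : ℕ in (hyperfilter ℕ : Filter ℕ), 1 / ((j : ℝ) + 1) ≤ ε :=
    fun ε hε => (h0.eventually (ge_mem_nhds hε)).filter_mono hU
  have hNt : Tendsto N atTop atTop := tendsto_atTop_mono hN tendsto_id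
  refine ⟨N, M, fun j => j, fun j => sN (N j), u, hNt, ?_, ?_, ?_, ?_, ?_, ?_, ?_, ?_⟩
  · rw [tendsto_iff_norm_sub_tendsto_zero]
    exact squeeze_zero (fun _ => norm_nonneg _) (fun j => by
      rw [Real.norm_eq_abs]; exact hM j) h0
  · intro r
    refine asympGG_of_dev (fun j => cubeBase f hfm C hf.b0 (N j) (M j)) (fun j => j)
      (fun j => sN (N j)) u (Filter.Eventually.of_forall fun j => by linarith only [sN_ge (N j)])
      (Filter.Eventually.of_forall fun j q => (hu j q).1)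
      (fun j q => (cubeBase f hfm C hf.b0 (N j) (M j)).mh j (sN (N j)) (u j) q)
      (fun r => (eventually_gt_atTop r).filter_mono hU) (fun r ε hε => ?_) r
    filter_upwards [hsmall ε hε] with j hj h
    exact (hd0 j ⟨r, h⟩).trans (mul_le_mul_of_nonneg_right hj (by linarith only [sN_ge (N j)]))
  · intro r
    refine asympGG_of_dev (fun j => cubeBase f hfm C hf.b0 (N j) (M j + 1)) (fun j => j)
      (fun j => sN (N j)) u (Filter.Eventually.of_forall fun j => by linarith only [sN_ge (N j)])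
      (Filter.Eventually.of_forall fun j q => (hu j q).1)
      (fun j q => (cubeBase f hfm C hf.b0 (N j) (M j + 1)).mh j (sN (N j)) (u j) q)
      (fun r => (eventually_gt_atTop r).filter_mono hU) (fun r ε hε => ?_) r
    filter_upwards [hsmall ε hε] with j hj h
    exact (hd1 j ⟨r, h⟩).trans (mul_le_mul_of_nonneg_right hj (by linarith only [sN_ge (N j)]))
  · intro ε hε
    have h1 : Tendsto (fun j : ℕ => 4 * (1 / ((j : ℝ) + 1))) atTop (𝓝 0) := by
      have := h0.const_mul 4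
      rwa [mul_zero] at this
    filter_upwards [h1.eventually (ge_mem_nhds hε)] with j hj
    have := hdn j
    linarith only [hj, this]
  · intro j
    linarith only [sN_ge (N j)]
  · intro j q
    exact ⟨by linarith only [(hu j q).1], (hu j q).2⟩
  · exact tendsto_sN_sq_div.comp hNt
  · intro r
    refine squeeze_zero_norm' ?_ h0
    filter_upwards [eventually_gt_atTop r] with j hj
    have h1 := (selxOv_ge (cubeBase f hfm C hf.b0 (N j + 1) (M j + 1))
      (cubeBase f hfm C hf.b0 (N j) (M j + 1)) (s := sN (N j))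
      (by linarith only [sN_ge (N j)]) ⟨r, hj⟩ (u := u j) (hu j ⟨r, hj⟩).1).trans (hE j ⟨r, hj⟩)
    rw [Real.norm_eq_abs]
    rw [selx_tav, selx_tav]
    exact h1

end Sel

end Vale.Agent.P157.Par
end

section

/-! Exchangeability of the sites. -/

open MeasureTheory ProbabilityTheory Filter Topology

namespace Vale.Agent.P157.Par

open Vale.Agent.P367.GT (gM)
open Vale.Agent.P157.Par.Cube

lemma exch_mp {ι : Type} [Fintype ι] (σ : ι ≃ ι) :
    MeasurePreserving (fun g : ι → ℝ => fun i => g (σ i)) (gM ι) (gM ι) := by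
  have h := measurePreserving_piCongrLeft (fun _ : ι => gaussianReal 0 1) σ.symm
  have e : (MeasurableEquiv.piCongrLeft (fun _ : ι => ℝ) σ.symm : (ι → ℝ) → ι → ℝ) =
      fun g : ι → ℝ => fun i => g (σ i) := by
    funext g j
    have h1 := MeasurableEquiv.piCongrLeft_apply_apply (β := fun _ : ι => ℝ) σ.symm g (σ j)
    rw [Equiv.symm_apply_apply] at h1
    exact h1
  rw [← e]
  exact h

section exch

variable (f : ℝ → ℝ) (N M P : ℕ) (s : ℝ) (u : Fin P → ℝ) (π : Fin (N + 1) ≃ Fin (N + 1))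

/-- the permutation of the indices of the perturbation -/
def exch_ix : GI P (N + 1) ≃ GI P (N + 1) where
  toFun e := ⟨e.1, fun r => π (e.2 r)⟩
  invFun e := ⟨e.1, fun r => π.symm (e.2 r)⟩
  left_inv e := by
    rcases e with ⟨p, k⟩
    simp
  right_inv e := by
    rcases e with ⟨p, k⟩
    simp

/-- the permutation of the disorder -/
def exch_th (z : (Fin M → Fin (N + 1) → ℝ) × (GI P (N + 1) → ℝ)) :
    (Fin M → Fin (N + 1) → ℝ) × (GI P (N + 1) → ℝ) :=
  (fun a j => z.1 a (π j), fun e => z.2 (exch_ix N P π e))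

lemma exch_cubeφ (y : Fin (N + 1) → Bool) (j : Fin (N + 1)) :
    cubeφ N (fun i => y (π i)) j = cubeφ N y (π j) := rfl

lemma exch_cubeS (t : Fin (N + 1) → ℝ) (y : Fin (N + 1) → Bool) :
    cubeS (fun j => t (π j)) (fun i => y (π i)) = cubeS t y := by
  unfold cubeS
  simp only [exch_cubeφ]
  exact Equiv.sum_comp π fun j => t j * cubeφ N y j

lemma exch_lin (g : GI P (N + 1) → ℝ) (y : Fin (N + 1) → Bool) :
    lin (cf N s u) (fun e => g (exch_ix N P π e)) (fun i => y (π i)) = lin (cf N s u) g y := by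
  unfold lin
  rw [← Equiv.sum_comp (exch_ix N P π) fun e => cf N s u y e * g e]
  rfl

lemma exch_EE (z : (Fin M → Fin (N + 1) → ℝ) × (GI P (N + 1) → ℝ)) (y : Fin (N + 1) → Bool) :
    EE f s u (exch_th N M P π z).1 (exch_th N M P π z).2 (fun i => y (π i)) =
      EE f s u z.1 z.2 y := by
  unfold EE exch_th
  simp only [exch_cubeS, exch_lin]

lemma exch_wA (z : (Fin M → Fin (N + 1) → ℝ) × (GI P (N + 1) → ℝ)) (y : Fin (N + 1) → Bool) :
    AddP.wA f N M P s u (exch_th N M P π z) (fun i => y (π i)) = AddP.wA f N M P s u z y := by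
  unfold AddP.wA
  rw [exch_EE]
  congr 1
  let e : (Fin (N + 1) → Bool) ≃ (Fin (N + 1) → Bool) := Equiv.arrowCongr π.symm (Equiv.refl Bool)
  have he : ∀ y' : Fin (N + 1) → Bool, e y' = fun i => y' (π i) := fun y' => rfl
  rw [← Equiv.sum_comp e fun y' =>
    Real.exp (EE f s u (exch_th N M P π z).1 (exch_th N M P π z).2 y')]
  refine Finset.sum_congr rfl fun y' _ => ?_
  rw [he, exch_EE]

lemma exch_th_mp : MeasurePreserving (exch_th N M P π)
    ((pm M N).prod (gM (GI P (N + 1)))) ((pm M N).prod (gM (GI P (N + 1)))) := by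
  have h1 : MeasurePreserving (fun t : Fin M → Fin (N + 1) → ℝ => fun a j => t a (π j))
      (pm M N) (pm M N) :=
    measurePreserving_pi (fun _ : Fin M => gM (Fin (N + 1))) (fun _ : Fin M => gM (Fin (N + 1)))
      fun _ => exch_mp π
  exact h1.prod (exch_mp (exch_ix N P π))

/-- the weight of the replicas -/
noncomputable def exch_V {n : ℕ} (x : Fin n → Fin (N + 1) → Bool) : ℝ :=
  ∫ z : (Fin M → Fin (N + 1) → ℝ) × (GI P (N + 1) → ℝ), ∏ i, AddP.wA f N M P s u z (x i)
    ∂((pm M N).prod (gM (GI P (N + 1))))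

variable {f}

lemma exch_int (hf : Measurable f) {n : ℕ} (x : Fin n → Fin (N + 1) → Bool) : Integrable
    (fun z : (Fin M → Fin (N + 1) → ℝ) × (GI P (N + 1) → ℝ) => ∏ i, AddP.wA f N M P s u z (x i))
    ((pm M N).prod (gM (GI P (N + 1)))) := by
  refine Integrable.mono' (integrable_const 1)
    (AddP.prod_wA_meas f N M P s u hf x).aestronglyMeasurable
    (Filter.Eventually.of_forall fun z => ?_)
  rw [Real.norm_eq_abs]
  exact AddP.prod_wA_abs f N M P s u z x

lemma exch_TV (hf : Measurable f) {n : ℕ} (F : (Fin n → Fin (N + 1) → Bool) → ℝ) :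
    AddP.TV f N M P s u (fun _ x => F x) = ∑ x, exch_V f N M P s u x * F x := by
  unfold AddP.TV exch_V
  rw [integral_finsetSum _ fun x _ => (exch_int N M P s u hf x).mul_const (F x)]
  exact Finset.sum_congr rfl fun x _ => integral_mul_const _ _

lemma exch_V_nonneg {n : ℕ} (x : Fin n → Fin (N + 1) → Bool) : 0 ≤ exch_V f N M P s u x :=
  integral_nonneg fun z => Finset.prod_nonneg fun i _ => AddP.wA_nonneg f N M P s u z (x i)

lemma exch_V_sum (hf : Measurable f) (n : ℕ) :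
    ∑ x : Fin n → Fin (N + 1) → Bool, exch_V f N M P s u x = 1 := by
  unfold exch_V
  rw [← integral_finsetSum _ fun x _ => exch_int N M P s u hf x]
  have h : ∀ z : (Fin M → Fin (N + 1) → ℝ) × (GI P (N + 1) → ℝ),
      ∑ x : Fin n → Fin (N + 1) → Bool, ∏ i, AddP.wA f N M P s u z (x i) = 1 := by
    intro z
    rw [← Fintype.prod_sum (fun _ : Fin n => AddP.wA f N M P s u z)]
    simp only [AddP.wA_sum, Finset.prod_const_one]
  simp_rw [h]
  simp

lemma exch_V_perm (hf : Measurable f) {n : ℕ} (x : Fin n → Fin (N + 1) → Bool) :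
    exch_V f N M P s u (fun i j => x i (π j)) = exch_V f N M P s u x := by
  unfold exch_V
  have mp := exch_th_mp N M P π
  have h1 : ∫ z, (∏ i, AddP.wA f N M P s u z (fun j => x i (π j)))
      ∂((pm M N).prod (gM (GI P (N + 1)))) =
      ∫ z, (∏ i, AddP.wA f N M P s u (exch_th N M P π z) (fun j => x i (π j)))
      ∂((pm M N).prod (gM (GI P (N + 1)))) := by
    conv_lhs => rw [← mp.map_eq]
    rw [integral_map mp.measurable.aemeasurable
      (AddP.prod_wA_meas f N M P s u hf _).aestronglyMeasurable]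
  rw [h1]
  refine integral_congr_ae (Filter.Eventually.of_forall fun z => ?_)
  exact Finset.prod_congr rfl fun i _ => exch_wA f N M P s u π z (x i)

lemma exch_TV_perm (hf : Measurable f) {n : ℕ} (F : (Fin n → Fin (N + 1) → Bool) → ℝ) :
    AddP.TV f N M P s u (fun _ x => F x) =
      AddP.TV f N M P s u (fun _ x => F fun i j => x i (π j)) := by
  rw [exch_TV N M P s u hf, exch_TV N M P s u hf]
  let e : (Fin n → Fin (N + 1) → Bool) ≃ (Fin n → Fin (N + 1) → Bool) :=
    Equiv.arrowCongr (Equiv.refl (Fin n)) (Equiv.arrowCongr π.symm (Equiv.refl Bool))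
  have he : ∀ x : Fin n → Fin (N + 1) → Bool, e x = fun i j => x i (π j) := fun x => rfl
  rw [← Equiv.sum_comp e fun x => exch_V f N M P s u x * F x]
  refine Finset.sum_congr rfl fun x _ => ?_
  rw [he, exch_V_perm N M P s u π hf]

end exch

lemma exch_cR_perm (N : ℕ) (π : Fin (N + 1) ≃ Fin (N + 1)) (x y : Fin (N + 1) → Bool) :
    cR N (fun j => x (π j)) (fun j => y (π j)) = cR N x y := by
  unfold cR
  simp only [exch_cubeφ]
  exact Equiv.sum_comp π fun j => cubeφ N x j * cubeφ N y j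

lemma exch_cR_abs (N : ℕ) (x y : Fin (N + 1) → Bool) : |cR N x y| ≤ 1 := by
  have h : cR N x y = inner ℝ (cubeφ N x) (cubeφ N y) := sum_cubeφ N x y
  rw [h]
  have := abs_real_inner_le_norm (cubeφ N x) (cubeφ N y)
  rwa [norm_cubeφ, norm_cubeφ, one_mul] at this

lemma exch_sgn_abs (b : Bool) : |sgn b| = 1 := by cases b <;> simp only [sgn, Bool.false_eq_true, ↓reduceIte, abs_neg, abs_one]

lemma exch_cR_eq (N : ℕ) (x y : Fin (N + 1) → Bool) :
    ((N : ℝ) + 1) * cR N x y = ∑ i, sgn (x i) * sgn (y i) := by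
  unfold cR
  rw [Finset.mul_sum]
  refine Finset.sum_congr rfl fun i _ => ?_
  have h1 : cubeφ N x i = sgn (x i) / √((N : ℝ) + 1) := rfl
  have h2 : cubeφ N y i = sgn (y i) / √((N : ℝ) + 1) := rfl
  have h3 : √((N : ℝ) + 1) * √((N : ℝ) + 1) = (N : ℝ) + 1 := Real.mul_self_sqrt (by (clear * -; positivity))
  have h4 : (0 : ℝ) < (N : ℝ) + 1 := by (clear * -; positivity)
  rw [h1, h2, div_mul_div_comm, h3]
  (clear * -; field_simp)

lemma exch_cR_succ (N : ℕ) (x y : Fin (N + 2) → Bool) :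
    |cR N (ini x) (ini y) - cR (N + 1) x y| ≤ 2 / ((N : ℝ) + 2) := by
  have h1 := exch_cR_eq (N + 1) x y
  have h2 := exch_cR_eq N (ini x) (ini y)
  rw [Fin.sum_univ_castSucc] at h1
  have h3 : ∑ i : Fin (N + 1), sgn (x i.castSucc) * sgn (y i.castSucc) =
      ((N : ℝ) + 1) * cR N (ini x) (ini y) := h2.symm
  rw [h3] at h1
  push_cast at h1
  have h4 : (0 : ℝ) < (N : ℝ) + 2 := by (clear * -; positivity)
  have h5 : cR N (ini x) (ini y) - cR (N + 1) x y =
      (cR N (ini x) (ini y) - sgn (x (Fin.last (N + 1))) * sgn (y (Fin.last (N + 1)))) /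
        ((N : ℝ) + 2) := by
    rw [eq_div_iff h4.ne']
    linear_combination -h1
  rw [h5, abs_div, abs_of_pos h4]
  refine div_le_div_of_nonneg_right ?_ h4.le
  have h6 := exch_cR_abs N (ini x) (ini y)
  have h7 : |sgn (x (Fin.last (N + 1))) * sgn (y (Fin.last (N + 1)))| = 1 := by
    rw [abs_mul, exch_sgn_abs, exch_sgn_abs, one_mul]
  calc |cR N (ini x) (ini y) - sgn (x (Fin.last (N + 1))) * sgn (y (Fin.last (N + 1)))|
      ≤ |cR N (ini x) (ini y)| + |sgn (x (Fin.last (N + 1))) * sgn (y (Fin.last (N + 1)))| :=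
        abs_sub _ _
    _ ≤ 2 := by rw [h7]; linarith only [h6]

lemma exch_pow_sub {a b : ℝ} (ha : |a| ≤ 1) (hb : |b| ≤ 1) (p : ℕ) :
    |a ^ p - b ^ p| ≤ p * |a - b| := by
  induction p with
  | zero => simp only [pow_zero, sub_self, abs_zero, CharP.cast_eq_zero, zero_mul, Std.le_refl]
  | succ p ih =>
    have h1 : a ^ (p + 1) - b ^ (p + 1) = a * (a ^ p - b ^ p) + (a - b) * b ^ p := by ring
    rw [h1]
    refine (abs_add_le _ _).trans ?_
    rw [abs_mul, abs_mul, abs_pow]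
    have h2 : |b| ^ p ≤ 1 := pow_le_one₀ (abs_nonneg _) hb
    have h3 := abs_nonneg (a - b)
    have h4 : |a| * |a ^ p - b ^ p| ≤ 1 * (p * |a - b|) :=
      mul_le_mul ha ih (abs_nonneg _) zero_le_one
    have h5 : |a - b| * |b| ^ p ≤ |a - b| * 1 := mul_le_mul_of_nonneg_left h2 h3
    push_cast
    linarith only [h4, h5]

lemma exch_xi_sub {c : ℕ → ℝ} (hc : ∀ p, 0 ≤ c p) (n : ℕ) {a b : ℝ} (ha : |a| ≤ 1)
    (hb : |b| ≤ 1) : |xi c n a - xi c n b| ≤ n * xi c n 1 * |a - b| := by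
  unfold xi
  rw [← Finset.sum_sub_distrib]
  refine (Finset.abs_sum_le_sum_abs _ _).trans ?_
  rw [Finset.mul_sum, Finset.sum_mul]
  refine Finset.sum_le_sum fun p hp => ?_
  rw [← mul_sub, abs_mul, abs_of_nonneg (hc p), one_pow, mul_one]
  have h1 := exch_pow_sub ha hb p
  have h2 : (p : ℝ) ≤ n := by
    have := Finset.mem_range.1 hp
    exact_mod_cast Nat.lt_succ_iff.1 this
  calc c p * |a ^ p - b ^ p| ≤ c p * (p * |a - b|) := mul_le_mul_of_nonneg_left h1 (hc p)
    _ ≤ c p * (n * |a - b|) := by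
        refine mul_le_mul_of_nonneg_left ?_ (hc p)
        exact mul_le_mul_of_nonneg_right h2 (abs_nonneg _)
    _ = n * c p * |a - b| := by ring

/-- Exchangeability of the sites. -/
theorem site_exch {f : ℝ → ℝ} (hf : Measurable f) (C : ℝ) (hC : ∀ x, |f x| ≤ C) (N M P : ℕ)
    (s : ℝ) (u : Fin P → ℝ) (n : ℕ) {c : ℕ → ℝ} (hc : ∀ p, 0 ≤ c p) :
    |(pS f hf C hC (N + 1) M P s u).tav (n := 2) (fun _ x =>
        sgn (las (x 0)) * sgn (las (x 1)) * xi c n (cR N (ini (x 0)) (ini (x 1)))) -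
      (pS f hf C hC (N + 1) M P s u).tav (n := 2) (fun _ x =>
        cR (N + 1) (x 0) (x 1) * xi c n (cR (N + 1) (x 0) (x 1)))| ≤
      2 * n * xi c n 1 / ((N : ℝ) + 2) := by
  have t1 := AddP.tav_eq hf C hC (N + 1) M P s u (n := 2) (fun _ x =>
        sgn (las (x 0)) * sgn (las (x 1)) * xi c n (cR N (ini (x 0)) (ini (x 1))))
  have t2 := AddP.tav_eq hf C hC (N + 1) M P s u (n := 2) (fun _ x =>
        cR (N + 1) (x 0) (x 1) * xi c n (cR (N + 1) (x 0) (x 1)))
  refine abs_sub_le_congr ?_ t1.symm t2.symm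
  -- the last site
  have hlast : AddP.TV f (N + 1) M P s u (n := 2) (fun _ x =>
      cR (N + 1) (x 0) (x 1) * xi c n (cR (N + 1) (x 0) (x 1))) =
      AddP.TV f (N + 1) M P s u (n := 2) (fun _ x =>
        sgn (las (x 0)) * sgn (las (x 1)) * xi c n (cR (N + 1) (x 0) (x 1))) := by
    have hi : ∀ i : Fin (N + 2), AddP.TV f (N + 1) M P s u (n := 2) (fun _ x =>
        sgn (x 0 i) * sgn (x 1 i) * xi c n (cR (N + 1) (x 0) (x 1))) =
        AddP.TV f (N + 1) M P s u (n := 2) (fun _ x =>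
        sgn (las (x 0)) * sgn (las (x 1)) * xi c n (cR (N + 1) (x 0) (x 1))) := by
      intro i
      have h := exch_TV_perm (N + 1) M P s u (Equiv.swap i (Fin.last (N + 1))) hf (n := 2)
        (fun x => sgn (x 0 i) * sgn (x 1 i) * xi c n (cR (N + 1) (x 0) (x 1)))
      refine h.trans ?_
      simp only [exch_cR_perm, Equiv.swap_apply_left]
      rfl
    have h4 : (0 : ℝ) < (N : ℝ) + 2 := by (clear * -; positivity)
    have hs : ((N : ℝ) + 2) * AddP.TV f (N + 1) M P s u (n := 2) (fun _ x =>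
        cR (N + 1) (x 0) (x 1) * xi c n (cR (N + 1) (x 0) (x 1))) =
        ∑ i : Fin (N + 2), AddP.TV f (N + 1) M P s u (n := 2) (fun _ x =>
        sgn (x 0 i) * sgn (x 1 i) * xi c n (cR (N + 1) (x 0) (x 1))) := by
      rw [exch_TV (N + 1) M P s u hf (n := 2) (fun x =>
        cR (N + 1) (x 0) (x 1) * xi c n (cR (N + 1) (x 0) (x 1)))]
      have e1 : ∀ i : Fin (N + 2), AddP.TV f (N + 1) M P s u (n := 2) (fun _ x =>
          sgn (x 0 i) * sgn (x 1 i) * xi c n (cR (N + 1) (x 0) (x 1))) =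
          ∑ x : Fin 2 → Fin (N + 1 + 1) → Bool, exch_V f (N + 1) M P s u x *
            (sgn (x 0 i) * sgn (x 1 i) * xi c n (cR (N + 1) (x 0) (x 1))) := fun i =>
        exch_TV (N + 1) M P s u hf (n := 2) (fun x =>
          sgn (x 0 i) * sgn (x 1 i) * xi c n (cR (N + 1) (x 0) (x 1)))
      simp_rw [e1]
      rw [Finset.sum_comm, Finset.mul_sum]
      refine Finset.sum_congr rfl fun x _ => ?_
      rw [← Finset.mul_sum, ← Finset.sum_mul]
      have h5 := exch_cR_eq (N + 1) (x 0) (x 1)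
      have h6 : (((N + 1 : ℕ) : ℝ) + 1) = (N : ℝ) + 2 := by push_cast; ring
      rw [h6] at h5
      rw [← h5]
      ring
    simp_rw [hi] at hs
    rw [Finset.sum_const, Finset.card_univ, Fintype.card_fin, nsmul_eq_mul] at hs
    push_cast at hs
    exact mul_left_cancel₀ h4.ne' hs
  rw [hlast, exch_TV (N + 1) M P s u hf (n := 2) (fun x =>
        sgn (las (x 0)) * sgn (las (x 1)) * xi c n (cR N (ini (x 0)) (ini (x 1)))),
    exch_TV (N + 1) M P s u hf (n := 2) (fun x =>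
        sgn (las (x 0)) * sgn (las (x 1)) * xi c n (cR (N + 1) (x 0) (x 1))),
    ← Finset.sum_sub_distrib]
  refine (Finset.abs_sum_le_sum_abs _ _).trans ?_
  have hx1 : 0 ≤ xi c n 1 := Finset.sum_nonneg fun p _ => by
    have := hc p
    simpa only [one_pow, mul_one, ge_iff_le] using this
  have hb : ∀ x : Fin 2 → Fin (N + 1 + 1) → Bool,
      |exch_V f (N + 1) M P s u x * (sgn (las (x 0)) * sgn (las (x 1)) *
          xi c n (cR N (ini (x 0)) (ini (x 1)))) -
        exch_V f (N + 1) M P s u x * (sgn (las (x 0)) * sgn (las (x 1)) *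
          xi c n (cR (N + 1) (x 0) (x 1)))| ≤
      exch_V f (N + 1) M P s u x * (2 * n * xi c n 1 / ((N : ℝ) + 2)) := by
    intro x
    rw [← mul_sub, ← mul_sub, abs_mul, abs_mul, abs_mul, exch_sgn_abs, exch_sgn_abs,
      abs_of_nonneg (exch_V_nonneg (N + 1) M P s u x), one_mul, one_mul]
    refine mul_le_mul_of_nonneg_left ?_ (exch_V_nonneg (N + 1) M P s u x)
    refine (exch_xi_sub hc n (exch_cR_abs N _ _) (exch_cR_abs (N + 1) _ _)).trans ?_
    have h7 := exch_cR_succ N (x 0) (x 1)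
    calc (n : ℝ) * xi c n 1 * |cR N (ini (x 0)) (ini (x 1)) - cR (N + 1) (x 0) (x 1)|
        ≤ n * xi c n 1 * (2 / ((N : ℝ) + 2)) := mul_le_mul_of_nonneg_left h7 (by (clear * - hx1; positivity))
      _ = _ := by ring
  refine (Finset.sum_le_sum fun x _ => hb x).trans ?_
  rw [← Finset.sum_mul, exch_V_sum (N + 1) M P s u hf, one_mul]

end Vale.Agent.P157.Par
end

section

/-! One more spin, with an extra Gaussian field acting on the new spin: `extra_cavity`. -/

open MeasureTheory ProbabilityTheory Filter Topology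
open scoped RealInnerProductSpace

namespace Vale.Agent.P157.Par

open Vale.Agent.P367.GT (gM)
open Vale.Agent.P157.Par.Cube

set_option linter.unusedSectionVars false

/-- The factor of the new spin, with an extra field `V`. -/
noncomputable def cavx_A (δ : ℝ) (f1 f2 : ℝ → ℝ) {M N : ℕ} (ω : Fin M → Fin (N + 1) → ℝ)
    (η : Fin M → ℝ) (V : (Fin (N + 1) → Bool) → ℝ) (x : Fin (N + 1) → Bool) : ℝ :=
  Real.exp (cavB δ f1 f2 fun a => cubeS (ω a) x) *
    Real.cosh (cavY δ f1 (fun a => cubeS (ω a) x) η + V x)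

lemma cavx_A_pos (δ : ℝ) (f1 f2 : ℝ → ℝ) {M N : ℕ} (ω : Fin M → Fin (N + 1) → ℝ)
    (η : Fin M → ℝ) (V : (Fin (N + 1) → Bool) → ℝ) (x : Fin (N + 1) → Bool) :
    0 < cavx_A δ f1 f2 ω η V x :=
  mul_pos (Real.exp_pos _) (Real.cosh_pos _)

section main

variable {f f1 f2 f3 : ℝ → ℝ} {C : ℝ}

lemma cavx_lse (δ : ℝ) {M N P : ℕ} (s : ℝ) (u : Fin P → ℝ) (ω : Fin M → Fin (N + 1) → ℝ)
    (g : GI P (N + 1) → ℝ) (η : Fin M → ℝ) (V : (Fin (N + 1) → Bool) → ℝ) :
    Real.log (∑ x, Real.exp (EE f s u ω g x) * cavx_A δ f1 f2 ω η V x) =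
      Real.log (∑ x, Real.exp (EE f s u ω g x + (cavB δ f1 f2 (fun a => cubeS (ω a) x) +
        Real.log (Real.cosh (cavY δ f1 (fun a => cubeS (ω a) x) η + V x))))) := by
  congr 1
  refine Finset.sum_congr rfl fun x _ => ?_
  unfold cavx_A
  rw [Real.exp_add, Real.exp_add, Real.exp_log (Real.cosh_pos _)]

/-- `log cosh` of an integrable function is integrable -/
lemma cavx_int_lc {Ω : Type} [MeasurableSpace Ω] {μ : Measure Ω} {h : Ω → ℝ}
    (hh : Integrable h μ) : Integrable (fun z => Real.log (Real.cosh (h z))) μ := by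
  refine Integrable.mono' hh.abs ?_ (Filter.Eventually.of_forall fun z => ?_)
  · have : Measurable fun t : ℝ => Real.log (Real.cosh t) :=
      Real.measurable_log.comp Real.measurable_cosh
    exact (this.comp_aemeasurable hh.aestronglyMeasurable.aemeasurable).aestronglyMeasurable
  · rw [Real.norm_eq_abs, abs_of_nonneg (log_cosh_nonneg _)]
    exact log_cosh_le _

/-- summation over the new spin -/
lemma cavx_sum_new (δ : ℝ) {M N P : ℕ} (s : ℝ) (u : Fin P → ℝ) (ω : Fin M → Fin (N + 1) → ℝ)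
    (g : GI P (N + 1) → ℝ) (η : Fin M → ℝ) (V : (Fin (N + 1) → Bool) → ℝ) :
    Real.log (∑ y : Fin (N + 2) → Bool,
      Real.exp (lin (cf N s u) g (ini y) + sgn (las y) * V (ini y)) * Real.exp (∑ a,
      linE δ f f1 f2 (cubeS (ω a) (ini y)) (sgn (las y) * η a))) =
    Real.log 2 + Real.log (∑ x, Real.exp (EE f s u ω g x) * cavx_A δ f1 f2 ω η V x) := by
  have h1 := sum_ini_las (N := N) (fun x b => Real.exp (lin (cf N s u) g x + sgn b * V x) *
    Real.exp (∑ a, linE δ f f1 f2 (cubeS (ω a) x) (sgn b * η a)))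
  rw [h1]
  have hp : 0 < ∑ x, Real.exp (EE f s u ω g x) * cavx_A δ f1 f2 ω η V x :=
    Lin.sum_pos' fun x => mul_pos (Real.exp_pos _) (cavx_A_pos _ _ _ _ _ _ _)
  rw [← Real.log_mul (by norm_num) hp.ne', Finset.mul_sum]
  congr 1
  refine Finset.sum_congr rfl fun x _ => ?_
  have e1 : ∀ b, ∑ a, linE δ f f1 f2 (cubeS (ω a) x) (sgn b * η a) = ∑ a, f (cubeS (ω a) x) +
      (cavB δ f1 f2 (fun a => cubeS (ω a) x) +
        sgn b * cavY δ f1 (fun a => cubeS (ω a) x) η) := by
    intro b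
    rw [sum_linE δ ω x (fun a => sgn b * η a), cavY_sgn]
  rw [e1, e1]
  unfold cavx_A EE
  rw [Real.cosh_eq]
  simp only [sgn, if_true, Bool.false_eq_true, if_false, one_mul, neg_mul, neg_add]
  simp only [Real.exp_add]
  ring

/-- The increment for a fixed extra field. -/
lemma cavx_fixed (hf : CB3 C f f1 f2 f3) (hfm : Measurable f) :
    ∃ D : ℝ, 0 ≤ D ∧ ∀ (N M P : ℕ) (s : ℝ) (u : Fin P → ℝ), (∀ q, 0 ≤ u q ∧ u q ≤ 2) →
      ∀ V : (Fin (N + 1) → Bool) → ℝ,
      |∫ z : (Fin M → Fin (N + 2) → ℝ) × (GI P (N + 2) → ℝ),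
          Real.log (∑ y, Real.exp (EE f s u z.1 z.2 y) *
            Real.exp (sgn (las y) * V (ini y))) ∂((pm M (N + 1)).prod (gM (GI P (N + 2)))) -
        (Real.log 2 +
          ∫ z : ((Fin M → Fin (N + 1) → ℝ) × (GI P (N + 1) → ℝ)) × (Fin M → ℝ),
            Real.log (∑ x, Real.exp (EE f s u z.1.1 z.1.2 x) *
              cavx_A (1 / ((N : ℝ) + 2)) f1 f2 z.1.1 z.2 V x)
            ∂(((pm M N).prod (gM (GI P (N + 1)))).prod (gM (Fin M))))| ≤
      D * (M * (1 / ((N : ℝ) + 2) * √(1 / ((N : ℝ) + 2)))) +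
        2 * (s ^ 2 * (1 / ((N : ℝ) + 2))) := by
  obtain ⟨D, hD⟩ := lin_many hf
  refine ⟨|D|, abs_nonneg D, ?_⟩
  intro N M P s u hu V
  set δ : ℝ := 1 / ((N : ℝ) + 2) with hδ
  have h0 : 0 ≤ δ := (dl_pos N).le
  have h1 : δ ≤ 1 := dl_le N
  set ν := gM (GI P (N + 1)) with hν
  set ε : ℝ := |D| * (M * (δ * √δ)) with hε
  have hε0 : D * (M * (δ * √δ)) ≤ ε := by
    refine mul_le_mul_of_nonneg_right (le_abs_self D) (by (clear * -; positivity))
  have sq1 : √(1 - δ) ^ 2 = 1 - δ := Real.sq_sqrt (by linarith only [h1])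
  have sq2 : √δ ^ 2 = δ := Real.sq_sqrt h0
  have m1 := (Lin.continuous_f1 hf).measurable
  have m2 := (Lin.continuous_f2 hf).measurable
  -- integrability of the linearized functional
  have hi1 : Integrable (fun z : ((Fin M → Fin (N + 1) → ℝ) × (GI P (N + 1) → ℝ)) ×
      (Fin M → ℝ) => Real.log (∑ x, Real.exp (EE f s u z.1.1 z.1.2 x) *
        cavx_A δ f1 f2 z.1.1 z.2 V x))
      (((pm M N).prod (gM (GI P (N + 1)))).prod (gM (Fin M))) := by
    simp_rw [cavx_lse]
    refine integrable_lse fun x => ?_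
    refine ((integrable_EE hfm C hf.b0 N M s u x).comp_fst _).add ?_
    refine (((integrable_cavB hf δ M N x).comp_fst _).comp_fst _).add ?_
    refine cavx_int_lc (Integrable.add ?_ (integrable_const _))
    exact integrable_cavY hf δ (N := N) (gM (GI P (N + 1))) (μ := gM (Fin M)) (h := fun η => η)
      (fun a => integrable_coord_gM a) x
  have ev : MeasurePreserving (fun η : Unit → ℝ => η ()) (gM Unit) (gaussianReal 0 1) :=
    measurePreserving_eval (fun _ : Unit => gaussianReal 0 1) ()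
  have r1 := rearr (α := gM (Fin (N + 1))) (γ := ν) ev M hi1
  obtain ⟨i1, r1⟩ := r1
  rw [show gM (Fin M) = Measure.pi fun _ : Fin M => gaussianReal 0 1 from rfl, r1]
  set I1 : (GI P (N + 1) → ℝ) → ℝ := fun g =>
    ∫ q : Fin M → (Fin (N + 1) → ℝ) × (Unit → ℝ), Real.log (∑ x, Real.exp (EE f s u
      (fun a => (q a).1) g x) * cavx_A δ f1 f2 (fun a => (q a).1) (fun a => (q a).2 ()) V x)
      ∂(Measure.pi fun _ => (gM (Fin (N + 1))).prod (gM Unit)) with hI1
  -- the intermediate integral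
  have hiJ1 : Integrable (fun z : (Fin M → Fin (N + 2) → ℝ) × (GI P (N + 1) → ℝ) =>
      Real.log (∑ y : Fin (N + 2) → Bool, Real.exp ((lin (cf N s u) z.2 (ini y) +
        sgn (las y) * V (ini y)) + ∑ a, f (cubeS (z.1 a) y)))) ((pm M (N + 1)).prod ν) := by
    refine integrable_lse fun y => ?_
    refine (((integrable_lin (cf N s u) (ini y)).comp_snd _).add (integrable_const _)).add ?_
    exact integrable_finsetSum _ fun a _ => integrable_fS hfm C hf.b0 (N + 1) (by fun_prop) y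
  set J1 : (GI P (N + 1) → ℝ) → ℝ := fun g =>
    ∫ ω : Fin M → Fin (N + 2) → ℝ, Real.log (∑ y : Fin (N + 2) → Bool,
      Real.exp ((lin (cf N s u) g (ini y) + sgn (las y) * V (ini y)) +
        ∑ a, f (cubeS (ω a) y))) ∂(pm M (N + 1)) with hJ1
  -- comparison of the new system with J1
  have c1 : |∫ z : (Fin M → Fin (N + 2) → ℝ) × (GI P (N + 2) → ℝ),
          Real.log (∑ y, Real.exp (EE f s u z.1 z.2 y) *
            Real.exp (sgn (las y) * V (ini y))) ∂((pm M (N + 1)).prod (gM (GI P (N + 2)))) -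
        ∫ g, J1 g ∂ν| ≤ 2 * (s ^ 2 * δ) := by
    have hiE : Integrable (fun z : (Fin M → Fin (N + 2) → ℝ) × (GI P (N + 2) → ℝ) =>
        Real.log (∑ y, Real.exp (EE f s u z.1 z.2 y) * Real.exp (sgn (las y) * V (ini y))))
        ((pm M (N + 1)).prod (gM (GI P (N + 2)))) := by
      simp_rw [← Real.exp_add]
      exact integrable_lse fun y =>
        (integrable_EE hfm C hf.b0 (N + 1) M s u y).add (integrable_const _)
    have e1 : ∫ g, J1 g ∂ν = ∫ ω : Fin M → Fin (N + 2) → ℝ, ∫ g,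
        Real.log (∑ y : Fin (N + 2) → Bool, Real.exp ((lin (cf N s u) g (ini y) +
        sgn (las y) * V (ini y)) + ∑ a, f (cubeS (ω a) y))) ∂ν ∂(pm M (N + 1)) := by
      rw [hJ1, ← integral_prod_symm _ hiJ1, integral_prod _ hiJ1]
    rw [e1, integral_prod _ hiE]
    have j1 := hiE.integral_prod_left
    have j2 := hiJ1.integral_prod_left
    simp only at j1 j2 ⊢
    rw [← integral_sub j1 j2, ← Real.norm_eq_abs]
    have hb : ∀ ω : Fin M → Fin (N + 2) → ℝ,
        ‖∫ g, Real.log (∑ y, Real.exp (EE f s u ω g y) * Real.exp (sgn (las y) * V (ini y)))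
          ∂(gM (GI P (N + 2))) -
        ∫ g, Real.log (∑ y : Fin (N + 2) → Bool, Real.exp ((lin (cf N s u) g (ini y) +
        sgn (las y) * V (ini y)) + ∑ a, f (cubeS (ω a) y))) ∂ν‖ ≤ 2 * (s ^ 2 * δ) := by
      intro ω
      have h := stepA (N := N) s hu (w := fun y => Real.exp (∑ a, f (cubeS (ω a) y)) *
        Real.exp (sgn (las y) * V (ini y)))
        fun y => mul_pos (Real.exp_pos _) (Real.exp_pos _)
      rw [Real.norm_eq_abs]
      have k1 : ∀ g : GI P (N + 2) → ℝ, ∑ y, Real.exp (EE f s u ω g y) *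
          Real.exp (sgn (las y) * V (ini y)) = ∑ y, (Real.exp (∑ a, f (cubeS (ω a) y)) *
          Real.exp (sgn (las y) * V (ini y))) * Real.exp (lin (cf (N + 1) s u) g y) := by
        intro g
        refine Finset.sum_congr rfl fun y _ => ?_
        unfold EE
        rw [Real.exp_add]
        ring
      have k2 : ∀ g : GI P (N + 1) → ℝ, ∑ y : Fin (N + 2) → Bool,
          Real.exp ((lin (cf N s u) g (ini y) + sgn (las y) * V (ini y)) +
            ∑ a, f (cubeS (ω a) y)) = ∑ y, (Real.exp (∑ a, f (cubeS (ω a) y)) *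
          Real.exp (sgn (las y) * V (ini y))) * Real.exp (lin (cf N s u) g (ini y)) := by
        intro g
        refine Finset.sum_congr rfl fun y _ => ?_
        rw [Real.exp_add, Real.exp_add]
        ring
      simp_rw [k1, k2]
      exact h
    have := norm_integral_le_of_norm_le_const (μ := pm M (N + 1)) (Filter.Eventually.of_forall hb)
    simpa only [Real.norm_eq_abs, ge_iff_le, probReal_univ, mul_one] using this
  -- linearization, new spin
  have c2 : ∀ g, |J1 g - (Real.log 2 + I1 g)| ≤ ε := by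
    intro g
    set φ : (Fin (N + 2) → Bool) → Fin (N + 1) → ℝ := fun y i => cubeφ N (ini y) i with hφ
    set ψ : (Fin (N + 2) → Bool) → Unit → ℝ := fun y _ => sgn (las y) with hψ
    have eφ : ∀ (ξ : Fin (N + 1) → ℝ) y, lin φ ξ y = cubeS ξ (ini y) := fun ξ y =>
      cubeS_eq_lin ξ (ini y)
    have eψ : ∀ (η : Unit → ℝ) y, lin ψ η y = sgn (las y) * η () := by
      intro η y
      simp [lin, hψ]
    have hh := hD M (Fin (N + 1)) Unit (Fin (N + 2) → Bool)
      (fun y => Real.exp (lin (cf N s u) g (ini y) + sgn (las y) * V (ini y))) φ ψ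
      (fun y => Real.exp_pos _) inferInstance
      (fun y => Cube.sum_cubeφ_sq N (ini y)) (fun y => by simp only [Finset.univ_unique, PUnit.default_eq_unit, hψ, sgn_sq, Finset.sum_const, Finset.card_singleton, one_smul]) δ h0 h1
    have law : (gM (Fin (N + 2))).map (fun ξ => lin (fun y i => cubeφ (N + 1) y i) ξ) =
        ((gM (Fin (N + 1))).prod (gM Unit)).map
          (fun q y => √(1 - δ) * lin φ q.1 y + √δ * lin ψ q.2 y) := by
      refine law_mix √(1 - δ) √δ fun y y' => ?_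
      rw [sq1, sq2]
      unfold gram
      rw [Fin.sum_univ_castSucc, Finset.mul_sum]
      congr 1
      · refine Finset.sum_congr rfl fun i _ => ?_
        simp only
        rw [cubeφ_castSucc, cubeφ_castSucc, ← hδ]
        have h2 : √(1 - δ) * √(1 - δ) = 1 - δ := Real.mul_self_sqrt (by linarith only [h1])
        simp only [hφ]
        linear_combination (cubeφ N (ini y) i * cubeφ N (ini y') i) * h2
      · simp only
        rw [cubeφ_last, cubeφ_last, ← hδ]
        have h2 : √δ * √δ = δ := Real.mul_self_sqrt h0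
        simp only [hψ, Finset.univ_unique, Finset.sum_singleton]
        linear_combination (sgn (las y) * sgn (las y')) * h2
    have hF : Measurable fun Z : Fin M → (Fin (N + 2) → Bool) → ℝ => Real.log (∑ y,
        Real.exp (lin (cf N s u) g (ini y) + sgn (las y) * V (ini y)) *
          Real.exp (∑ a, f (Z a y))) := by fun_prop
    have hl := pi_law (measurable_lin_fun _) (by unfold lin; fun_prop) law M hF
    simp only at hl
    rw [← hl] at hh
    have e1 : J1 g = ∫ ω : Fin M → Fin (N + 2) → ℝ, Real.log (∑ y : Fin (N + 2) → Bool,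
        Real.exp (lin (cf N s u) g (ini y) + sgn (las y) * V (ini y)) * Real.exp (∑ a,
          f (lin (fun (y : Fin (N + 2) → Bool) i => cubeφ (N + 1) y i) (ω a) y)))
        ∂(pm M (N + 1)) := by
      simp only [hJ1, Real.exp_add, cubeS_eq_lin]
    rw [← e1] at hh
    have e2 : ∫ q : Fin M → (Fin (N + 1) → ℝ) × (Unit → ℝ), Real.log (∑ y,
        Real.exp (lin (cf N s u) g (ini y) + sgn (las y) * V (ini y)) *
          Real.exp (∑ a, linE δ f f1 f2 (lin φ (q a).1 y) (lin ψ (q a).2 y)))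
        ∂(Measure.pi fun _ => (gM (Fin (N + 1))).prod (gM Unit)) = Real.log 2 + I1 g := by
      simp_rw [eφ, eψ]
      have e3 : ∀ q : Fin M → (Fin (N + 1) → ℝ) × (Unit → ℝ), Real.log (∑ y : Fin (N + 2) → Bool,
          Real.exp (lin (cf N s u) g (ini y) + sgn (las y) * V (ini y)) *
          Real.exp (∑ a, linE δ f f1 f2
          (cubeS (q a).1 (ini y)) (sgn (las y) * (q a).2 ()))) =
          Real.log 2 + Real.log (∑ x, Real.exp (EE f s u (fun a => (q a).1) g x) *
            cavx_A δ f1 f2 (fun a => (q a).1) (fun a => (q a).2 ()) V x) := fun q =>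
        cavx_sum_new δ s u (fun a => (q a).1) g (fun a => (q a).2 ()) V
      simp_rw [e3]
      have hint : Integrable (fun q : Fin M → (Fin (N + 1) → ℝ) × (Unit → ℝ) =>
        Real.log (∑ x, Real.exp (EE f s u (fun a => (q a).1) g x) *
            cavx_A δ f1 f2 (fun a => (q a).1) (fun a => (q a).2 ()) V x))
        (Measure.pi fun _ => (gM (Fin (N + 1))).prod (gM Unit)) := by
        simp_rw [cavx_lse]
        refine integrable_lse fun x => ?_
        have m0 := hfm
        have k1 : ∀ a : Fin M, Integrable (fun q : Fin M → (Fin (N + 1) → ℝ) × (Unit → ℝ) =>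
            cubeS (q a).1 x) (Measure.pi fun _ => (gM (Fin (N + 1))).prod (gM Unit)) := by
          intro a
          refine integrable_comp_eval (μ := fun _ : Fin M => (gM (Fin (N + 1))).prod (gM Unit))
            (i := a) (f := fun g => cubeS g.1 x) ?_
          refine Integrable.comp_fst (f := fun g : Fin (N + 1) → ℝ => cubeS g x) ?_ _
          unfold cubeS
          exact integrable_finsetSum _ fun i _ => (integrable_coord_gM i).mul_const _
        have k2 : ∀ a : Fin M, Integrable (fun q : Fin M → (Fin (N + 1) → ℝ) × (Unit → ℝ) =>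
            (q a).2 ()) (Measure.pi fun _ => (gM (Fin (N + 1))).prod (gM Unit)) := by
          intro a
          refine integrable_comp_eval (μ := fun _ : Fin M => (gM (Fin (N + 1))).prod (gM Unit))
            (i := a) (f := fun g => g.2 ()) ?_
          exact Integrable.comp_snd (f := fun g : Unit → ℝ => g ()) (integrable_coord_gM ()) _
        have k3 : ∀ {h : ℝ → ℝ}, Measurable h → (∀ t, |h t| ≤ C) → ∀ a : Fin M,
            Integrable (fun q : Fin M → (Fin (N + 1) → ℝ) × (Unit → ℝ) => h (cubeS (q a).1 x))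
              (Measure.pi fun _ => (gM (Fin (N + 1))).prod (gM Unit)) := by
          intro h hm hb a
          exact Integrable.mono' (integrable_const C)
            (hm.comp (measurable_cubeS (by fun_prop) x)).aestronglyMeasurable
            (Filter.Eventually.of_forall fun _ => hb _)
        have k4 : Integrable (fun q : Fin M → (Fin (N + 1) → ℝ) × (Unit → ℝ) =>
            cavY δ f1 (fun a => cubeS (q a).1 x) (fun a => (q a).2 ()))
            (Measure.pi fun _ => (gM (Fin (N + 1))).prod (gM Unit)) := by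
          unfold cavY
          refine integrable_finsetSum _ fun a _ => ?_
          have h2 := (integrable_mul_bdd (k2 a) (f := fun q => f1 (cubeS (q a).1 x))
            (m1.comp (measurable_cubeS
              (g := fun q : Fin M → (Fin (N + 1) → ℝ) × (Unit → ℝ) => (q a).1)
              (by fun_prop) x)) C fun _ => hf.b1 _).const_mul √δ
          refine h2.congr (Filter.Eventually.of_forall fun z => ?_)
          simp only
          ring
        unfold EE
        refine Integrable.add (Integrable.add (integrable_finsetSum _ fun a _ => k3 m0 hf.b0 a)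
          (integrable_const _)) (Integrable.add ?_ ?_)
        · unfold cavB
          refine integrable_finsetSum _ fun a _ => Integrable.const_mul ?_ _
          refine (k3 m2 hf.b2 a).sub ?_
          exact integrable_mul_bdd (k1 a) (m1.comp (measurable_cubeS (by fun_prop) x)) C
            fun _ => hf.b1 _
        · exact cavx_int_lc (k4.add (integrable_const _))
      rw [integral_add (integrable_const _) hint]
      simp only [integral_const, probReal_univ, smul_eq_mul, one_mul, hI1]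
    rw [e2] at hh
    exact hh.trans hε0
  -- conclusion
  have iJ1 : Integrable J1 ν := hiJ1.integral_prod_right
  have d2 : |∫ g, J1 g ∂ν - (Real.log 2 + ∫ g, I1 g ∂ν)| ≤ ε := by
    have e1 : ∫ g, J1 g ∂ν - (Real.log 2 + ∫ g, I1 g ∂ν) =
        ∫ g, (J1 g - (Real.log 2 + I1 g)) ∂ν := by
      have i3 : Integrable (fun g => Real.log 2 + I1 g) ν := (integrable_const _).add i1
      rw [integral_sub iJ1 i3, integral_add (integrable_const _) i1]
      simp
    rw [e1, ← Real.norm_eq_abs]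
    have hb : ∀ g, ‖J1 g - (Real.log 2 + I1 g)‖ ≤ ε := fun g => by
      rw [Real.norm_eq_abs]; exact c2 g
    have := norm_integral_le_of_norm_le_const (μ := ν) (Filter.Eventually.of_forall hb)
    simpa only [Real.norm_eq_abs, ge_iff_le, probReal_univ, mul_one] using this
  rw [abs_le] at c1 d2 ⊢
  constructor <;> linarith only [c1, d2]

/-- The linear form of the kernel with the extra field. -/
lemma cavx_lin {M N n : ℕ} (δ : ℝ) (c : ℕ → ℝ) (t : Fin M → Fin (N + 1) → ℝ)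
    (z : Fin M ⊕ KX n N → ℝ) (x : Fin (N + 1) → Bool) :
    lin (kerX (n := n) δ f1 c t) z x =
      cavY δ f1 (fun a => cubeS (t a) x) (fun a => z (Sum.inl a)) +
        lin (kx N c) (fun e => z (Sum.inr e)) x := by
  unfold lin kerX cavY
  rw [Fintype.sum_sum_type]
  simp only [Sum.elim_inl, Sum.elim_inr]
  rfl

lemma cavx_lin_ky {N n : ℕ} (c : ℕ → ℝ) (ζ : KX n N → ℝ) (y : Fin (N + 2) → Bool) :
    lin (ky N c) ζ y = sgn (las y) * lin (kx N c) ζ (ini y) := by
  unfold lin ky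
  rw [Finset.mul_sum]
  exact Finset.sum_congr rfl fun e _ => by ring

lemma cavx_kx_zero {N n : ℕ} (x : Fin (N + 1) → Bool) (e : KX n N) :
    kx N (n := n) (0 : ℕ → ℝ) x e = 0 := by
  unfold kx
  rcases e with e | e <;> simp

/-- integrability of the linearized functional with the extra field -/
lemma cavx_int_H (hf : CB3 C f f1 f2 f3) (hfm : Measurable f) (δ : ℝ) (M N n : ℕ) {P : ℕ}
    (s : ℝ) (u : Fin P → ℝ) (c : ℕ → ℝ) :
    Integrable (fun p : (((Fin M → Fin (N + 1) → ℝ) × (GI P (N + 1) → ℝ)) × (Fin M → ℝ)) ×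
        (KX n N → ℝ) => Real.log (∑ x, Real.exp (EE f s u p.1.1.1 p.1.1.2 x) *
        cavx_A δ f1 f2 p.1.1.1 p.1.2 (lin (kx N c) p.2) x))
      ((((pm M N).prod (gM (GI P (N + 1)))).prod (gM (Fin M))).prod (gM (KX n N))) := by
  simp_rw [cavx_lse]
  refine integrable_lse fun x => ?_
  refine (((integrable_EE hfm C hf.b0 N M s u x).comp_fst _).comp_fst _).add ?_
  refine ((((integrable_cavB hf δ M N x).comp_fst _).comp_fst _).comp_fst _).add ?_
  refine cavx_int_lc (Integrable.add ?_ ((integrable_lin (kx N c) x).comp_snd _))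
  exact (integrable_cavY hf δ (N := N) (gM (GI P (N + 1))) (μ := gM (Fin M)) (h := fun η => η)
      (fun a => integrable_coord_gM a) x).comp_fst _

/-- splitting the Gaussian vector -/
lemma cavx_mp {A K K' : Type} [MeasurableSpace A] [Fintype K] [Fintype K'] (μ : Measure A)
    [IsProbabilityMeasure μ] : MeasurePreserving
    (fun z : A × (K ⊕ K' → ℝ) =>
      (((z.1, fun a => z.2 (Sum.inl a)), fun e => z.2 (Sum.inr e)) :
        (A × (K → ℝ)) × (K' → ℝ)))
    (μ.prod (gM (K ⊕ K'))) ((μ.prod (gM K)).prod (gM K')) := by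
  have mp : MeasurePreserving (MeasurableEquiv.sumPiEquivProdPi (fun _ : K ⊕ K' => ℝ))
      (gM (K ⊕ K')) ((gM K).prod (gM K')) :=
    measurePreserving_sumPiEquivProdPi (X := fun _ : K ⊕ K' => ℝ)
    (fun _ : K ⊕ K' => gaussianReal 0 1)
  have m1 := (MeasurePreserving.id μ).prod mp
  have m2 := (measurePreserving_prodAssoc μ (gM K) (gM K')).symm
  exact m2.comp m1

/-- The comparison, with the extra field. -/
lemma cavx_main (hf : CB3 C f f1 f2 f3) (hfm : Measurable f) :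
    ∃ D : ℝ, 0 ≤ D ∧ ∀ (N M P : ℕ) (s : ℝ) (u : Fin P → ℝ) (n : ℕ) (c : ℕ → ℝ),
      (∀ q, 0 ≤ u q ∧ u q ≤ 2) →
      |((cubeBase f hfm C hf.b0 (N + 1) M).elz s u + exN f hfm C hf.b0 N M P s u n c) -
        (Real.log 2 + ((cubeBase f hfm C hf.b0 N M).elz s u +
          T1x f f1 f2 hfm C hf.b0 N M P s u n c))| ≤
      D * (M * (1 / ((N : ℝ) + 2) * √(1 / ((N : ℝ) + 2)))) +
        2 * (s ^ 2 * (1 / ((N : ℝ) + 2))) := by
  obtain ⟨D, hD0, hD⟩ := cavx_fixed hf hfm
  refine ⟨D, hD0, ?_⟩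
  intro N M P s u n c hu
  set δ : ℝ := 1 / ((N : ℝ) + 2) with hδ
  -- the new system
  have hiX : Integrable (fun z : ((Fin M → Fin (N + 2) → ℝ) × (GI P (N + 2) → ℝ)) ×
      (KX n N → ℝ) => Real.log (∑ y, Real.exp (EE f s u z.1.1 z.1.2 y) *
        Real.exp (lin (ky N c) z.2 y)))
      (((pm M (N + 1)).prod (gM (GI P (N + 2)))).prod (gM (KX n N))) := by
    simp_rw [← Real.exp_add]
    exact integrable_lse fun y => ((integrable_EE hfm C hf.b0 (N + 1) M s u y).comp_fst _).add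
      ((integrable_lin (ky N c) y).comp_snd _)
  have s1 := int_split hfm hf.b0 M (N + 1) s u (H := KX n N → ℝ) (μ := gM (KX n N))
    (A := fun _ ζ y => Real.exp (lin (ky N c) ζ y)) (fun _ _ _ => Real.exp_pos _) hiX
  -- the old system
  have hiH := cavx_int_H hf hfm δ M N n s u c
  have mp := cavx_mp (K := Fin M) (K' := KX n N) ((pm M N).prod (gM (GI P (N + 1))))
  have hpt : ∀ z : ((Fin M → Fin (N + 1) → ℝ) × (GI P (N + 1) → ℝ)) × (Fin M ⊕ KX n N → ℝ),
      Real.log (∑ x, Real.exp (EE f s u z.1.1 z.1.2 x) *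
        (Real.exp (cavB δ f1 f2 fun a => cubeS (z.1.1 a) x) *
        Real.cosh (lin (kerX (n := n) δ f1 c z.1.1) z.2 x))) =
      Real.log (∑ x, Real.exp (EE f s u z.1.1 z.1.2 x) *
        cavx_A δ f1 f2 z.1.1 (fun a => z.2 (Sum.inl a))
          (lin (kx N c) (fun e => z.2 (Sum.inr e))) x) := by
    intro z
    congr 1
    refine Finset.sum_congr rfl fun x _ => ?_
    unfold cavx_A
    rw [cavx_lin]
  have hiY : Integrable (fun z : ((Fin M → Fin (N + 1) → ℝ) × (GI P (N + 1) → ℝ)) ×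
      (Fin M ⊕ KX n N → ℝ) => Real.log (∑ x, Real.exp (EE f s u z.1.1 z.1.2 x) *
        (Real.exp (cavB δ f1 f2 fun a => cubeS (z.1.1 a) x) *
        Real.cosh (lin (kerX (n := n) δ f1 c z.1.1) z.2 x))))
      (((pm M N).prod (gM (GI P (N + 1)))).prod (gM (Fin M ⊕ KX n N))) := by
    simp_rw [hpt]
    exact mp.integrable_comp_of_integrable hiH
  have s2 := int_split hfm hf.b0 M N s u (H := Fin M ⊕ KX n N → ℝ) (μ := gM (Fin M ⊕ KX n N))
    (A := fun ω η x => Real.exp (cavB δ f1 f2 fun a => cubeS (ω a) x) *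
        Real.cosh (lin (kerX (n := n) δ f1 c ω) η x))
    (fun _ _ _ => mul_pos (Real.exp_pos _) (Real.cosh_pos _)) hiY
  have e1 : (cubeBase f hfm C hf.b0 (N + 1) M).elz s u + exN f hfm C hf.b0 N M P s u n c =
      ∫ z : ((Fin M → Fin (N + 2) → ℝ) × (GI P (N + 2) → ℝ)) × (KX n N → ℝ),
        Real.log (∑ y, Real.exp (EE f s u z.1.1 z.1.2 y) * Real.exp (lin (ky N c) z.2 y))
        ∂(((pm M (N + 1)).prod (gM (GI P (N + 2)))).prod (gM (KX n N))) := s1.symm
  have e2 : (cubeBase f hfm C hf.b0 N M).elz s u + T1x f f1 f2 hfm C hf.b0 N M P s u n c =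
      ∫ z : ((Fin M → Fin (N + 1) → ℝ) × (GI P (N + 1) → ℝ)) × (Fin M ⊕ KX n N → ℝ),
        Real.log (∑ x, Real.exp (EE f s u z.1.1 z.1.2 x) *
        (Real.exp (cavB δ f1 f2 fun a => cubeS (z.1.1 a) x) *
        Real.cosh (lin (kerX (n := n) δ f1 c z.1.1) z.2 x)))
        ∂(((pm M N).prod (gM (GI P (N + 1)))).prod (gM (Fin M ⊕ KX n N))) := s2.symm
  have e3 : ∫ z : ((Fin M → Fin (N + 1) → ℝ) × (GI P (N + 1) → ℝ)) × (Fin M ⊕ KX n N → ℝ),
        Real.log (∑ x, Real.exp (EE f s u z.1.1 z.1.2 x) *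
        (Real.exp (cavB δ f1 f2 fun a => cubeS (z.1.1 a) x) *
        Real.cosh (lin (kerX (n := n) δ f1 c z.1.1) z.2 x)))
        ∂(((pm M N).prod (gM (GI P (N + 1)))).prod (gM (Fin M ⊕ KX n N))) =
      ∫ ζ : KX n N → ℝ, ∫ q : ((Fin M → Fin (N + 1) → ℝ) × (GI P (N + 1) → ℝ)) × (Fin M → ℝ),
        Real.log (∑ x, Real.exp (EE f s u q.1.1 q.1.2 x) *
        cavx_A δ f1 f2 q.1.1 q.2 (lin (kx N c) ζ) x)
        ∂(((pm M N).prod (gM (GI P (N + 1)))).prod (gM (Fin M))) ∂(gM (KX n N)) := by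
    simp_rw [hpt]
    rw [← integral_prod_symm _ hiH, ← mp.map_eq, integral_map mp.measurable.aemeasurable
      (by rw [mp.map_eq]; exact hiH.aestronglyMeasurable)]
  have e4 : ∫ z : ((Fin M → Fin (N + 2) → ℝ) × (GI P (N + 2) → ℝ)) × (KX n N → ℝ),
        Real.log (∑ y, Real.exp (EE f s u z.1.1 z.1.2 y) * Real.exp (lin (ky N c) z.2 y))
        ∂(((pm M (N + 1)).prod (gM (GI P (N + 2)))).prod (gM (KX n N))) =
      ∫ ζ : KX n N → ℝ, ∫ q : (Fin M → Fin (N + 2) → ℝ) × (GI P (N + 2) → ℝ),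
        Real.log (∑ y, Real.exp (EE f s u q.1 q.2 y) *
          Real.exp (sgn (las y) * lin (kx N c) ζ (ini y)))
        ∂((pm M (N + 1)).prod (gM (GI P (N + 2)))) ∂(gM (KX n N)) := by
    rw [integral_prod_symm _ hiX]
    simp_rw [cavx_lin_ky]
  rw [e1, e2, e3, e4]
  have iX : Integrable (fun ζ : KX n N → ℝ =>
      ∫ q : (Fin M → Fin (N + 2) → ℝ) × (GI P (N + 2) → ℝ),
        Real.log (∑ y, Real.exp (EE f s u q.1 q.2 y) *
          Real.exp (sgn (las y) * lin (kx N c) ζ (ini y)))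
        ∂((pm M (N + 1)).prod (gM (GI P (N + 2))))) (gM (KX n N)) := by
    have h := hiX.integral_prod_right
    simp_rw [cavx_lin_ky] at h
    exact h
  have iY := hiH.integral_prod_right
  have e5 : ∀ (F G : (KX n N → ℝ) → ℝ), Integrable F (gM (KX n N)) →
      Integrable G (gM (KX n N)) → (∫ ζ, F ζ ∂(gM (KX n N))) -
        (Real.log 2 + ∫ ζ, G ζ ∂(gM (KX n N))) =
      ∫ ζ, (F ζ - (Real.log 2 + G ζ)) ∂(gM (KX n N)) := by
    intro F G hF hG
    have i3 : Integrable (fun ζ => Real.log 2 + G ζ) (gM (KX n N)) := (integrable_const _).add hG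
    rw [integral_sub hF i3, integral_add (integrable_const _) hG]
    simp
  rw [e5 _ _ iX iY, ← Real.norm_eq_abs]
  have hb : ∀ ζ : KX n N → ℝ, ‖(∫ q : (Fin M → Fin (N + 2) → ℝ) × (GI P (N + 2) → ℝ),
        Real.log (∑ y, Real.exp (EE f s u q.1 q.2 y) *
          Real.exp (sgn (las y) * lin (kx N c) ζ (ini y)))
        ∂((pm M (N + 1)).prod (gM (GI P (N + 2))))) - (Real.log 2 +
      ∫ q : ((Fin M → Fin (N + 1) → ℝ) × (GI P (N + 1) → ℝ)) × (Fin M → ℝ),
        Real.log (∑ x, Real.exp (EE f s u q.1.1 q.1.2 x) *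
        cavx_A δ f1 f2 q.1.1 q.2 (lin (kx N c) ζ) x)
        ∂(((pm M N).prod (gM (GI P (N + 1)))).prod (gM (Fin M))))‖ ≤
      D * (M * (δ * √δ)) + 2 * (s ^ 2 * δ) := by
    intro ζ
    rw [Real.norm_eq_abs]
    exact hD N M P s u hu (lin (kx N c) ζ)
  have := norm_integral_le_of_norm_le_const (μ := gM (KX n N)) (Filter.Eventually.of_forall hb)
  simpa only [Real.norm_eq_abs, ge_iff_le, probReal_univ, mul_one] using this

lemma cavx_exN_zero (hfm : Measurable f) (hC : ∀ x, |f x| ≤ C) (N M P : ℕ) (s : ℝ)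
    (u : Fin P → ℝ) (n : ℕ) : exN f hfm C hC N M P s u n 0 = 0 := by
  unfold exN
  have h : ∀ z : ((Fin M → Fin (N + 2) → ℝ) × (GI P (N + 2) → ℝ)) × (KX n N → ℝ),
      Real.log (∑ y, (pS f hfm C hC (N + 1) M P s u).w z.1 y *
        Real.exp (lin (ky N (0 : ℕ → ℝ)) z.2 y)) = 0 := by
    intro z
    have h1 : ∀ y : Fin (N + 2) → Bool, lin (ky N (n := n) (0 : ℕ → ℝ)) z.2 y = 0 := by
      intro y
      rw [cavx_lin_ky]
      unfold lin
      simp only [cavx_kx_zero, zero_mul, Finset.sum_const_zero, mul_zero]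
    have h2 : ∑ y : Fin (N + 2) → Bool, (pS f hfm C hC (N + 1) M P s u).w z.1 y *
        Real.exp (lin (ky N (n := n) (0 : ℕ → ℝ)) z.2 y) = 1 := by
      simp_rw [h1, Real.exp_zero, mul_one]
      exact (pS f hfm C hC (N + 1) M P s u).w1 z.1
    exact (congrArg Real.log h2).trans Real.log_one
  refine (integral_congr_ae (Filter.Eventually.of_forall h)).trans ?_
  exact integral_zero _ _

end main

/-- The cavity form of the increment due to the extra field. -/
theorem extra_cavity {f f1 f2 f3 : ℝ → ℝ} {C : ℝ} (hf : CB3 C f f1 f2 f3)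
    (hfm : Measurable f) :
    ∃ D : ℝ, 0 ≤ D ∧ ∀ (N M P : ℕ) (s : ℝ) (u : Fin P → ℝ) (n : ℕ) (c : ℕ → ℝ), 0 ≤ s →
      (∀ q, 0 ≤ u q ∧ u q ≤ 2) → (∀ p, 0 ≤ c p) →
      |exN f hfm C hf.b0 N M P s u n c -
        (T1x f f1 f2 hfm C hf.b0 N M P s u n c - T1x f f1 f2 hfm C hf.b0 N M P s u n 0)| ≤
      D * (M * (1 / ((N : ℝ) + 2) * √(1 / ((N : ℝ) + 2))) + s ^ 2 / ((N : ℝ) + 1)) := by
  obtain ⟨D, hD0, hD⟩ := cavx_main hf hfm
  refine ⟨2 * D + 4, by positivity, ?_⟩
  intro N M P s u n c _ hu _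
  have h1 := hD N M P s u n c hu
  have h2 := hD N M P s u n 0 hu
  rw [cavx_exN_zero hfm hf.b0 N M P s u n] at h2
  set δ : ℝ := 1 / ((N : ℝ) + 2) with hδ
  have h0 : 0 ≤ δ := (dl_pos N).le
  have hδ2 : s ^ 2 * δ ≤ s ^ 2 / ((N : ℝ) + 1) := by
    rw [hδ, mul_one_div]
    exact div_le_div_of_nonneg_left (sq_nonneg s) (by positivity) (by linarith)
  have hq : 0 ≤ s ^ 2 / ((N : ℝ) + 1) := by (clear * -; positivity)
  have hr : 0 ≤ (M : ℝ) * (δ * √δ) := by (clear * -; positivity)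
  have h3 : |exN f hfm C hf.b0 N M P s u n c -
        (T1x f f1 f2 hfm C hf.b0 N M P s u n c - T1x f f1 f2 hfm C hf.b0 N M P s u n 0)| ≤
      2 * (D * (M * (δ * √δ)) + 2 * (s ^ 2 * δ)) := by
    rw [abs_le] at h1 h2 ⊢
    constructor <;> linarith only [h1, h2]
  refine h3.trans ?_
  linarith only [hδ2, hr, mul_nonneg hD0 hq]

end Vale.Agent.P157.Par
end
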