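import Vale.Agent.P157.Bdl.B11

open MeasureTheory ProbabilityTheory Filter Topology
open scoped RealInnerProductSpace

namespace Vale.Agent.P157.Exist

/-- Concatenation of configurations. -/
def app (N₁ N₂ : ℕ) (p : (Fin N₁ → ℝ) × (Fin N₂ → ℝ)) : Fin (N₁ + N₂) → ℝ := Fin.append p.1 p.2

lemma measurable_app (N₁ N₂ : ℕ) : Measurable (app N₁ N₂) := by
  apply measurable_pi_lambda
  intro i
  refine Fin.addCases (fun i => ?_) (fun i => ?_) i
  · simp only [app, Fin.append_left]
    exact (measurable_pi_apply i).comp measurable_fst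
  · simp only [app, Fin.append_right]
    exact (measurable_pi_apply i).comp measurable_snd

theorem map_app_pi (m : Measure ℝ) [IsProbabilityMeasure m] (N₁ N₂ : ℕ) :
    ((Measure.pi fun _ : Fin N₁ => m).prod (Measure.pi fun _ : Fin N₂ => m)).map (app N₁ N₂) =
      Measure.pi fun _ : Fin (N₁ + N₂) => m := by
  symm
  apply Measure.pi_eq
  intro s hs
  rw [Measure.map_apply (measurable_app N₁ N₂) (MeasurableSet.univ_pi hs)]
  have : app N₁ N₂ ⁻¹' Set.univ.pi s =
      (Set.univ.pi fun i => s (Fin.castAdd N₂ i)) ×ˢ (Set.univ.pi fun i => s (Fin.natAdd N₁ i)) := by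
    ext p
    simp only [Set.mem_preimage, Set.mem_pi, Set.mem_univ, forall_const, Set.mem_prod, app]
    constructor
    · intro h
      refine ⟨fun i => ?_, fun i => ?_⟩
      · have := h (Fin.castAdd N₂ i); rwa [Fin.append_left] at this
      · have := h (Fin.natAdd N₁ i); rwa [Fin.append_right] at this
    · rintro ⟨h1, h2⟩ i
      refine Fin.addCases (fun i => ?_) (fun i => ?_) i
      · rw [Fin.append_left]; exact h1 i
      · rw [Fin.append_right]; exact h2 i
  rw [this, Measure.prod_prod, Measure.pi_pi, Measure.pi_pi, Fin.prod_univ_add]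

/-! ### The cube -/

instance : IsProbabilityMeasure
    ((1 / 2 : ENNReal) • (Measure.dirac (1 : ℝ) + Measure.dirac (-1 : ℝ))) := by
  constructor
  simp only [Measure.smul_apply, Measure.add_apply, measure_univ, smul_eq_mul]
  try rw [show (1 : ENNReal) + 1 = 2 by norm_num, one_div,
    ENNReal.inv_mul_cancel (by norm_num) (by norm_num)]

lemma norm_feat_eq_one {N : ℕ} (hN : 0 < N) {x : Fin N → ℝ} (hx : ∑ i, x i ^ 2 = N) :
    ‖feat N x‖ = 1 := by
  have h : ‖feat N x‖ ^ 2 = 1 := by
    rw [← real_inner_self_eq_norm_sq, inner_feat]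
    have : ∑ i, x i * x i = ∑ i, x i ^ 2 := Finset.sum_congr rfl fun i _ => (sq (x i)).symm
    rw [this, hx, div_self]
    exact_mod_cast hN.ne'
  have h4 := norm_nonneg (feat N x)
  nlinarith only [h, h4]

end Vale.Agent.P157.Exist
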