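import Vale.Agent.P157.Bdl.B10
import Vale.Agent.P157.Bdl.B11
import Vale.Agent.P157.Bdl.K_ExistCube
import Vale.Agent.P157.Bdl.B7
import Vale.Agent.P157.CsDefs
import Vale.Agent.P157.Bdl.B12
import Vale.Agent.P157.Bdl.B2
import Vale.Agent.P157.SphereDef
attribute [-instance] ProperSMul.toContinuousSMul IsTopologicalTorsor.toContinuousSMul IdemSemiring.toCanonicallyOrderedAdd IdemSemiring.toMulLeftMono IdemSemiring.toMulRightMono AddQuantale.instAddLeftMono AddQuantale.instAddRightMono Quantale.instMulLeftMono Quantale.instMulRightMono FiniteDimensional.rclike_to_real IsScalarTower.complexToReal FiniteDimensional.complexToReal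

set_option linter.all false

section

/-!
Approximation of bounded measurable potentials by smooth ones, in `L¹` of the Gaussian measure.
-/

open MeasureTheory ProbabilityTheory Filter Topology

namespace Vale.Agent.P157.Par

open scoped ContDiff

theorem hasDerivAt_iteratedDeriv {g : ℝ → ℝ} (hg : ContDiff ℝ ∞ g) (n : ℕ) (x : ℝ) :
    HasDerivAt (iteratedDeriv n g) (iteratedDeriv (n + 1) g x) x := by
  have hd : Differentiable ℝ (iteratedDeriv n g) :=
    hg.differentiable_iteratedDeriv n (by exact_mod_cast WithTop.coe_lt_top _)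
  rw [iteratedDeriv_succ]
  exact (hd x).hasDerivAt

theorem continuous_iteratedDeriv_of_smooth {g : ℝ → ℝ} (hg : ContDiff ℝ ∞ g) (n : ℕ) :
    Continuous (iteratedDeriv n g) :=
  continuous_iff_continuousAt.2 fun x => (hasDerivAt_iteratedDeriv hg n x).continuousAt

theorem hasCompactSupport_iteratedDeriv {g : ℝ → ℝ} (hg : HasCompactSupport g) (n : ℕ) :
    HasCompactSupport (iteratedDeriv n g) := by
  induction n with
  | zero => simpa using hg
  | succ n ih =>
    rw [iteratedDeriv_succ]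
    exact ih.deriv

/-- Approximation by smooth functions with the same bound. -/
theorem exists_smooth_L1 {f : ℝ → ℝ} (hf : Measurable f) {B : ℝ} (hB : ∀ x, |f x| ≤ B) {ε : ℝ}
    (hε : 0 < ε) :
    ∃ g : ℝ → ℝ, ContDiff ℝ ∞ g ∧ (∃ C, ∀ n ≤ 4, ∀ x, |iteratedDeriv n g x| ≤ C) ∧
      (∀ x, |g x| ≤ B) ∧ ∫ x, |f x - g x| ∂(gaussianReal 0 1) ≤ ε := by
  have hB0 : 0 ≤ B := (abs_nonneg _).trans (hB 0)
  have hfi : Integrable f (gaussianReal 0 1) :=
    (integrable_const B).mono' hf.aestronglyMeasurable (ae_of_all _ fun x => by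
      simpa only [Real.norm_eq_abs] using hB x)
  obtain ⟨g₀, hc, hle, hcont, hint⟩ :=
    hfi.exists_hasCompactSupport_integral_sub_le (half_pos hε)
  set h : ℝ → ℝ := fun x => max (-B) (min B (g₀ x)) with hh
  have hhc : Continuous h := continuous_const.max (continuous_const.min hcont)
  have hhB : ∀ x, |h x| ≤ B := fun x =>
    abs_le.2 ⟨le_max_left _ _, max_le (by linarith only [hB0]) (min_le_left _ _)⟩
  have hhs : HasCompactSupport h := by
    refine hc.mono ?_
    intro x hx
    rw [Function.mem_support] at hx ⊢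
    intro h0
    apply hx
    simp only [hh, h0, min_eq_right hB0]
    exact max_eq_right (by linarith only [hB0])
  have hfh : ∀ x, |f x - h x| ≤ |f x - g₀ x| := by
    intro x
    have h1 := abs_le.1 (hB x)
    simp only [hh]
    rcases le_total (g₀ x) (-B) with h2 | h2
    · rw [min_eq_right (by linarith only [hB0, h2]), max_eq_left h2]
      rw [abs_of_nonneg (by linarith only [h1]), abs_of_nonneg (by linarith only [h1, h2])]
      linarith only [h2]
    · rcases le_total B (g₀ x) with h3 | h3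
      · rw [min_eq_left h3, max_eq_right (by linarith only [hB0])]
        rw [abs_of_nonpos (by linarith only [h1]), abs_of_nonpos (by linarith only [h1, h3])]
        linarith only [h3]
      · rw [min_eq_right h3, max_eq_right h2]
  set δ : ℝ := ε / 4 with hδ
  have hδ0 : 0 < δ := by (clear * - hε; positivity)
  obtain ⟨g, hg, hgd, hgs⟩ := hhc.exists_contDiff_approx ⊤ (continuous_const (y := δ))
    (fun _ => hδ0)
  have hgB : ∀ x, |g x| ≤ B + δ := by
    intro x
    have h1 := hgd x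
    rw [Real.dist_eq] at h1
    have h2 := abs_sub_abs_le_abs_sub (g x) (h x)
    have h3 := hhB x
    linarith only [h1, h2, h3]
  have hBδ : 0 < B + δ := by linarith only [hB0, hδ0]
  have hgc : HasCompactSupport g := hhs.mono hgs
  refine ⟨fun x => B / (B + δ) * g x, contDiff_const.mul hg, ?_, ?_, ?_⟩
  · have hk : HasCompactSupport (fun x => B / (B + δ) * g x) := hgc.mul_left
    have hks : ContDiff ℝ ∞ (fun x => B / (B + δ) * g x) := contDiff_const.mul hg
    have hb : ∀ n, ∃ C, ∀ x, |iteratedDeriv n (fun x => B / (B + δ) * g x) x| ≤ C := fun n =>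
      (hasCompactSupport_iteratedDeriv hk n).exists_bound_of_continuous
        (continuous_iteratedDeriv_of_smooth hks n)
    choose C hC using hb
    refine ⟨∑ n ∈ Finset.range 5, |C n|, fun n hn x => (hC n x).trans ((le_abs_self _).trans ?_)⟩
    exact Finset.single_le_sum (f := fun n => |C n|) (fun _ _ => abs_nonneg _)
      (Finset.mem_range.2 (by (clear * - hn; omega)))
  · intro x
    rw [abs_mul, abs_of_nonneg (div_nonneg hB0 hBδ.le), div_mul_eq_mul_div, div_le_iff₀ hBδ]
    exact mul_le_mul_of_nonneg_left (hgB x) hB0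
  · have hpt : ∀ x, |f x - B / (B + δ) * g x| ≤ ‖f x - g₀ x‖ + 2 * δ := by
      intro x
      have h1 := hgd x
      rw [Real.dist_eq] at h1
      have h2 : |g x - B / (B + δ) * g x| ≤ δ := by
        have : g x - B / (B + δ) * g x = δ / (B + δ) * g x := by
          field_simp
          ring
        rw [this, abs_mul, abs_of_nonneg (div_nonneg hδ0.le hBδ.le), div_mul_eq_mul_div,
          div_le_iff₀ hBδ]
        exact mul_le_mul_of_nonneg_left (hgB x) hδ0.le
      have h3 : f x - B / (B + δ) * g x =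
          (f x - h x) + (h x - g x) + (g x - B / (B + δ) * g x) := by ring
      rw [h3]
      have h4 := abs_add_three (f x - h x) (h x - g x) (g x - B / (B + δ) * g x)
      have h5 : |h x - g x| ≤ δ := by rw [abs_sub_comm]; exact h1.le
      have h6 := hfh x
      rw [Real.norm_eq_abs]
      linarith only [h2, h4, h5, h6]
    have hi2 : Integrable (fun x => ‖f x - g₀ x‖) (gaussianReal 0 1) := (hfi.sub hint).norm
    have hi1 : Integrable (fun x => ‖f x - g₀ x‖ + 2 * δ) (gaussianReal 0 1) :=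
      hi2.add (integrable_const _)
    have hi0 : Integrable (fun x => |f x - B / (B + δ) * g x|) (gaussianReal 0 1) :=
      hi1.mono' ((hf.sub (measurable_const.mul hg.continuous.measurable)).abs.aestronglyMeasurable)
        (ae_of_all _ fun x => by
          rw [Real.norm_eq_abs, abs_abs]
          exact hpt x)
    calc ∫ x, |f x - B / (B + δ) * g x| ∂(gaussianReal 0 1)
        ≤ ∫ x, (‖f x - g₀ x‖ + 2 * δ) ∂(gaussianReal 0 1) := integral_mono hi0 hi1 hpt
      _ = ∫ x, ‖f x - g₀ x‖ ∂(gaussianReal 0 1) + 2 * δ := by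
        rw [integral_add hi2 (integrable_const _)]
        simp
      _ ≤ ε := by
        have : 2 * δ = ε / 2 := by rw [hδ]; ring
        linarith only [hle, hδ]

/-- A smooth function with bounded derivatives satisfies `Pot`. -/
theorem exists_parPot_of_smooth {g : ℝ → ℝ} (hg : ContDiff ℝ ∞ g)
    (hC : ∃ C, ∀ n ≤ 4, ∀ x, |iteratedDeriv n g x| ≤ C) :
    ∃ C c₀ a f1 f2 f3, Pot C c₀ a g f1 f2 f3 := by
  obtain ⟨C, hC⟩ := hC
  have h0 : ∀ x, |g x| ≤ C := fun x => by simpa only [iteratedDeriv_zero] using hC 0 (by omega) x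
  refine ⟨C, Real.exp C, Real.exp (-(2 * C)), iteratedDeriv 1 g, iteratedDeriv 2 g,
    iteratedDeriv 3 g, ⟨fun x => ?_, fun x => ?_, fun x => ?_, h0, ?_, ?_, ?_⟩, ⟨iteratedDeriv 2 g,
      iteratedDeriv 3 g, ⟨?_, ?_, ?_, ⟨C, ?_⟩, ⟨C, ?_⟩, ⟨C, ?_⟩⟩⟩, ⟨iteratedDeriv 3 g,
      iteratedDeriv 4 g, ⟨?_, ?_, ?_, ⟨C, ?_⟩, ⟨C, ?_⟩, ⟨C, ?_⟩⟩⟩, Real.exp_pos _,
    Real.exp_pos _, fun x => ?_, fun x => ?_⟩
  · simpa only [iteratedDeriv_one, hasDerivAt_deriv_iff, iteratedDeriv_zero, zero_add] using     hasDerivAt_iteratedDeriv hg 0 x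
  · exact hasDerivAt_iteratedDeriv hg 1 x
  · exact hasDerivAt_iteratedDeriv hg 2 x
  · exact hC 1 (by omega)
  · exact hC 2 (by omega)
  · exact hC 3 (by omega)
  · exact fun x => hasDerivAt_iteratedDeriv hg 1 x
  · exact fun x => hasDerivAt_iteratedDeriv hg 2 x
  · exact continuous_iteratedDeriv_of_smooth hg 3
  · exact hC 1 (by omega)
  · exact hC 2 (by omega)
  · exact hC 3 (by omega)
  · exact fun x => hasDerivAt_iteratedDeriv hg 2 x
  · exact fun x => hasDerivAt_iteratedDeriv hg 3 x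
  · exact continuous_iteratedDeriv_of_smooth hg 4
  · exact hC 2 (by omega)
  · exact hC 3 (by omega)
  · exact hC 4 (by omega)
  · rw [← Real.exp_sub]
    apply Real.exp_le_exp.2
    have := (abs_le.1 (h0 x)).1
    linarith
  · rw [← Real.exp_sub]
    apply Real.exp_le_one_iff.2
    have := (abs_le.1 (h0 x)).2
    linarith only [this]

end Vale.Agent.P157.Par
end

section

/-!
The lower bound for bounded measurable potentials, from smooth ones.
-/

open MeasureTheory ProbabilityTheory Filter Topology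

namespace Vale.Agent.P157.Par

open scoped ContDiff

/-- The lower bound for bounded measurable potentials from the one for smooth potentials and the
`L¹` estimates. -/
theorem lower_borel_of {α B : ℝ} (hα : 0 < α)
    (hmp : ∀ f g : ℝ → ℝ, Measurable f → Measurable g → (∀ x, |f x| ≤ B) → (∀ x, |g x| ≤ B) →
      ∀ N : ℕ, 0 < N → |meanPressure cube α f N - meanPressure cube α g N| ≤
        α * Real.exp (2 * B) * ∫ x, |f x - g x| ∂(gaussianReal 0 1))
    (hpp : ∀ f g : ℝ → ℝ, Measurable f → Measurable g → (∀ x, |f x| ≤ B) → (∀ x, |g x| ≤ B) →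
      ∀ (k : ℕ) (m q : ℕ → ℝ), Exponents k m → Path k q → q k ≤ 1 →
        |patternPart f k m q - patternPart g k m q| ≤
          Real.exp (2 * B) * ∫ x, |f x - g x| ∂(gaussianReal 0 1))
    (hlow : ∀ (g : ℝ → ℝ) (C c₀ a : ℝ) (f1 f2 f3 : ℝ → ℝ), Pot C c₀ a g f1 f2 f3 → ∀ p,
      (∀ ε > 0, ∃ᶠ N in atTop, meanPressure cube α g N < p + ε) →
      ∀ ε > 0, ∃ (k : ℕ) (m q : ℕ → ℝ), Exponents k m ∧ Path k q ∧ q k < 1 ∧
        ∀ r, Path k r → parisi α g k m q r ≤ p + ε)
    {f : ℝ → ℝ} (hf : Measurable f) (hB : ∀ x, |f x| ≤ B) {p : ℝ}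
    (hp : ∀ ε > 0, ∃ᶠ N in atTop, meanPressure cube α f N < p + ε) :
    ∀ ε > 0, ∃ (k : ℕ) (m q : ℕ → ℝ), Exponents k m ∧ Path k q ∧ q k < 1 ∧
      ∀ r, Path k r → parisi α f k m q r ≤ p + ε := by
  intro ε hε
  have hE := Real.exp_pos (2 * B)
  have hαE : 0 < α * Real.exp (2 * B) := mul_pos hα hE
  obtain ⟨g, hgs, hgC, hgB, hgf⟩ := exists_smooth_L1 hf hB
    (ε := ε / 4 / (α * Real.exp (2 * B))) (by positivity)
  have hgm : Measurable g := hgs.continuous.measurable
  obtain ⟨C, c₀, a, f1, f2, f3, hpot⟩ := exists_parPot_of_smooth hgs hgC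
  have hd : α * Real.exp (2 * B) * ∫ x, |f x - g x| ∂(gaussianReal 0 1) ≤ ε / 4 := by
    rw [mul_comm, ← le_div_iff₀ hαE]
    exact hgf
  have hp' : ∀ ε' > 0, ∃ᶠ N in atTop, meanPressure cube α g N < (p + ε / 4) + ε' := by
    intro ε' hε'
    refine ((hp ε' hε').and_eventually (eventually_gt_atTop 0)).mono fun N hN => ?_
    have h1 := (abs_le.1 ((hmp f g hf hgm hB hgB N hN.2).trans hd)).1
    linarith only [hN, h1]
  obtain ⟨k, m, q, hm, hq, hq1, hr⟩ := hlow g C c₀ a f1 f2 f3 hpot (p + ε / 4) hp' (ε / 2)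
    (by linarith only [hε])
  refine ⟨k, m, q, hm, hq, hq1, fun r hr' => ?_⟩
  have h2 := hr r hr'
  have h3 := hpp f g hf hgm hB hgB k m q hm hq hq1.le
  have h4 : α * |patternPart f k m q - patternPart g k m q| ≤ ε / 4 := by
    refine le_trans ?_ hd
    rw [mul_assoc]
    exact mul_le_mul_of_nonneg_left h3 hα.le
  have h5 : α * (patternPart f k m q - patternPart g k m q) ≤ ε / 4 :=
    (mul_le_mul_of_nonneg_left (le_abs_self _) hα.le).trans h4
  simp only [parisi] at h2 ⊢
  linarith only [h2, h5]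

end Vale.Agent.P157.Par
end

section

open MeasureTheory ProbabilityTheory Filter Topology Complex
open scoped RealInnerProductSpace ENNReal

namespace Vale.Agent.P157.Exist

/-- The radial profile of the standard Gaussian density in dimension `n`. -/
noncomputable def gprof (n : ℕ) (r : ℝ) : ℝ :=
  ((Real.pi / (1 / 2)) ^ ((n : ℝ) / 2))⁻¹ * Real.exp (-(1 / 2) * r ^ 2)

lemma gprof_nonneg (n : ℕ) (r : ℝ) : 0 ≤ gprof n r := by
  unfold gprof
  have := Real.pi_pos
  (clear * -; positivity)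

lemma measurable_gprof (n : ℕ) : Measurable (gprof n) := by
  unfold gprof; fun_prop

lemma integral_gprof (n : ℕ) : ∫ x : Euc n, gprof n ‖x‖ = 1 := by
  unfold gprof
  rw [integral_const_mul, GaussianFourier.integral_rexp_neg_mul_sq_norm (by norm_num)]
  simp only [finrank_euclideanSpace, Fintype.card_fin]
  apply inv_mul_cancel₀
  have := Real.pi_pos
  positivity

lemma integrable_gprof (n : ℕ) : Integrable (fun x : Euc n => gprof n ‖x‖) := by
  by_contra h
  have := integral_undef h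
  rw [integral_gprof] at this
  norm_num at this

theorem stdGaussian_density (n : ℕ) :
    stdGaussian (Euc n) =
      (volume : Measure (Euc n)).withDensity (fun x => ENNReal.ofReal (gprof n ‖x‖)) := by
  have hm : Measurable fun x : Euc n => gprof n ‖x‖ := (measurable_gprof n).comp measurable_norm
  have hprob : IsProbabilityMeasure
      ((volume : Measure (Euc n)).withDensity (fun x => ENNReal.ofReal (gprof n ‖x‖))) := by
    constructor
    rw [withDensity_apply _ MeasurableSet.univ, Measure.restrict_univ,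
      ← ofReal_integral_eq_lintegral_ofReal (integrable_gprof n)
        (Filter.Eventually.of_forall fun x => gprof_nonneg n _), integral_gprof, ENNReal.ofReal_one]
  apply Measure.ext_of_charFun
  ext t
  rw [charFun_stdGaussian, charFun_apply,
    integral_withDensity_eq_integral_toReal_smul (by fun_prop)
      (Filter.Eventually.of_forall fun _ => ENNReal.ofReal_lt_top)]
  have h1 : ∀ x : Euc n, (ENNReal.ofReal (gprof n ‖x‖)).toReal • cexp (⟪x, t⟫ * I) =
      (((Real.pi / (1 / 2)) ^ ((n : ℝ) / 2))⁻¹ : ℝ) *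
        cexp (-(1 / 2 : ℂ) * ‖x‖ ^ 2 + I * ⟪t, x⟫) := by
    intro x
    rw [ENNReal.toReal_ofReal (gprof_nonneg n _), gprof, Complex.real_smul, Complex.exp_add,
      real_inner_comm x t]
    push_cast
    rw [mul_comm I (⟪x, t⟫ : ℂ)]
    ring
  simp_rw [h1]
  rw [integral_const_mul, GaussianFourier.integral_cexp_neg_mul_sq_norm_add (by (clear * -; norm_num))]
  simp only [finrank_euclideanSpace, Fintype.card_fin]
  have h2 : ((Real.pi : ℂ) / (1 / 2 : ℂ)) ^ ((n : ℂ) / 2) =
      (((Real.pi / (1 / 2)) ^ ((n : ℝ) / 2) : ℝ) : ℂ) := by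
    rw [Complex.ofReal_cpow (by have := Real.pi_pos; positivity)]
    push_cast
    rfl
  rw [h2, ← mul_assoc, ← Complex.ofReal_mul, inv_mul_cancel₀, Complex.ofReal_one, one_mul]
  · congr 1
    rw [Complex.I_sq]
    ring
  · have := Real.pi_pos
    positivity

/-- Scaled direction and norm. -/
noncomputable def dirn (n : ℕ) (z : Euc n) : (Fin n → ℝ) × ℝ :=
  (fun i => √(n : ℝ) * (z i / ‖z‖), ‖z‖)

lemma measurable_dirn (n : ℕ) : Measurable (dirn n) := by
  unfold dirn
  (clear * -; fun_prop)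

instance sphere_prob (n : ℕ) [NeZero n] : IsProbabilityMeasure (sphere n) := by
  have hne : Nontrivial (Euc n) := by
    have : Nonempty (Fin n) := ⟨⟨0, Nat.pos_of_ne_zero (NeZero.ne n)⟩⟩
    infer_instance
  unfold sphere
  have h : IsProbabilityMeasure
      (((volume : Measure (EuclideanSpace ℝ (Fin n))).toSphere Set.univ)⁻¹ •
      (volume : Measure (EuclideanSpace ℝ (Fin n))).toSphere) := by
    constructor
    rw [Measure.smul_apply, smul_eq_mul]
    apply ENNReal.inv_mul_cancel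
    · rw [Ne, Measure.measure_univ_eq_zero]
      exact Measure.toSphere_ne_zero _
    · exact measure_ne_top _ _
  exact Measure.isProbabilityMeasure_map (Measurable.aemeasurable (by fun_prop))

theorem lintegral_polar {n : ℕ} [NeZero n] (G : Euc n → ℝ≥0∞) :
    ∫⁻ x, G x = ∫⁻ p : Metric.sphere (0 : Euc n) 1 × Set.Ioi (0 : ℝ), G (p.2.1 • p.1.1)
      ∂((volume : Measure (Euc n)).toSphere.prod (Measure.volumeIoiPow (n - 1))) := by
  have hne : Nontrivial (Euc n) := by
    have : Nonempty (Fin n) := ⟨⟨0, Nat.pos_of_ne_zero (NeZero.ne n)⟩⟩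
    infer_instance
  have h1 : ∫⁻ x, G x = ∫⁻ x in ({0}ᶜ : Set (Euc n)), G x := by
    rw [restrict_compl_singleton]
  have h2 : ∫⁻ x in ({0}ᶜ : Set (Euc n)), G x =
      ∫⁻ x : ({0}ᶜ : Set (Euc n)), G x ∂((volume : Measure (Euc n)).comap (↑)) := by
    rw [lintegral_subtype_comap (measurableSet_singleton _).compl]
  have h3 := (volume : Measure (Euc n)).measurePreserving_homeomorphUnitSphereProd
  rw [finrank_euclideanSpace, Fintype.card_fin] at h3
  have h4 := h3.lintegral_comp_emb (homeomorphUnitSphereProd (Euc n)).measurableEmbedding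
    (fun p => G (p.2.1 • p.1.1))
  rw [h1, h2, ← h4]
  congr 1
  ext x
  congr 1
  have := (homeomorphUnitSphereProd (Euc n)).symm_apply_apply x
  have h5 := congrArg Subtype.val this
  rw [homeomorphUnitSphereProd_symm_apply_coe] at h5
  exact h5.symm

/-- The law of the norm of a standard Gaussian vector. -/
noncomputable def chi (n : ℕ) : Measure ℝ := (stdGaussian (Euc n)).map fun z => ‖z‖

instance (n : ℕ) : IsProbabilityMeasure (chi n) :=
  Measure.isProbabilityMeasure_map (Measurable.aemeasurable (by fun_prop))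

/-- Direction and norm of a standard Gaussian vector are independent, and the direction is
uniform. -/
theorem map_dirn (n : ℕ) [NeZero n] : (stdGaussian (Euc n)).map (dirn n) = (sphere n).prod (chi n) := by
  have hne : Nontrivial (Euc n) := by
    have : Nonempty (Fin n) := ⟨⟨0, Nat.pos_of_ne_zero (NeZero.ne n)⟩⟩
    infer_instance
  set S : Measure (Metric.sphere (0 : Euc n) 1) := (volume : Measure (Euc n)).toSphere with hS
  set m : ℝ≥0∞ := S Set.univ with hm
  have hm0 : m ≠ 0 := by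
    rw [hm, Ne, Measure.measure_univ_eq_zero]
    exact Measure.toSphere_ne_zero _
  have hmt : m ≠ ∞ := measure_ne_top _ _
  set s : Metric.sphere (0 : Euc n) 1 → (Fin n → ℝ) := fun u i => √(n : ℝ) * u.1.ofLp i with hs
  have hsm : Measurable s := by fun_prop
  set τ : Measure (Set.Ioi (0 : ℝ)) := Measure.volumeIoiPow (n - 1) with hτ
  set η : Measure ℝ := (τ.withDensity fun r => ENNReal.ofReal (gprof n r.1)).map Subtype.val with hη
  have hsph : S.map s = m • sphere n := by
    unfold sphere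
    rw [← hS, Measure.map_smul, smul_smul, ENNReal.mul_inv_cancel hm0 hmt, one_smul]
  -- the joint law tested against rectangles
  have key : ∀ (A : Set (Fin n → ℝ)) (B : Set ℝ), MeasurableSet A → MeasurableSet B →
      (stdGaussian (Euc n)).map (dirn n) (A ×ˢ B) = (m * sphere n A) * η B := by
    intro A B hA hB
    rw [Measure.map_apply (measurable_dirn n) (hA.prod hB), stdGaussian_density,
      withDensity_apply _ (measurable_dirn n (hA.prod hB)),
      ← lintegral_indicator (measurable_dirn n (hA.prod hB)), lintegral_polar]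
    have h1 : ∀ p : Metric.sphere (0 : Euc n) 1 × Set.Ioi (0 : ℝ),
        (dirn n ⁻¹' A ×ˢ B).indicator (fun x => ENNReal.ofReal (gprof n ‖x‖)) (p.2.1 • p.1.1) =
        (s ⁻¹' A).indicator 1 p.1 *
          ((Subtype.val ⁻¹' B : Set (Set.Ioi (0 : ℝ))).indicator
            (fun r => ENNReal.ofReal (gprof n r.1)) p.2) := by
      intro p
      have hr : (0 : ℝ) < p.2.1 := p.2.2
      have hu : ‖(p.1.1 : Euc n)‖ = 1 := by simp only [norm_eq_of_mem_sphere]
      have hnorm : ‖p.2.1 • p.1.1‖ = p.2.1 := by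
        rw [norm_smul, hu, mul_one, Real.norm_eq_abs, abs_of_pos hr]
      have hd : dirn n (p.2.1 • p.1.1) = (s p.1, p.2.1) := by
        unfold dirn
        rw [hnorm]
        ext1
        · ext i
          simp only [hs, PiLp.smul_apply, smul_eq_mul]
          rw [mul_div_cancel_left₀ _ hr.ne']
        · rfl
      have hmem : p.2.1 • p.1.1 ∈ dirn n ⁻¹' A ×ˢ B ↔ s p.1 ∈ A ∧ p.2.1 ∈ B := by
        rw [Set.mem_preimage, hd, Set.mem_prod]
      by_cases h : s p.1 ∈ A
      · by_cases h' : p.2.1 ∈ B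
        · rw [Set.indicator_of_mem (hmem.2 ⟨h, h'⟩), Set.indicator_of_mem (by exact h),
            Set.indicator_of_mem (by exact h'), hnorm]
          simp
        · rw [Set.indicator_of_notMem (fun hh => h' (hmem.1 hh).2),
            Set.indicator_of_notMem (s := Subtype.val ⁻¹' B) (by exact h'), mul_zero]
      · rw [Set.indicator_of_notMem (fun hh => h (hmem.1 hh).1),
          Set.indicator_of_notMem (s := s ⁻¹' A) (by exact h), zero_mul]
    simp_rw [h1]
    rw [lintegral_prod_mul (by exact (measurable_one.indicator (hsm hA)).aemeasurable)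
      (by
        apply Measurable.aemeasurable
        apply Measurable.indicator
        · exact ((measurable_gprof n).comp measurable_subtype_coe).ennreal_ofReal
        · exact measurable_subtype_coe hB)]
    congr 1
    · rw [lintegral_indicator_one (hsm hA), ← Measure.map_apply hsm hA, hsph,
        Measure.smul_apply, smul_eq_mul]
    · rw [hη, Measure.map_apply measurable_subtype_coe hB,
        withDensity_apply _ (measurable_subtype_coe hB), lintegral_indicator
        (measurable_subtype_coe hB)]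
  -- identify the second marginal
  have hchi : chi n = m • η := by
    ext B hB
    have h1 : chi n B = (stdGaussian (Euc n)).map (dirn n) (Set.univ ×ˢ B) := by
      rw [Measure.map_apply (measurable_dirn n) (MeasurableSet.univ.prod hB), chi,
        Measure.map_apply (by fun_prop) hB]
      congr 1
      ext x
      simp [dirn]
    rw [h1, key _ _ MeasurableSet.univ hB, measure_univ, mul_one, Measure.smul_apply, smul_eq_mul]
  symm
  apply Measure.prod_eq
  intro A B hA hB
  rw [key A B hA hB, hchi, Measure.smul_apply, smul_eq_mul]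
  ring

end Vale.Agent.P157.Exist
end

section

open MeasureTheory ProbabilityTheory Filter Topology
open scoped RealInnerProductSpace ENNReal

namespace Vale.Agent.P157.Exist

/-- Concatenation of Euclidean vectors. -/
noncomputable def appE (N₁ N₂ : ℕ) (p : Euc N₁ × Euc N₂) : Euc (N₁ + N₂) :=
  WithLp.toLp 2 (app N₁ N₂ (p.1.ofLp, p.2.ofLp))

lemma measurable_appE (N₁ N₂ : ℕ) : Measurable (appE N₁ N₂) := by
  unfold appE
  have := measurable_app N₁ N₂
  (clear * - this; fun_prop)

theorem map_appE (N₁ N₂ : ℕ) :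
    ((stdGaussian (Euc N₁)).prod (stdGaussian (Euc N₂))).map (appE N₁ N₂) =
      stdGaussian (Euc (N₁ + N₂)) := by
  rw [← map_pi_eq_stdGaussian, ← map_pi_eq_stdGaussian, ← map_pi_eq_stdGaussian,
    ← map_app_pi (gaussianReal 0 1) N₁ N₂,
    Measure.map_prod_map _ _ (by fun_prop) (by fun_prop),
    Measure.map_map (measurable_appE N₁ N₂) (by fun_prop),
    Measure.map_map (by fun_prop) (measurable_app N₁ N₂)]
  rfl

lemma norm_appE_sq (N₁ N₂ : ℕ) (p : Euc N₁ × Euc N₂) :
    ‖appE N₁ N₂ p‖ ^ 2 = ‖p.1‖ ^ 2 + ‖p.2‖ ^ 2 := by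
  rw [EuclideanSpace.real_norm_sq_eq, EuclideanSpace.real_norm_sq_eq,
    EuclideanSpace.real_norm_sq_eq, Fin.sum_univ_add]
  simp only [appE, app, Fin.append_left, Fin.append_right]

end Vale.Agent.P157.Exist
end

section

/-!
Definitions for the Parisi formula of the spherical perceptron: finite nets of the unit sphere,
their perturbed systems, slices, the Crisanti-Sommers functional.
-/

open MeasureTheory ProbabilityTheory Filter Topology
open scoped RealInnerProductSpace

namespace Vale.Agent.P157.Sph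

open Par

open Vale.Agent.P367.GT (gM)

/-- Euclidean space. -/
abbrev Ec (d : ℕ) : Type := EuclideanSpace ℝ (Fin d)

/-- The uniform probability measure on the unit sphere. -/
noncomputable def usp (d : ℕ) : Measure (Ec d) := (stdGaussian (Ec d)).map fun z => (‖z‖)⁻¹ • z

/-- A finite family of unit vectors, with probability weights. -/
structure Net (d : ℕ) where
  X : Type
  fX : Fintype X
  nX : Nonempty X
  φ : X → Ec d
  hφ : ∀ x, ‖φ x‖ = 1
  w : X → ℝ
  w0 : ∀ x, 0 < w x
  w1 : ∑ x, w x = 1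

attribute [instance] Net.fX Net.nX

/-- Lipschitz functions on the unit sphere. -/
def LipS {d : ℕ} (Φ : Ec d → ℝ) (Λ : ℝ) : Prop :=
  ∀ y y', ‖y‖ = 1 → ‖y'‖ = 1 → |Φ y - Φ y'| ≤ Λ * ‖y - y'‖

/-- The net is `κ`-close to the uniform measure on the unit sphere. -/
def Net.Close {d : ℕ} (A : Net d) (κ : ℝ) : Prop :=
  ∀ (Φ : Ec d → ℝ) (Λ : ℝ), Continuous Φ → 0 ≤ Λ → LipS Φ Λ →
    |Real.log (∑ x, A.w x * Real.exp (Φ (A.φ x))) -
      Real.log (∫ y, Real.exp (Φ y) ∂(usp d))| ≤ κ * Λ

/-- The energy of a point, patterns and perturbation. -/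
noncomputable def en (f : ℝ → ℝ) {d M P : ℕ} (s : ℝ) (u : Fin P → ℝ) (g : Fin M → Fin d → ℝ)
    (h : GI P d → ℝ) (y : Ec d) : ℝ :=
  ∑ a, f (∑ i, g a i * y i) +
    ∑ e : GI P d, h e * (s * u e.1 * (1 / 2) ^ ((e.1 : ℕ) + 1) * ∏ r, y (e.2 r))

/-- The law of the disorder. -/
noncomputable abbrev dis (M P d : ℕ) : Measure ((Fin M → Fin d → ℝ) × (GI P d → ℝ)) :=
  (Measure.pi fun _ : Fin M => gM (Fin d)).prod (gM (GI P d))

/-- The expected log-partition function of the weighted points `V`, `φ`. -/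
noncomputable def fr (f : ℝ → ℝ) {d : ℕ} (M P : ℕ) (s : ℝ) (u : Fin P → ℝ) {X : Type} [Fintype X]
    (V : X → ℝ) (φ : X → Ec d) : ℝ :=
  ∫ z, Real.log (∑ x, V x * Real.exp (en f s u z.1 z.2 (φ x))) ∂(dis M P d)

/-- The base system of a net. -/
noncomputable def Net.base {d : ℕ} (A : Net d) (f : ℝ → ℝ) (hf : Measurable f) (C : ℝ)
    (hC : ∀ x, |f x| ≤ C) (M : ℕ) : Base :=
  patBase (gM (Fin d)) M (X := A.X)
    (fun ω x => ∑ a, f (∑ i, ω a i * A.φ x i) + Real.log (A.w x))
    (fun x => (Finset.measurable_sum _ fun a _ => hf.comp (by fun_prop)).add measurable_const)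
    (M * C + ∑ x, |Real.log (A.w x)|) (fun ω x => by
      refine (abs_add_le _ _).trans (add_le_add ?_ ?_)
      · refine (Finset.abs_sum_le_sum_abs _ _).trans
          ((Finset.sum_le_sum fun a _ => hC _).trans ?_)
        rw [Finset.sum_const, Finset.card_univ, Fintype.card_fin, nsmul_eq_mul]
      · exact Finset.single_le_sum (f := fun x => |Real.log (A.w x)|)
          (fun y _ => abs_nonneg _) (Finset.mem_univ x))
    A.φ A.hφ

/-- The point of the sphere of `ℝ^(d+1)` at the height `t` above the point `y`. -/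
noncomputable def lift (d : ℕ) (t : ℝ) (y : Ec d) : Ec (d + 1) :=
  WithLp.toLp 2 (Fin.snoc (fun i => √(1 - t ^ 2) * y i) t)

/-- The law of the height. -/
noncomputable def ht (d : ℕ) : Measure ℝ := (usp (d + 1)).map fun y => y (Fin.last d)

/-- The window. -/
noncomputable def win (a τ : ℝ) (x : ℝ) : ℝ := a + (1 - a) * Real.exp (-(x ^ 2 / (2 * τ ^ 2)))

end Vale.Agent.P157.Sph
end

section

open MeasureTheory ProbabilityTheory Filter Topology
open scoped RealInnerProductSpace ENNReal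

namespace Vale.Agent.P157.Exist

/-- The centered square of a coordinate. -/
noncomputable def csq (x : ℝ) : ℝ := x ^ 2 - 1

/-- The variance of the square of a standard Gaussian variable. -/
noncomputable def c4 : ℝ := ∫ x, csq x ^ 2 ∂(gaussianReal 0 1)

lemma memLp_csq : MemLp csq 2 (gaussianReal 0 1) := by
  unfold csq
  have h4 : MemLp (fun x : ℝ => x) 4 (gaussianReal 0 1) := memLp_id_gaussianReal' 4 (by norm_num)
  have h2 : MemLp (fun x : ℝ => x ^ 2) 2 (gaussianReal 0 1) := by
    have := h4.mul (p := 4) (q := 4) (r := 2) h4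
      (hpqr := ⟨by
        rw [show (4 : ℝ≥0∞) = 2 * 2 by (clear * -; norm_num), ENNReal.mul_inv (by norm_num) (by norm_num),
          ← mul_add, ENNReal.inv_two_add_inv_two, mul_one]⟩)
    convert this using 2 with x
    rw [sq]
    rfl
  exact h2.sub (memLp_const 1)

lemma integral_csq : ∫ x, csq x ∂(gaussianReal 0 1) = 0 := by
  unfold csq
  have h2 : MemLp (fun x : ℝ => x) 2 (gaussianReal 0 1) := memLp_id_gaussianReal' 2 (by (clear * -; norm_num))
  have hv := variance_fun_id_gaussianReal (μ := 0) (v := 1)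
  rw [variance_eq_sub h2] at hv
  have h1 : ∫ x, x ∂(gaussianReal 0 1) = 0 := integral_id_gaussianReal
  rw [h1] at hv
  rw [integral_sub _ (integrable_const _)]
  · simp only [Pi.pow_apply, ne_eq, OfNat.ofNat_ne_zero, not_false_eq_true, zero_pow, sub_zero, NNReal.coe_one] at hv
    simp [hv]
  · exact h2.integrable_sq

/-- The centered squared norm. -/
noncomputable def cn (n : ℕ) (z : Euc n) : ℝ := ‖z‖ ^ 2 - n

lemma cn_toLp (n : ℕ) (x : Fin n → ℝ) : cn n (WithLp.toLp 2 x) = ∑ i, csq (x i) := by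
  unfold cn csq
  rw [EuclideanSpace.real_norm_sq_eq, Finset.sum_sub_distrib]
  simp only [Finset.sum_const, Finset.card_univ, Fintype.card_fin, nsmul_eq_mul, mul_one]

lemma measurable_cn (n : ℕ) : Measurable (cn n) := by unfold cn; fun_prop

lemma memLp_sum_csq (n : ℕ) : MemLp (fun x : Fin n → ℝ => ∑ i, csq (x i)) 2
    (Measure.pi fun _ : Fin n => gaussianReal 0 1) := by
  apply memLp_finsetSum
  intro i _
  exact memLp_csq.comp_measurePreserving (measurePreserving_eval _ i)

lemma memLp_cn (n : ℕ) : MemLp (cn n) 2 (stdGaussian (Euc n)) := by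
  rw [← map_pi_eq_stdGaussian]
  rw [memLp_map_measure_iff (measurable_cn n).aestronglyMeasurable (by (clear * -; fun_prop))]
  have : (cn n ∘ (WithLp.toLp 2)) = fun x : Fin n → ℝ => ∑ i, csq (x i) := by
    ext x; exact cn_toLp n x
  rw [this]
  exact memLp_sum_csq n

lemma integral_cn (n : ℕ) : ∫ z, cn n z ∂(stdGaussian (Euc n)) = 0 := by
  rw [← map_pi_eq_stdGaussian, integral_map (by (clear * -; fun_prop)) (measurable_cn n).aestronglyMeasurable]
  simp_rw [cn_toLp]
  rw [integral_finsetSum]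
  · apply Finset.sum_eq_zero
    intro i _
    rw [integral_comp_eval (μ := fun _ : Fin n => gaussianReal 0 1) (i := i)
      memLp_csq.aestronglyMeasurable]
    exact integral_csq
  · intro i _
    exact (measurePreserving_eval (fun _ : Fin n => gaussianReal 0 1) i).integrable_comp_of_integrable
      (memLp_csq.integrable (by norm_num))

lemma integral_cn_sq (n : ℕ) : ∫ z, cn n z ^ 2 ∂(stdGaussian (Euc n)) = n * c4 := by
  have h0 := integral_cn n
  rw [← map_pi_eq_stdGaussian, integral_map (by (clear * -; fun_prop))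
    (measurable_cn n).aestronglyMeasurable] at h0
  rw [← map_pi_eq_stdGaussian, integral_map (by (clear * -; fun_prop))
    ((measurable_cn n).pow_const 2).aestronglyMeasurable]
  simp_rw [cn_toLp] at h0 ⊢
  have h1 := variance_of_integral_eq_zero (μ := Measure.pi fun _ : Fin n => gaussianReal 0 1)
    (X := fun x : Fin n → ℝ => ∑ i, csq (x i)) (memLp_sum_csq n).aemeasurable h0
  rw [← h1]
  have h2 := variance_sum_pi (μ := fun _ : Fin n => gaussianReal 0 1) (X := fun _ => csq)
    (fun _ => memLp_csq)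
  have h3 : (∑ i, fun ω : Fin n → ℝ => csq (ω i)) = fun x : Fin n → ℝ => ∑ i, csq (x i) := by
    ext x; simp only [Finset.sum_apply]
  rw [h3] at h2
  rw [h2]
  have h4 := variance_of_integral_eq_zero (μ := gaussianReal 0 1) (X := csq)
    memLp_csq.aemeasurable integral_csq
  simp only [h4, Finset.sum_const, Finset.card_univ, Fintype.card_fin, nsmul_eq_mul, c4]

end Vale.Agent.P157.Exist
end

section

open MeasureTheory ProbabilityTheory Filter Topology
open scoped RealInnerProductSpace ENNReal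

namespace Vale.Agent.P157.Exist

end Vale.Agent.P157.Exist
end

section

open MeasureTheory ProbabilityTheory Filter Topology
open scoped RealInnerProductSpace ENNReal

namespace Vale.Agent.P157.Exist

lemma sphere_norm (n : ℕ) (hn : 0 < n) : ∀ᵐ x ∂(sphere n), ‖feat n x‖ = 1 := by
  unfold sphere
  rw [ae_map_iff (Measurable.aemeasurable (by fun_prop))]
  · refine Filter.Eventually.of_forall fun u => ?_
    apply norm_feat_eq_one hn
    have h1 : ∑ i, (u.1.ofLp i) ^ 2 = 1 := by
      rw [← EuclideanSpace.real_norm_sq_eq]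
      have : ‖u.1‖ = 1 := by simp only [norm_eq_of_mem_sphere]
      rw [this]; norm_num
    simp_rw [mul_pow, Real.sq_sqrt (Nat.cast_nonneg n)]
    rw [← Finset.mul_sum, h1, mul_one]
  · exact measurableSet_eq_fun ((measurable_feat n).norm) measurable_const

end Vale.Agent.P157.Exist
end

section

/-! Basic facts on the uniform measure of the unit sphere and its slices. -/

open MeasureTheory ProbabilityTheory Filter Topology
open scoped RealInnerProductSpace

namespace Vale.Agent.P157.Sph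

open Par

open Vale.Agent.P367.GT (gM)

set_option linter.unusedSectionVars false

lemma sphb_measurable_u (d : ℕ) : Measurable fun z : Ec d => (‖z‖)⁻¹ • z := by
  fun_prop

instance (d : ℕ) : IsProbabilityMeasure (usp d) := by
  unfold usp
  exact Measure.isProbabilityMeasure_map (sphb_measurable_u d).aemeasurable

/-- The surface measure of the sphere of radius `√d`. -/
theorem sphb_sphere_eq_usp (d : ℕ) [NeZero d] :
    sphere d = (usp d).map fun y i => √(d : ℝ) * y i := by
  have h := congrArg (fun μ => μ.map Prod.fst) (Exist.map_dirn d)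
  simp only at h
  have h2 : ((sphere d).prod (Exist.chi d)).map Prod.fst = sphere d := by
    rw [Measure.map_fst_prod]; simp
  rw [h2, Measure.map_map measurable_fst (Exist.measurable_dirn d)] at h
  rw [← h, usp, Measure.map_map (by (clear * -; fun_prop)) (sphb_measurable_u d)]
  congr 1
  funext z i
  simp only [Function.comp_apply, Exist.dirn, PiLp.smul_apply, smul_eq_mul]
  rw [div_eq_mul_inv, mul_comm (z.ofLp i)]

theorem norm_usp (d : ℕ) [NeZero d] : ∀ᵐ y ∂(usp d), ‖y‖ = 1 := by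
  have hd : 0 < d := Nat.pos_of_ne_zero (NeZero.ne d)
  have h := Exist.sphere_norm d hd
  rw [sphb_sphere_eq_usp d] at h
  have h2 := ae_of_ae_map (by (clear * -; fun_prop)) h
  filter_upwards [h2] with y hy
  have e : Exist.feat d (fun i => √(d : ℝ) * y i) = y := by
    unfold Exist.feat
    ext i
    have : √(d : ℝ) ≠ 0 := by (clear * - hd; positivity)
    simp only
    (clear * - this; field_simp)
  rwa [e] at hy

/-- Rotation invariance. -/
theorem usp_iso (d : ℕ) (O : Ec d ≃ₗᵢ[ℝ] Ec d) : (usp d).map O = usp d := by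
  have hO : Measurable (O : Ec d → Ec d) := O.continuous.measurable
  have h1 : (stdGaussian (Ec d)).map O = stdGaussian (Ec d) := stdGaussian_map O
  unfold usp
  rw [Measure.map_map hO (sphb_measurable_u d)]
  conv_rhs => rw [← h1]
  rw [Measure.map_map (sphb_measurable_u d) hO]
  congr 1
  funext z
  simp [Function.comp]

/-- The surface measure of the sphere of radius `√d`. -/
theorem sphere_eq_usp (d : ℕ) [NeZero d] :
    sphere d = (usp d).map fun y i => √(d : ℝ) * y i := sphb_sphere_eq_usp d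

theorem lift_last (d : ℕ) (t : ℝ) (y : Ec d) : lift d t y (Fin.last d) = t := by
  simp only [lift, Fin.snoc_last]

theorem lift_castSucc (d : ℕ) (t : ℝ) (y : Ec d) (i : Fin d) :
    lift d t y i.castSucc = √(1 - t ^ 2) * y i := by
  simp [lift]

theorem sphb_one_sub {t : ℝ} (ht : |t| ≤ 1) : 0 ≤ 1 - t ^ 2 := by
  have := abs_le_one_iff_mul_self_le_one.1 ht
  linarith

theorem norm_lift {d : ℕ} {t : ℝ} (ht : |t| ≤ 1) {y : Ec d} (hy : ‖y‖ = 1) :
    ‖lift d t y‖ = 1 := by
  have h : ‖lift d t y‖ ^ 2 = 1 := by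
    rw [EuclideanSpace.real_norm_sq_eq, Fin.sum_univ_castSucc]
    simp_rw [lift_last, lift_castSucc, mul_pow, Real.sq_sqrt (sphb_one_sub ht)]
    rw [← Finset.mul_sum, ← EuclideanSpace.real_norm_sq_eq, hy]
    ring
  nlinarith only [h, norm_nonneg (lift d t y)]

theorem norm_lift_sub {d : ℕ} {t : ℝ} (ht : |t| ≤ 1) (y y' : Ec d) :
    ‖lift d t y - lift d t y'‖ ≤ ‖y - y'‖ := by
  apply le_of_sq_le_sq _ (norm_nonneg _)
  rw [EuclideanSpace.real_norm_sq_eq, EuclideanSpace.real_norm_sq_eq, Fin.sum_univ_castSucc]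
  simp_rw [PiLp.sub_apply, lift_last, lift_castSucc]
  rw [sub_self]
  have : ∀ i, (√(1 - t ^ 2) * y i - √(1 - t ^ 2) * y' i) ^ 2 = (1 - t ^ 2) * (y i - y' i) ^ 2 := by
    intro i
    rw [← mul_sub, mul_pow, Real.sq_sqrt (sphb_one_sub ht)]
  simp_rw [this]
  rw [← Finset.mul_sum]
  have h0 : 0 ≤ ∑ i, (y i - y' i) ^ 2 := Finset.sum_nonneg fun i _ => sq_nonneg _
  nlinarith only [h0]

theorem continuous_lift (d : ℕ) : Continuous fun p : ℝ × Ec d => lift d p.1 p.2 := by
  unfold lift
  refine (PiLp.continuous_toLp 2 _).comp (continuous_pi fun i => ?_)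
  refine Fin.lastCases ?_ (fun i => ?_) i
  · simp only [Fin.snoc_last]; fun_prop
  · simp only [Fin.snoc_castSucc]; fun_prop

instance (d : ℕ) : IsProbabilityMeasure (ht d) := by
  unfold ht
  exact Measure.isProbabilityMeasure_map (Measurable.aemeasurable (by fun_prop))

theorem ht_abs (d : ℕ) : ∀ᵐ t ∂(ht d), |t| ≤ 1 := by
  unfold ht
  rw [ae_map_iff (Measurable.aemeasurable (by fun_prop))
    (measurableSet_le (by fun_prop) (by fun_prop))]
  filter_upwards [norm_usp (d + 1)] with y hy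
  have := PiLp.norm_apply_le y (Fin.last d)
  rw [hy] at this
  exact this

end Vale.Agent.P157.Sph
end

section

/-! Finite nets of the unit sphere. -/

open MeasureTheory ProbabilityTheory Filter Topology
open scoped RealInnerProductSpace

namespace Vale.Agent.P157.Sph

open Par

open Vale.Agent.P367.GT (gM)

set_option linter.unusedSectionVars false

/-- the integral of a function of a simple function -/
theorem snet_integral {Ω Y : Type*} [MeasurableSpace Ω] (μ : Measure Ω) [IsProbabilityMeasure μ]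
    (q : SimpleFunc Ω Y) (F : Y → ℝ) :
    ∫ y, F (q y) ∂μ = ∑ x ∈ q.range, μ.real (q ⁻¹' {x}) * F x := by
  classical
  have h1 : ∀ y, F (q y) = ∑ x ∈ q.range, (q ⁻¹' {x}).indicator (fun _ => F x) y := by
    intro y
    rw [Finset.sum_eq_single (q y)]
    · rw [Set.indicator_of_mem]
      rfl
    · intro x _ hx
      rw [Set.indicator_of_notMem]
      intro h
      exact hx h.symm
    · intro h
      exact absurd (q.mem_range_self y) h
  simp only [h1]
  rw [integral_finsetSum]
  · refine Finset.sum_congr rfl fun x _ => ?_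
    rw [integral_indicator_const _ (q.measurableSet_preimage {x}), smul_eq_mul]
  · intro x _
    exact (integrable_const (F x)).indicator (q.measurableSet_preimage {x})

/-- a finite net of the sphere, as a simple function -/
theorem snet_simple (d : ℕ) [NeZero d] {κ : ℝ} (hκ : 0 < κ) :
    ∃ q : SimpleFunc (Ec d) (Ec d), (∀ y, ‖q y‖ = 1) ∧ ∀ y, ‖y‖ = 1 → ‖q y - y‖ ≤ κ := by
  classical
  have hS : IsCompact (Metric.sphere (0 : Ec d) 1) := isCompact_sphere 0 1
  obtain ⟨t, htS, htf, hcov⟩ := hS.finite_cover_balls hκ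
  have hne : (Metric.sphere (0 : Ec d) 1).Nonempty := by
    refine ⟨EuclideanSpace.single (0 : Fin d) (1 : ℝ), ?_⟩
    simp only [mem_sphere_iff_norm, sub_zero, PiLp.norm_single, norm_one]
  obtain ⟨y0, hy0⟩ := hne
  obtain ⟨N, c, hc⟩ : ∃ (N : ℕ) (c : ℕ → Ec d), (∀ k, c k ∈ Metric.sphere (0 : Ec d) 1) ∧
      ∀ x ∈ t, ∃ k ≤ N, c k = x := by
    refine ⟨htf.toFinset.card, fun k => if h : k < htf.toFinset.card then
      ((htf.toFinset.equivFin.symm ⟨k, h⟩ : htf.toFinset) : Ec d) else y0, ?_, ?_⟩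
    · intro k
      by_cases h : k < htf.toFinset.card
      · simp only [dif_pos h]
        exact htS (htf.mem_toFinset.1 (htf.toFinset.equivFin.symm ⟨k, h⟩).2)
      · simp only [dif_neg h]
        exact hy0
    · intro x hx
      set i := htf.toFinset.equivFin ⟨x, htf.mem_toFinset.2 hx⟩ with hi
      refine ⟨i, i.2.le, ?_⟩
      simp only [dif_pos i.2]
      have : htf.toFinset.equivFin.symm ⟨(i : ℕ), i.2⟩ = ⟨x, htf.mem_toFinset.2 hx⟩ := by
        rw [Fin.eta, hi, Equiv.symm_apply_apply]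
      rw [this]
  refine ⟨SimpleFunc.nearestPt c N, ?_, ?_⟩
  · intro y
    have h1 : SimpleFunc.nearestPt c N y = c (SimpleFunc.nearestPtInd c N y) := rfl
    rw [h1]
    exact mem_sphere_zero_iff_norm.1 (hc.1 _)
  · intro y hy
    have hyS : y ∈ Metric.sphere (0 : Ec d) 1 := mem_sphere_zero_iff_norm.2 hy
    obtain ⟨x, hx, hyx⟩ := Set.mem_iUnion₂.1 (hcov hyS)
    obtain ⟨k, hk, hkx⟩ := hc.2 x hx
    have h1 := SimpleFunc.edist_nearestPt_le c y hk
    rw [hkx] at h1
    have h2 : dist (SimpleFunc.nearestPt c N y) y ≤ dist x y := by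
      rw [edist_dist, edist_dist, ENNReal.ofReal_le_ofReal_iff dist_nonneg] at h1
      exact h1
    rw [← dist_eq_norm]
    refine h2.trans ?_
    rw [dist_comm]
    exact (Metric.mem_ball.1 hyx).le

/-- There are finite nets arbitrarily close to the uniform measure. -/
theorem exists_net (d : ℕ) [NeZero d] {κ : ℝ} (hκ : 0 < κ) : ∃ A : Net d, A.Close κ := by
  classical
  obtain ⟨q, hq1, hq2⟩ := snet_simple d hκ
  set R : Finset (Ec d) := q.range.filter (fun x => 0 < (usp d).real (q ⁻¹' {x})) with hR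
  have hsum : ∀ F : Ec d → ℝ, ∑ x : R, (usp d).real (q ⁻¹' {(x : Ec d)}) * F x =
      ∫ y, F (q y) ∂(usp d) := by
    intro F
    rw [snet_integral (usp d) q F, Finset.sum_coe_sort R
      (fun x => (usp d).real (q ⁻¹' {x}) * F x), hR, Finset.sum_filter]
    refine Finset.sum_congr rfl fun x _ => ?_
    split_ifs with h
    · rfl
    · have h0 : (usp d).real (q ⁻¹' {x}) = 0 := le_antisymm (not_lt.1 h) measureReal_nonneg
      rw [h0, zero_mul]
  have hw1 : ∑ x : R, (usp d).real (q ⁻¹' {(x : Ec d)}) = 1 := by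
    have h1 := hsum (fun _ => 1)
    simpa only [Finset.univ_eq_attach, mul_one, integral_const, probReal_univ, smul_eq_mul] using h1
  have hne : Nonempty R := by
    by_contra hcon
    rw [not_nonempty_iff] at hcon
    rw [Finset.univ_eq_empty, Finset.sum_empty] at hw1
    exact zero_ne_one hw1
  refine ⟨{ X := R
            fX := inferInstance
            nX := hne
            φ := fun x => x
            hφ := ?_
            w := fun x => (usp d).real (q ⁻¹' {(x : Ec d)})
            w0 := fun x => (Finset.mem_filter.1 x.2).2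
            w1 := hw1 }, ?_⟩
  · rintro ⟨x, hx⟩
    obtain ⟨y, rfl⟩ := SimpleFunc.mem_range.1 (Finset.mem_filter.1 hx).1
    exact hq1 y
  · intro Φ Λ hΦ hΛ hL
    show |Real.log (∑ x : R, (usp d).real (q ⁻¹' {(x : Ec d)}) * Real.exp (Φ x)) -
      Real.log (∫ y, Real.exp (Φ y) ∂(usp d))| ≤ κ * Λ
    rw [hsum (fun x => Real.exp (Φ x))]
    -- bounds
    obtain ⟨C, hC⟩ := (isCompact_sphere (0 : Ec d) 1).exists_bound_of_continuousOn
      (f := fun y => Real.exp (Φ y)) (Real.continuous_exp.comp hΦ).continuousOn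
    have hi1 : Integrable (fun y => Real.exp (Φ y)) (usp d) := by
      refine Integrable.of_bound (Real.continuous_exp.comp hΦ).aestronglyMeasurable C ?_
      filter_upwards [norm_usp d] with y hy
      exact hC y (mem_sphere_zero_iff_norm.2 hy)
    have hi2 : Integrable (fun y => Real.exp (Φ (q y))) (usp d) := by
      refine Integrable.of_bound ?_ C (Eventually.of_forall fun y =>
        hC _ (mem_sphere_zero_iff_norm.2 (hq1 y)))
      exact ((Real.continuous_exp.comp hΦ).measurable.comp q.measurable).aestronglyMeasurable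
    have hd : ∀ᵐ y ∂(usp d), |Φ (q y) - Φ y| ≤ κ * Λ := by
      filter_upwards [norm_usp d] with y hy
      refine (hL _ _ (hq1 y) hy).trans ?_
      rw [mul_comm]
      exact mul_le_mul_of_nonneg_right (hq2 y hy) hΛ
    have hp1 : 0 < ∫ y, Real.exp (Φ y) ∂(usp d) := integral_exp_pos hi1
    have hp2 : 0 < ∫ y, Real.exp (Φ (q y)) ∂(usp d) := integral_exp_pos hi2
    have hle1 : ∫ y, Real.exp (Φ (q y)) ∂(usp d) ≤
        Real.exp (κ * Λ) * ∫ y, Real.exp (Φ y) ∂(usp d) := by
      rw [← integral_const_mul]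
      refine integral_mono_ae hi2 (hi1.const_mul _) ?_
      filter_upwards [hd] with y hy
      show Real.exp (Φ (q y)) ≤ Real.exp (κ * Λ) * Real.exp (Φ y)
      rw [← Real.exp_add]
      exact Real.exp_le_exp.2 (by linarith only [(abs_le.1 hy).2])
    have hle2 : ∫ y, Real.exp (Φ y) ∂(usp d) ≤
        Real.exp (κ * Λ) * ∫ y, Real.exp (Φ (q y)) ∂(usp d) := by
      rw [← integral_const_mul]
      refine integral_mono_ae hi1 (hi2.const_mul _) ?_
      filter_upwards [hd] with y hy
      show Real.exp (Φ y) ≤ Real.exp (κ * Λ) * Real.exp (Φ (q y))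
      rw [← Real.exp_add]
      exact Real.exp_le_exp.2 (by linarith only [(abs_le.1 hy).1])
    have hl1 := Real.log_le_log hp2 hle1
    have hl2 := Real.log_le_log hp1 hle2
    rw [Real.log_mul (Real.exp_pos _).ne' hp1.ne', Real.log_exp] at hl1
    rw [Real.log_mul (Real.exp_pos _).ne' hp2.ne', Real.log_exp] at hl2
    rw [abs_le]
    constructor <;> linarith only [hl1, hl2]

/-- The image of a net under a rotation is as close. -/
theorem Net.Close.rot {d : ℕ} {A : Net d} {κ : ℝ} (hA : A.Close κ) (O : Ec d ≃ₗᵢ[ℝ] Ec d)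
    {Φ : Ec d → ℝ} {Λ : ℝ} (hΦ : Continuous Φ) (hΛ : 0 ≤ Λ) (h : LipS Φ Λ) :
    |Real.log (∑ x, A.w x * Real.exp (Φ (O (A.φ x)))) -
      Real.log (∫ y, Real.exp (Φ y) ∂(usp d))| ≤ κ * Λ := by
  have h1 : LipS (fun y => Φ (O y)) Λ := by
    intro y y' hy hy'
    have h2 := h (O y) (O y') (by rw [O.norm_map, hy]) (by rw [O.norm_map, hy'])
    rwa [← map_sub, O.norm_map] at h2
  have h3 := hA (fun y => Φ (O y)) Λ (hΦ.comp O.continuous) hΛ h1
  have h4 : ∫ y, Real.exp (Φ (O y)) ∂(usp d) = ∫ y, Real.exp (Φ y) ∂(usp d) := by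
    have h5 : AEStronglyMeasurable (fun y => Real.exp (Φ y)) ((usp d).map O) :=
      (Real.continuous_exp.comp hΦ).aestronglyMeasurable
    have h6 := integral_map (μ := usp d) O.continuous.measurable.aemeasurable h5
    rw [usp_iso d O] at h6
    exact h6.symm
  rw [h4] at h3
  exact h3

end Vale.Agent.P157.Sph
end

section

/-! The window; the quantities `csA`. -/

open MeasureTheory ProbabilityTheory Filter Topology
open scoped RealInnerProductSpace

namespace Vale.Agent.P157.Sph

open Par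

open Vale.Agent.P367.GT (gM)

set_option linter.unusedSectionVars false

theorem sphwin_bd1 (u : ℝ) : Real.exp (-(u ^ 2 / 2)) * |u| ≤ 1 := by
  have h1 : u ^ 2 / 2 + 1 ≤ Real.exp (u ^ 2 / 2) := Real.add_one_le_exp _
  have h2 : |u| ≤ Real.exp (u ^ 2 / 2) := by
    have h3 : 0 ≤ (|u| - 1) ^ 2 := sq_nonneg _
    have h4 : |u| ^ 2 = u ^ 2 := sq_abs u
    linarith
  rw [Real.exp_neg]
  rw [inv_mul_le_iff₀ (Real.exp_pos _), mul_one]
  exact h2

theorem sphwin_bd2 (u : ℝ) : Real.exp (-(u ^ 2 / 2)) * |u ^ 2 - 1| ≤ 3 := by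
  have h1 : u ^ 2 / 2 + 1 ≤ Real.exp (u ^ 2 / 2) := Real.add_one_le_exp _
  have h2 : |u ^ 2 - 1| ≤ u ^ 2 + 1 := by
    rw [abs_le]
    constructor <;> nlinarith [sq_nonneg u]
  rw [Real.exp_neg, inv_mul_le_iff₀ (Real.exp_pos _)]
  nlinarith [sq_nonneg u]

theorem sphwin_pos {a τ : ℝ} (ha : 0 < a) (ha1 : a ≤ 1) (x : ℝ) : 0 < win a τ x := by
  unfold win
  have := Real.exp_pos (-(x ^ 2 / (2 * τ ^ 2)))
  nlinarith only [ha, ha1, this]

theorem sphwin_le_one {a τ : ℝ} (ha1 : a ≤ 1) (x : ℝ) :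
    Real.exp (-(x ^ 2 / (2 * τ ^ 2))) ≤ 1 ∧ win a τ x ≤ 1 := by
  have h1 : Real.exp (-(x ^ 2 / (2 * τ ^ 2))) ≤ 1 := by
    rw [Real.exp_le_one_iff]
    have : 0 ≤ x ^ 2 / (2 * τ ^ 2) := by positivity
    linarith only [this]
  refine ⟨h1, ?_⟩
  unfold win
  nlinarith only [ha1, h1]

/-- The window is regular. -/
theorem win_cb2 {a τ : ℝ} (ha : 0 < a) (ha1 : a ≤ 1) (hτ : 0 < τ) :
    (∃ W' W'', CB2 (fun x => Real.exp (Real.log (win a τ x)) / 1) W' W'') ∧
    (∀ x, a ≤ Real.exp (Real.log (win a τ x)) / 1) ∧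
    ∀ x, Real.exp (Real.log (win a τ x)) / 1 ≤ 1 := by
  have h0 : ∀ x, Real.exp (Real.log (win a τ x)) / 1 = win a τ x := fun x => by
    rw [div_one, Real.exp_log (sphwin_pos ha ha1 x)]
  simp only [h0]
  have hu : ∀ x : ℝ, x ^ 2 / (2 * τ ^ 2) = (x / τ) ^ 2 / 2 := fun x => by
    field_simp
  have h1a : 0 ≤ 1 - a := by linarith
  have h1a' : 1 - a ≤ 1 := by linarith only [ha]
  refine ⟨⟨fun x => (1 - a) * (Real.exp (-(x ^ 2 / (2 * τ ^ 2))) * (-(x / τ ^ 2))),
    fun x => (1 - a) * (Real.exp (-(x ^ 2 / (2 * τ ^ 2))) * ((x / τ) ^ 2 - 1) / τ ^ 2), ?_⟩, ?_, ?_⟩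
  · have he : ∀ x : ℝ, HasDerivAt (fun x => Real.exp (-(x ^ 2 / (2 * τ ^ 2))))
        (Real.exp (-(x ^ 2 / (2 * τ ^ 2))) * (-(x / τ ^ 2))) x := by
      intro x
      have h1 : HasDerivAt (fun x : ℝ => -(x ^ 2 / (2 * τ ^ 2))) (-(x / τ ^ 2)) x := by
        have h2 := (((hasDerivAt_id x).pow 2).div_const (2 * τ ^ 2)).neg
        refine h2.congr_deriv ?_
        simp only [id, Nat.cast_ofNat, mul_one]
        field_simp
        simp only [Nat.add_one_sub_one, pow_one]
      exact h1.exp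
    refine ⟨fun x => ?_, fun x => ?_, ?_, ⟨1, fun x => ?_⟩, ⟨1 / τ, fun x => ?_⟩,
      ⟨3 / τ ^ 2, fun x => ?_⟩⟩
    · exact (((he x).const_mul (1 - a)).const_add a)
    · have h3 : HasDerivAt (fun x : ℝ => -(x / τ ^ 2)) (-(1 / τ ^ 2)) x :=
        ((hasDerivAt_id x).div_const (τ ^ 2)).neg
      refine (((he x).mul h3).const_mul (1 - a)).congr_deriv ?_
      field_simp
      ring
    · fun_prop
    · rw [abs_of_pos (sphwin_pos ha ha1 x)]
      exact (sphwin_le_one ha1 x).2
    · have h4 : (1 - a) * (Real.exp (-(x ^ 2 / (2 * τ ^ 2))) * (-(x / τ ^ 2))) =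
          -((1 - a) * (Real.exp (-((x / τ) ^ 2 / 2)) * (x / τ)) / τ) := by
        rw [hu x]
        (clear * - hτ; field_simp)
      show |(1 - a) * (Real.exp (-(x ^ 2 / (2 * τ ^ 2))) * (-(x / τ ^ 2)))| ≤ 1 / τ
      rw [h4, abs_neg, abs_div, abs_mul, abs_mul, abs_of_nonneg h1a, abs_of_pos (Real.exp_pos _),
        abs_of_pos hτ]
      refine div_le_div_of_nonneg_right ?_ hτ.le
      have h5 := sphwin_bd1 (x / τ)
      have h6 : 0 ≤ Real.exp (-((x / τ) ^ 2 / 2)) * |x / τ| := by (clear * -; positivity)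
      nlinarith only [h5, ha, h6]
    · show |(1 - a) * (Real.exp (-(x ^ 2 / (2 * τ ^ 2))) * ((x / τ) ^ 2 - 1) / τ ^ 2)| ≤ 3 / τ ^ 2
      rw [hu x, ← mul_div_assoc, abs_div, abs_mul, abs_mul, abs_of_nonneg h1a,
        abs_of_pos (Real.exp_pos _), abs_of_pos (pow_pos hτ 2)]
      refine div_le_div_of_nonneg_right ?_ (pow_pos hτ 2).le
      have h5 := sphwin_bd2 (x / τ)
      have h6 : 0 ≤ Real.exp (-((x / τ) ^ 2 / 2)) * |(x / τ) ^ 2 - 1| := by (clear * -; positivity)
      nlinarith only [h5, ha, h6]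
  · intro x
    unfold win
    have := Real.exp_pos (-(x ^ 2 / (2 * τ ^ 2)))
    nlinarith only [ha1, this]
  · intro x
    exact (sphwin_le_one ha1 x).2

/-- The mean of the window. -/
theorem integral_win_ge {a τ : ℝ} (ha : 0 < a) (ha1 : a ≤ 1) (hτ : 0 < τ) :
    τ / √(1 + τ ^ 2) ≤ ∫ x, win a τ x ∂(gaussianReal 0 1) := by
  have hb : 0 < (1 + τ ^ 2) / (2 * τ ^ 2) := by positivity
  have hval : ∫ x, Real.exp (-(x ^ 2 / (2 * τ ^ 2))) ∂(gaussianReal 0 1) = τ / √(1 + τ ^ 2) := by
    rw [integral_gaussianReal_eq_integral_smul (by norm_num)]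
    have h1 : ∀ x : ℝ, gaussianPDFReal 0 1 x • Real.exp (-(x ^ 2 / (2 * τ ^ 2))) =
        (√(2 * Real.pi))⁻¹ * Real.exp (-((1 + τ ^ 2) / (2 * τ ^ 2)) * x ^ 2) := by
      intro x
      rw [gaussianPDFReal, smul_eq_mul, mul_assoc, ← Real.exp_add]
      simp only [NNReal.coe_one, mul_one, sub_zero]
      congr 2
      field_simp
      ring
    simp only [h1]
    rw [integral_const_mul, integral_gaussian]
    have h2 : Real.pi / ((1 + τ ^ 2) / (2 * τ ^ 2)) = 2 * Real.pi * (τ ^ 2 / (1 + τ ^ 2)) := by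
      (clear * - hτ; field_simp)
    have h3 : √(2 * Real.pi * (τ ^ 2 / (1 + τ ^ 2))) =
        √(2 * Real.pi) * √(τ ^ 2 / (1 + τ ^ 2)) := Real.sqrt_mul (by positivity) _
    rw [h2, h3, inv_mul_cancel_left₀ (by positivity), Real.sqrt_div (by positivity),
      Real.sqrt_sq hτ.le]
  rw [← hval]
  have hm : Measurable fun x : ℝ => Real.exp (-(x ^ 2 / (2 * τ ^ 2))) := by fun_prop
  have hi : Integrable (fun x : ℝ => Real.exp (-(x ^ 2 / (2 * τ ^ 2)))) (gaussianReal 0 1) :=
    Integrable.of_bound hm.aestronglyMeasurable 1 (Eventually.of_forall fun x => by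
      rw [Real.norm_eq_abs, abs_of_pos (Real.exp_pos _)]
      exact (sphwin_le_one (a := a) ha1 x).1)
  refine integral_mono hi ((integrable_const a).add (hi.const_mul (1 - a))) fun x => ?_
  have h3 := (sphwin_le_one (a := a) (τ := τ) ha1 x).1
  show Real.exp (-(x ^ 2 / (2 * τ ^ 2))) ≤ a + (1 - a) * Real.exp (-(x ^ 2 / (2 * τ ^ 2)))
  nlinarith only [ha, h3]

theorem csA_pos {k : ℕ} {m q : ℕ → ℝ} (hm : Exponents k m) (hq : Path k q) (hq1 : q k < 1)
    {l : ℕ} (hl : l ≤ k) : 1 - q k ≤ csA k m q l ∧ csA k m q l ≤ 1 := by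
  have hm0 : ∀ j ≤ k + 1, 0 ≤ m j := by
    intro j
    induction j with
    | zero => intro _; rw [hm.1]
    | succ j ih =>
      intro hj
      exact (ih (by omega)).trans (hm.2.2 j (by omega)).le
  have hm1 : ∀ j, ∀ i ≤ k + 1, k + 1 - i = j → m i ≤ 1 := by
    intro j
    induction j with
    | zero =>
      intro i hi h
      have : i = k + 1 := by omega
      rw [this, hm.2.1]
    | succ j ih =>
      intro i hi h
      have h1 := ih (i + 1) (by omega) (by omega)
      exact (hm.2.2 i (by omega)).le.trans h1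
  have hq0 : ∀ j ≤ k, 0 ≤ q j := by
    intro j
    induction j with
    | zero => intro _; exact hq.1
    | succ j ih =>
      intro hj
      exact (ih (by omega)).trans (hq.2 j (by omega))
  have hs : ∑ j ∈ Finset.Ico l k, (q (j + 1) - q j) = q k - q l := Finset.sum_Ico_sub q hl
  unfold csA
  constructor
  · have h1 : 0 ≤ ∑ j ∈ Finset.Ico l k, m (j + 1) * (q (j + 1) - q j) :=
      Finset.sum_nonneg fun j hj => by
        rw [Finset.mem_Ico] at hj
        exact mul_nonneg (hm0 _ (by omega)) (sub_nonneg.mpr (hq.2 j hj.2))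
    linarith only [h1]
  · have h1 : ∑ j ∈ Finset.Ico l k, m (j + 1) * (q (j + 1) - q j) ≤
        ∑ j ∈ Finset.Ico l k, (q (j + 1) - q j) := Finset.sum_le_sum fun j hj => by
      rw [Finset.mem_Ico] at hj
      exact mul_le_of_le_one_left (sub_nonneg.mpr (hq.2 j hj.2)) (hm1 _ _ (by omega) rfl)
    have h2 := hq0 l hl
    linarith only [hs, h1, h2]

end Vale.Agent.P157.Sph
end

section

/-! Integrability of the log-partition function and Lipschitz bound of the energy. -/

open MeasureTheory ProbabilityTheory Filter Topology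
open scoped RealInnerProductSpace

namespace Vale.Agent.P157.Sph

open Par

open Vale.Agent.P367.GT (gM)

set_option linter.unusedSectionVars false

lemma sphlaw_int_coord {K : Type} [Fintype K] (e : K) :
    Integrable (fun h : K → ℝ => h e) (gM K) := by
  have h := (measurePreserving_eval (fun _ : K => gaussianReal 0 1) e)
  have h2 : Integrable (fun x : ℝ => x) (gaussianReal 0 1) :=
    (memLp_id_gaussianReal 1).integrable le_rfl
  exact h.integrable_comp_of_integrable h2

lemma sphlaw_abs_one : ∫ x, |x| ∂(gaussianReal 0 1) ≤ 1 := by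
  have hsq : Integrable (fun x : ℝ => x ^ 2 - 1) (gaussianReal 0 1) := by
    refine Integrable.sub ?_ (integrable_const _)
    have := (memLp_id_gaussianReal (μ := 0) (v := 1) 2).integrable_sq
    simpa only [id_eq] using this
  have h1 : ∫ x, |x| ∂(gaussianReal 0 1) ≤
      ∫ x, (1 / 2 * (x ^ 2 - 1) + 1) ∂(gaussianReal 0 1) := by
    refine integral_mono ((memLp_id_gaussianReal 1).integrable le_rfl).abs
      ((hsq.const_mul _).add (integrable_const _)) fun x => ?_
    have := sq_nonneg (|x| - 1)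
    rw [sub_sq, sq_abs] at this
    change |x| ≤ 1 / 2 * (x ^ 2 - 1) + 1
    linarith
  rw [integral_add (hsq.const_mul _) (integrable_const _), integral_const_mul,
    Lin.integral_sq_sub_one] at h1
  simpa only [ge_iff_le, one_div, mul_zero, integral_const, probReal_univ, smul_eq_mul, mul_one, zero_add] using     h1

lemma sphlaw_int_abs {K : Type} [Fintype K] (e : K) :
    ∫ h : K → ℝ, |h e| ∂(gM K) ≤ 1 := by
  have h := (measurePreserving_eval (fun _ : K => gaussianReal 0 1) e)
  have h2 : ∫ x, |x| ∂((gM K).map fun h => h e) = ∫ h : K → ℝ, |h e| ∂(gM K) :=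
    integral_map (measurable_pi_apply e).aemeasurable (by (clear * -; fun_prop))
  have h3 : (gM K).map (fun h => h e) = gaussianReal 0 1 := h.map_eq
  rw [← h2, h3]
  exact sphlaw_abs_one

lemma sphlaw_prod {κ : Type*} (t : Finset κ) (a b : κ → ℝ) (ha : ∀ i, |a i| ≤ 1)
    (hb : ∀ i, |b i| ≤ 1) {δ : ℝ} (h : ∀ i, |a i - b i| ≤ δ) :
    |∏ i ∈ t, a i - ∏ i ∈ t, b i| ≤ t.card * δ := by
  classical
  induction t using Finset.induction_on with
  | empty => simp
  | insert i t hi ih =>
    rw [Finset.prod_insert hi, Finset.prod_insert hi, Finset.card_insert_of_notMem hi]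
    have e : a i * ∏ x ∈ t, a x - b i * ∏ x ∈ t, b x =
        (a i - b i) * ∏ x ∈ t, a x + b i * (∏ x ∈ t, a x - ∏ x ∈ t, b x) := by ring
    rw [e]
    refine (abs_add_le _ _).trans ?_
    rw [abs_mul, abs_mul, Finset.abs_prod]
    have h1 : ∏ x ∈ t, |a x| ≤ 1 := Finset.prod_le_one (fun _ _ => abs_nonneg _) fun x _ => ha x
    have h2 : |a i - b i| * ∏ x ∈ t, |a x| ≤ δ * 1 :=
      mul_le_mul (h i) h1 (Finset.prod_nonneg fun _ _ => abs_nonneg _)
        ((abs_nonneg _).trans (h i))
    have h3 : |b i| * |∏ x ∈ t, a x - ∏ x ∈ t, b x| ≤ 1 * (t.card * δ) :=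
      mul_le_mul (hb i) ih (abs_nonneg _) zero_le_one
    push_cast
    linarith only [h2, h3]

lemma sphlaw_pow (n : ℕ) : ((n : ℝ) + 1) * (1 / 2) ^ (n + 1) ≤ 1 / 2 := by
  induction n with
  | zero => norm_num
  | succ n ih =>
    rw [pow_succ]
    push_cast
    rcases Nat.eq_zero_or_pos n with h0 | h0
    · subst h0
      (clear * -; norm_num)
    · have h2 : (1 : ℝ) ≤ n := by exact_mod_cast h0
      have h3 : (0 : ℝ) < (1 / 2) ^ (n + 1) := by positivity
      nlinarith only [ih]

lemma sphlaw_coord {d : ℕ} (y : Ec d) (i : Fin d) : |y i| ≤ ‖y‖ := by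
  have := EuclideanSpace.norm_eq y
  have h2 := PiLp.norm_apply_le y i
  simpa only [ge_iff_le, Real.norm_eq_abs] using h2

/-- The log-partition function is integrable. -/
theorem integrable_fr {f : ℝ → ℝ} (hf : Measurable f) {C : ℝ} (hC : ∀ x, |f x| ≤ C) {d : ℕ}
    (M P : ℕ) (s : ℝ) (u : Fin P → ℝ) {X : Type} [Fintype X] [Nonempty X] {V : X → ℝ}
    (hV : ∀ x, 0 < V x) (φ : X → Ec d) :
    Integrable (fun z : (Fin M → Fin d → ℝ) × (GI P d → ℝ) =>
      Real.log (∑ x, V x * Real.exp (en f s u z.1 z.2 (φ x)))) (dis M P d) := by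
  refine Lin.integrable_logsum hV fun y => ?_
  unfold en
  refine Integrable.add ?_ ?_
  · refine integrable_finsetSum _ fun a _ => ?_
    have hm : Measurable fun z : (Fin M → Fin d → ℝ) × (GI P d → ℝ) =>
        f (∑ i, z.1 a i * φ y i) := hf.comp (by (clear * -; fun_prop))
    refine Integrable.of_bound hm.aestronglyMeasurable C (Filter.Eventually.of_forall fun z => ?_)
    rw [Real.norm_eq_abs]
    exact hC _
  · refine integrable_finsetSum _ fun e _ => ?_
    exact ((sphlaw_int_coord (K := GI P d) e).comp_snd _).mul_const _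

/-- The constant in the Lipschitz bound of the energy. -/
noncomputable def lb (C : ℝ) (d M P : ℕ) (s : ℝ) : ℝ :=
  C * M * d + 2 * s * Fintype.card (GI P d)

/-- The energy is Lipschitz on the unit sphere, with an integrable constant. -/
theorem lip_en {C : ℝ} {f f1 f2 f3 : ℝ → ℝ} (hf : CB3 C f f1 f2 f3) {d : ℕ} (M P : ℕ) {s : ℝ}
    (hs : 0 ≤ s) {u : Fin P → ℝ} (hu : ∀ q, 0 ≤ u q ∧ u q ≤ 2) :
    ∃ Λ : (Fin M → Fin d → ℝ) × (GI P d → ℝ) → ℝ, (∀ z, 0 ≤ Λ z) ∧ Integrable Λ (dis M P d) ∧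
      ∫ z, Λ z ∂(dis M P d) ≤ lb C d M P s ∧ ∀ z, LipS (en f s u z.1 z.2) (Λ z) := by
  have hC : 0 ≤ C := (abs_nonneg _).trans (hf.b0 0)
  have i1 : ∀ (a : Fin M) (i : Fin d), Integrable
      (fun z : (Fin M → Fin d → ℝ) × (GI P d → ℝ) => |z.1 a i|) (dis M P d) := by
    intro a i
    have h1 := sphlaw_int_coord (K := Fin d) i
    have h2 : Integrable (fun g : Fin M → Fin d → ℝ => g a i)
        (Measure.pi fun _ : Fin M => gM (Fin d)) :=
      (measurePreserving_eval (fun _ : Fin M => gM (Fin d)) a).integrable_comp_of_integrable h1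
    exact (h2.comp_fst (gM (GI P d))).abs
  have i2 : ∀ e : GI P d, Integrable
      (fun z : (Fin M → Fin d → ℝ) × (GI P d → ℝ) => |z.2 e|) (dis M P d) := fun e =>
    ((sphlaw_int_coord (K := GI P d) e).comp_snd _).abs
  have j1 : ∀ (a : Fin M) (i : Fin d), ∫ z, |z.1 a i| ∂(dis M P d) ≤ 1 := by
    intro a i
    have e1 : ∫ z, |z.1 a i| ∂(dis M P d) =
        ∫ g : Fin M → Fin d → ℝ, |g a i| ∂(Measure.pi fun _ : Fin M => gM (Fin d)) := by
      rw [integral_fun_fst (f := fun g : Fin M → Fin d → ℝ => |g a i|)]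
      simp
    have e2 : ∫ g : Fin M → Fin d → ℝ, |g a i| ∂(Measure.pi fun _ : Fin M => gM (Fin d)) =
        ∫ g : Fin d → ℝ, |g i| ∂(gM (Fin d)) := by
      have hp := (measurePreserving_eval (fun _ : Fin M => gM (Fin d)) a)
      have h3 : (Measure.pi fun _ : Fin M => gM (Fin d)).map (fun g => g a) = gM (Fin d) :=
        hp.map_eq
      have hm : Measurable fun g : Fin d → ℝ => |g i| := (measurable_pi_apply i).abs
      rw [← h3, integral_map (measurable_pi_apply a).aemeasurable hm.aestronglyMeasurable, h3]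
    rw [e1, e2]
    exact sphlaw_int_abs i
  have j2 : ∀ e : GI P d, ∫ z, |z.2 e| ∂(dis M P d) ≤ 1 := by
    intro e
    have e1 : ∫ z, |z.2 e| ∂(dis M P d) = ∫ h : GI P d → ℝ, |h e| ∂(gM (GI P d)) := by
      rw [integral_fun_snd (f := fun h : GI P d → ℝ => |h e|)]
      simp
    rw [e1]
    exact sphlaw_int_abs e
  refine ⟨fun z => C * ∑ a, ∑ i, |z.1 a i| + s * ∑ e, |z.2 e|, fun z => ?_, ?_, ?_, ?_⟩
  · exact add_nonneg (mul_nonneg hC (Finset.sum_nonneg fun a _ => Finset.sum_nonneg fun i _ =>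
      abs_nonneg _)) (mul_nonneg hs (Finset.sum_nonneg fun e _ => abs_nonneg _))
  · exact ((integrable_finsetSum _ fun a _ => integrable_finsetSum _ fun i _ =>
      i1 a i).const_mul C).add ((integrable_finsetSum _ fun e _ => i2 e).const_mul s)
  · rw [integral_add ((integrable_finsetSum _ fun a _ => integrable_finsetSum _ fun i _ =>
      i1 a i).const_mul C) ((integrable_finsetSum _ fun e _ => i2 e).const_mul s),
      integral_const_mul, integral_const_mul,
      integral_finsetSum _ fun a _ => integrable_finsetSum _ fun i _ => i1 a i,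
      integral_finsetSum _ fun e _ => i2 e]
    have k1 : ∑ a : Fin M, ∫ z, ∑ i, |z.1 a i| ∂(dis M P d) ≤ M * d := by
      calc ∑ a : Fin M, ∫ z, ∑ i, |z.1 a i| ∂(dis M P d) ≤ ∑ a : Fin M, (d : ℝ) := by
            refine Finset.sum_le_sum fun a _ => ?_
            rw [integral_finsetSum _ fun i _ => i1 a i]
            refine (Finset.sum_le_sum fun i _ => j1 a i).trans ?_
            simp only [Finset.sum_const, Finset.card_univ, Fintype.card_fin, nsmul_eq_mul, mul_one, Std.le_refl]
        _ = M * d := by simp only [Finset.sum_const, Finset.card_univ, Fintype.card_fin, nsmul_eq_mul]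
    have k2 : ∑ e : GI P d, ∫ z, |z.2 e| ∂(dis M P d) ≤ Fintype.card (GI P d) := by
      refine (Finset.sum_le_sum fun e _ => j2 e).trans ?_
      simp only [Finset.sum_const, Finset.card_univ, Fintype.card_sigma, Fintype.card_pi, Fintype.card_fin, Finset.prod_const, nsmul_eq_mul, Nat.cast_sum, Nat.cast_pow, mul_one, Std.le_refl]
    unfold lb
    have k3 := mul_le_mul_of_nonneg_left k1 hC
    have k4 := mul_le_mul_of_nonneg_left k2 hs
    have k5 : 0 ≤ s * (Fintype.card (GI P d) : ℝ) := by (clear * - hs; positivity)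
    calc _ ≤ C * (M * d) + s * (Fintype.card (GI P d) : ℝ) := add_le_add k3 k4
      _ ≤ C * M * d + 2 * s * Fintype.card (GI P d) := by linarith
  · intro z y y' hy hy'
    have hfl : ∀ a b, |f a - f b| ≤ C * |a - b| := by
      intro a b
      have := Convex.norm_image_sub_le_of_norm_hasDerivWithin_le (f := f) (f' := f1) (s := Set.univ)
        (C := C) (x := b) (y := a) (fun x _ => (hf.d1 x).hasDerivWithinAt) (fun x _ => hf.b1 x)
        convex_univ (Set.mem_univ _) (Set.mem_univ _)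
      simpa only [ge_iff_le, Real.norm_eq_abs] using this
    have hc : ∀ i, |y i - y' i| ≤ ‖y - y'‖ := fun i => by
      have := sphlaw_coord (y - y') i
      simpa only [ge_iff_le, PiLp.sub_apply] using this
    have hδ : 0 ≤ ‖y - y'‖ := norm_nonneg _
    have hA : |∑ a, f (∑ i, z.1 a i * y i) - ∑ a, f (∑ i, z.1 a i * y' i)| ≤
        (C * ∑ a, ∑ i, |z.1 a i|) * ‖y - y'‖ := by
      rw [← Finset.sum_sub_distrib, Finset.mul_sum, Finset.sum_mul]
      refine (Finset.abs_sum_le_sum_abs _ _).trans (Finset.sum_le_sum fun a _ => ?_)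
      refine (hfl _ _).trans ?_
      rw [← Finset.sum_sub_distrib, mul_assoc]
      refine mul_le_mul_of_nonneg_left ?_ hC
      rw [Finset.sum_mul]
      refine (Finset.abs_sum_le_sum_abs _ _).trans (Finset.sum_le_sum fun i _ => ?_)
      rw [← mul_sub, abs_mul]
      exact mul_le_mul_of_nonneg_left (hc i) (abs_nonneg _)
    have hB : |∑ e : GI P d, z.2 e * (s * u e.1 * (1 / 2) ^ ((e.1 : ℕ) + 1) * ∏ r, y (e.2 r)) -
        ∑ e : GI P d, z.2 e * (s * u e.1 * (1 / 2) ^ ((e.1 : ℕ) + 1) * ∏ r, y' (e.2 r))| ≤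
        (s * ∑ e, |z.2 e|) * ‖y - y'‖ := by
      rw [← Finset.sum_sub_distrib, Finset.mul_sum, Finset.sum_mul]
      refine (Finset.abs_sum_le_sum_abs _ _).trans (Finset.sum_le_sum fun e _ => ?_)
      rw [← mul_sub, ← mul_sub, abs_mul]
      have hp := sphlaw_prod Finset.univ (fun r => y (e.2 r)) (fun r => y' (e.2 r))
        (fun r => (sphlaw_coord y _).trans hy.le) (fun r => (sphlaw_coord y' _).trans hy'.le)
        (fun r => hc (e.2 r))
      rw [Finset.card_univ, Fintype.card_fin] at hp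
      have hu1 := (hu e.1).1
      have hu2 := (hu e.1).2
      have hq : 0 ≤ s * u e.1 * (1 / 2) ^ ((e.1 : ℕ) + 1) := by (clear * - hs hu1; positivity)
      rw [abs_mul, abs_of_nonneg hq]
      have h1 : s * u e.1 * (1 / 2) ^ ((e.1 : ℕ) + 1) *
          |∏ r, y (e.2 r) - ∏ r, y' (e.2 r)| ≤ s * ‖y - y'‖ := by
        refine (mul_le_mul_of_nonneg_left hp hq).trans ?_
        have h2 := sphlaw_pow (e.1 : ℕ)
        have h3 : s * u e.1 * ((((e.1 : ℕ) : ℝ) + 1) * (1 / 2) ^ ((e.1 : ℕ) + 1)) ≤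
            s * 2 * (1 / 2) := by
          refine mul_le_mul (mul_le_mul_of_nonneg_left hu2 hs) h2 (by (clear * -; positivity)) (by (clear * - hs; positivity))
        calc s * u e.1 * (1 / 2) ^ ((e.1 : ℕ) + 1) * (((((e.1 : ℕ) + 1 : ℕ)) : ℝ) * ‖y - y'‖)
            = s * u e.1 * ((((e.1 : ℕ) : ℝ) + 1) * (1 / 2) ^ ((e.1 : ℕ) + 1)) * ‖y - y'‖ := by
              push_cast; ring
          _ ≤ s * 2 * (1 / 2) * ‖y - y'‖ := mul_le_mul_of_nonneg_right h3 hδ
          _ = s * ‖y - y'‖ := by ring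
      calc |z.2 e| * (s * u e.1 * (1 / 2) ^ ((e.1 : ℕ) + 1) *
          |∏ r, y (e.2 r) - ∏ r, y' (e.2 r)|) ≤ |z.2 e| * (s * ‖y - y'‖) :=
            mul_le_mul_of_nonneg_left h1 (abs_nonneg _)
        _ = s * |z.2 e| * ‖y - y'‖ := by ring
    have e1 : en f s u z.1 z.2 y - en f s u z.1 z.2 y' =
        (∑ a, f (∑ i, z.1 a i * y i) - ∑ a, f (∑ i, z.1 a i * y' i)) +
        (∑ e : GI P d, z.2 e * (s * u e.1 * (1 / 2) ^ ((e.1 : ℕ) + 1) * ∏ r, y (e.2 r)) -
        ∑ e : GI P d, z.2 e * (s * u e.1 * (1 / 2) ^ ((e.1 : ℕ) + 1) * ∏ r, y' (e.2 r))) := by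
      unfold en
      ring
    rw [e1, add_mul]
    exact (abs_add_le _ _).trans (add_le_add hA hB)

theorem continuous_en {f : ℝ → ℝ} (hf : Continuous f) {d M P : ℕ} (s : ℝ) (u : Fin P → ℝ)
    (g : Fin M → Fin d → ℝ) (h : GI P d → ℝ) : Continuous (en f s u g h) := by
  unfold en
  refine Continuous.add ?_ ?_
  · exact continuous_finsetSum _ fun a _ => hf.comp (by fun_prop)
  · exact continuous_finsetSum _ fun e _ => continuous_const.mul (continuous_const.mul
      (continuous_finsetProd _ fun r _ => by fun_prop))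

end Vale.Agent.P157.Sph
end

section

/-! A sequence of nets. -/

open MeasureTheory ProbabilityTheory Filter Topology
open scoped RealInnerProductSpace

namespace Vale.Agent.P157.Sph

open Par

open Vale.Agent.P367.GT (gM)

set_option linter.unusedSectionVars false

/-- The required quality of the net of the sphere of `ℝ^(N+1)`. -/
noncomputable def kp (C : ℝ) (N : ℕ) : ℝ :=
  1 / (((N : ℝ) + 1) * (lb C (N + 3) ((N + 3) ^ 2) (N + 3) (N + 3) + N + 3))

theorem sphkp_card (P d : ℕ) : Fintype.card (GI P d) = ∑ p ∈ Finset.range P, d ^ (p + 1) := by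
  rw [Fintype.card_sigma, ← Fin.sum_univ_eq_sum_range (fun p => d ^ (p + 1))]
  refine Finset.sum_congr rfl fun p _ => ?_
  simp only [Fintype.card_pi, Fintype.card_fin, Finset.prod_const, Finset.card_univ]

theorem sphkp_card_mono {P d P' d' : ℕ} (hP : P ≤ P') (hd : d ≤ d') :
    Fintype.card (GI P d) ≤ Fintype.card (GI P' d') := by
  rw [sphkp_card, sphkp_card]
  calc ∑ p ∈ Finset.range P, d ^ (p + 1) ≤ ∑ p ∈ Finset.range P, d' ^ (p + 1) :=
        Finset.sum_le_sum fun p _ => Nat.pow_le_pow_left hd _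
    _ ≤ ∑ p ∈ Finset.range P', d' ^ (p + 1) :=
        Finset.sum_le_sum_of_subset (Finset.range_mono hP)

theorem sphkp_lb_mono {C : ℝ} (hC : 0 ≤ C) {N d M P : ℕ} {s : ℝ} (hs : 0 ≤ s) (hd : d ≤ N + 3)
    (hM : M ≤ (N + 3) ^ 2) (hP : P ≤ N + 3) (hs1 : s ≤ N + 3) :
    lb C d M P s ≤ lb C (N + 3) ((N + 3) ^ 2) (N + 3) (N + 3) := by
  unfold lb
  have h1 : (M : ℝ) ≤ (((N + 3) ^ 2 : ℕ) : ℝ) := by exact_mod_cast hM
  have h2 : (d : ℝ) ≤ ((N + 3 : ℕ) : ℝ) := by exact_mod_cast hd
  have h3 : (Fintype.card (GI P d) : ℝ) ≤ (Fintype.card (GI (N + 3) (N + 3)) : ℝ) := by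
    exact_mod_cast sphkp_card_mono hP hd
  gcongr

theorem sphkp_lb_nonneg {C : ℝ} (hC : 0 ≤ C) {d M P : ℕ} {s : ℝ} (hs : 0 ≤ s) :
    0 ≤ lb C d M P s := by
  unfold lb
  positivity

theorem sphkp_pos {C : ℝ} (hC : 0 ≤ C) (N : ℕ) : 0 < kp C N := by
  have h : 0 ≤ lb C (N + 3) ((N + 3) ^ 2) (N + 3) (N + 3) := sphkp_lb_nonneg hC (by (clear * -; positivity))
  unfold kp
  (clear * - h; positivity)

/-- A sequence of nets. -/
theorem exists_nets {C : ℝ} (hC : 0 ≤ C) :
    ∃ A : ∀ N : ℕ, Net (N + 1), ∀ N, (A N).Close (kp C N) := by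
  choose A hA using fun N : ℕ => exists_net (N + 1) (sphkp_pos hC N)
  exact ⟨A, hA⟩

theorem kp_lb {C : ℝ} (hC : 0 ≤ C) {N d M P : ℕ} {s : ℝ} (hs : 0 ≤ s) (hd : d ≤ N + 3)
    (hM : M ≤ (N + 3) ^ 2) (hP : P ≤ N + 3) (hs1 : s ≤ N + 3) :
    kp C N * lb C d M P s ≤ 1 / ((N : ℝ) + 1) := by
  have h0 := sphkp_lb_mono hC hs hd hM hP hs1
  have h1 : 0 ≤ lb C (N + 3) ((N + 3) ^ 2) (N + 3) (N + 3) := sphkp_lb_nonneg hC (by (clear * -; positivity))
  have h2 := sphkp_lb_nonneg hC hs (d := d) (M := M) (P := P)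
  unfold kp
  set L := lb C (N + 3) ((N + 3) ^ 2) (N + 3) (N + 3) with hL
  have h3 : (0 : ℝ) < L + N + 3 := by (clear * - h1; positivity)
  rw [div_mul_eq_mul_div, one_mul, div_le_div_iff₀ (by (clear * - h1; positivity)) (by (clear * -; positivity))]
  have h4 : lb C d M P s ≤ L + N + 3 := by linarith only [h0]
  linarith only [h4, mul_le_mul_of_nonneg_right h4 (by positivity : (0 : ℝ) ≤ (N : ℝ) + 1)]

theorem kp_sqrt {C : ℝ} (hC : 0 ≤ C) (N : ℕ) : kp C N * √((N : ℝ) + 1) ≤ 1 / ((N : ℝ) + 1) := by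
  have h1 : 0 ≤ lb C (N + 3) ((N + 3) ^ 2) (N + 3) (N + 3) := sphkp_lb_nonneg hC (by positivity)
  unfold kp
  set L := lb C (N + 3) ((N + 3) ^ 2) (N + 3) (N + 3) with hL
  have h3 : (0 : ℝ) < L + N + 3 := by (clear * - h1; positivity)
  rw [div_mul_eq_mul_div, one_mul, div_le_div_iff₀ (by (clear * - h1; positivity)) (by positivity)]
  have h5 : √((N : ℝ) + 1) ≤ N + 3 := by
    rw [Real.sqrt_le_left (by positivity)]
    nlinarith only []
  have h4 : √((N : ℝ) + 1) ≤ L + N + 3 := by linarith only [h1, h5]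
  linarith only [mul_le_mul_of_nonneg_right h4 (by positivity : (0 : ℝ) ≤ (N : ℝ) + 1)]

end Vale.Agent.P157.Sph
end

section

/-! The law of the height and the slices of the sphere. -/

open MeasureTheory ProbabilityTheory Filter Topology
open scoped RealInnerProductSpace

namespace Vale.Agent.P157.Sph

open Par

open Vale.Agent.P367.GT (gM)

set_option linter.unusedSectionVars false

theorem sphht_measurable_dir (d : ℕ) : Measurable fun z : Ec d => (‖z‖)⁻¹ • z := by
  (clear * -; fun_prop)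

theorem sphht_measurable_last (d : ℕ) : Measurable fun y : Ec (d + 1) => y (Fin.last d) := by
  fun_prop

theorem sphht_integrable (n : ℕ) [NeZero n] (i : Fin n) :
    Integrable (fun y : Ec n => (y i) ^ 2) (usp n) := by
  refine Integrable.of_bound (C := 1) (by (clear * -; fun_prop)) ?_
  filter_upwards [norm_usp n] with y hy
  rw [Real.norm_eq_abs, abs_of_nonneg (sq_nonneg _)]
  have h1 := EuclideanSpace.real_norm_sq_eq y
  rw [hy] at h1
  have h2 : (y i) ^ 2 ≤ ∑ j, (y j) ^ 2 :=
    Finset.single_le_sum (f := fun j => (y j) ^ 2) (fun j _ => sq_nonneg _) (Finset.mem_univ i)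
  linarith

theorem sphht_sum (n : ℕ) [NeZero n] : ∑ i, ∫ y, (y i) ^ 2 ∂(usp n) = 1 := by
  rw [← integral_finsetSum _ (fun i _ => sphht_integrable n i)]
  have h1 : (fun y : Ec n => ∑ i, (y i) ^ 2) =ᵐ[usp n] fun _ => (1 : ℝ) := by
    filter_upwards [norm_usp n] with y hy
    rw [← EuclideanSpace.real_norm_sq_eq y, hy, one_pow]
  rw [integral_congr_ae h1]
  simp

theorem sphht_symm (n : ℕ) [NeZero n] (i j : Fin n) :
    ∫ y, (y i) ^ 2 ∂(usp n) = ∫ y, (y j) ^ 2 ∂(usp n) := by
  have h1 := usp_iso n (LinearIsometryEquiv.piLpCongrLeft 2 ℝ ℝ (Equiv.swap i j))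
  conv_lhs => rw [← h1]
  rw [integral_map (by (clear * -; fun_prop)) (by fun_prop)]
  refine integral_congr_ae (ae_of_all _ fun y => ?_)
  simp [LinearIsometryEquiv.piLpCongrLeft_apply]

/-- The mean square height. -/
theorem ht_sq (d : ℕ) : ∫ t, t ^ 2 ∂(ht d) = 1 / ((d : ℝ) + 1) := by
  unfold ht
  rw [integral_map (sphht_measurable_last d).aemeasurable (by fun_prop)]
  have h1 := sphht_sum (d + 1)
  rw [Finset.sum_congr rfl (fun i _ => sphht_symm (d + 1) i (Fin.last d))] at h1
  rw [Finset.sum_const, Finset.card_univ, Fintype.card_fin, nsmul_eq_mul] at h1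
  rw [eq_div_iff (by (clear * -; positivity))]
  push_cast at h1
  linarith only [h1]

/-- Direction and norm of a standard Gaussian vector. -/
noncomputable def sphhtD (d : ℕ) (z : Ec d) : Ec d × ℝ := ((‖z‖)⁻¹ • z, ‖z‖)

/-- From the sphere of radius `√d` to the unit sphere. -/
noncomputable def sphhtK (d : ℕ) (x : Fin d → ℝ) : Ec d := WithLp.toLp 2 fun i => x i / √(d : ℝ)

theorem sphht_measurable_K (d : ℕ) : Measurable (sphhtK d) := by
  unfold sphhtK
  fun_prop

theorem sphht_K_dirn (d : ℕ) [NeZero d] (z : Ec d) :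
    sphhtK d (Exist.dirn d z).1 = (‖z‖)⁻¹ • z := by
  have hd : (0 : ℝ) < d := by exact_mod_cast Nat.pos_of_ne_zero (NeZero.ne d)
  have hs : √(d : ℝ) ≠ 0 := (Real.sqrt_pos.2 hd).ne'
  ext i
  simp only [sphhtK, Exist.dirn, PiLp.smul_apply, smul_eq_mul]
  rw [mul_div_cancel_left₀ _ hs, div_eq_inv_mul]

theorem sphht_map_K (d : ℕ) [NeZero d] : (sphere d).map (sphhtK d) = usp d := by
  have h1 : sphere d = ((stdGaussian (Exist.Euc d)).map (Exist.dirn d)).map Prod.fst := by
    rw [Exist.map_dirn, Measure.map_fst_prod]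
    simp
  rw [h1, Measure.map_map measurable_fst (Exist.measurable_dirn d),
    Measure.map_map (sphht_measurable_K d) (measurable_fst.comp (Exist.measurable_dirn d))]
  unfold usp
  congr 1
  funext z
  exact sphht_K_dirn d z

theorem sphht_map_D (d : ℕ) [NeZero d] :
    (stdGaussian (Ec d)).map (sphhtD d) = (usp d).prod (Exist.chi d) := by
  have h1 : sphhtD d = Prod.map (sphhtK d) id ∘ Exist.dirn d := by
    funext z
    refine Prod.ext ?_ rfl
    exact (sphht_K_dirn d z).symm
  rw [h1, ← Measure.map_map ((sphht_measurable_K d).prodMap measurable_id)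
    (Exist.measurable_dirn d), Exist.map_dirn, ← Measure.map_prod_map _ _ (sphht_measurable_K d)
    measurable_id, Measure.map_id, sphht_map_K]

/-- The height from the norm of the first coordinates and the last coordinate. -/
noncomputable def sphhtT (p : ℝ × Ec 1) : ℝ := p.2 0 / √(p.1 ^ 2 + ‖p.2‖ ^ 2)

theorem sphht_measurable_T : Measurable sphhtT := by
  unfold sphhtT
  fun_prop

theorem sphht_key (d : ℕ) (p : Ec d × Ec 1) :
    (‖Exist.appE d 1 p‖)⁻¹ • Exist.appE d 1 p =
      lift d (sphhtT (‖p.1‖, p.2)) ((‖p.1‖)⁻¹ • p.1) := by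
  have hsq := Exist.norm_appE_sq d 1 p
  set R := ‖Exist.appE d 1 p‖ with hR
  have hR0 : 0 ≤ R := norm_nonneg _
  have hroot : √(‖p.1‖ ^ 2 + ‖p.2‖ ^ 2) = R := by rw [← hsq, Real.sqrt_sq hR0]
  have hT : sphhtT (‖p.1‖, p.2) = p.2 0 / R := by
    unfold sphhtT
    rw [hroot]
  have hg : ‖p.2‖ ^ 2 = (p.2 0) ^ 2 := by
    rw [EuclideanSpace.real_norm_sq_eq]
    simp only [Finset.univ_unique, Fin.default_eq_zero, Fin.isValue, Finset.sum_singleton]
  ext i
  refine Fin.lastCases ?_ (fun i => ?_) i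
  · rw [lift_last, hT, PiLp.smul_apply, smul_eq_mul, div_eq_inv_mul]
    congr 1
    show Fin.append _ _ (Fin.last d) = _
    exact Fin.append_right p.1.ofLp p.2.ofLp 0
  · rw [lift_castSucc, hT, PiLp.smul_apply, smul_eq_mul, PiLp.smul_apply, smul_eq_mul]
    have e1 : (Exist.appE d 1 p) i.castSucc = p.1 i := by
      show Fin.append _ _ (Fin.castAdd 1 i) = _
      exact Fin.append_left p.1.ofLp p.2.ofLp i
    have e2 : (Exist.appE d 1 p).ofLp i.castSucc = p.1.ofLp i := e1
    rw [e2]
    by_cases hz : p.1 = 0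
    · simp only [hz, PiLp.zero_apply, mul_zero, Fin.isValue, norm_zero, inv_zero]
    have hz0 : 0 < ‖p.1‖ := norm_pos_iff.2 hz
    have hRpos : 0 < R := by
      rw [← hroot]
      exact Real.sqrt_pos.2 (by (clear * - hz; positivity))
    have hs : √(1 - (p.2 0 / R) ^ 2) = ‖p.1‖ / R := by
      have h5 : 1 - (p.2 0 / R) ^ 2 = (‖p.1‖ / R) ^ 2 := by
        rw [div_pow, div_pow, ← hg]
        field_simp
        linarith only [hsq]
      rw [h5, Real.sqrt_sq (by (clear * - hz hRpos; positivity))]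
    rw [hs]
    (clear * - hz hRpos; field_simp)

theorem sphht_regroup {A B C : Type*} [MeasurableSpace A] [MeasurableSpace B] [MeasurableSpace C]
    (a : Measure A) (b : Measure B) (c : Measure C) [IsProbabilityMeasure a]
    [IsProbabilityMeasure b] [IsProbabilityMeasure c] :
    ((a.prod b).prod c).map (fun p => ((p.1.2, p.2), p.1.1)) = (b.prod c).prod a := by
  have h1 : (fun p : (A × B) × C => ((p.1.2, p.2), p.1.1)) =
      Prod.swap ∘ (MeasurableEquiv.prodAssoc : (A × B) × C ≃ᵐ A × B × C) := by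
    funext p
    rfl
  rw [h1, ← Measure.map_map measurable_swap MeasurableEquiv.prodAssoc.measurable,
    Measure.prodAssoc_prod, Measure.prod_swap]

theorem sphht_joint (d : ℕ) [NeZero d] :
    ((stdGaussian (Ec d)).prod (stdGaussian (Ec 1))).map
      (fun p => (sphhtT (‖p.1‖, p.2), (‖p.1‖)⁻¹ • p.1)) =
    (((Exist.chi d).prod (stdGaussian (Ec 1))).map sphhtT).prod (usp d) := by
  have h1 := sphht_regroup (usp d) (Exist.chi d) (stdGaussian (Ec 1))
  have mD : Measurable (sphhtD d) := by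
    unfold sphhtD
    fun_prop
  rw [← sphht_map_D d] at h1
  have h2 : ((stdGaussian (Ec d)).map (sphhtD d)).prod (stdGaussian (Ec 1)) =
      ((stdGaussian (Ec d)).prod (stdGaussian (Ec 1))).map (Prod.map (sphhtD d) id) := by
    rw [← Measure.map_prod_map _ _ mD measurable_id, Measure.map_id]
  rw [h2, Measure.map_map (by fun_prop) (mD.prodMap measurable_id)] at h1
  have h3 : (((Exist.chi d).prod (stdGaussian (Ec 1))).map sphhtT).prod (usp d) =
      (((Exist.chi d).prod (stdGaussian (Ec 1))).prod (usp d)).map (Prod.map sphhtT id) := by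
    rw [← Measure.map_prod_map _ _ sphht_measurable_T measurable_id, Measure.map_id]
  rw [h3, ← h1, Measure.map_map (sphht_measurable_T.prodMap measurable_id)
    ((by fun_prop : Measurable fun p : (Ec d × ℝ) × Ec 1 => ((p.1.2, p.2), p.1.1)).comp
      (mD.prodMap measurable_id))]
  rfl

theorem sphht_usp (d : ℕ) :
    usp (d + 1) = ((stdGaussian (Ec d)).prod (stdGaussian (Ec 1))).map
      (fun p => lift d (sphhtT (‖p.1‖, p.2)) ((‖p.1‖)⁻¹ • p.1)) := by
  have h1 := Exist.map_appE d 1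
  unfold usp
  rw [show stdGaussian (Ec (d + 1)) = _ from h1.symm,
    Measure.map_map (sphht_measurable_dir (d + 1)) (Exist.measurable_appE d 1)]
  congr 1
  funext p
  exact sphht_key d p

theorem sphht_measurable_pair (d : ℕ) :
    Measurable fun p : Ec d × Ec 1 => (sphhtT (‖p.1‖, p.2), (‖p.1‖)⁻¹ • p.1) := by
  have := sphht_measurable_T
  have := sphht_measurable_dir d
  fun_prop

theorem sphht_ht (d : ℕ) [NeZero d] :
    ht d = ((Exist.chi d).prod (stdGaussian (Ec 1))).map sphhtT := by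
  unfold ht
  rw [sphht_usp d, show (fun p : Ec d × Ec 1 =>
      lift d (sphhtT (‖p.1‖, p.2)) ((‖p.1‖)⁻¹ • p.1)) =
      (fun p : ℝ × Ec d => lift d p.1 p.2) ∘
        (fun p : Ec d × Ec 1 => (sphhtT (‖p.1‖, p.2), (‖p.1‖)⁻¹ • p.1)) from rfl,
    ← Measure.map_map (continuous_lift d).measurable (sphht_measurable_pair d), sphht_joint,
    Measure.map_map (sphht_measurable_last d) (continuous_lift d).measurable]
  have h1 : (fun y : Ec (d + 1) => y (Fin.last d)) ∘ (fun p : ℝ × Ec d => lift d p.1 p.2) =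
      Prod.fst := by
    funext p
    exact lift_last d p.1 p.2
  rw [h1, Measure.map_fst_prod]
  simp

/-- Slices: a uniform point of the sphere of `ℝ^(d+1)` is the lift of an independent uniform
point of the sphere of `ℝ^d` to a height of law `ht d`. -/
theorem ht_slice (d : ℕ) [NeZero d] :
    ((ht d).prod (usp d)).map (fun p => lift d p.1 p.2) = usp (d + 1) := by
  rw [sphht_ht, ← sphht_joint,
    Measure.map_map (continuous_lift d).measurable (sphht_measurable_pair d), sphht_usp]
  rfl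

end Vale.Agent.P157.Sph
end

section

/-! Jensen's inequality along the slices of the sphere. -/

open MeasureTheory ProbabilityTheory Filter Topology
open scoped RealInnerProductSpace

namespace Vale.Agent.P157.Sph

open Par

open Vale.Agent.P367.GT (gM)

set_option linter.unusedSectionVars false

/-- a continuous function is bounded on the unit sphere -/
theorem sphjens_bdd {d : ℕ} {H : Ec d → ℝ} (hH : Continuous H) :
    ∃ K : ℝ, 0 ≤ K ∧ ∀ y, ‖y‖ = 1 → |H y| ≤ K := by
  have hc : IsCompact (Metric.sphere (0 : Ec d) 1) := isCompact_sphere 0 1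
  obtain ⟨K, hK⟩ := hc.exists_bound_of_continuousOn hH.continuousOn
  refine ⟨max K 0, le_max_right _ _, fun y hy => ?_⟩
  exact (hK y (by simpa only [mem_sphere_iff_norm, sub_zero] using hy)).trans (le_max_left _ _)

/-- Jensen's inequality along the slices of the sphere. -/
theorem slice_jensen {d : ℕ} [NeZero d] {V : ℝ → ℝ} (hVc : Continuous V) {a : ℝ} (ha : 0 < a)
    (hVa : ∀ x, a ≤ V x) (hV1 : ∀ x, V x ≤ 1) {H : Ec (d + 1) → ℝ} (hH : Continuous H)
    {J : ℝ → ℝ} (hJm : Measurable J) {B : ℝ} (hJB : ∀ t, |J t| ≤ B)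
    (hJ : ∀ t, |t| ≤ 1 → J t ≤ Real.log (∫ y, Real.exp (H (lift d t y)) ∂(usp d))) :
    Real.log (∫ t, V t ∂(ht d)) + (∫ t, V t * J t ∂(ht d)) / ∫ t, V t ∂(ht d) ≤
      Real.log (∫ y, V (y (Fin.last d)) * Real.exp (H y) ∂(usp (d + 1))) := by
  obtain ⟨K, hK0, hK⟩ := sphjens_bdd hH
  have hV0 : ∀ x, 0 < V x := fun x => ha.trans_le (hVa x)
  -- integrability over the product
  have hcont : Continuous fun p : ℝ × Ec d =>
      V p.1 * Real.exp (H (lift d p.1 p.2)) :=
    (hVc.comp continuous_fst).mul (Real.continuous_exp.comp (hH.comp (continuous_lift d)))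
  have hae : ∀ᵐ p ∂((ht d).prod (usp d)), ‖lift d p.1 p.2‖ = 1 := by
    have h1 : ∀ᵐ p ∂((ht d).prod (usp d)), |p.1| ≤ 1 :=
      (Measure.quasiMeasurePreserving_fst).ae (ht_abs d)
    have h2 : ∀ᵐ p ∂((ht d).prod (usp d)), ‖p.2‖ = 1 :=
      (Measure.quasiMeasurePreserving_snd).ae (norm_usp d)
    filter_upwards [h1, h2] with p hp1 hp2
    exact norm_lift hp1 hp2
  have hint : Integrable (fun p : ℝ × Ec d => V p.1 * Real.exp (H (lift d p.1 p.2)))
      ((ht d).prod (usp d)) := by
    refine Integrable.of_bound (C := Real.exp K) hcont.aestronglyMeasurable ?_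
    filter_upwards [hae] with p hp
    rw [Real.norm_eq_abs, abs_mul, abs_of_pos (hV0 _), Real.abs_exp]
    have h1 : Real.exp (H (lift d p.1 p.2)) ≤ Real.exp K :=
      Real.exp_le_exp.2 ((le_abs_self _).trans (hK _ hp))
    calc V p.1 * Real.exp (H (lift d p.1 p.2)) ≤ 1 * Real.exp (H (lift d p.1 p.2)) :=
          mul_le_mul_of_nonneg_right (hV1 _) (Real.exp_pos _).le
      _ ≤ Real.exp K := by rw [one_mul]; exact h1
  have hslice : ∫ y, V (y (Fin.last d)) * Real.exp (H y) ∂(usp (d + 1)) =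
      ∫ t, V t * ∫ y, Real.exp (H (lift d t y)) ∂(usp d) ∂(ht d) := by
    rw [← ht_slice d, integral_map (continuous_lift d).measurable.aemeasurable]
    · have e : (fun p : ℝ × Ec d => V ((lift d p.1 p.2) (Fin.last d)) *
          Real.exp (H (lift d p.1 p.2))) = fun p => V p.1 * Real.exp (H (lift d p.1 p.2)) := by
        funext p
        rw [lift_last]
      rw [e, integral_prod _ hint]
      refine integral_congr_ae (Eventually.of_forall fun t => ?_)
      exact integral_const_mul (V t) (fun y => Real.exp (H (lift d t y)))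
    · refine Continuous.aestronglyMeasurable ?_
      refine (hVc.comp ?_).mul (Real.continuous_exp.comp hH)
      fun_prop
  have hintt : Integrable (fun t => V t * ∫ y, Real.exp (H (lift d t y)) ∂(usp d)) (ht d) := by
    have := hint.integral_prod_left
    refine this.congr (Eventually.of_forall fun t => ?_)
    exact integral_const_mul (V t) (fun y => Real.exp (H (lift d t y)))
  set c : ℝ := ∫ t, V t ∂(ht d) with hc
  have hVint : Integrable V (ht d) := by
    refine Integrable.of_bound (C := 1) hVc.aestronglyMeasurable (Eventually.of_forall fun t => ?_)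
    rw [Real.norm_eq_abs, abs_of_pos (hV0 t)]
    exact hV1 t
  have hc0 : 0 < c := by
    refine ha.trans_le ?_
    have : ∫ _ : ℝ, a ∂(ht d) ≤ c := integral_mono (integrable_const _) hVint hVa
    simpa only [ge_iff_le, integral_const, probReal_univ, smul_eq_mul, one_mul] using this
  have hVJint : Integrable (fun t => V t * J t) (ht d) := by
    refine Integrable.of_bound (C := B) (hVc.measurable.mul hJm).aestronglyMeasurable
      (Eventually.of_forall fun t => ?_)
    rw [Real.norm_eq_abs, abs_mul, abs_of_pos (hV0 t)]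
    calc V t * |J t| ≤ 1 * |J t| := mul_le_mul_of_nonneg_right (hV1 t) (abs_nonneg _)
      _ ≤ B := by rw [one_mul]; exact hJB t
  set m : ℝ := (∫ t, V t * J t ∂(ht d)) / c with hm
  rw [← Real.log_exp m, ← Real.log_mul hc0.ne' (Real.exp_pos m).ne']
  refine Real.log_le_log (mul_pos hc0 (Real.exp_pos m)) ?_
  rw [hslice]
  -- pointwise lower bound
  have hlow : ∀ᵐ t ∂(ht d), Real.exp m * (V t * J t) + Real.exp m * (1 - m) * V t ≤
      V t * ∫ y, Real.exp (H (lift d t y)) ∂(usp d) := by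
    filter_upwards [ht_abs d] with t ht1
    have hI0 : 0 < ∫ y, Real.exp (H (lift d t y)) ∂(usp d) := by
      have hcl : Continuous fun y : Ec d => lift d t y :=
        (continuous_lift d).comp (by fun_prop : Continuous fun y : Ec d => (t, y))
      have hi : Integrable (fun y => Real.exp (H (lift d t y))) (usp d) := by
        refine Integrable.of_bound (C := Real.exp K)
          (Real.continuous_exp.comp (hH.comp hcl)).aestronglyMeasurable ?_
        filter_upwards [norm_usp d] with y hy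
        rw [Real.norm_eq_abs, Real.abs_exp]
        exact Real.exp_le_exp.2 ((le_abs_self _).trans (hK _ (norm_lift ht1 hy)))
      have h3 : ∫ _ : Ec d, Real.exp (-K) ∂(usp d) ≤
          ∫ y, Real.exp (H (lift d t y)) ∂(usp d) := by
        refine integral_mono_ae (integrable_const _) hi ?_
        filter_upwards [norm_usp d] with y hy
        exact Real.exp_le_exp.2 (neg_le_of_abs_le (hK _ (norm_lift ht1 hy)))
      have h4 : ∫ _ : Ec d, Real.exp (-K) ∂(usp d) = Real.exp (-K) := by simp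
      rw [h4] at h3
      exact (Real.exp_pos _).trans_le h3
    have h1 : Real.exp (J t) ≤ ∫ y, Real.exp (H (lift d t y)) ∂(usp d) := by
      rw [← Real.exp_log hI0]
      exact Real.exp_le_exp.2 (hJ t ht1)
    have h2 : Real.exp m * (1 + J t - m) ≤ Real.exp (J t) := by
      have h5 := Real.add_one_le_exp (J t - m)
      have h6 : Real.exp (J t) = Real.exp m * Real.exp (J t - m) := by
        rw [← Real.exp_add]
        congr 1
        ring
      rw [h6]
      refine mul_le_mul_of_nonneg_left ?_ (Real.exp_pos m).le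
      linarith only [h5]
    have h7 := mul_le_mul_of_nonneg_left (h2.trans h1) (hV0 t).le
    refine le_trans (le_of_eq ?_) h7
    ring
  have hmono := integral_mono_ae
    ((hVJint.const_mul (Real.exp m)).add (hVint.const_mul (Real.exp m * (1 - m)))) hintt hlow
  refine le_trans (le_of_eq ?_) hmono
  have e1 : ∫ t, (Real.exp m * (V t * J t) + Real.exp m * (1 - m) * V t) ∂(ht d) =
      Real.exp m * (∫ t, V t * J t ∂(ht d)) + Real.exp m * (1 - m) * c := by
    rw [integral_add (hVJint.const_mul _) (hVint.const_mul _), integral_const_mul,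
      integral_const_mul]
  refine Eq.trans ?_ e1.symm
  have e2 : ∫ t, V t * J t ∂(ht d) = m * c := by
    rw [hm, div_mul_cancel₀ _ hc0.ne']
  rw [e2]
  ring

end Vale.Agent.P157.Sph
end

section

/-! Comparison of the slices at different heights. -/

open MeasureTheory ProbabilityTheory Filter Topology

namespace Vale.Agent.P157.Lv

open Par (CB3 gram integral_lin_congr)

open Vale.Agent.P367.GT (gM)

set_option linter.unusedSectionVars false

section SphcA

variable {ι X : Type} [Fintype ι] [DecidableEq ι] [Fintype X] [DecidableEq X] [Nonempty X]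

/-- The system without levels, with constant weights. -/
noncomputable def sphcS (ι : Type) (w : X → ℝ) : Sy ι X where
  lev := fun _ => 0
  K := 0
  m := fun l => if l = 0 then 0 else 1
  H := fun _ x => Real.log (w x)

lemma sphc_regD (w : X → ℝ) : (sphcS ι w).RegD fun _ _ _ => 0 where
  m0 := by simp [sphcS]
  mK := by simp [sphcS]
  mono := fun l _ => by
    rcases Nat.eq_zero_or_pos l with h | h
    · simp only [sphcS, h, ↓reduceIte, zero_add, one_ne_zero, zero_le_one]
    · simp only [sphcS, h.ne', ↓reduceIte, Nat.add_eq_zero_iff, one_ne_zero, and_self, Std.le_refl]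
  pos := by simp only [sphcS, one_ne_zero, ↓reduceIte, zero_lt_one]
  lev := fun _ => le_rfl
  lip := fun x => ⟨0, le_rfl, fun y y' => by simp [sphcS]⟩
  pd := fun e x y t => hasDerivAt_const _ _
  md := fun e x => measurable_const
  bd := ⟨0, fun e z x => by simp⟩

lemma sphc_fe (w : X → ℝ) (H' : (ι → ℝ) → X → ℝ) :
    ((sphcS ι w).wH H').fe = ∫ z, Real.log (∑ x, Real.exp (H' z x)) ∂(gI ι) := rfl

lemma sphc_pot {C : ℝ} {f f1 f2 f3 : ℝ → ℝ} (hf : CB3 C f f1 f2 f3) : Pot f f1 f2 C C :=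
  ⟨hf.d1, hf.d2, hf.b1, hf.b2⟩

/-- The difference of two quadratic forms. -/
lemma sphc_quad {v : X → ℝ} {α β : X → ι → ℝ} {V b : ℝ} (hv : ∑ x, |v x| ≤ V) (hb : 0 ≤ b)
    (h : ∀ x y, |∑ e, α x e * α y e - ∑ e, β x e * β y e| ≤ b) :
    -(V ^ 2 * b) ≤ ∑ e, ((∑ x, v x * α x e) ^ 2 - (∑ x, v x * β x e) ^ 2) := by
  have e1 : ∀ γ : X → ι → ℝ, ∑ e, (∑ x, v x * γ x e) ^ 2 =
      ∑ x, ∑ y, v x * v y * ∑ e, γ x e * γ y e := by
    intro γ
    simp_rw [sq, Finset.sum_mul_sum, Finset.mul_sum]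
    rw [Finset.sum_comm]
    refine Finset.sum_congr rfl fun x _ => ?_
    rw [Finset.sum_comm]
    refine Finset.sum_congr rfl fun y _ => Finset.sum_congr rfl fun e _ => by ring
  rw [Finset.sum_sub_distrib, e1, e1]
  have e2 : (∑ x, ∑ y, v x * v y * ∑ e, α x e * α y e) -
      ∑ x, ∑ y, v x * v y * ∑ e, β x e * β y e =
      ∑ x, ∑ y, v x * v y * (∑ e, α x e * α y e - ∑ e, β x e * β y e) := by
    rw [← Finset.sum_sub_distrib]
    refine Finset.sum_congr rfl fun x _ => ?_
    rw [← Finset.sum_sub_distrib]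
    exact Finset.sum_congr rfl fun y _ => by ring
  rw [e2]
  have h1 : |∑ x, ∑ y, v x * v y * (∑ e, α x e * α y e - ∑ e, β x e * β y e)| ≤ V ^ 2 * b := by
    calc _ ≤ ∑ x, ∑ y, |v x| * |v y| * b := by
          refine (Finset.abs_sum_le_sum_abs _ _).trans (Finset.sum_le_sum fun x _ => ?_)
          refine (Finset.abs_sum_le_sum_abs _ _).trans (Finset.sum_le_sum fun y _ => ?_)
          rw [abs_mul, abs_mul]
          exact mul_le_mul_of_nonneg_left (h x y) (by (clear * -; positivity))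
      _ = (∑ x, |v x|) ^ 2 * b := by
          rw [sq, Finset.sum_mul_sum, Finset.sum_mul]
          refine Finset.sum_congr rfl fun x _ => ?_
          rw [Finset.sum_mul]
      _ ≤ _ := mul_le_mul_of_nonneg_right
          (pow_le_pow_left₀ (Finset.sum_nonneg fun x _ => abs_nonneg _) hv 2) hb
  exact (abs_le.1 h1).1

variable {f f' f'' : ℝ → ℝ} {C₁ C₂ : ℝ} {α β : X → ι → ℝ}

lemma sphc_brk (w : X → ℝ) (hf : Pot f f' f'' C₁ C₂) {b : ℝ} (hb : 0 ≤ b)
    (hα : ∀ x, ∑ e, α x e ^ 2 = 1) (hβ : ∀ x, ∑ e, β x e ^ 2 = 1)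
    (h : ∀ x y, |∑ e, α x e * α y e - ∑ e, β x e * β y e| ≤ b) (θ : ℝ) :
    brk (sphcS ι w) f f' f'' α β θ ≤ C₁ ^ 2 * b := by
  have hR := (regD_it (α := α) (β := β) (sphc_regD (ι := ι) w) hf θ).toReg
  have hC1 := hf.C1_nonneg
  unfold brk
  obtain ⟨R, hRd⟩ : ∃ R, R = (sphcS ι w).wH (it (sphcS ι w).H f α β θ) := ⟨_, rfl⟩
  have hRK : R.K = 0 := by rw [hRd]; rfl
  rw [← hRd] at hR ⊢
  have e1 : R.Ex (fun z x => (f'' (itU α β θ z x) + f' (itU α β θ z x) ^ 2) *
      (∑ e, α x e ^ 2 - ∑ e, β x e ^ 2)) = 0 := by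
    have : (fun (z : ι → ℝ) x => (f'' (itU α β θ z x) + f' (itU α β θ z x) ^ 2) *
      (∑ e, α x e ^ 2 - ∑ e, β x e ^ 2)) = fun _ _ => 0 := by
      funext z x
      rw [hα, hβ]
      ring
    rw [this, hR.Ex_const]
  have eT : ∀ h z, R.T 0 h z = R.av h z := fun h z => by
    have := hR.T_top h z
    rwa [hRK] at this
  have eK : (sphcS ι w).K = 0 := rfl
  have ep : (sphcS ι w).p 0 = 1 := by simp [Sy.p, sphcS]
  rw [e1, eK, Finset.sum_range_one, ep]
  have el : ∀ e, (sphcS ι w).lev e ≤ 0 := fun e => le_rfl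
  simp only [el, eT, if_true]
  have n1 : ∀ (γ : X → ι → ℝ) (e : ι), Nh (X := X) fun z _ =>
      R.av (fun z x => f' (itU α β θ z x) * γ x e) z ^ 2 := fun γ e =>
    Sy.Nh.fst ((hR.eg_av fun x => (hf.eg1 α β θ x).mul (EG.const (γ x e))).pow 2)
  have e2 : ∑ e, (R.Ex (fun z _ => R.av (fun z x => f' (itU α β θ z x) * α x e) z ^ 2) -
      R.Ex (fun z _ => R.av (fun z x => f' (itU α β θ z x) * β x e) z ^ 2)) =
      R.Ex (fun z _ => ∑ e, (R.av (fun z x => f' (itU α β θ z x) * α x e) z ^ 2 -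
        R.av (fun z x => f' (itU α β θ z x) * β x e) z ^ 2)) := by
    rw [hR.Ex_sum Finset.univ fun e _ => Sy.Nh.sub (n1 α e) (n1 β e)]
    exact Finset.sum_congr rfl fun e _ => (hR.Ex_sub (n1 α e) (n1 β e)).symm
  rw [e2]
  have h3 : R.Ex (fun _ _ => -(C₁ ^ 2 * b)) ≤
      R.Ex (fun z _ => ∑ e, (R.av (fun z x => f' (itU α β θ z x) * α x e) z ^ 2 -
        R.av (fun z x => f' (itU α β θ z x) * β x e) z ^ 2)) := by
    refine hR.Ex_mono (fun _ => EG.const _)
      (Sy.Nh.sum _ fun e _ => Sy.Nh.sub (n1 α e) (n1 β e)) fun z x => ?_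
    have e3 : ∀ γ : X → ι → ℝ, ∀ e, R.av (fun z x => f' (itU α β θ z x) * γ x e) z =
        ∑ x, (R.gb z x * f' (itU α β θ z x)) * γ x e := fun γ e =>
      Finset.sum_congr rfl fun x _ => by ring
    simp only [e3]
    refine sphc_quad ?_ hb h
    calc ∑ x, |R.gb z x * f' (itU α β θ z x)| ≤ ∑ x, R.gb z x * C₁ := by
          refine Finset.sum_le_sum fun x _ => ?_
          rw [abs_mul, abs_of_nonneg (Sy.gb_pos R z x).le]
          exact mul_le_mul_of_nonneg_left (hf.b1 _) (Sy.gb_pos R z x).le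
      _ = C₁ := by rw [← Finset.sum_mul, Sy.sum_gb, one_mul]
  rw [hR.Ex_const] at h3
  linarith only [h3]

/-- The free energies of two fields with close covariances. -/
lemma sphc_one {κ κ' : Type} [Fintype κ] [DecidableEq κ] [Fintype κ'] [DecidableEq κ']
    {w : X → ℝ} (hw : ∀ x, 0 < w x) (hf : Pot f f' f'' C₁ C₂) {b : ℝ} (hb : 0 ≤ b)
    {A : X → κ → ℝ} {B : X → κ' → ℝ} (hA : ∀ x, ∑ e, A x e ^ 2 = 1) (hB : ∀ x, ∑ e, B x e ^ 2 = 1)
    (h : ∀ x y, |gram A A x y - gram B B x y| ≤ b) :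
    (∫ ξ, Real.log (∑ x, w x * Real.exp (f (Par.lin A ξ x))) ∂(gM κ)) -
      ∫ ξ, Real.log (∑ x, w x * Real.exp (f (Par.lin B ξ x))) ∂(gM κ') ≤ C₁ ^ 2 * b / 2 := by
  set α : X → κ ⊕ κ' → ℝ := fun x => Sum.elim (A x) fun _ => 0 with hα
  set β : X → κ ⊕ κ' → ℝ := fun x => Sum.elim (fun _ => 0) (B x) with hβ
  have gα : ∀ x y, ∑ e, α x e * α y e = gram A A x y := fun x y => by
    simp only [hα, Fintype.sum_sum_type, Sum.elim_inl, Sum.elim_inr, mul_zero, Finset.sum_const_zero, add_zero, gram]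
  have gβ : ∀ x y, ∑ e, β x e * β y e = gram B B x y := fun x y => by
    simp only [hβ, Fintype.sum_sum_type, Sum.elim_inl, mul_zero, Finset.sum_const_zero, Sum.elim_inr, zero_add, gram]
  have hs : Sep (fun (_ : κ ⊕ κ') (_ : κ ⊕ κ' → ℝ) (_ : X) => (0 : ℝ)) α β :=
    ⟨fun e x x' => by cases e <;> simp [hα, hβ], fun _ _ _ _ _ => rfl⟩
  have h1 := int_le (S := sphcS (κ ⊕ κ') w) (sphc_regD w) hf hs (b := C₁ ^ 2 * b)
    fun θ _ _ => sphc_brk w hf hb
      (fun x => by rw [← hA x]; simp only [hα, Fintype.sum_sum_type, Sum.elim_inl, Sum.elim_inr, ne_eq, OfNat.ofNat_ne_zero, not_false_eq_true, zero_pow, Finset.sum_const_zero, add_zero])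
      (fun x => by rw [← hB x]; simp only [hβ, Fintype.sum_sum_type, Sum.elim_inl, ne_eq, OfNat.ofNat_ne_zero, not_false_eq_true, zero_pow, Finset.sum_const_zero, Sum.elim_inr, zero_add])
      (fun x y => by rw [gα, gβ]; exact h x y) θ
  rw [sphc_fe, sphc_fe] at h1
  have hm : Measurable fun v : X → ℝ => Real.log (∑ x, w x * Real.exp (f (v x))) := by
    have := hf.measurable.1
    fun_prop
  have e1 : ∫ z, Real.log (∑ x, Real.exp (it (sphcS (κ ⊕ κ') w).H f α β (Real.pi / 2) z x))
      ∂(gI (κ ⊕ κ')) = ∫ ξ, Real.log (∑ x, w x * Real.exp (f (Par.lin A ξ x))) ∂(gM κ) := by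
    rw [← integral_lin_congr (U := α) (V := A) (fun x y => gα x y) hm]
    refine integral_congr_ae (Eventually.of_forall fun z => ?_)
    simp only
    congr 1
    refine Finset.sum_congr rfl fun x _ => ?_
    unfold it itU
    rw [Real.exp_add, Real.sin_pi_div_two, Real.cos_pi_div_two, one_mul, zero_mul, add_zero]
    show Real.exp (Real.log (w x)) * _ = _
    rw [Real.exp_log (hw x)]
    rfl
  have e2 : ∫ z, Real.log (∑ x, Real.exp (it (sphcS (κ ⊕ κ') w).H f α β 0 z x))
      ∂(gI (κ ⊕ κ')) = ∫ ξ, Real.log (∑ x, w x * Real.exp (f (Par.lin B ξ x))) ∂(gM κ') := by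
    rw [← integral_lin_congr (U := β) (V := B) (fun x y => gβ x y) hm]
    refine integral_congr_ae (Eventually.of_forall fun z => ?_)
    simp only
    congr 1
    refine Finset.sum_congr rfl fun x _ => ?_
    unfold it itU
    rw [Real.exp_add, Real.sin_zero, Real.cos_zero, one_mul, zero_mul, zero_add]
    show Real.exp (Real.log (w x)) * _ = _
    rw [Real.exp_log (hw x)]
    rfl
  rw [e1, e2] at h1
  exact h1

end SphcA

end Vale.Agent.P157.Lv

namespace Vale.Agent.P157.Sph

open Par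

open Vale.Agent.P367.GT (gM)

set_option linter.unusedSectionVars false

/-- One pattern: the field `√(1-θ) S + √θ H`, with `H` an independent field. -/
theorem one_height {C : ℝ} {f f1 f2 f3 : ℝ → ℝ} (hf : CB3 C f f1 f2 f3) :
    ∃ D : ℝ, 0 ≤ D ∧ ∀ (K K' Y : Type) [Fintype K] [Fintype K'] [Fintype Y] [DecidableEq K]
      [DecidableEq K'] (w : Y → ℝ) (φ : Y → K → ℝ) (ψ : Y → K' → ℝ), (∀ y, 0 < w y) →
      Nonempty Y → (∀ y, ∑ i, φ y i ^ 2 = 1) → (∀ y, ∑ i, ψ y i ^ 2 = 1) →
      ∀ θ : ℝ, 0 ≤ θ → θ ≤ 1 →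
      |(∫ g : (K → ℝ) × (K' → ℝ), Real.log (∑ y, w y * Real.exp (f (√(1 - θ) * lin φ g.1 y +
          √θ * lin ψ g.2 y))) ∂((gM K).prod (gM K'))) -
        ∫ g : (K → ℝ) × (K' → ℝ), Real.log (∑ y, w y * Real.exp (f (lin φ g.1 y)))
          ∂((gM K).prod (gM K'))| ≤ D * θ := by
  refine ⟨C ^ 2, sq_nonneg C, ?_⟩
  intro K K' Y _ _ _ _ _ w φ ψ hw hY hφ hψ θ hθ0 hθ1
  classical
  have hp := Lv.sphc_pot hf
  set B : Y → K ⊕ K' → ℝ := fun y => Sum.elim (fun i => √(1 - θ) * φ y i)
    (fun i => √θ * ψ y i) with hBd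
  have s1 : √(1 - θ) ^ 2 = 1 - θ := Real.sq_sqrt (by linarith only [hθ1])
  have s2 : √θ ^ 2 = θ := Real.sq_sqrt hθ0
  have gB : ∀ x y, gram B B x y = (1 - θ) * gram φ φ x y + θ * gram ψ ψ x y := by
    intro x y
    have e1 : ∀ i, √(1 - θ) * φ x i * (√(1 - θ) * φ y i) = (1 - θ) * (φ x i * φ y i) := by
      intro i
      linear_combination (φ x i * φ y i) * s1
    have e2 : ∀ i, √θ * ψ x i * (√θ * ψ y i) = θ * (ψ x i * ψ y i) := by
      intro i
      linear_combination (ψ x i * ψ y i) * s2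
    simp only [gram, hBd, Fintype.sum_sum_type, Sum.elim_inl, Sum.elim_inr, e1, e2,
      ← Finset.mul_sum]
  have cs : ∀ {κ : Type} [Fintype κ] (U : Y → κ → ℝ), (∀ y, ∑ i, U y i ^ 2 = 1) → ∀ x y,
      |gram U U x y| ≤ 1 := by
    intro κ _ U hU x y
    have h1 := Finset.sum_mul_sq_le_sq_mul_sq Finset.univ (fun i => U x i) (fun i => U y i)
    rw [hU, hU, one_mul] at h1
    rw [← Real.sqrt_one, ← Real.sqrt_sq_eq_abs]
    exact Real.sqrt_le_sqrt h1
  have hd : ∀ x y, |gram φ φ x y - gram B B x y| ≤ 2 * θ := by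
    intro x y
    have h1 := cs φ hφ x y
    have h2 := cs ψ hψ x y
    rw [gB]
    have e : gram φ φ x y - ((1 - θ) * gram φ φ x y + θ * gram ψ ψ x y) =
        θ * (gram φ φ x y - gram ψ ψ x y) := by ring
    rw [e, abs_mul, abs_of_nonneg hθ0, mul_comm]
    refine mul_le_mul_of_nonneg_right ?_ hθ0
    have := abs_sub (gram φ φ x y) (gram ψ ψ x y)
    linarith only [h1, h2, this]
  have hB1 : ∀ y, ∑ e, B y e ^ 2 = 1 := by
    intro y
    have h1 : gram B B y y = 1 := by
      rw [gB]
      have h2 : gram φ φ y y = 1 := by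
        rw [← hφ y]; exact Finset.sum_congr rfl fun i _ => (sq _).symm
      have h3 : gram ψ ψ y y = 1 := by
        rw [← hψ y]; exact Finset.sum_congr rfl fun i _ => (sq _).symm
      rw [h2, h3]
      ring
    rw [← h1]
    exact Finset.sum_congr rfl fun i _ => sq _
  have h1 := Lv.sphc_one hw hp (by linarith only [hθ0] : (0 : ℝ) ≤ 2 * θ) hφ hB1 hd
  have h2 := Lv.sphc_one hw hp (by linarith only [hθ0] : (0 : ℝ) ≤ 2 * θ) hB1 hφ
    (fun x y => by rw [abs_sub_comm]; exact hd x y)
  have e1 : ∫ g : (K → ℝ) × (K' → ℝ), Real.log (∑ y, w y * Real.exp (f (√(1 - θ) * lin φ g.1 y +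
      √θ * lin ψ g.2 y))) ∂((gM K).prod (gM K')) =
      ∫ ξ, Real.log (∑ y, w y * Real.exp (f (lin B ξ y))) ∂(gM (K ⊕ K')) := by
    have mp := measurePreserving_sumPiEquivProdPi (X := fun _ : K ⊕ K' => ℝ)
      (fun _ : K ⊕ K' => gaussianReal 0 1)
    rw [← mp.integral_comp' (g := fun g : (K → ℝ) × (K' → ℝ) => Real.log (∑ y, w y *
      Real.exp (f (√(1 - θ) * lin φ g.1 y + √θ * lin ψ g.2 y))))]
    refine integral_congr_ae (Eventually.of_forall fun ξ => ?_)
    simp only
    congr 1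
    refine Finset.sum_congr rfl fun y _ => ?_
    congr 3
    simp only [lin, hBd, Fintype.sum_sum_type, Sum.elim_inl, Sum.elim_inr, Finset.mul_sum,
      mul_assoc]
    rfl
  have e2 : ∫ g : (K → ℝ) × (K' → ℝ), Real.log (∑ y, w y * Real.exp (f (lin φ g.1 y)))
      ∂((gM K).prod (gM K')) = ∫ ξ, Real.log (∑ y, w y * Real.exp (f (lin φ ξ y))) ∂(gM K) := by
    rw [integral_fun_fst (μ := gM K) (ν := gM K')
      (fun ξ => Real.log (∑ y, w y * Real.exp (f (lin φ ξ y))))]
    simp only [probReal_univ, smul_eq_mul, one_mul]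
  rw [e1, e2, abs_le]
  constructor <;> linarith only [h1, h2]

end Vale.Agent.P157.Sph
end

section

/-! Comparison of the slices at different heights: the perturbation. -/

open MeasureTheory ProbabilityTheory Filter Topology
open scoped RealInnerProductSpace

namespace Vale.Agent.P157.Sph

open Par

open Vale.Agent.P367.GT (gM)

set_option linter.unusedSectionVars false

/-- The coefficients of the perturbation. -/
noncomputable def sphpt_cf {d P : ℕ} (s : ℝ) (u : Fin P → ℝ) (y : Ec d) (e : GI P d) : ℝ :=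
  s * u e.1 * (1 / 2) ^ ((e.1 : ℕ) + 1) * ∏ r, y (e.2 r)

lemma sphpt_sum_sq {d : ℕ} {y : Ec d} (hy : ‖y‖ = 1) : ∑ i, y i * y i = 1 := by
  have h := EuclideanSpace.norm_sq_eq y
  rw [hy] at h
  have h2 : ∀ i, ‖y i‖ ^ 2 = y i * y i := fun i => by
    rw [Real.norm_eq_abs, sq_abs, sq]
  simp_rw [h2] at h
  linarith

lemma sphpt_gram {d P : ℕ} (s : ℝ) (u : Fin P → ℝ) (a b : Ec d) :
    ∑ e : GI P d, sphpt_cf s u a e * sphpt_cf s u b e =
      ∑ p : Fin P, (s * u p * (1 / 2) ^ ((p : ℕ) + 1)) ^ 2 *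
        (∑ i, a i * b i) ^ ((p : ℕ) + 1) := by
  rw [Fintype.sum_sigma]
  refine Finset.sum_congr rfl fun p _ => ?_
  rw [Fintype.sum_pow]
  have e1 : ∀ k : Fin ((p : ℕ) + 1) → Fin d, sphpt_cf s u a ⟨p, k⟩ * sphpt_cf s u b ⟨p, k⟩ =
      (s * u p * (1 / 2) ^ ((p : ℕ) + 1)) ^ 2 * ∏ r, (a (k r) * b (k r)) := by
    intro k
    rw [Finset.prod_mul_distrib]
    unfold sphpt_cf
    simp only
    ring
  rw [Finset.sum_congr rfl fun k _ => e1 k, ← Finset.mul_sum]

/-- the sum over the good monomials -/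
lemma sphpt_good_sum {d P : ℕ} (s : ℝ) (u : Fin P → ℝ) {t : ℝ} (ht : |t| ≤ 1) (a b : Ec d) :
    ∑ e : GI P (d + 1), (if ∀ r, e.2 r ≠ Fin.last d then sphpt_cf s u (lift d t a) e *
        sphpt_cf s u (lift d t b) e else 0) =
      ∑ p : Fin P, (s * u p * (1 / 2) ^ ((p : ℕ) + 1)) ^ 2 *
        ((1 - t ^ 2) * ∑ i, a i * b i) ^ ((p : ℕ) + 1) := by
  rw [Fintype.sum_sigma]
  refine Finset.sum_congr rfl fun p _ => ?_
  set m : Fin (d + 1) → ℝ := fun i => if i = Fin.last d then 0 else
    lift d t a i * lift d t b i with hm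
  have h1 : ∀ k : Fin ((p : ℕ) + 1) → Fin (d + 1),
      (if ∀ r, k r ≠ Fin.last d then sphpt_cf s u (lift d t a) ⟨p, k⟩ *
        sphpt_cf s u (lift d t b) ⟨p, k⟩
        else 0) = (s * u p * (1 / 2) ^ ((p : ℕ) + 1)) ^ 2 * ∏ r, m (k r) := by
    intro k
    split_ifs with h
    · have : ∏ r, m (k r) = (∏ r, lift d t a (k r)) * ∏ r, lift d t b (k r) := by
        rw [← Finset.prod_mul_distrib]
        refine Finset.prod_congr rfl fun r _ => ?_
        rw [hm]
        simp only [if_neg (h r)]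
      rw [this]
      unfold sphpt_cf
      ring
    · push Not at h
      obtain ⟨r, hr⟩ := h
      have : ∏ r, m (k r) = 0 := Finset.prod_eq_zero (Finset.mem_univ r) (by rw [hm]; simp [hr])
      rw [this, mul_zero]
  simp only
  rw [Finset.sum_congr rfl fun k _ => h1 k, ← Finset.mul_sum, ← Fintype.sum_pow]
  congr 2
  rw [Fin.sum_univ_castSucc, hm]
  simp only [if_true, add_zero]
  rw [Finset.mul_sum]
  refine Finset.sum_congr rfl fun i _ => ?_
  rw [if_neg (Fin.castSucc_ne_last i), lift_castSucc, lift_castSucc]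
  have h3 : t ^ 2 ≤ 1 := by
    rw [← sq_abs]
    nlinarith only [ht, abs_nonneg t]
  have h2 : √(1 - t ^ 2) * √(1 - t ^ 2) = 1 - t ^ 2 := Real.mul_self_sqrt (by linarith only [h3])
  linear_combination (a i * b i) * h2

/-- The perturbation: replacement of `R` by `(1 - θ) R + θ` costs `O(s² θ)`. -/
theorem pert_height {d P : ℕ} {s : ℝ} (hs : 0 ≤ s) {u : Fin P → ℝ}
    (hu : ∀ q, 0 ≤ u q ∧ u q ≤ 2) {X : Type} [Fintype X] [Nonempty X] {V : X → ℝ}
    (hV : ∀ x, 0 < V x) {φ : X → Ec d} (hφ : ∀ x, ‖φ x‖ = 1) {t : ℝ} (ht : |t| ≤ 1) :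
    |∫ h, Real.log (∑ x, V x * Real.exp (∑ e : GI P (d + 1), h e * (s * u e.1 *
          (1 / 2) ^ ((e.1 : ℕ) + 1) * ∏ r, lift d t (φ x) (e.2 r)))) ∂(gM (GI P (d + 1))) -
      ∫ h, Real.log (∑ x, V x * Real.exp (∑ e : GI P d, h e * (s * u e.1 *
          (1 / 2) ^ ((e.1 : ℕ) + 1) * ∏ r, φ x (e.2 r)))) ∂(gM (GI P d))| ≤
      2 * (s ^ 2 * t ^ 2) := by
  classical
  set δ : ℝ := t ^ 2 with hδ
  have h0 : 0 ≤ δ := sq_nonneg t
  have h1 : δ ≤ 1 := by
    rw [hδ, ← sq_abs]
    nlinarith only [ht, abs_nonneg t]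
  set T : X → GI P (d + 1) → ℝ := fun x => sphpt_cf s u (lift d t (φ x)) with hT
  set T' : X → GI P d → ℝ := fun x => sphpt_cf s u (φ x) with hT'
  set U : X → GI P d → ℝ := fun x e => √((1 - δ) ^ ((e.1 : ℕ) + 1)) * sphpt_cf s u (φ x) e with hU
  set W : X → GI P (d + 1) → ℝ := fun x e =>
    if ∀ r, e.2 r ≠ Fin.last d then 0 else sphpt_cf s u (lift d t (φ x)) e with hW
  set W' : X → GI P d → ℝ := fun x e =>
    √(1 - (1 - δ) ^ ((e.1 : ℕ) + 1)) * sphpt_cf s u (φ x) e with hW'
  have hp0 : ∀ n : ℕ, 0 ≤ (1 - δ) ^ n := fun n => pow_nonneg (by linarith only [h1]) n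
  have hp1 : ∀ n : ℕ, 0 ≤ 1 - (1 - δ) ^ n := fun n => by
    have := pow_le_one₀ (n := n) (by linarith only [h1] : 0 ≤ 1 - δ) (by linarith only [h0])
    linarith only [this]
  have gU : ∀ a b, gram U U a b = ∑ p : Fin P, (s * u p * (1 / 2) ^ ((p : ℕ) + 1)) ^ 2 *
      ((1 - δ) * ∑ i, φ a i * φ b i) ^ ((p : ℕ) + 1) := by
    intro a b
    unfold gram
    rw [Fintype.sum_sigma]
    refine Finset.sum_congr rfl fun p _ => ?_
    rw [mul_pow (1 - δ), Fintype.sum_pow]
    have e1 : ∀ k : Fin ((p : ℕ) + 1) → Fin d, U a ⟨p, k⟩ * U b ⟨p, k⟩ =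
        (s * u p * (1 / 2) ^ ((p : ℕ) + 1)) ^ 2 * ((1 - δ) ^ ((p : ℕ) + 1) *
        ∏ r, (φ a (k r) * φ b (k r))) := by
      intro k
      have e2 : √((1 - δ) ^ ((p : ℕ) + 1)) * √((1 - δ) ^ ((p : ℕ) + 1)) =
        (1 - δ) ^ ((p : ℕ) + 1) := Real.mul_self_sqrt (hp0 _)
      rw [Finset.prod_mul_distrib, hU]
      unfold sphpt_cf
      simp only
      linear_combination ((s * u p * (1 / 2) ^ ((p : ℕ) + 1)) ^ 2 *
        ((∏ r, φ a (k r)) * ∏ r, φ b (k r))) * e2
    simp only at e1
    rw [Finset.sum_congr rfl fun k _ => e1 k, ← Finset.mul_sum, ← Finset.mul_sum]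
  have gT : ∀ a b, gram T T a b = gram U U a b + gram W W a b := by
    intro a b
    rw [gU, hδ, ← sphpt_good_sum s u ht]
    unfold gram
    rw [← Finset.sum_add_distrib]
    refine Finset.sum_congr rfl fun e _ => ?_
    simp only [hW, hT]
    split_ifs <;> ring
  have gT' : ∀ a b, gram T' T' a b = gram U U a b + gram W' W' a b := by
    intro a b
    unfold gram
    rw [← Finset.sum_add_distrib]
    refine Finset.sum_congr rfl fun e _ => ?_
    have e2 : √((1 - δ) ^ ((e.1 : ℕ) + 1)) * √((1 - δ) ^ ((e.1 : ℕ) + 1)) =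
      (1 - δ) ^ ((e.1 : ℕ) + 1) := Real.mul_self_sqrt (hp0 _)
    have e3 : √(1 - (1 - δ) ^ ((e.1 : ℕ) + 1)) * √(1 - (1 - δ) ^ ((e.1 : ℕ) + 1)) =
      1 - (1 - δ) ^ ((e.1 : ℕ) + 1) := Real.mul_self_sqrt (hp1 _)
    simp only [hU, hW', hT']
    linear_combination (-(sphpt_cf s u (φ a) e * sphpt_cf s u (φ b) e)) * e2 -
      (sphpt_cf s u (φ a) e * sphpt_cf s u (φ b) e) * e3
  have bU : ∀ y, gram U U y y = ∑ p : Fin P, (s * u p * (1 / 2) ^ ((p : ℕ) + 1)) ^ 2 *
      (1 - δ) ^ ((p : ℕ) + 1) := by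
    intro y
    rw [gU]
    refine Finset.sum_congr rfl fun p _ => ?_
    rw [sphpt_sum_sq (hφ y), mul_one]
  have bT : ∀ y, gram T T y y = ∑ p : Fin P, (s * u p * (1 / 2) ^ ((p : ℕ) + 1)) ^ 2 := by
    intro y
    have e1 : gram T T y y = ∑ e : GI P (d + 1), sphpt_cf s u (lift d t (φ y)) e *
      sphpt_cf s u (lift d t (φ y)) e := rfl
    rw [e1, sphpt_gram, sphpt_sum_sq (norm_lift ht (hφ y))]
    simp only [one_div, inv_pow, one_pow, mul_one]
  have bT' : ∀ y, gram T' T' y y = ∑ p : Fin P, (s * u p * (1 / 2) ^ ((p : ℕ) + 1)) ^ 2 := by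
    intro y
    have e1 : gram T' T' y y = ∑ e : GI P d, sphpt_cf s u (φ y) e *
      sphpt_cf s u (φ y) e := rfl
    rw [e1, sphpt_gram, sphpt_sum_sq (hφ y)]
    simp only [one_div, inv_pow, one_pow, mul_one]
  have bd := Cube.bd_sum (s := s) hu h0 h1
  have e4 : ∑ p : Fin P, (s * u p * (1 / 2) ^ ((p : ℕ) + 1)) ^ 2 *
        (1 - (1 - δ) ^ ((p : ℕ) + 1)) = ∑ p : Fin P, (s * u p * (1 / 2) ^ ((p : ℕ) + 1)) ^ 2 -
        ∑ p : Fin P, (s * u p * (1 / 2) ^ ((p : ℕ) + 1)) ^ 2 * (1 - δ) ^ ((p : ℕ) + 1) := by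
    simp_rw [mul_sub, mul_one]
    rw [Finset.sum_sub_distrib]
  have bW : ∀ y, ∑ c, W y c ^ 2 ≤ 4 * s ^ 2 * δ := by
    intro y
    have e1 := gT y y
    have e2 : gram W W y y = ∑ c, W y c ^ 2 := by
      unfold gram; simp_rw [sq]
    rw [bT, e2, bU] at e1
    linarith only [bd, e4, e1]
  have bW' : ∀ y, ∑ c, W' y c ^ 2 ≤ 4 * s ^ 2 * δ := by
    intro y
    have e1 := gT' y y
    have e2 : gram W' W' y y = ∑ c, W' y c ^ 2 := by
      unfold gram; simp_rw [sq]
    rw [bT', e2, bU] at e1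
    linarith only [bd, e4, e1]
  have h := Cube.compare_cov hV gT gT' bW bW'
  have e5 : 4 * s ^ 2 * δ / 2 = 2 * (s ^ 2 * δ) := by ring
  rw [e5] at h
  have e6 : ∀ (ξ : GI P (d + 1) → ℝ) (x : X), lin T ξ x = ∑ e : GI P (d + 1), ξ e * (s * u e.1 *
          (1 / 2) ^ ((e.1 : ℕ) + 1) * ∏ r, lift d t (φ x) (e.2 r)) := fun ξ x =>
    Finset.sum_congr rfl fun e _ => mul_comm _ _
  have e7 : ∀ (ξ : GI P d → ℝ) (x : X), lin T' ξ x = ∑ e : GI P d, ξ e * (s * u e.1 *
          (1 / 2) ^ ((e.1 : ℕ) + 1) * ∏ r, φ x (e.2 r)) := fun ξ x =>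
    Finset.sum_congr rfl fun e _ => mul_comm _ _
  simp_rw [e6, e7] at h
  exact h

end Vale.Agent.P157.Sph
end

section

/-! The expected log-partition function depends only on the Gram matrix. -/

open MeasureTheory ProbabilityTheory Filter Topology
open scoped RealInnerProductSpace

namespace Vale.Agent.P157.Sph

open Par

open Vale.Agent.P367.GT (gM)

set_option linter.unusedSectionVars false

/-- The coefficients of the perturbation. -/
noncomputable def sphgram_cf {d P : ℕ} (s : ℝ) (u : Fin P → ℝ) {X : Type} (φ : X → Ec d) (x : X)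
    (e : GI P d) : ℝ :=
  s * u e.1 * (1 / 2) ^ ((e.1 : ℕ) + 1) * ∏ r, φ x (e.2 r)

lemma sphgram_gram_lin {d : ℕ} {X : Type} [Fintype X] (φ : X → Ec d) (x y : X) :
    gram (fun x i => φ x i) (fun x i => φ x i) x y = ⟪φ x, φ y⟫ := by
  unfold gram
  rw [PiLp.inner_apply]
  exact Finset.sum_congr rfl fun i _ => by simp [mul_comm]

lemma sphgram_gram_cf {d P : ℕ} (s : ℝ) (u : Fin P → ℝ) {X : Type} [Fintype X] (φ : X → Ec d)
    (x y : X) :
    gram (sphgram_cf s u φ) (sphgram_cf s u φ) x y =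
      ∑ p : Fin P, (s * u p * (1 / 2) ^ ((p : ℕ) + 1)) ^ 2 * ⟪φ x, φ y⟫ ^ ((p : ℕ) + 1) := by
  rw [← sphgram_gram_lin]
  unfold gram sphgram_cf
  rw [Fintype.sum_sigma]
  refine Finset.sum_congr rfl fun p _ => ?_
  rw [Fintype.sum_pow, Finset.mul_sum]
  refine Finset.sum_congr rfl fun k _ => ?_
  rw [Finset.prod_mul_distrib]
  simp only
  ring

lemma sphgram_fr {f : ℝ → ℝ} (hf : Measurable f) {d M P : ℕ} (s : ℝ) (u : Fin P → ℝ) {X : Type}
    [Fintype X] (V : X → ℝ) (φ : X → Ec d) :
    fr f M P s u V φ = ∫ q : (Fin M → X → ℝ) × (X → ℝ),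
      Real.log (∑ x, V x * Real.exp (∑ a, f (q.1 a x) + q.2 x))
      ∂((Measure.pi fun _ : Fin M => (gM (Fin d)).map (fun ξ => lin (fun x i => φ x i) ξ)).prod
        ((gM (GI P d)).map (fun ξ => lin (sphgram_cf s u φ) ξ))) := by
  classical
  have h₁ : Measurable fun ξ : Fin d → ℝ => lin (fun (x : X) i => φ x i) ξ := by
    unfold lin; fun_prop
  have h₂ : Measurable fun ξ : GI P d → ℝ => lin (sphgram_cf s u φ) ξ := by
    unfold lin; fun_prop
  have e₁ : IsProbabilityMeasure ((gM (Fin d)).map fun ξ => lin (fun (x : X) i => φ x i) ξ) :=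
    Measure.isProbabilityMeasure_map h₁.aemeasurable
  have e₂ : IsProbabilityMeasure ((gM (GI P d)).map fun ξ => lin (sphgram_cf s u φ) ξ) :=
    Measure.isProbabilityMeasure_map h₂.aemeasurable
  have p₁ := Measure.pi_map_pi (μ := fun _ : Fin M => gM (Fin d))
    (f := fun _ => fun ξ => lin (fun (x : X) i => φ x i) ξ) (fun _ => h₁.aemeasurable)
  have m₁ : Measurable fun g : Fin M → Fin d → ℝ => fun a => lin (fun (x : X) i => φ x i) (g a) := by
    fun_prop
  rw [← p₁, Measure.map_prod_map _ _ m₁ h₂,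
    integral_map (m₁.prodMap h₂).aemeasurable]
  · unfold fr
    refine integral_congr_ae (Filter.Eventually.of_forall fun z => ?_)
    simp only [en, Prod.map, lin, sphgram_cf]
    refine congrArg Real.log (Finset.sum_congr rfl fun x _ => ?_)
    congr 2
    congr 1
    · exact Finset.sum_congr rfl fun a _ => congrArg f (Finset.sum_congr rfl fun i _ => mul_comm _ _)
    · exact Finset.sum_congr rfl fun e _ => mul_comm _ _
  · exact Measurable.aestronglyMeasurable (by fun_prop)

/-- The expected log-partition function depends only on the Gram matrix. -/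
theorem fr_gram {f : ℝ → ℝ} (hf : Measurable f) {d d' M P : ℕ} (s : ℝ) (u : Fin P → ℝ) {X : Type}
    [Fintype X] (V : X → ℝ) (φ : X → Ec d) (ψ : X → Ec d') (h : ∀ x y, ⟪φ x, φ y⟫ = ⟪ψ x, ψ y⟫) :
    fr f M P s u V φ = fr f M P s u V ψ := by
  classical
  rcases isEmpty_or_nonempty X with hX | hX
  · simp only [fr, Finset.univ_eq_empty, Finset.sum_empty, Real.log_zero, integral_zero]
  rw [sphgram_fr hf, sphgram_fr hf,
    Cube.map_lin_eq (U := fun (x : X) i => φ x i) (V := fun (x : X) i => ψ x i)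
      (fun a b => by rw [sphgram_gram_lin, sphgram_gram_lin, h]),
    Cube.map_lin_eq (U := sphgram_cf s u φ) (V := sphgram_cf s u ψ)
      (fun a b => by rw [sphgram_gram_cf, sphgram_gram_cf, h])]

end Vale.Agent.P157.Sph
end

section

/-! The law of the height is nearly Gaussian. -/

open MeasureTheory ProbabilityTheory Filter Topology
open scoped RealInnerProductSpace

namespace Vale.Agent.P157.Sph

open Par

open Vale.Agent.P367.GT (gM)

set_option linter.unusedSectionVars false

/-! ### Fourth moment of a standard Gaussian variable -/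

lemma sphht2_int_pow (k : ℕ) : Integrable (fun x : ℝ => x ^ k) (gaussianReal 0 1) := by
  have h := (memLp_id_gaussianReal (μ := 0) (v := 1) (k : NNReal))
  rcases Nat.eq_zero_or_pos k with rfl | hk
  · simp only [pow_zero, enorm_one, ne_eq, ENNReal.one_ne_top, not_false_eq_true, integrable_const_enorm]
  · have h2 := h.integrable_norm_rpow (by
      simpa only [ENNReal.coe_natCast, ne_eq, Nat.cast_eq_zero] using hk.ne') (by simp only [ENNReal.coe_natCast, ne_eq, ENNReal.natCast_ne_top, not_false_eq_true])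
    refine h2.mono' (by fun_prop) (Filter.Eventually.of_forall fun x => ?_)
    simp only [norm_pow, Real.norm_eq_abs, id_eq, ENNReal.coe_natCast, ENNReal.toReal_natCast, Real.rpow_natCast, Std.le_refl]

lemma sphht2_int_four : ∫ x, x ^ 4 ∂(gaussianReal 0 1) = 3 := by
  set φ : ℝ → ℝ := gaussianPDFReal 0 1 with hφ
  have hφd : ∀ x, HasDerivAt φ (-(x * φ x)) x := by
    intro x
    have h1 : HasDerivAt (fun y : ℝ => -(y - 0) ^ 2 / (2 * ((1 : NNReal) : ℝ))) (-x) x := by
      have h2 : HasDerivAt (fun y : ℝ => -(y ^ 2) / 2) (-(2 * x) / 2) x := by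
        have h0 := ((hasDerivAt_pow 2 x).neg).div_const (2 : ℝ)
        simpa only [Pi.neg_apply, Nat.cast_ofNat, Nat.add_one_sub_one, pow_one] using h0
      have h2' : (fun y : ℝ => -(y - 0) ^ 2 / (2 * ((1 : NNReal) : ℝ))) = fun y => -(y ^ 2) / 2 := by
        funext y
        simp only [sub_zero, NNReal.coe_one, mul_one]
      rw [h2']
      have h2'' : -x = -(2 * x) / 2 := by ring
      rw [h2'']
      exact h2
    have h3 := (h1.exp).const_mul ((Real.sqrt (2 * Real.pi * ((1 : NNReal) : ℝ)))⁻¹)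
    have h4 : φ = fun y => (Real.sqrt (2 * Real.pi * ((1 : NNReal) : ℝ)))⁻¹
        * Real.exp (-(y - 0) ^ 2 / (2 * ((1 : NNReal) : ℝ))) := by
      funext y
      rw [hφ, gaussianPDFReal_def]
    have h5 : -(x * φ x) = (Real.sqrt (2 * Real.pi * ((1 : NNReal) : ℝ)))⁻¹
        * (Real.exp (-(x - 0) ^ 2 / (2 * ((1 : NNReal) : ℝ))) * -x) := by
      rw [h4]
      ring
    rw [h5, h4]
    exact h3
  have hkφ : ∀ k : ℕ, Integrable (fun x => x ^ k * φ x) := by
    intro k
    have h1 := sphht2_int_pow k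
    rw [gaussianReal_of_var_ne_zero _ one_ne_zero] at h1
    have h2 := (integrable_withDensity_iff_integrable_smul'
      (measurable_gaussianPDF 0 1) (by
        refine Filter.Eventually.of_forall fun x => ?_
        exact gaussianPDF_lt_top)).mp h1
    refine h2.congr (Filter.Eventually.of_forall fun x => ?_)
    simp only [gaussianPDF, ENNReal.toReal_ofReal (gaussianPDFReal_nonneg 0 1 x), smul_eq_mul]
    ring
  have key := integral_mul_deriv_eq_deriv_mul_of_integrable (u := fun x => x ^ 3) (v := φ)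
    (u' := fun x => 3 * x ^ 2) (v' := fun x => -(x * φ x))
    (fun x _ => by simpa only [Nat.cast_ofNat, Nat.add_one_sub_one] using hasDerivAt_pow 3 x) (fun x _ => hφd x)
    (by
      refine (hkφ 4).neg.congr (Filter.Eventually.of_forall fun x => ?_)
      show -(x ^ 4 * φ x) = x ^ 3 * -(x * φ x)
      ring)
    (by
      refine ((hkφ 2).const_mul 3).congr (Filter.Eventually.of_forall fun x => ?_)
      show 3 * (x ^ 2 * φ x) = 3 * x ^ 2 * φ x
      ring)
    (hkφ 3)
  have e1 : ∫ x, x ^ 4 ∂(gaussianReal 0 1) = ∫ x, x ^ 4 * φ x := by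
    rw [integral_gaussianReal_eq_integral_smul one_ne_zero]
    refine integral_congr_ae (Filter.Eventually.of_forall fun x => ?_)
    show φ x * x ^ 4 = x ^ 4 * φ x
    ring
  have e2 : ∫ x, x ^ 2 ∂(gaussianReal 0 1) = ∫ x, x ^ 2 * φ x := by
    rw [integral_gaussianReal_eq_integral_smul one_ne_zero]
    refine integral_congr_ae (Filter.Eventually.of_forall fun x => ?_)
    show φ x * x ^ 2 = x ^ 2 * φ x
    ring
  have e3 : ∫ x, x ^ 2 ∂(gaussianReal 0 1) = 1 := by
    have h := variance_id_gaussianReal (μ := 0) (v := 1)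
    rw [variance_eq_integral (by fun_prop)] at h
    simpa only [id_eq, integral_id_gaussianReal, sub_zero, NNReal.coe_one] using h
  have e4 : ∫ x, x ^ 3 * -(x * φ x) = - ∫ x, x ^ 4 * φ x := by
    rw [← integral_neg]
    refine integral_congr_ae (Filter.Eventually.of_forall fun x => ?_)
    show x ^ 3 * -(x * φ x) = -(x ^ 4 * φ x)
    ring
  have e5 : ∫ x, 3 * x ^ 2 * φ x = 3 * ∫ x, x ^ 2 * φ x := by
    rw [← integral_const_mul]
    refine integral_congr_ae (Filter.Eventually.of_forall fun x => ?_)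
    show 3 * x ^ 2 * φ x = 3 * (x ^ 2 * φ x)
    ring
  rw [e4, e5, ← e1, ← e2, e3] at key
  linarith only [key]

lemma sphht2_c4 : Exist.c4 = 2 := by
  unfold Exist.c4 Exist.csq
  have e3 : ∫ x, x ^ 2 ∂(gaussianReal 0 1) = 1 := by
    have h := variance_id_gaussianReal (μ := 0) (v := 1)
    rw [variance_eq_integral (by fun_prop)] at h
    simpa only [id_eq, integral_id_gaussianReal, sub_zero, NNReal.coe_one] using h
  have e : ∀ x : ℝ, (x ^ 2 - 1) ^ 2 = x ^ 4 - 2 * x ^ 2 + 1 := fun x => by ring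
  simp_rw [e]
  have i4 := sphht2_int_pow 4
  have i2 := (sphht2_int_pow 2).const_mul 2
  have i42 : Integrable (fun x : ℝ => x ^ 4 - 2 * x ^ 2) (gaussianReal 0 1) := i4.sub i2
  rw [integral_add i42 (integrable_const _), integral_sub i4 i2, integral_const_mul,
    sphht2_int_four, e3]
  simp only [integral_const, probReal_univ, smul_eq_mul, one_mul]
  norm_num

/-! ### The norm of a Gaussian vector -/

lemma sphht2_dev_le (n : ℕ) (hn : 0 < n) (z : Ec n) :
    (√(n : ℝ) - ‖z‖) ^ 2 ≤ Exist.cn n z ^ 2 / n := by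
  have hn' : (0 : ℝ) < n := by exact_mod_cast hn
  unfold Exist.cn
  rw [le_div_iff₀ hn']
  have h1 : ‖z‖ ^ 2 - n = -((√(n : ℝ) - ‖z‖) * (√(n : ℝ) + ‖z‖)) := by
    have := Real.sq_sqrt hn'.le
    linarith only [this]
  rw [h1, neg_sq, mul_pow]
  refine mul_le_mul_of_nonneg_left ?_ (sq_nonneg _)
  have := Real.sq_sqrt hn'.le
  linarith only [h1, sq_nonneg ‖z‖, mul_nonneg (Real.sqrt_nonneg (n : ℝ)) (norm_nonneg z)]

lemma sphht2_dev_integrable (n : ℕ) (hn : 0 < n) :
    Integrable (fun z : Ec n => (√(n : ℝ) - ‖z‖) ^ 2) (stdGaussian (Ec n)) := by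
  refine ((Exist.memLp_cn n).integrable_sq.div_const (n : ℝ)).mono'
    (by fun_prop) (Filter.Eventually.of_forall fun z => ?_)
  rw [Real.norm_eq_abs, abs_of_nonneg (sq_nonneg _)]
  exact sphht2_dev_le n hn z

lemma sphht2_dev (n : ℕ) (hn : 0 < n) :
    ∫ z : Ec n, (√(n : ℝ) - ‖z‖) ^ 2 ∂(stdGaussian (Ec n)) ≤ 2 := by
  have hn' : (0 : ℝ) < n := by exact_mod_cast hn
  calc _ ≤ ∫ z : Ec n, Exist.cn n z ^ 2 / n ∂(stdGaussian (Ec n)) :=
        integral_mono (sphht2_dev_integrable n hn)
          ((Exist.memLp_cn n).integrable_sq.div_const (n : ℝ)) fun z => sphht2_dev_le n hn z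
    _ = 2 := by
        rw [integral_div, Exist.integral_cn_sq, sphht2_c4]
        field_simp

/-! ### The mean square of a normalized coordinate -/

/-- the square of the normalized coordinate in the direction `v` -/
noncomputable def sphht2_q {n : ℕ} (v : Ec n) (z : Ec n) : ℝ := (⟪z, v⟫ / ‖z‖) ^ 2

lemma sphht2_q_measurable {n : ℕ} (v : Ec n) : Measurable (sphht2_q v) := by
  unfold sphht2_q
  have h1 : Measurable fun z : Ec n => ⟪z, v⟫ := (continuous_id.inner continuous_const).measurable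
  exact (h1.div measurable_norm).pow_const 2

lemma sphht2_q_le {n : ℕ} {v : Ec n} (hv : ‖v‖ = 1) (z : Ec n) : sphht2_q v z ≤ 1 := by
  unfold sphht2_q
  have h := abs_real_inner_le_norm z v
  rw [hv, mul_one] at h
  rw [← sq_abs, abs_div, abs_of_nonneg (norm_nonneg z)]
  rcases eq_or_lt_of_le (norm_nonneg z) with h0 | h0
  · rw [← h0]
    simp only [div_zero, ne_eq, OfNat.ofNat_ne_zero, not_false_eq_true, zero_pow, zero_le_one]
  · have h1 : |⟪z, v⟫| / ‖z‖ ≤ 1 := by rw [div_le_one h0]; exact h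
    have h2 : 0 ≤ |⟪z, v⟫| / ‖z‖ := by (clear * - h0; positivity)
    nlinarith only [h1, h2]

lemma sphht2_q_integrable {n : ℕ} {v : Ec n} (hv : ‖v‖ = 1) :
    Integrable (sphht2_q v) (stdGaussian (Ec n)) := by
  refine (integrable_const (1 : ℝ)).mono' (sphht2_q_measurable v).aestronglyMeasurable
    (Filter.Eventually.of_forall fun z => ?_)
  rw [Real.norm_eq_abs, abs_of_nonneg (by unfold sphht2_q; (clear * -; positivity))]
  exact sphht2_q_le hv z

lemma sphht2_q_rot {n : ℕ} {v w : Ec n} (hv : ‖v‖ = 1) (hw : ‖w‖ = 1) :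
    ∫ z, sphht2_q v z ∂(stdGaussian (Ec n)) = ∫ z, sphht2_q w z ∂(stdGaussian (Ec n)) := by
  set O : Ec n ≃ₗᵢ[ℝ] Ec n := (ℝ ∙ (w - v))ᗮ.reflection with hO
  have hOv : O w = v := Submodule.reflection_sub (by rw [hv, hw])
  have hmap : (stdGaussian (Ec n)).map O = stdGaussian (Ec n) := stdGaussian_map O
  rw [← hmap, integral_map O.continuous.measurable.aemeasurable
    (sphht2_q_measurable v).aestronglyMeasurable, hmap]
  refine integral_congr_ae (Filter.Eventually.of_forall fun z => ?_)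
  unfold sphht2_q
  show (⟪O z, v⟫ / ‖O z‖) ^ 2 = _
  rw [← hOv, O.inner_map_map, O.norm_map]

lemma sphht2_ne_zero (n : ℕ) (hn : 0 < n) : ∀ᵐ z ∂(stdGaussian (Ec n)), z ≠ 0 := by
  have hn0 : Nonempty (Fin n) := ⟨⟨0, hn⟩⟩
  rw [← map_pi_eq_stdGaussian]
  rw [ae_map_iff (by (clear * -; fun_prop)) (by exact (measurableSet_singleton (0 : Ec n)).compl)]
  have h1 : ∀ᵐ x ∂(Measure.pi fun _ : Fin n => gaussianReal 0 1), x ⟨0, hn⟩ ≠ 0 := by
    have h2 : ∀ᵐ t ∂(gaussianReal 0 1), t ≠ (0 : ℝ) := by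
      have := nullSingletonClass_gaussianReal (μ := 0) (v := 1) one_ne_zero
      exact Measure.ae_ne _ 0
    exact (measurePreserving_eval (fun _ : Fin n => gaussianReal 0 1)
      ⟨0, hn⟩).quasiMeasurePreserving.ae h2
  filter_upwards [h1] with x hx h
  apply hx
  have := congrArg (fun z : Ec n => z ⟨0, hn⟩) h
  simpa only [PiLp.zero_apply] using this

lemma sphht2_q_mean {n : ℕ} (hn : 0 < n) {v : Ec n} (hv : ‖v‖ = 1) :
    ∫ z, sphht2_q v z ∂(stdGaussian (Ec n)) = 1 / n := by
  have hn' : (0 : ℝ) < n := by exact_mod_cast hn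
  set b : OrthonormalBasis (Fin n) ℝ (Ec n) := EuclideanSpace.basisFun (Fin n) ℝ with hb
  have hb1 : ∀ i, ‖b i‖ = 1 := fun i => b.orthonormal.1 i
  have hsum : ∑ i, ∫ z, sphht2_q (b i) z ∂(stdGaussian (Ec n)) = 1 := by
    rw [← integral_finsetSum _ fun i _ => sphht2_q_integrable (hb1 i)]
    have h1 : ∀ᵐ z ∂(stdGaussian (Ec n)), ∑ i, sphht2_q (b i) z = 1 := by
      filter_upwards [sphht2_ne_zero n hn] with z hz
      unfold sphht2_q
      simp_rw [div_pow]
      rw [← Finset.sum_div, b.sum_sq_inner_left]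
      exact div_self (by positivity)
    rw [integral_congr_ae h1]
    simp
  have h2 : ∀ i, ∫ z, sphht2_q (b i) z ∂(stdGaussian (Ec n)) =
      ∫ z, sphht2_q v z ∂(stdGaussian (Ec n)) := fun i => sphht2_q_rot (hb1 i) hv
  simp_rw [h2] at hsum
  rw [Finset.sum_const, Finset.card_univ, Fintype.card_fin, nsmul_eq_mul] at hsum
  field_simp
  linarith only [hsum]

/-! ### Replacing the norm by its typical value -/

lemma sphht2_key {n : ℕ} (hn : 0 < n) {v : Ec n} (hv : ‖v‖ = 1) :
    Integrable (fun z : Ec n => |√(n : ℝ) * (⟪z, v⟫ / ‖z‖) - ⟪z, v⟫|) (stdGaussian (Ec n)) ∧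
    ∫ z, |√(n : ℝ) * (⟪z, v⟫ / ‖z‖) - ⟪z, v⟫| ∂(stdGaussian (Ec n)) ≤ 2 / √(n : ℝ) := by
  have hn' : (0 : ℝ) < n := by exact_mod_cast hn
  have hs : 0 < √(n : ℝ) := Real.sqrt_pos.mpr hn'
  have hss := Real.sq_sqrt hn'.le
  have hpt : ∀ z : Ec n, |√(n : ℝ) * (⟪z, v⟫ / ‖z‖) - ⟪z, v⟫| ≤
      √(n : ℝ) / 2 * sphht2_q v z + 1 / (2 * √(n : ℝ)) * (√(n : ℝ) - ‖z‖) ^ 2 := by
    intro z
    have h1 : √(n : ℝ) * (⟪z, v⟫ / ‖z‖) - ⟪z, v⟫ = (⟪z, v⟫ / ‖z‖) * (√(n : ℝ) - ‖z‖) := by
      rcases eq_or_lt_of_le (norm_nonneg z) with h0 | h0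
      · have : z = 0 := norm_eq_zero.mp h0.symm
        rw [this]
        simp only [inner_zero_left, norm_zero, div_zero, mul_zero, sub_self, sub_zero, zero_mul]
      · (clear * - h0; field_simp)
    rw [h1]
    unfold sphht2_q
    set a := ⟪z, v⟫ / ‖z‖
    set c := √(n : ℝ) - ‖z‖
    set s := √(n : ℝ)
    have h2 : s / 2 * a ^ 2 + 1 / (2 * s) * c ^ 2 - a * c = 1 / (2 * s) * (s * a - c) ^ 2 := by
      field_simp
      ring
    have h3 : s / 2 * a ^ 2 + 1 / (2 * s) * c ^ 2 + a * c = 1 / (2 * s) * (s * a + c) ^ 2 := by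
      field_simp
      ring
    have h4 : 0 ≤ 1 / (2 * s) * (s * a - c) ^ 2 := by (clear * - hn; positivity)
    have h5 : 0 ≤ 1 / (2 * s) * (s * a + c) ^ 2 := by (clear * - hn; positivity)
    rw [abs_le]
    constructor <;> linarith only [h2, h4, h3, h5]
  have hR : Integrable (fun z : Ec n => √(n : ℝ) / 2 * sphht2_q v z +
      1 / (2 * √(n : ℝ)) * (√(n : ℝ) - ‖z‖) ^ 2) (stdGaussian (Ec n)) :=
    ((sphht2_q_integrable hv).const_mul _).add ((sphht2_dev_integrable n hn).const_mul _)
  have hm : Measurable fun z : Ec n => |√(n : ℝ) * (⟪z, v⟫ / ‖z‖) - ⟪z, v⟫| := by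
    have h1 : Measurable fun z : Ec n => ⟪z, v⟫ :=
      (continuous_id.inner continuous_const).measurable
    exact ((measurable_const.mul (h1.div measurable_norm)).sub h1).abs
  have hI : Integrable (fun z : Ec n => |√(n : ℝ) * (⟪z, v⟫ / ‖z‖) - ⟪z, v⟫|)
      (stdGaussian (Ec n)) := by
    refine hR.mono' hm.aestronglyMeasurable (Filter.Eventually.of_forall fun z => ?_)
    rw [Real.norm_eq_abs, abs_abs]
    exact hpt z
  refine ⟨hI, ?_⟩
  calc _ ≤ ∫ z : Ec n, (√(n : ℝ) / 2 * sphht2_q v z +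
      1 / (2 * √(n : ℝ)) * (√(n : ℝ) - ‖z‖) ^ 2) ∂(stdGaussian (Ec n)) :=
        integral_mono hI hR hpt
    _ = √(n : ℝ) / 2 * (1 / n) + 1 / (2 * √(n : ℝ)) *
          ∫ z : Ec n, (√(n : ℝ) - ‖z‖) ^ 2 ∂(stdGaussian (Ec n)) := by
        rw [integral_add ((sphht2_q_integrable hv).const_mul _)
          ((sphht2_dev_integrable n hn).const_mul _), integral_const_mul, integral_const_mul,
          sphht2_q_mean hn hv]
    _ ≤ √(n : ℝ) / 2 * (1 / n) + 1 / (2 * √(n : ℝ)) * 2 := by
        gcongr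
        exact sphht2_dev n hn
    _ ≤ 2 / √(n : ℝ) := by
        have h1 : √(n : ℝ) / 2 * (1 / n) = 1 / (2 * √(n : ℝ)) := by
          field_simp
          exact hss
        rw [h1]
        have h2 : 1 / (2 * √(n : ℝ)) + 1 / (2 * √(n : ℝ)) * 2 = (3 / 2) / √(n : ℝ) := by
          field_simp
          norm_num
        rw [h2]
        gcongr
        norm_num

/-- The rescaled height is close to a Gaussian variable. -/
theorem ht_window (d : ℕ) {W : ℝ → ℝ} {L : ℝ} (hL : 0 ≤ L) (hW : ∀ x y, |W x - W y| ≤ L * |x - y|)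
    (hWb : ∃ B, ∀ x, |W x| ≤ B) :
    |∫ t, W (√((d : ℝ) + 1) * t) ∂(ht d) - ∫ x, W x ∂(gaussianReal 0 1)| ≤
      2 * L / √((d : ℝ) + 1) := by
  have hWc : Continuous W := by
    have : LipschitzWith ⟨L, hL⟩ W := LipschitzWith.of_dist_le_mul fun x y => by
      rw [Real.dist_eq, Real.dist_eq]
      exact hW x y
    exact this.continuous
  obtain ⟨B, hB⟩ := hWb
  set v : Ec (d + 1) := EuclideanSpace.single (Fin.last d) (1 : ℝ) with hvdef
  have hv : ‖v‖ = 1 := by simp only [hvdef, PiLp.norm_single, norm_one]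
  have hin : ∀ z : Ec (d + 1), ⟪z, v⟫ = z (Fin.last d) := fun z => by
    rw [hvdef, EuclideanSpace.inner_single_right]
    simp
  obtain ⟨hI, hK⟩ := sphht2_key (Nat.succ_pos d) hv
  have hcast : ((d.succ : ℕ) : ℝ) = (d : ℝ) + 1 := by push_cast; ring
  rw [hcast] at hI hK
  simp_rw [hin] at hI hK
  have hcm : Measurable fun z : Ec (d + 1) => z (Fin.last d) := by fun_prop
  have hdir : Measurable fun z : Ec (d + 1) => (‖z‖)⁻¹ • z := by fun_prop
  -- the law of the height
  have h1 : ∫ t, W (√((d : ℝ) + 1) * t) ∂(ht d) =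
      ∫ z : Ec (d + 1), W (√((d : ℝ) + 1) * (z (Fin.last d) / ‖z‖)) ∂(stdGaussian _) := by
    unfold ht usp
    rw [integral_map hcm.aemeasurable (by
        exact (hWc.comp (continuous_const.mul continuous_id)).aestronglyMeasurable),
      integral_map hdir.aemeasurable (by
        exact ((hWc.measurable).comp (measurable_const.mul hcm)).aestronglyMeasurable)]
    refine integral_congr_ae (Filter.Eventually.of_forall fun z => ?_)
    show W (√((d : ℝ) + 1) * (((‖z‖)⁻¹ • z) (Fin.last d))) = _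
    congr 2
    rw [PiLp.smul_apply, smul_eq_mul]
    ring
  have h2 : ∫ x, W x ∂(gaussianReal 0 1) =
      ∫ z : Ec (d + 1), W (z (Fin.last d)) ∂(stdGaussian _) := by
    rw [← map_pi_eq_stdGaussian, integral_map (by (clear * -; fun_prop)) (by
      exact (hWc.measurable.comp hcm).aestronglyMeasurable)]
    have := integral_comp_eval (μ := fun _ : Fin (d + 1) => gaussianReal 0 1) (i := Fin.last d)
      (f := W) hWc.aestronglyMeasurable
    exact this.symm
  have i1 : Integrable (fun z : Ec (d + 1) => W (√((d : ℝ) + 1) * (z (Fin.last d) / ‖z‖)))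
      (stdGaussian _) := by
    refine (integrable_const B).mono' ?_ (Filter.Eventually.of_forall fun z => hB _)
    exact (hWc.measurable.comp (measurable_const.mul
      (hcm.div measurable_norm))).aestronglyMeasurable
  have i2 : Integrable (fun z : Ec (d + 1) => W (z (Fin.last d))) (stdGaussian _) := by
    refine (integrable_const B).mono' ?_ (Filter.Eventually.of_forall fun z => hB _)
    exact (hWc.measurable.comp hcm).aestronglyMeasurable
  rw [h1, h2, ← integral_sub i1 i2]
  refine (abs_integral_le_integral_abs).trans ?_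
  calc ∫ z : Ec (d + 1), |W (√((d : ℝ) + 1) * (z (Fin.last d) / ‖z‖)) - W (z (Fin.last d))|
        ∂(stdGaussian _)
      ≤ ∫ z : Ec (d + 1), L * |√((d : ℝ) + 1) * (z (Fin.last d) / ‖z‖) - z (Fin.last d)|
        ∂(stdGaussian _) :=
        integral_mono (i1.sub i2).abs (hI.const_mul L) fun z => hW _ _
    _ = L * ∫ z : Ec (d + 1), |√((d : ℝ) + 1) * (z (Fin.last d) / ‖z‖) - z (Fin.last d)|
        ∂(stdGaussian _) := integral_const_mul _ _
    _ ≤ L * (2 / √((d : ℝ) + 1)) := mul_le_mul_of_nonneg_left hK hL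
    _ = 2 * L / √((d : ℝ) + 1) := by ring

/-- The projection on a fixed unit vector of a Gaussian vector, with its norm replaced by the
square root of the dimension. -/
theorem unit_window (d : ℕ) [NeZero d] {v : Ec d} (hv : ‖v‖ = 1) :
    Integrable (fun ζ : Fin d → ℝ => |√(d : ℝ) * ((∑ i, ζ i * v i) / √(∑ i, ζ i ^ 2)) -
      ∑ i, ζ i * v i|) (gM (Fin d)) ∧
    ∫ ζ, |√(d : ℝ) * ((∑ i, ζ i * v i) / √(∑ i, ζ i ^ 2)) - ∑ i, ζ i * v i| ∂(gM (Fin d)) ≤
      2 / √(d : ℝ) := by
  obtain ⟨hI, hK⟩ := sphht2_key (Nat.pos_of_ne_zero (NeZero.ne d)) hv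
  have hm : Measurable fun z : Ec d => |√(d : ℝ) * (⟪z, v⟫ / ‖z‖) - ⟪z, v⟫| := by
    have h1 : Measurable fun z : Ec d => ⟪z, v⟫ :=
      (continuous_id.inner continuous_const).measurable
    exact ((measurable_const.mul (h1.div measurable_norm)).sub h1).abs
  have hin : ∀ ζ : Fin d → ℝ, ⟪(WithLp.toLp 2 ζ : Ec d), v⟫ = ∑ i, ζ i * v i := by
    intro ζ
    rw [PiLp.inner_apply]
    refine Finset.sum_congr rfl fun i _ => ?_
    simp [mul_comm]
  have hno : ∀ ζ : Fin d → ℝ, ‖(WithLp.toLp 2 ζ : Ec d)‖ = √(∑ i, ζ i ^ 2) := by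
    intro ζ
    rw [EuclideanSpace.norm_eq]
    simp only [Real.norm_eq_abs, sq_abs]
  have hT : Measurable (WithLp.toLp 2 : (Fin d → ℝ) → Ec d) := by fun_prop
  rw [← map_pi_eq_stdGaussian] at hI hK
  rw [integral_map hT.aemeasurable hm.aestronglyMeasurable] at hK
  have hI' := (integrable_map_measure hm.aestronglyMeasurable hT.aemeasurable).mp hI
  simp_rw [hin, hno] at hK
  refine ⟨?_, hK⟩
  refine hI'.congr (Filter.Eventually.of_forall fun ζ => ?_)
  show |√(d : ℝ) * (⟪(WithLp.toLp 2 ζ : Ec d), v⟫ / ‖(WithLp.toLp 2 ζ : Ec d)‖) -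
    ⟪(WithLp.toLp 2 ζ : Ec d), v⟫| = _
  rw [hin, hno]

end Vale.Agent.P157.Sph
end

section

/-! The additive constant in the window. -/

open MeasureTheory ProbabilityTheory Filter Topology

namespace Vale.Agent.P157.Sph

open Par

set_option linter.unusedSectionVars false
set_option linter.all false

/-- The exponential moment of the standard Gaussian. -/
theorem sphwin2_exp (t : ℝ) :
    ∫ z, Real.exp (t * z) ∂(gaussianReal 0 1) = Real.exp (t ^ 2 / 2) := by
  have h := congrFun (mgf_id_gaussianReal (μ := 0) (v := 1)) t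
  simp only [mgf, id, NNReal.coe_one, zero_mul, zero_add, one_mul] at h
  exact h

theorem sphwin2_cosh_eq (x v z : ℝ) : Real.cosh (x + √v * z) =
    Real.exp x / 2 * Real.exp (√v * z) + Real.exp (-x) / 2 * Real.exp (-√v * z) := by
  rw [Real.cosh_eq, neg_add, Real.exp_add, Real.exp_add, neg_mul]
  ring

theorem sphwin2_cosh_int (x v : ℝ) :
    Integrable (fun z => Real.cosh (x + √v * z)) (gaussianReal 0 1) := by
  have h : (fun z => Real.cosh (x + √v * z)) = fun z =>
    Real.exp x / 2 * Real.exp (√v * z) + Real.exp (-x) / 2 * Real.exp (-√v * z) :=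
    funext fun z => sphwin2_cosh_eq x v z
  rw [h]
  exact ((integrable_exp_mul_gaussianReal _).const_mul _).add
    ((integrable_exp_mul_gaussianReal _).const_mul _)

/-- The average of the hyperbolic cosine. -/
theorem sphwin2_cosh {v : ℝ} (hv : 0 ≤ v) (x : ℝ) :
    ∫ z, Real.cosh (x + √v * z) ∂(gaussianReal 0 1) = Real.exp (v / 2) * Real.cosh x := by
  have h : (fun z => Real.cosh (x + √v * z)) = fun z =>
    Real.exp x / 2 * Real.exp (√v * z) + Real.exp (-x) / 2 * Real.exp (-√v * z) :=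
    funext fun z => sphwin2_cosh_eq x v z
  rw [h, integral_add ((integrable_exp_mul_gaussianReal _).const_mul _)
    ((integrable_exp_mul_gaussianReal _).const_mul _), integral_const_mul, integral_const_mul,
    sphwin2_exp, sphwin2_exp, neg_sq, Real.sq_sqrt hv, Real.cosh_eq]
  ring

/-- Bounded measurable functions are integrable. -/
theorem sphwin2_int {F : ℝ → ℝ} (hF : Measurable F) {C : ℝ} (hC : ∀ x, |F x| ≤ C) :
    Integrable F (gaussianReal 0 1) :=
  Integrable.of_bound hF.aestronglyMeasurable C (Filter.Eventually.of_forall hC)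

/-- Gaussian averages preserve symmetric unimodality. -/
theorem sphwin2_uni {F : ℝ → ℝ} (hF : Measurable F) {C : ℝ} (hC : ∀ x, |F x| ≤ C)
    (ha : ∀ x y, |x| ≤ |y| → F y ≤ F x) {s : ℝ} (hs : 0 < s) {x y : ℝ} (hx : 0 ≤ x)
    (hxy : x ≤ y) :
    ∫ z, F (y + s * z) ∂(gaussianReal 0 1) ≤ ∫ z, F (x + s * z) ∂(gaussianReal 0 1) := by
  set φ : ℝ → ℝ := gaussianPDFReal 0 1 with hφ
  have hφe : ∀ z, φ (-z) = φ z := fun z => by
    simp only [hφ, gaussianPDFReal, NNReal.coe_one, mul_one, Nat.ofNat_nonneg, Real.sqrt_mul, mul_inv_rev, sub_zero, even_two, Even.neg_pow]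
  have hφi : Integrable φ volume := integrable_gaussianPDFReal 0 1
  have hφa : ∀ u w, |u| ≤ |w| → φ w ≤ φ u := fun u w h => by
    simp only [hφ, gaussianPDFReal, sub_zero]
    have h2 : u ^ 2 ≤ w ^ 2 := sq_le_sq.2 h
    have h3 : (0:ℝ) ≤ (√(2 * Real.pi * ((1 : NNReal) : ℝ)))⁻¹ := by positivity
    refine mul_le_mul_of_nonneg_left (Real.exp_le_exp.2 ?_) h3
    simp only [NNReal.coe_one]
    linarith only [h2]
  set c : ℝ := (x + y) / 2 with hc
  set δ : ℝ := (y - x) / (2 * s) with hδ
  have hδ0 : 0 ≤ δ := by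
    rw [hδ]; exact div_nonneg (by linarith only [hxy]) (by positivity)
  have hc0 : 0 ≤ c := by rw [hc]; linarith only [hx, hxy]
  have hsδ : s * δ = (y - x) / 2 := by rw [hδ]; (clear * - hs; field_simp)
  have hxc : x = c - s * δ := by rw [hsδ, hc]; ring
  have hyc : y = c + s * δ := by rw [hsδ, hc]; ring
  set H : ℝ → ℝ := fun z => F (c + s * z) with hH
  have hHm : Measurable H := hF.comp (by fun_prop)
  have hHb : ∀ z, ‖H z‖ ≤ C := fun z => hC _
  have e1 : ∫ z, F (x + s * z) ∂(gaussianReal 0 1) = ∫ z, H z * φ (z + δ) := by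
    rw [integral_gaussianReal_eq_integral_smul one_ne_zero]
    rw [← integral_add_right_eq_self (fun z => gaussianPDFReal 0 1 z • F (x + s * z)) δ]
    refine integral_congr_ae (Filter.Eventually.of_forall fun z => ?_)
    simp only [hH, smul_eq_mul]
    rw [mul_comm]
    congr 2
    rw [hxc]; ring
  have e2 : ∫ z, F (y + s * z) ∂(gaussianReal 0 1) = ∫ z, H z * φ (z - δ) := by
    rw [integral_gaussianReal_eq_integral_smul one_ne_zero]
    rw [← integral_add_right_eq_self (fun z => gaussianPDFReal 0 1 z • F (y + s * z)) (-δ)]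
    refine integral_congr_ae (Filter.Eventually.of_forall fun z => ?_)
    simp only [hH, smul_eq_mul, ← sub_eq_add_neg]
    rw [mul_comm]
    congr 2
    rw [hyc]; ring
  have e3 : ∫ z, H (-z) * φ (z - δ) = ∫ z, H z * φ (z + δ) := by
    rw [← integral_neg_eq_self (fun z => H z * φ (z + δ))]
    refine integral_congr_ae (Filter.Eventually.of_forall fun z => ?_)
    simp only
    rw [show -z + δ = -(z - δ) by ring, hφe]
  have e4 : ∫ z, H (-z) * φ (z + δ) = ∫ z, H z * φ (z - δ) := by
    rw [← integral_neg_eq_self (fun z => H z * φ (z - δ))]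
    refine integral_congr_ae (Filter.Eventually.of_forall fun z => ?_)
    simp only
    rw [show -z - δ = -(z + δ) by ring, hφe]
  have i1 : Integrable (fun z => φ (z + δ)) := hφi.comp_add_right δ
  have i2 : Integrable (fun z => φ (z - δ)) := hφi.comp_sub_right δ
  have j1 : Integrable (fun z => H z * φ (z + δ)) :=
    i1.bdd_mul hHm.aestronglyMeasurable (Filter.Eventually.of_forall hHb)
  have j2 : Integrable (fun z => H z * φ (z - δ)) :=
    i2.bdd_mul hHm.aestronglyMeasurable (Filter.Eventually.of_forall hHb)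
  have j3 : Integrable (fun z => H (-z) * φ (z + δ)) :=
    i1.bdd_mul (hHm.comp measurable_neg).aestronglyMeasurable
      (Filter.Eventually.of_forall fun z => hHb _)
  have j4 : Integrable (fun z => H (-z) * φ (z - δ)) :=
    i2.bdd_mul (hHm.comp measurable_neg).aestronglyMeasurable
      (Filter.Eventually.of_forall fun z => hHb _)
  have key : 0 ≤ ∫ z, ((H z * φ (z + δ) - H z * φ (z - δ)) -
      (H (-z) * φ (z + δ) - H (-z) * φ (z - δ))) := by
    refine integral_nonneg fun z => ?_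
    simp only [Pi.zero_apply]
    have e : (H z * φ (z + δ) - H z * φ (z - δ)) - (H (-z) * φ (z + δ) - H (-z) * φ (z - δ)) =
      (H z - H (-z)) * (φ (z + δ) - φ (z - δ)) := by ring
    rw [e]
    rcases le_total 0 z with hz | hz
    · refine mul_nonneg_of_nonpos_of_nonpos (sub_nonpos.2 ?_) (sub_nonpos.2 ?_)
      · refine ha _ _ (sq_le_sq.1 ?_)
        linarith only [mul_nonneg hc0 (mul_nonneg hs.le hz)]
      · refine hφa _ _ (sq_le_sq.1 ?_)
        linarith only [mul_nonneg hδ0 hz]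
    · refine mul_nonneg (sub_nonneg.2 ?_) (sub_nonneg.2 ?_)
      · refine ha _ _ (sq_le_sq.1 ?_)
        linarith only [mul_nonneg hc0 (mul_nonneg hs.le (neg_nonneg.2 hz))]
      · refine hφa _ _ (sq_le_sq.1 ?_)
        linarith only [mul_nonneg hδ0 (neg_nonneg.2 hz)]
  have j12 : Integrable (fun z => H z * φ (z + δ) - H z * φ (z - δ)) := j1.sub j2
  have j34 : Integrable (fun z => H (-z) * φ (z + δ) - H (-z) * φ (z - δ)) := j3.sub j4
  rw [integral_sub j12 j34, integral_sub j1 j2, integral_sub j3 j4, e3, e4] at key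
  rw [e1, e2]
  linarith only [key]

/-- The window of the even unimodal functions: the unimodality of the averages. -/
theorem sphwin2_uni' {F : ℝ → ℝ} (hF : Measurable F) {C : ℝ} (hC : ∀ x, |F x| ≤ C)
    (ha : ∀ x y, |x| ≤ |y| → F y ≤ F x) {s : ℝ} (hs : 0 ≤ s) {x y : ℝ} (hxy : |x| ≤ |y|) :
    ∫ z, F (y + s * z) ∂(gaussianReal 0 1) ≤ ∫ z, F (x + s * z) ∂(gaussianReal 0 1) := by
  rcases hs.eq_or_lt with rfl | hs
  · simp only [zero_mul, add_zero, integral_const, smul_eq_mul]
    exact mul_le_mul_of_nonneg_left (ha _ _ hxy) measureReal_nonneg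
  have hev : ∀ u, F (-u) = F u := fun u =>
    le_antisymm (ha _ _ (by simp)) (ha _ _ (by simp))
  have hneg : ∀ u, ∫ z, F (-u + s * z) ∂(gaussianReal 0 1) =
      ∫ z, F (u + s * z) ∂(gaussianReal 0 1) := by
    intro u
    have h1 : (gaussianReal 0 1).map (fun z : ℝ => -z) = gaussianReal 0 1 := by
      rw [gaussianReal_map_neg, neg_zero]
    conv_lhs => rw [← h1]
    have hm1 : Measurable fun z : ℝ => F (-u + s * z) := hF.comp (by fun_prop)
    rw [integral_map measurable_neg.aemeasurable hm1.aestronglyMeasurable]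
    refine integral_congr_ae (Filter.Eventually.of_forall fun z => ?_)
    simp only
    rw [← hev]
    congr 1
    ring
  have habs : ∀ u, ∫ z, F (|u| + s * z) ∂(gaussianReal 0 1) =
      ∫ z, F (u + s * z) ∂(gaussianReal 0 1) := by
    intro u
    rcases abs_choice u with h | h
    · rw [h]
    · rw [h, hneg]
  rw [← habs x, ← habs y]
  exact sphwin2_uni hF hC ha hs (abs_nonneg x) hxy

/-- The invariant of the comparison. -/
structure SphWin2Inv (K : ℝ) (U G : ℝ → ℝ) : Prop where
  K0 : 0 ≤ K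
  mU : Measurable U
  mG : Measurable G
  lo : ∃ c, ∀ x, c ≤ U x
  U0 : ∀ x, U x ≤ 0
  G0 : ∀ x, G x ≤ 0
  anti : ∀ x y, |x| ≤ |y| → U y ≤ U x
  le : ∀ x, U x ≤ G x + K * Real.cosh x

theorem sphwin2_meas {F : ℝ → ℝ} (hF : Measurable F) (m v : ℝ) : Measurable (gstep m v F) := by
  have h : StronglyMeasurable (Function.uncurry fun x z : ℝ => Real.exp (m * F (x + √v * z))) := by
    refine Measurable.stronglyMeasurable ?_
    exact Real.measurable_exp.comp ((hF.comp (by fun_prop)).const_mul m)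
  have h2 := h.integral_prod_right (ν := gaussianReal 0 1)
  exact (Real.measurable_log.comp h2.measurable).const_mul _

theorem sphwin2_exp_bd {F : ℝ → ℝ} (hF0 : ∀ x, F x ≤ 0) {m : ℝ} (hm : 0 < m) (x : ℝ) :
    |Real.exp (m * F x)| ≤ 1 := by
  rw [abs_of_pos (Real.exp_pos _), Real.exp_le_one_iff]
  exact mul_nonpos_of_nonneg_of_nonpos hm.le (hF0 x)

theorem sphwin2_exp_int {F : ℝ → ℝ} (hF : Measurable F) (hF0 : ∀ x, F x ≤ 0) {m : ℝ} (hm : 0 < m)
    (v x : ℝ) : Integrable (fun z => Real.exp (m * F (x + √v * z))) (gaussianReal 0 1) :=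
  sphwin2_int (F := fun z => Real.exp (m * F (x + √v * z)))
    (Real.measurable_exp.comp ((hF.comp (by fun_prop)).const_mul m))
    (fun z => sphwin2_exp_bd hF0 hm _)

theorem sphwin2_nonpos {F : ℝ → ℝ} (hF : Measurable F) (hF0 : ∀ x, F x ≤ 0) {m : ℝ} (hm : 0 < m)
    (v x : ℝ) : gstep m v F x ≤ 0 := by
  refine mul_nonpos_of_nonneg_of_nonpos (by positivity) ?_
  refine Real.log_nonpos (integral_nonneg fun z => (Real.exp_pos _).le) ?_
  have h := integral_mono (sphwin2_exp_int hF hF0 hm v x) (integrable_const (1:ℝ))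
    (fun z => (le_abs_self _).trans (sphwin2_exp_bd hF0 hm (x + √v * z)))
  simpa only [ge_iff_le, integral_const, probReal_univ, smul_eq_mul, mul_one] using h

/-- One step of the comparison. -/
theorem SphWin2Inv.step {K : ℝ} {U G : ℝ → ℝ} (h : SphWin2Inv K U G) {m v : ℝ} (hm : 0 < m)
    (hv : 0 ≤ v) : SphWin2Inv (K * Real.exp (v / 2)) (gstep m v U) (gstep m v G) := by
  obtain ⟨c, hc⟩ := h.lo
  have hlow : ∀ x, Real.exp (m * c) ≤ ∫ z, Real.exp (m * U (x + √v * z)) ∂(gaussianReal 0 1) := by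
    intro x
    have h1 := integral_mono (integrable_const (Real.exp (m * c)))
      (sphwin2_exp_int h.mU h.U0 hm v x)
      (fun z => Real.exp_le_exp.2 (mul_le_mul_of_nonneg_left (hc (x + √v * z)) hm.le))
    simpa only [ge_iff_le, integral_const, probReal_univ, smul_eq_mul, one_mul] using h1
  have hpos : ∀ x, 0 < ∫ z, Real.exp (m * U (x + √v * z)) ∂(gaussianReal 0 1) := fun x =>
    (Real.exp_pos _).trans_le (hlow x)
  refine ⟨mul_nonneg h.K0 (Real.exp_pos _).le, sphwin2_meas h.mU m v, sphwin2_meas h.mG m v,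
    ⟨c, fun x => ?_⟩, sphwin2_nonpos h.mU h.U0 hm v, sphwin2_nonpos h.mG h.G0 hm v,
    fun x y hxy => ?_, fun x => ?_⟩
  · have h1 := Real.log_le_log (Real.exp_pos _) (hlow x)
    rw [Real.log_exp] at h1
    unfold gstep
    rw [div_mul_eq_mul_div, le_div_iff₀ hm]
    linarith
  · refine mul_le_mul_of_nonneg_left (Real.log_le_log (hpos y) ?_) (by positivity)
    refine sphwin2_uni' (F := fun u => Real.exp (m * U u)) (C := 1)
      (Real.measurable_exp.comp (h.mU.const_mul m)) (fun u => sphwin2_exp_bd h.U0 hm u)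
      (fun u w huw => Real.exp_le_exp.2 (mul_le_mul_of_nonneg_left (h.anti u w huw) hm.le))
      (Real.sqrt_nonneg v) hxy
  · set T : ℝ := Real.exp (v / 2) * Real.cosh x with hT
    have hT1 : 1 ≤ T := by
      have h1 : (1:ℝ) ≤ Real.exp (v / 2) := Real.one_le_exp (by (clear * - hv; positivity))
      have h2 := Real.one_le_cosh x
      nlinarith only [h1, h2]
    set r : ℝ := Real.arcosh T with hr
    have hcr : Real.cosh r = T := Real.cosh_arcosh hT1
    set w : ℝ → ℝ := fun y => Real.exp (m * U y) with hw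
    have hwr : ∀ y, w y * (T - Real.cosh y) ≥ w r * (T - Real.cosh y) := by
      intro y
      rw [← hcr]
      rcases le_total |y| |r| with hy | hy
      · have h1 : Real.cosh y ≤ Real.cosh r := Real.cosh_le_cosh.2 hy
        exact mul_le_mul_of_nonneg_right
          (Real.exp_le_exp.2 (mul_le_mul_of_nonneg_left (h.anti _ _ hy) hm.le)) (by linarith only [h1])
      · have h1 : Real.cosh r ≤ Real.cosh y := Real.cosh_le_cosh.2 hy
        exact mul_le_mul_of_nonpos_right
          (Real.exp_le_exp.2 (mul_le_mul_of_nonneg_left (h.anti _ _ hy) hm.le)) (by linarith only [h1])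
    have hpt : ∀ y, Real.exp (-(m * K * T)) * (w y + m * K * (w r * (T - Real.cosh y))) ≤
        Real.exp (m * G y) := by
      intro y
      have h1 : w y * (m * K * T - m * K * Real.cosh y + 1) ≤
          w y * Real.exp (m * K * T - m * K * Real.cosh y) :=
        mul_le_mul_of_nonneg_left (Real.add_one_le_exp _) (Real.exp_pos _).le
      have h2 : w y * Real.exp (m * K * T - m * K * Real.cosh y) ≤
          Real.exp (m * G y) * Real.exp (m * K * T) := by
        rw [hw, ← Real.exp_add, ← Real.exp_add]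
        refine Real.exp_le_exp.2 ?_
        have h3 := mul_le_mul_of_nonneg_left (h.le y) hm.le
        linarith only [h3]
      have h4 := mul_le_mul_of_nonneg_left (hwr y) (mul_nonneg hm.le h.K0)
      have h5 : w y + m * K * (w r * (T - Real.cosh y)) ≤
          Real.exp (m * G y) * Real.exp (m * K * T) := by linarith only [h1, h2, h4]
      have h6 := mul_le_mul_of_nonneg_left h5 (Real.exp_pos (-(m * K * T))).le
      have h7 : Real.exp (-(m * K * T)) * (Real.exp (m * G y) * Real.exp (m * K * T)) =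
          Real.exp (m * G y) := by
        rw [mul_left_comm, ← Real.exp_add, neg_add_cancel, Real.exp_zero, mul_one]
      rwa [h7] at h6
    have iw : Integrable (fun z => w (x + √v * z)) (gaussianReal 0 1) :=
      sphwin2_exp_int h.mU h.U0 hm v x
    have ic := sphwin2_cosh_int x v
    have id1 : Integrable (fun z => T - Real.cosh (x + √v * z)) (gaussianReal 0 1) :=
      (integrable_const T).sub ic
    have hint := integral_mono
      (((iw.add ((id1.const_mul (w r)).const_mul (m * K))).const_mul (Real.exp (-(m * K * T)))))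
      (sphwin2_exp_int h.mG h.G0 hm v x) (fun z => hpt (x + √v * z))
    have hval : ∫ z, Real.exp (-(m * K * T)) * (w (x + √v * z) +
        m * K * (w r * (T - Real.cosh (x + √v * z)))) ∂(gaussianReal 0 1) =
        Real.exp (-(m * K * T)) * ∫ z, w (x + √v * z) ∂(gaussianReal 0 1) := by
      rw [integral_const_mul, integral_add iw ((id1.const_mul (w r)).const_mul (m * K)),
        integral_const_mul, integral_const_mul, integral_sub (integrable_const T) ic,
        sphwin2_cosh hv]
      simp [hT]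
    have hfin : Real.exp (-(m * K * T)) * ∫ z, w (x + √v * z) ∂(gaussianReal 0 1) ≤
        ∫ z, Real.exp (m * G (x + √v * z)) ∂(gaussianReal 0 1) := by
      rw [← hval]; exact hint
    have hlog := Real.log_le_log (mul_pos (Real.exp_pos _) (hpos x)) hfin
    rw [Real.log_mul (Real.exp_pos _).ne' (hpos x).ne', Real.log_exp] at hlog
    unfold gstep
    have e1 : K * Real.exp (v / 2) * Real.cosh x = 1 / m * (m * K * T) := by
      rw [hT]; field_simp
    rw [e1, ← mul_add]
    refine mul_le_mul_of_nonneg_left ?_ (by positivity)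
    linarith only [hlog]

/-- The comparison along the cascade. -/
theorem sphwin2_casc {m q : ℕ → ℝ} : ∀ (k : ℕ), (∀ l < k, 0 < m (l + 1)) →
    (∀ l < k, q l ≤ q (l + 1)) → ∀ {K : ℝ} {U G : ℝ → ℝ}, SphWin2Inv K U G →
    SphWin2Inv (K * Real.exp ((q k - q 0) / 2)) (cascade m q k U) (cascade m q k G) := by
  intro k
  induction k with
  | zero =>
    intro _ _ K U G h
    have e : cascade m q 0 U = U ∧ cascade m q 0 G = G := ⟨rfl, rfl⟩
    rw [e.1, e.2, sub_self, zero_div, Real.exp_zero, mul_one]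
    exact h
  | succ k ih =>
    intro hm hq K U G h
    rw [cascade_succ_def, cascade_succ_def]
    have h1 := ih (fun l hl => hm l (by omega)) (fun l hl => hq l (by omega))
      (h.step (hm k (by omega)) (sub_nonneg.2 (hq k (by omega))))
    have e : K * Real.exp ((q (k + 1) - q 0) / 2) =
        K * Real.exp ((q (k + 1) - q k) / 2) * Real.exp ((q k - q 0) / 2) := by
      rw [mul_assoc, ← Real.exp_add]
      congr 2
      ring
    rw [e]
    exact h1

/-- The bottom of the comparison. -/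
theorem SphWin2Inv.bottom {K : ℝ} {U G : ℝ → ℝ} (h : SphWin2Inv K U G) {v : ℝ} (hv : 0 ≤ v) :
    ∫ z, U (√v * z) ∂(gaussianReal 0 1) ≤
      ∫ z, G (√v * z) ∂(gaussianReal 0 1) + K * Real.exp (v / 2) := by
  obtain ⟨c, hc⟩ := h.lo
  have ic : Integrable (fun z => Real.cosh (√v * z)) (gaussianReal 0 1) := by
    simpa only [zero_add] using sphwin2_cosh_int 0 v
  have hcv : ∫ z, Real.cosh (√v * z) ∂(gaussianReal 0 1) = Real.exp (v / 2) := by
    simpa only [zero_add, Real.cosh_zero, mul_one] using sphwin2_cosh hv 0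
  have iU : Integrable (fun z => U (√v * z)) (gaussianReal 0 1) :=
    sphwin2_int (F := fun z => U (√v * z)) (h.mU.comp (by fun_prop)) (C := |c|) (fun z => by
      rw [abs_of_nonpos (h.U0 _)]
      have h1 := hc (√v * z)
      have h2 := neg_abs_le c
      linarith only [h1, h2])
  have iG : Integrable (fun z => G (√v * z)) (gaussianReal 0 1) := by
    refine Integrable.mono' ((integrable_const (-c)).add (ic.const_mul K))
      (h.mG.comp (by fun_prop)).aestronglyMeasurable (Filter.Eventually.of_forall fun z => ?_)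
    rw [Real.norm_eq_abs, abs_of_nonpos (h.G0 _)]
    simp only [Pi.add_apply]
    linarith only [hc (√v * z), h.le (√v * z)]
  have h1 := integral_mono iU (iG.add (ic.const_mul K)) (fun z => h.le (√v * z))
  have h2 : ∫ z, (G (√v * z) + K * Real.cosh (√v * z)) ∂(gaussianReal 0 1) =
      ∫ z, G (√v * z) ∂(gaussianReal 0 1) + K * Real.exp (v / 2) := by
    rw [integral_add iG (ic.const_mul K), integral_const_mul, hcv]
  rw [← h2]
  exact h1

/-- The comparison of the window with the Gaussian window. -/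
theorem sphwin2_init {τ K : ℝ} (hτ : 0 < τ) (hK : 0 < K) {a : ℝ} (ha : 0 < a)
    (ha0 : a ≤ K * Real.exp (-(6 / (K * τ ^ 4)))) (ha1 : a ≤ 1) :
    SphWin2Inv K (fun x => Real.log (win a τ x)) (fun x => -(x ^ 2 / (2 * τ ^ 2))) := by
  have hwa : ∀ x, a ≤ win a τ x := fun x => by
    unfold win
    have := mul_nonneg (sub_nonneg.2 ha1) (Real.exp_pos (-(x ^ 2 / (2 * τ ^ 2)))).le
    linarith only [this]
  have hg : ∀ x : ℝ, -(x ^ 2 / (2 * τ ^ 2)) ≤ 0 := fun x => by
    have : 0 ≤ x ^ 2 / (2 * τ ^ 2) := by positivity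
    linarith
  have hw1 : ∀ x, win a τ x ≤ 1 := fun x => by
    unfold win
    have h1 : Real.exp (-(x ^ 2 / (2 * τ ^ 2))) ≤ 1 := Real.exp_le_one_iff.2 (hg x)
    nlinarith only [ha1, h1]
  refine ⟨hK.le, ?_, by (clear * -; fun_prop), ⟨Real.log a, fun x => Real.log_le_log ha (hwa x)⟩,
    fun x => Real.log_nonpos (ha.le.trans (hwa x)) (hw1 x), hg, fun x y hxy => ?_, fun x => ?_⟩
  · unfold win
    fun_prop
  · refine Real.log_le_log (ha.trans_le (hwa y)) ?_
    unfold win
    have h1 : x ^ 2 ≤ y ^ 2 := sq_le_sq.2 hxy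
    have h2 : x ^ 2 / (2 * τ ^ 2) ≤ y ^ 2 / (2 * τ ^ 2) := by (clear * - h1 hτ; gcongr)
    have h3 : Real.exp (-(y ^ 2 / (2 * τ ^ 2))) ≤ Real.exp (-(x ^ 2 / (2 * τ ^ 2))) :=
      Real.exp_le_exp.2 (by linarith only [h2])
    nlinarith only [ha1, h3]
  · rw [← Real.log_exp (-(x ^ 2 / (2 * τ ^ 2)) + K * Real.cosh x)]
    refine Real.log_le_log (ha.trans_le (hwa x)) ?_
    set s : ℝ := x ^ 2 / (2 * τ ^ 2) with hs
    have hc4 : x ^ 4 / 48 ≤ Real.cosh x := by
      have h1 := Real.pow_div_factorial_le_exp |x| (abs_nonneg x) 4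
      have h2 : |x| ^ 4 = x ^ 4 := by
        rw [show (4:ℕ) = 2 * 2 by norm_num, pow_mul, pow_mul, sq_abs]
      have h3 : ((Nat.factorial 4 : ℕ) : ℝ) = 24 := by norm_num [Nat.factorial]
      rw [h2, h3] at h1
      have h4 : Real.exp |x| / 2 ≤ Real.cosh x := by
        rw [← Real.cosh_abs, Real.cosh_eq]
        have := Real.exp_pos (-|x|)
        linarith only [this]
      linarith only [h1, h4]
    have hc1 := Real.one_le_cosh x
    have hquad : s - 6 / (K * τ ^ 4) ≤ K * Real.cosh x / 2 := by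
      have h1 : K * (x ^ 4 / 48) ≤ K * Real.cosh x := mul_le_mul_of_nonneg_left hc4 hK.le
      have h2 : s ≤ K * (x ^ 4 / 48) / 2 + 6 / (K * τ ^ 4) := by
        rw [hs]
        have e : K * (x ^ 4 / 48) / 2 + 6 / (K * τ ^ 4) - x ^ 2 / (2 * τ ^ 2) =
            (K * x ^ 2 * τ ^ 2 - 24) ^ 2 / (96 * K * τ ^ 4) := by
          field_simp
          ring
        have h3 : 0 ≤ (K * x ^ 2 * τ ^ 2 - 24) ^ 2 / (96 * K * τ ^ 4) := by (clear * - hK hτ; positivity)
        linarith only [e, h3]
      linarith only [h1, h2]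
    have hexp : a * Real.exp s ≤ Real.exp (K * Real.cosh x) - 1 := by
      have h1 : a * Real.exp s ≤ K * Real.exp (K * Real.cosh x / 2) := by
        calc a * Real.exp s ≤ K * Real.exp (-(6 / (K * τ ^ 4))) * Real.exp s :=
              mul_le_mul_of_nonneg_right ha0 (Real.exp_pos _).le
          _ = K * Real.exp (s - 6 / (K * τ ^ 4)) := by
              rw [mul_assoc, ← Real.exp_add]; congr 2; ring
          _ ≤ K * Real.exp (K * Real.cosh x / 2) :=
              mul_le_mul_of_nonneg_left (Real.exp_le_exp.2 hquad) hK.le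
      set u : ℝ := K * Real.cosh x / 2 with hu
      have hu0 : 0 ≤ u := by positivity
      have hKu : K ≤ 2 * u := by rw [hu]; nlinarith only [hK, hc1]
      have h2 : 2 * u ≤ Real.exp u - Real.exp (-u) := by
        have h3 := Real.self_le_sinh_iff.2 hu0
        rw [Real.sinh_eq] at h3
        linarith only [h3]
      have h3 : Real.exp (K * Real.cosh x) - 1 = Real.exp u * (Real.exp u - Real.exp (-u)) := by
        rw [mul_sub, ← Real.exp_add, ← Real.exp_add, add_neg_cancel, Real.exp_zero]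
        congr 2
        rw [hu]; ring
      rw [h3]
      refine h1.trans ?_
      rw [mul_comm]
      exact mul_le_mul_of_nonneg_left (hKu.trans h2) (Real.exp_pos _).le
    have hE : Real.exp (-s + K * Real.cosh x) = Real.exp (-s) * Real.exp (K * Real.cosh x) :=
      Real.exp_add _ _
    rw [hE]
    have h5 : Real.exp (-s) * (1 + a * Real.exp s) ≤ Real.exp (-s) * Real.exp (K * Real.cosh x) :=
      mul_le_mul_of_nonneg_left (by linarith only [hexp]) (Real.exp_pos _).le
    have h6 : Real.exp (-s) * (1 + a * Real.exp s) = Real.exp (-s) + a := by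
      rw [mul_add, mul_left_comm, ← Real.exp_add, neg_add_cancel, Real.exp_zero]
      ring
    rw [h6] at h5
    have h7 : win a τ x ≤ Real.exp (-s) + a := by
      unfold win
      rw [← hs]
      have := mul_pos ha (Real.exp_pos (-s))
      linarith only [this]
    exact h7.trans h5

/-- The additive constant in the window costs little. -/
theorem patternPart_win_le {τ κ : ℝ} (hτ : 0 < τ) (hκ : 0 < κ) :
    ∃ a₀ : ℝ, 0 < a₀ ∧ ∀ a, 0 < a → a ≤ a₀ → a ≤ 1 → ∀ (k : ℕ) (m q : ℕ → ℝ), Exponents k m →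
      Path k q → q k ≤ 1 →
      patternPart (fun x => Real.log (win a τ x)) k m q ≤
        patternPart (fun x => -(x ^ 2 / (2 * τ ^ 2))) k m q + κ := by
  have hK : 0 < κ * Real.exp (-(1 / 2)) := mul_pos hκ (Real.exp_pos _)
  refine ⟨κ * Real.exp (-(1 / 2)) * Real.exp (-(6 / (κ * Real.exp (-(1 / 2)) * τ ^ 4))),
    mul_pos hK (Real.exp_pos _), fun a ha ha0 ha1 k m q hm hq hq1 => ?_⟩
  have h0 := sphwin2_init hτ hK ha ha0 ha1
  have hmpos : ∀ l ≤ k, 0 < m (l + 1) := by
    intro l hl
    induction l with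
    | zero => have := hm.2.2 0 (by omega); rw [hm.1] at this; exact this
    | succ l ih => exact (ih (by omega)).trans (hm.2.2 (l + 1) (by omega))
  have h1 := h0.step one_pos (sub_nonneg.2 hq1)
  have h2 := sphwin2_casc (m := m) (q := q) k (fun l hl => hmpos l (by omega)) hq.2 h1
  have h3 := h2.bottom hq.1
  have e : κ * Real.exp (-(1 / 2)) * Real.exp ((1 - q k) / 2) * Real.exp ((q k - q 0) / 2) *
      Real.exp (q 0 / 2) = κ := by
    rw [mul_assoc, mul_assoc, mul_assoc, ← Real.exp_add, ← Real.exp_add, ← Real.exp_add]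
    rw [show -(1 / 2) + ((1 - q k) / 2 + ((q k - q 0) / 2 + q 0 / 2)) = 0 by ring, Real.exp_zero,
      mul_one]
  rw [e] at h3
  have hs : ∀ f : ℝ → ℝ, gstep 1 (1 - q k) f = fun x => Real.log (∫ y,
      Real.exp (f (x + √(1 - q k) * y)) ∂(gaussianReal 0 1)) := by
    intro f
    funext x
    simp only [gstep, ne_eq, one_ne_zero, not_false_eq_true, div_self, one_mul]
  rw [hs, hs] at h3
  exact h3

end Vale.Agent.P157.Sph
end

section

/-! Evaluation of the increment for one more pattern, for general systems. -/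

open MeasureTheory ProbabilityTheory Filter Topology Finset

namespace Vale.Agent.P157.Sph

open Par

open Vale.Agent.P367.GT (gM)

set_option linter.unusedSectionVars false

/-- The increment for one more pattern. -/
theorem dM_lim {f : ℝ → ℝ} (hfm : Measurable f) {c₀ a : ℝ} (hc₀ : 0 < c₀) (ha : 0 < a)
    (hcb : ∃ W' W'', CB2 (fun x => Real.exp (f x) / c₀) W' W'')
    (hWa : ∀ x, a ≤ Real.exp (f x) / c₀) (hW1 : ∀ x, Real.exp (f x) / c₀ ≤ 1) :
    ∃ D : ℝ, 0 ≤ D ∧ ∀ (U : Ultrafilter ℕ) (S : ℕ → Sys) (k : ℕ) (b : Fin k → ℝ)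
      (w : Fin (k + 1) → ℝ) (q : ℕ → ℝ) (ε : ℝ), Mesh U S b w q ε → ∀ η > 0,
      ∀ᶠ j in (U : Filter ℕ), |(S j).dM f - patternPart f k (mOf w) q| ≤ D * ε + η := by
  obtain ⟨W', W'', hW⟩ := hcb
  obtain ⟨C1, hC1, hC1'⟩ := exists_SB hW
  set α := max (1 - a) (1 / 2) with hα
  have hα1 : α < 1 := max_lt (by linarith only [ha]) (by norm_num)
  have hα0 : 0 < α := lt_of_lt_of_le (by norm_num) (le_max_right _ _)
  refine ⟨Dl C1 α, tsum_nonneg fun n => by (clear * - hC1; positivity), ?_⟩
  intro U S k b w q ε hm η hη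
  have hker := kerClose_phi (q := q) hm.eps hm.off
  have h1 := trans_log hm.lim (m := mOf w) (v := incr (stop k q)) (incr_stop_nonneg hm.path)
    (fun l hl _ => mOf_pos hm.lim.wpos hl) (fun l => up_eq_mOf hm.lim.wsum l)
    (sub_nonneg.2 hm.le1) hm.eps hker hC1 ha (le_max_left (1 - a) (1 / 2)) hα0 hα1
    hC1' hWa hW1 η hη
  have h2 : patternPart f k (mOf w) q = Real.log c₀ +
      ∫ z, Real.log (lvW (mOf w) (incr (stop k q)) k
        (topW (1 - q k) (fun x => Real.exp (f x) / c₀)) 0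
        (√(incr (stop k q) 0) * z)) ∂(gaussianReal 0 1) := by
    rw [patternPart_congr f (mOf w) (q' := stop k q) (fun l hl => (stop_le hl).symm)]
    have h3 := patternPart_eq (m := mOf w) (q := stop k q) (k := k) (f := f)
      (fun l hl _ => mOf_pos hm.lim.wpos hl) hc₀ ha ⟨W', W'', hW⟩ hWa hW1
      (by rw [stop_le le_rfl]; exact hm.le1)
    rw [h3, stop_le le_rfl, ← topW_eq]
  filter_upwards [h1] with j hj
  -- the two forms of the increment
  generalize S j = S at hj ⊢
  have h3 : S.dM f = Real.log c₀ + ∫ z : S.Ω × (Fin S.d → ℝ), Real.log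
        (∑ x, S.w z.1 x * (Real.exp (f (lin (fun x i => S.φ x i) z.2 x)) / c₀))
          ∂(S.P.prod (gM (Fin S.d))) := by
    have h4 : ∀ z : S.Ω × (Fin S.d → ℝ), Real.log
        (∑ x, S.w z.1 x * Real.exp (f (∑ i, z.2 i * S.φ x i))) = Real.log c₀ + Real.log
        (∑ x, S.w z.1 x * (Real.exp (f (lin (fun x i => S.φ x i) z.2 x)) / c₀)) := by
      intro z
      have h5 : ∑ x, S.w z.1 x * Real.exp (f (∑ i, z.2 i * S.φ x i)) = c₀ *
          ∑ x, S.w z.1 x * (Real.exp (f (lin (fun x i => S.φ x i) z.2 x)) / c₀) := by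
        rw [Finset.mul_sum]
        refine Finset.sum_congr rfl fun x _ => ?_
        have h6 : lin (fun x i => S.φ x i) z.2 x = ∑ i, z.2 i * S.φ x i := by
          unfold lin
          exact Finset.sum_congr rfl fun i _ => mul_comm _ _
        have hc := hc₀.ne'
        rw [h6]
        (clear * - hc; field_simp)
      have h7 : 0 < ∑ x, S.w z.1 x * (Real.exp (f (lin (fun x i => S.φ x i) z.2 x)) / c₀) := by
        have h8 : a * ∑ x, S.w z.1 x ≤
            ∑ x, S.w z.1 x * (Real.exp (f (lin (fun x i => S.φ x i) z.2 x)) / c₀) := by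
          rw [Finset.mul_sum]
          refine Finset.sum_le_sum fun x _ => ?_
          rw [mul_comm a]
          exact mul_le_mul_of_nonneg_left (hWa _) (S.w0 _ _)
        rw [S.w1, mul_one] at h8
        exact ha.trans_le h8
      rw [h5, Real.log_mul hc₀.ne' h7.ne']
    unfold Sys.dM
    simp only [h4]
    have h9 : Integrable (fun z : S.Ω × (Fin S.d → ℝ) => Real.log
        (∑ x, S.w z.1 x * (Real.exp (f (lin (fun x i => S.φ x i) z.2 x)) / c₀)))
        (S.P.prod (gM (Fin S.d))) := by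
      have hmem : ∀ z : S.Ω × (Fin S.d → ℝ),
          a ≤ ∑ x, S.w z.1 x * (Real.exp (f (lin (fun x i => S.φ x i) z.2 x)) / c₀) ∧
          ∑ x, S.w z.1 x * (Real.exp (f (lin (fun x i => S.φ x i) z.2 x)) / c₀) ≤ 1 := by
        intro z
        constructor
        · calc a = ∑ x, S.w z.1 x * a := by rw [← Finset.sum_mul, S.w1, one_mul]
            _ ≤ _ := Finset.sum_le_sum fun x _ =>
              mul_le_mul_of_nonneg_left (hWa _) (S.w0 _ _)
        · calc _ ≤ ∑ x, S.w z.1 x * 1 := Finset.sum_le_sum fun x _ =>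
              mul_le_mul_of_nonneg_left (hW1 _) (S.w0 _ _)
            _ = 1 := by rw [← Finset.sum_mul, S.w1, one_mul]
      refine Integrable.of_bound (C := -Real.log a) ?_ (Eventually.of_forall fun z => ?_)
      · apply Measurable.aestronglyMeasurable
        apply Real.measurable_log.comp
        apply Finset.measurable_sum
        intro x _
        refine ((S.hw x).comp measurable_fst).mul ?_
        refine ((Real.measurable_exp.comp (hfm.comp ?_)).div_const _)
        unfold lin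
        fun_prop
      · rw [Real.norm_eq_abs, abs_le]
        obtain ⟨h10, h11⟩ := hmem z
        have h12 := Real.log_le_log ha h10
        have h13 := Real.log_nonpos (ha.le.trans h10) h11
        constructor
        · linarith only [h12]
        · linarith only [h12, h13]
    rw [integral_add (integrable_const _) h9]
    simp only [integral_const, probReal_univ, smul_eq_mul, one_mul]
  rw [h2, h3]
  have e1 : ∀ X Y Z : ℝ, X + Y - (X + Z) = Y - Z := fun X Y Z => by ring
  rw [e1]
  exact hj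

end Vale.Agent.P157.Sph
end

section

open MeasureTheory ProbabilityTheory Filter Topology

namespace Vale.Agent.P157

open Exist in
/-- `usphere` is the normalized surface measure of the sphere of radius `√N`. -/
theorem usphere_eq (n : ℕ) [NeZero n] : usphere n = sphere n := by
  have h1 : (stdGaussian (Euc n)).map (fun z => (dirn n z).1) = sphere n := by
    have h := congrArg (Measure.map Prod.fst) (map_dirn n)
    rw [Measure.map_map measurable_fst (measurable_dirn n), Measure.map_fst_prod, measure_univ,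
      one_smul] at h
    exact h
  rw [← h1, ← map_pi_eq_stdGaussian, Measure.map_map (measurable_dirn n).fst (by fun_prop)]
  unfold usphere
  congr 1
  ext g i
  simp only [dirn, EuclideanSpace.norm_eq, Real.norm_eq_abs, sq_abs, Function.comp_apply]

end Vale.Agent.P157
end
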