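import Vale.Agent.P157.Bdl.B8
import Vale.Agent.P157.Bdl.B4
import Vale.Agent.P157.Bdl.B5
import Vale.Agent.P157.Bdl.B3
import Vale.Agent.P157.Bdl.B12
import Vale.Agent.P157.Bdl.B11
import Vale.Agent.P157.Bdl.B9
attribute [-instance] ProperSMul.toContinuousSMul IsTopologicalTorsor.toContinuousSMul IdemSemiring.toCanonicallyOrderedAdd IdemSemiring.toMulLeftMono IdemSemiring.toMulRightMono AddQuantale.instAddLeftMono AddQuantale.instAddRightMono Quantale.instMulLeftMono Quantale.instMulRightMono FiniteDimensional.rclike_to_real IsScalarTower.complexToReal FiniteDimensional.complexToReal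

set_option linter.all false

section

/-! One step of the tilted chain on the line. -/

open MeasureTheory ProbabilityTheory Filter Topology Set

namespace Vale.Agent.P157.Par

theorem Ec.abs_M {F M D : ℝ → ℝ} (h : Ec F M D) (x : ℝ) : |M x| ≤ 1 := by
  have h1 := h.D0 x
  have h2 := h.D1 x
  exact (sq_le_one_iff_abs_le_one (M x)).1 (by linarith only [h1, h2])

theorem Ec.sm {F M D : ℝ → ℝ} (h : Ec F M D) : Sm 1 1 F M D :=
  ⟨h.d1, h.d2, h.cD, h.abs_M, fun x => by
    rw [abs_of_nonneg (h.D0 x)]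
    have := h.D1 x
    have := sq_nonneg (M x)
    linarith⟩

theorem Ec.odd {F M D : ℝ → ℝ} (h : Ec F M D) (x : ℝ) : M (-x) = -M x := by
  have h1 : HasDerivAt (fun x => F (-x)) (M (-x) * -1) x :=
    (h.d1 (-x)).comp x (hasDerivAt_neg x)
  have h2 : (fun x => F (-x)) = F := funext h.even
  rw [h2] at h1
  have := h1.unique (h.d1 x)
  (clear * - this; linarith)

theorem Ec.mono {F M D : ℝ → ℝ} (h : Ec F M D) : Monotone M :=
  monotone_of_hasDerivAt_nonneg h.d2 h.D0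

theorem ec_logcosh : Ec (fun x => Real.log (Real.cosh x)) Real.tanh
    (fun x => 1 - Real.tanh x ^ 2) := by
  have hd : ∀ x, HasDerivAt Real.tanh (1 - Real.tanh x ^ 2) x := by
    intro x
    have h1 := (Real.hasDerivAt_sinh x).div (Real.hasDerivAt_cosh x) (Real.cosh_pos x).ne'
    have h2 : (Real.sinh / Real.cosh : ℝ → ℝ) = Real.tanh := by
      funext y
      rw [Pi.div_apply, Real.tanh_eq_sinh_div_cosh]
    rw [h2] at h1
    refine h1.congr_deriv ?_
    rw [Real.tanh_eq_sinh_div_cosh]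
    have := (Real.cosh_pos x).ne'
    (clear * - this; field_simp)
  refine ⟨fun x => ?_, hd, ?_, fun x => by rw [Real.cosh_neg], fun x => ?_, fun x => ?_⟩
  · rw [Real.tanh_eq_sinh_div_cosh]
    exact (Real.hasDerivAt_cosh x).log (Real.cosh_pos x).ne'
  · have : Continuous Real.tanh := continuous_iff_continuousAt.2 fun x => (hd x).continuousAt
    (clear * - this; fun_prop)
  · have := (Real.tanh_sq_lt_one x).le
    linarith
  · linarith only []

theorem Sm.cont {L B : ℝ} {F M D : ℝ → ℝ} (h : Sm L B F M D) : Continuous F :=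
  continuous_iff_continuousAt.2 fun x => (h.d1 x).continuousAt

theorem Sm.cont1 {L B : ℝ} {F M D : ℝ → ℝ} (h : Sm L B F M D) : Continuous M :=
  continuous_iff_continuousAt.2 fun x => (h.d2 x).continuousAt

lemma Sm.L0 {L B : ℝ} {F M D : ℝ → ℝ} (h : Sm L B F M D) : 0 ≤ L :=
  (abs_nonneg _).trans (h.bM 0)

lemma Sm.lip {L B : ℝ} {F M D : ℝ → ℝ} (h : Sm L B F M D) (x y : ℝ) :
    |F x - F y| ≤ L * |x - y| := by
  have := convex_univ.norm_image_sub_le_of_norm_hasDerivWithin_le (f := F) (f' := M)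
    (s := Set.univ) (fun x _ => (h.d1 x).hasDerivWithinAt) (fun x _ => h.bM x)
    (mem_univ y) (mem_univ x)
  simpa only [Real.norm_eq_abs] using this

lemma Sm.lip1 {L B : ℝ} {F M D : ℝ → ℝ} (h : Sm L B F M D) : Lip1 F := ⟨L, h.L0, h.lip⟩

theorem Sm.integrable_exp {L B : ℝ} {F M D : ℝ → ℝ} (h : Sm L B F M D) (m v x : ℝ) :
    Integrable (fun z => Real.exp (m * F (x + √v * z))) (gaussianReal 0 1) :=
  h.lip1.integrable_exp m x (√v)

theorem Sm.int_exp_pos {L B : ℝ} {F M D : ℝ → ℝ} (h : Sm L B F M D) (m v x : ℝ) :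
    0 < ∫ z, Real.exp (m * F (x + √v * z)) ∂(gaussianReal 0 1) :=
  h.lip1.int_exp_pos m x (√v)

/-- Integrability of bounded functions times the exponential weight. -/
theorem Sm.integrable {L B : ℝ} {F M D : ℝ → ℝ} (h : Sm L B F M D) {g : ℝ → ℝ}
    (hg : Continuous g) {K : ℝ} (hK : ∀ x, |g x| ≤ K) (m v x : ℝ) :
    Integrable (fun z => g (x + √v * z) * Real.exp (m * F (x + √v * z))) (gaussianReal 0 1) := by
  have hF := h.cont
  refine ((h.integrable_exp m v x).const_mul K).mono'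
    (by fun_prop : Continuous fun z => g (x + √v * z) *
      Real.exp (m * F (x + √v * z))).aestronglyMeasurable (ae_of_all _ fun z => ?_)
  rw [norm_mul, Real.norm_eq_abs, Real.norm_eq_abs, abs_of_pos (Real.exp_pos _)]
  exact mul_le_mul_of_nonneg_right (hK _) (Real.exp_pos _).le

theorem Sm.tlt_const {L B : ℝ} {F M D : ℝ → ℝ} (h : Sm L B F M D) (m v c x : ℝ) :
    tlt m v F (fun _ => c) x = c := by
  unfold tlt
  rw [integral_const_mul]
  exact mul_div_cancel_right₀ _ (h.int_exp_pos m v x).ne'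

theorem Sm.tlt_add {L B : ℝ} {F M D : ℝ → ℝ} (h : Sm L B F M D) {g g' : ℝ → ℝ}
    (hg : Continuous g) {K : ℝ} (hK : ∀ x, |g x| ≤ K) (hg' : Continuous g') {K' : ℝ}
    (hK' : ∀ x, |g' x| ≤ K') (m v x : ℝ) :
    tlt m v F (fun y => g y + g' y) x = tlt m v F g x + tlt m v F g' x := by
  unfold tlt
  rw [← add_div, ← integral_add (h.integrable hg hK m v x) (h.integrable hg' hK' m v x)]
  congr 1
  refine integral_congr_ae (ae_of_all _ fun z => ?_)
  simp only []
  ring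

theorem tlt_const_mul (m v c : ℝ) (F g : ℝ → ℝ) (x : ℝ) :
    tlt m v F (fun y => c * g y) x = c * tlt m v F g x := by
  unfold tlt
  rw [← mul_div_assoc, ← integral_const_mul]
  congr 1
  refine integral_congr_ae (ae_of_all _ fun z => ?_)
  simp only []
  ring

theorem Sm.tlt_mono {L B : ℝ} {F M D : ℝ → ℝ} (h : Sm L B F M D) {g g' : ℝ → ℝ}
    (hg : Continuous g) {K : ℝ} (hK : ∀ x, |g x| ≤ K) (hg' : Continuous g') {K' : ℝ}
    (hK' : ∀ x, |g' x| ≤ K') (hle : ∀ x, g x ≤ g' x) (m v x : ℝ) :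
    tlt m v F g x ≤ tlt m v F g' x := by
  unfold tlt
  refine div_le_div_of_nonneg_right (integral_mono (h.integrable hg hK m v x)
    (h.integrable hg' hK' m v x) fun z => ?_) (h.int_exp_pos m v x).le
  exact mul_le_mul_of_nonneg_right (hle _) (Real.exp_pos _).le

theorem Sm.abs_tlt_le {L B : ℝ} {F M D : ℝ → ℝ} (h : Sm L B F M D) {g : ℝ → ℝ}
    (hg : Continuous g) {K : ℝ} (hK : ∀ x, |g x| ≤ K) (m v x : ℝ) :
    |tlt m v F g x| ≤ K := by
  have h1 := h.tlt_mono (g := g) (g' := fun _ => K) hg hK continuous_const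
    (K' := |K|) (fun _ => le_rfl) (fun y => (abs_le.1 (hK y)).2) m v x
  have h2 := h.tlt_mono (g := fun _ => -K) (g' := g) continuous_const
    (K := |K|) (fun _ => by rw [abs_neg]) hg hK (fun y => (abs_le.1 (hK y)).1) m v x
  rw [h.tlt_const] at h1 h2
  exact abs_le.2 ⟨h2, h1⟩

theorem Sm.tlt_sq_le {L B : ℝ} {F M D : ℝ → ℝ} (h : Sm L B F M D) {g : ℝ → ℝ}
    (hg : Continuous g) {K : ℝ} (hK : ∀ x, |g x| ≤ K) (m v x : ℝ) :
    tlt m v F g x ^ 2 ≤ tlt m v F (fun y => g y ^ 2) x := by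
  set w := tlt m v F g x with hw
  have hK2 : ∀ y, |g y ^ 2| ≤ K ^ 2 := fun y => by
    rw [abs_pow]
    exact pow_le_pow_left₀ (abs_nonneg _) (hK y) 2
  have hc : ∀ y, |2 * w * g y + -w ^ 2| ≤ |2 * w| * K + w ^ 2 := fun y => by
    refine (abs_add_le _ _).trans (add_le_add ?_ ?_)
    · rw [abs_mul]
      exact mul_le_mul_of_nonneg_left (hK y) (abs_nonneg _)
    · rw [abs_neg, abs_of_nonneg (sq_nonneg w)]
  have h1 := h.tlt_mono (g := fun y => 2 * w * g y + -w ^ 2) (g' := fun y => g y ^ 2)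
    (by (clear * - hg; fun_prop)) hc (by fun_prop) hK2 (fun y => by nlinarith only [sq_nonneg (g y - w)]) m v x
  rw [h.tlt_add (g := fun y => 2 * w * g y) (g' := fun _ => -w ^ 2) (by fun_prop)
    (K := |2 * w| * K) (fun y => by
      rw [abs_mul]; exact mul_le_mul_of_nonneg_left (hK y) (abs_nonneg _))
    continuous_const (K' := |-w ^ 2|) (fun _ => le_rfl), tlt_const_mul, h.tlt_const, ← hw] at h1
  linarith

/-- Local domination of the exponential weight. -/
lemma Sm.exp_le {L B : ℝ} {F M D : ℝ → ℝ} (h : Sm L B F M D) (m v x : ℝ) {y : ℝ}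
    (hy : |y - x| ≤ 1) (z : ℝ) : Real.exp (m * F (y + √v * z)) ≤
      Real.exp (|m| * (|F x| + L)) * Real.exp (|m| * (L * √v) * |z|) := by
  rw [← Real.exp_add, Real.exp_le_exp]
  have h1 : |F (y + √v * z)| ≤ |F x| + L * (1 + √v * |z|) := by
    have h2 := h.lip (y + √v * z) x
    have h3 : |y + √v * z - x| ≤ 1 + √v * |z| := by
      calc |y + √v * z - x| = |(y - x) + √v * z| := by ring_nf
        _ ≤ |y - x| + |√v * z| := abs_add_le _ _
        _ ≤ 1 + √v * |z| := by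
          rw [abs_mul, abs_of_nonneg (Real.sqrt_nonneg v)]
          linarith only [hy]
    have h4 := abs_sub_abs_le_abs_sub (F (y + √v * z)) (F x)
    have h5 := mul_le_mul_of_nonneg_left h3 h.L0
    linarith only [h2, h4, h5]
  calc m * F (y + √v * z) ≤ |m * F (y + √v * z)| := le_abs_self _
    _ = |m| * |F (y + √v * z)| := abs_mul _ _
    _ ≤ |m| * (|F x| + L * (1 + √v * |z|)) := mul_le_mul_of_nonneg_left h1 (abs_nonneg m)
    _ = _ := by ring

lemma Sm.num_cont {L B : ℝ} {F M D : ℝ → ℝ} (h : Sm L B F M D) {g : ℝ → ℝ}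
    (hg : Continuous g) {K : ℝ} (hK : ∀ x, |g x| ≤ K) (m v : ℝ) :
    Continuous fun x => ∫ z, g (x + √v * z) * Real.exp (m * F (x + √v * z))
      ∂(gaussianReal 0 1) := by
  have hF := h.cont
  rw [continuous_iff_continuousAt]
  intro x
  refine continuousAt_of_dominated (bound := fun z => K * (Real.exp (|m| * (|F x| + L)) *
    Real.exp (|m| * (L * √v) * |z|))) (Filter.Eventually.of_forall fun y =>
      (by fun_prop : Continuous fun z => g (y + √v * z) *
        Real.exp (m * F (y + √v * z))).aestronglyMeasurable) ?_ ?_ ?_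
  · have hnb : ∀ᶠ y in 𝓝 x, |y - x| ≤ 1 := by
      filter_upwards [Metric.closedBall_mem_nhds x one_pos] with y hy
      rwa [Metric.mem_closedBall, Real.dist_eq] at hy
    filter_upwards [hnb] with y hy
    refine ae_of_all _ fun z => ?_
    rw [norm_mul, Real.norm_eq_abs, Real.norm_eq_abs, abs_of_pos (Real.exp_pos _)]
    exact mul_le_mul (hK _) (h.exp_le m v x hy z) (Real.exp_pos _).le
      ((abs_nonneg _).trans (hK 0))
  · exact ((integrable_exp_abs _).const_mul _).const_mul K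
  · refine ae_of_all _ fun z => ?_
    exact (by fun_prop : Continuous fun y => g (y + √v * z) *
      Real.exp (m * F (y + √v * z))).continuousAt

theorem Sm.tlt_cont {L B : ℝ} {F M D : ℝ → ℝ} (h : Sm L B F M D) {g : ℝ → ℝ}
    (hg : Continuous g) {K : ℝ} (hK : ∀ x, |g x| ≤ K) (m v : ℝ) :
    Continuous (tlt m v F g) := by
  have h1 := h.num_cont hg hK m v
  have h2 := h.num_cont (g := fun _ => 1) continuous_const (K := 1) (fun _ => by simp) m v
  simp only [one_mul] at h2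
  exact h1.div h2 fun x => (h.int_exp_pos m v x).ne'

/-- The derivative of the numerators. -/
lemma Sm.num_deriv {L B : ℝ} {F M D : ℝ → ℝ} (h : Sm L B F M D) {g g' : ℝ → ℝ}
    (hg : ∀ x, HasDerivAt g (g' x) x) {K : ℝ} (hK : ∀ x, |g x| ≤ K) (hc : Continuous g')
    {K' : ℝ} (hK' : ∀ x, |g' x| ≤ K') (m v x : ℝ) :
    HasDerivAt (fun x => ∫ z, g (x + √v * z) * Real.exp (m * F (x + √v * z))
      ∂(gaussianReal 0 1))
      (∫ z, (fun y => g' y + m * M y * g y) (x + √v * z) * Real.exp (m * F (x + √v * z))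
        ∂(gaussianReal 0 1)) x := by
  have hF := h.cont
  have hM := h.cont1
  have hgc : Continuous g := continuous_iff_continuousAt.2 fun x => (hg x).continuousAt
  have hK0 : 0 ≤ K := (abs_nonneg _).trans (hK 0)
  have hK0' : 0 ≤ K' := (abs_nonneg _).trans (hK' 0)
  have hb : ∀ y, |g' y + m * M y * g y| ≤ K' + |m| * L * K := fun y => by
    refine (abs_add_le _ _).trans (add_le_add (hK' y) ?_)
    rw [abs_mul, abs_mul]
    exact mul_le_mul (mul_le_mul_of_nonneg_left (h.bM y) (abs_nonneg _)) (hK y) (abs_nonneg _)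
      (mul_nonneg (abs_nonneg _) h.L0)
  refine (hasDerivAt_integral_of_dominated_loc_of_deriv_le
    (s := Metric.closedBall x 1) (μ := gaussianReal 0 1)
    (F := fun y z => g (y + √v * z) * Real.exp (m * F (y + √v * z)))
    (F' := fun y z => (g' (y + √v * z) + m * M (y + √v * z) * g (y + √v * z)) *
      Real.exp (m * F (y + √v * z)))
    (bound := fun z => (K' + |m| * L * K) * (Real.exp (|m| * (|F x| + L)) *
      Real.exp (|m| * (L * √v) * |z|)))
    (Metric.closedBall_mem_nhds x one_pos)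
    (Filter.Eventually.of_forall fun y => (by fun_prop : Continuous fun z => g (y + √v * z) *
        Real.exp (m * F (y + √v * z))).aestronglyMeasurable)
    (h.integrable hgc hK m v x)
    (by fun_prop : Continuous fun z => (g' (x + √v * z) + m * M (x + √v * z) *
      g (x + √v * z)) * Real.exp (m * F (x + √v * z))).aestronglyMeasurable
    (ae_of_all _ fun z y hy => ?_)
    (((integrable_exp_abs _).const_mul _).const_mul _)
    (ae_of_all _ fun z y hy => ?_)).2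
  · rw [Metric.mem_closedBall, Real.dist_eq] at hy
    rw [norm_mul, Real.norm_eq_abs, Real.norm_eq_abs, abs_of_pos (Real.exp_pos _)]
    exact mul_le_mul (hb _) (h.exp_le m v x hy z) (Real.exp_pos _).le
      (add_nonneg hK0' (mul_nonneg (mul_nonneg (abs_nonneg _) h.L0) hK0))
  · have h1 : HasDerivAt (fun y => y + √v * z) 1 y := (hasDerivAt_id y).add_const _
    have h2 : HasDerivAt (fun y => g (y + √v * z)) (g' (y + √v * z) * 1) y :=
      (hg (y + √v * z)).comp y h1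
    have h3 : HasDerivAt (fun y => F (y + √v * z)) (M (y + √v * z) * 1) y :=
      (h.d1 (y + √v * z)).comp y h1
    refine (h2.fun_mul ((h3.const_mul m).exp)).congr_deriv ?_
    ring

/-- The derivative of the tilted averages. -/
lemma Sm.tlt_deriv {L B : ℝ} {F M D : ℝ → ℝ} (h : Sm L B F M D) {g g' : ℝ → ℝ}
    (hg : ∀ x, HasDerivAt g (g' x) x) {K : ℝ} (hK : ∀ x, |g x| ≤ K) (hc : Continuous g')
    {K' : ℝ} (hK' : ∀ x, |g' x| ≤ K') (m v x : ℝ) :
    HasDerivAt (tlt m v F g)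
      (tlt m v F (fun y => g' y + m * M y * g y) x - tlt m v F g x * (m * tlt m v F M x)) x := by
  have h1 := h.num_deriv hg hK hc hK' m v x
  have h2 := h.num_deriv (g := fun _ => 1) (g' := fun _ => 0) (fun x => hasDerivAt_const x 1)
    (K := 1) (fun _ => by simp) continuous_const (K' := 0) (fun _ => by simp) m v x
  simp only [one_mul, zero_add, mul_one] at h2
  have hZ := (h.int_exp_pos m v x).ne'
  have h4 : (∫ z, m * M (x + √v * z) * Real.exp (m * F (x + √v * z)) ∂(gaussianReal 0 1)) =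
      m * ∫ z, M (x + √v * z) * Real.exp (m * F (x + √v * z)) ∂(gaussianReal 0 1) := by
    rw [← integral_const_mul]
    refine integral_congr_ae (ae_of_all _ fun z => ?_)
    simp only []
    ring
  rw [h4] at h2
  have h3 := h1.fun_div h2 hZ
  refine h3.congr_deriv ?_
  unfold tlt
  field_simp

theorem Sm.step {L B : ℝ} {F M D : ℝ → ℝ} (h : Sm L B F M D) {m : ℝ} (hm : 0 < m) (v : ℝ) :
    Sm L (B + m * L ^ 2) (gstep m v F) (tlt m v F M)
      (fun x => tlt m v F (fun y => D y + m * M y ^ 2) x - m * tlt m v F M x ^ 2) := by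
  have hM := h.cont1
  have hD := h.cD
  have hL := h.L0
  have hM2 : ∀ y, |M y ^ 2| ≤ L ^ 2 := fun y => by
    rw [abs_pow]
    exact pow_le_pow_left₀ (abs_nonneg _) (h.bM y) 2
  have hmM2 : ∀ y, |m * M y ^ 2| ≤ m * L ^ 2 := fun y => by
    rw [abs_mul, abs_of_pos hm]
    exact mul_le_mul_of_nonneg_left (hM2 y) hm.le
  refine ⟨fun x => ?_, fun x => ?_, ?_, h.abs_tlt_le hM h.bM m v, fun x => ?_⟩
  · have h2 := h.num_deriv (g := fun _ => 1) (g' := fun _ => 0) (fun x => hasDerivAt_const x 1)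
      (K := 1) (fun _ => by simp) continuous_const (K' := 0) (fun _ => by simp) m v x
    simp only [one_mul, zero_add, mul_one] at h2
    have h4 : (∫ z, m * M (x + √v * z) * Real.exp (m * F (x + √v * z)) ∂(gaussianReal 0 1)) =
        m * ∫ z, M (x + √v * z) * Real.exp (m * F (x + √v * z)) ∂(gaussianReal 0 1) := by
      rw [← integral_const_mul]
      refine integral_congr_ae (ae_of_all _ fun z => ?_)
      simp only []
      ring
    rw [h4] at h2
    have h3 := (h2.log (h.int_exp_pos m v x).ne').const_mul (1 / m)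
    have hZ := (h.int_exp_pos m v x).ne'
    refine h3.congr_deriv ?_
    unfold tlt
    field_simp
  · refine (h.tlt_deriv h.d2 h.bM hD h.bD m v x).congr_deriv ?_
    have e : (fun y => D y + m * M y ^ 2) = fun y => D y + m * M y * M y := by
      funext y; ring
    rw [e]
    ring
  · have h1 := h.tlt_cont (g := fun y => D y + m * M y ^ 2) (by fun_prop) (K := B + m * L ^ 2)
      (fun y => (abs_add_le _ _).trans (add_le_add (h.bD y) (hmM2 y))) m v
    have h2 := h.tlt_cont hM h.bM m v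
    fun_prop
  · have e : tlt m v F (fun y => D y + m * M y ^ 2) x =
        tlt m v F D x + m * tlt m v F (fun y => M y ^ 2) x := by
      rw [h.tlt_add hD h.bD (g' := fun y => m * M y ^ 2) (by fun_prop) hmM2, tlt_const_mul]
    rw [e]
    have h1 := h.tlt_sq_le hM h.bM m v x
    have h2 := abs_le.1 (h.abs_tlt_le hD h.bD m v x)
    have h3 := abs_le.1 (h.abs_tlt_le (g := fun y => M y ^ 2) (by fun_prop) hM2 m v x)
    have h4 := sq_nonneg (tlt m v F M x)
    rw [abs_le]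
    constructor
    · nlinarith only [h2, h1, hm]
    · nlinarith only [h2, h3, hm]

lemma integral_gauss_neg (g : ℝ → ℝ) :
    ∫ z, g (-z) ∂(gaussianReal 0 1) = ∫ z, g z ∂(gaussianReal 0 1) := by
  have h : (gaussianReal 0 1).map (fun z : ℝ => -z) = gaussianReal 0 1 := by
    have := gaussianReal_map_neg (μ := 0) (v := 1)
    simpa only [neg_zero] using this
  conv_rhs => rw [← h]
  exact (integral_map_equiv (MeasurableEquiv.neg ℝ) g).symm

lemma gstep_even {F : ℝ → ℝ} (hF : ∀ x, F (-x) = F x) (m v x : ℝ) :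
    gstep m v F (-x) = gstep m v F x := by
  unfold gstep
  rw [← integral_gauss_neg]
  congr 2
  refine integral_congr_ae (ae_of_all _ fun z => ?_)
  simp only []
  rw [← hF (x + √v * z)]
  congr 3
  ring

theorem Ec.step {F M D : ℝ → ℝ} (h : Ec F M D) {m : ℝ} (hm : 0 < m) (hm1 : m ≤ 1) (v : ℝ) :
    Ec (gstep m v F) (tlt m v F M)
      (fun x => tlt m v F (fun y => D y + m * M y ^ 2) x - m * tlt m v F M x ^ 2) := by
  have hs := h.sm
  have hst := hs.step hm v
  have hM := hs.cont1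
  have hD := h.cD
  have hM2 : ∀ y, |M y ^ 2| ≤ 1 := fun y => by
    rw [abs_pow]
    exact pow_le_one₀ (abs_nonneg _) (h.abs_M y)
  have hmM2 : ∀ y, |m * M y ^ 2| ≤ m * 1 := fun y => by
    rw [abs_mul, abs_of_pos hm]
    exact mul_le_mul_of_nonneg_left (hM2 y) hm.le
  have e : ∀ x, tlt m v F (fun y => D y + m * M y ^ 2) x =
      tlt m v F D x + m * tlt m v F (fun y => M y ^ 2) x := fun x => by
    rw [hs.tlt_add hD hs.bD (g' := fun y => m * M y ^ 2) (by fun_prop) hmM2, tlt_const_mul]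
  have h0 : ∀ x, 0 ≤ tlt m v F D x := fun x => by
    have := hs.tlt_mono (g := fun _ => 0) (g' := D) continuous_const (K := 0) (fun _ => by simp)
      hD hs.bD h.D0 m v x
    rwa [hs.tlt_const] at this
  refine ⟨hst.d1, hst.d2, hst.cD, gstep_even h.even m v, fun x => ?_, fun x => ?_⟩
  · rw [e]
    have h1 := hs.tlt_sq_le hM hs.bM m v x
    have h2 := h0 x
    have h3 := mul_le_mul_of_nonneg_left h1 hm.le
    linarith only [h2, h3]
  · rw [e]
    have h1 := hs.tlt_sq_le hM hs.bM m v x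
    have h2 : tlt m v F D x + tlt m v F (fun y => M y ^ 2) x ≤ 1 := by
      rw [← hs.tlt_add hD hs.bD (g' := fun y => M y ^ 2) (by fun_prop) hM2]
      have := hs.tlt_mono (g := fun y => D y + M y ^ 2) (g' := fun _ => 1) (by fun_prop) (K := 2)
        (fun y => by
          rw [abs_of_nonneg (add_nonneg (h.D0 y) (sq_nonneg _))]
          linarith only [h.D1 y]) continuous_const (K' := 1) (fun _ => by simp) h.D1 m v x
      rwa [hs.tlt_const] at this
    have h3 := mul_le_mul_of_nonneg_left h1 (sub_nonneg.2 hm1)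
    linarith

end Vale.Agent.P157.Par
end

section

/-! SP2: derivative in the parameter of a family of log-weights. -/

open MeasureTheory ProbabilityTheory Filter Topology Set

namespace Vale.Agent.P157.Par

/-! ### exponential bounds -/

theorem sp2_integrable_exp_abs (c : ℝ) :
    Integrable (fun z => Real.exp (c * |z|)) (gaussianReal 0 1) :=
  integrable_exp_mul_abs (X := fun z : ℝ => z) (integrable_exp_mul_gaussianReal c)
    (integrable_exp_mul_gaussianReal (-c))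

theorem sp2_abs_le_exp (z : ℝ) : |z| ≤ Real.exp |z| := by
  have := Real.add_one_le_exp |z|
  linarith

theorem sp2_integrable_abs_mul_exp (c : ℝ) :
    Integrable (fun z => |z| * Real.exp (c * |z|)) (gaussianReal 0 1) := by
  refine (sp2_integrable_exp_abs (1 + c)).mono' (by (clear * -; fun_prop)) (Eventually.of_forall fun z => ?_)
  rw [Real.norm_eq_abs, abs_of_nonneg (mul_nonneg (abs_nonneg _) (Real.exp_pos _).le), add_mul,
    one_mul, Real.exp_add]
  exact mul_le_mul_of_nonneg_right (sp2_abs_le_exp z) (Real.exp_pos _).le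

/-- exponential bound, uniform for parameters in `S`. -/
def sp2_EB (S : Set ℝ) (G : ℝ → ℝ → ℝ) : Prop :=
  ∃ C c : ℝ, 0 ≤ C ∧ 0 ≤ c ∧ ∀ s ∈ S, ∀ x, |G s x| ≤ C * Real.exp (c * |x|)

theorem sp2_EB_of_bdd {S : Set ℝ} {G : ℝ → ℝ → ℝ} {B : ℝ} (h : ∀ s ∈ S, ∀ x, |G s x| ≤ B) :
    sp2_EB S G :=
  ⟨|B|, 0, abs_nonneg _, le_rfl, fun s hs x => by simpa only [zero_mul, Real.exp_zero, mul_one] using (h s hs x).trans (le_abs_self B)⟩

theorem sp2_EB.mono {S S' : Set ℝ} {G : ℝ → ℝ → ℝ} (h : sp2_EB S G) (hs : S' ⊆ S) :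
    sp2_EB S' G := by
  obtain ⟨C, c, hC, hc, h⟩ := h
  exact ⟨C, c, hC, hc, fun s hs' x => h s (hs hs') x⟩

theorem sp2_EB.mul {S : Set ℝ} {G H : ℝ → ℝ → ℝ} (hG : sp2_EB S G) (hH : sp2_EB S H) :
    sp2_EB S (fun s x => G s x * H s x) := by
  obtain ⟨C, c, hC, hc, h⟩ := hG
  obtain ⟨D, d, hD, hd, h'⟩ := hH
  refine ⟨C * D, c + d, by (clear * - hC hD; positivity), by (clear * - hc hd; positivity), fun s hs x => ?_⟩
  calc |G s x * H s x| = |G s x| * |H s x| := abs_mul _ _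
    _ ≤ (C * Real.exp (c * |x|)) * (D * Real.exp (d * |x|)) :=
        mul_le_mul (h s hs x) (h' s hs x) (abs_nonneg _) (by (clear * - hC; positivity))
    _ = C * D * Real.exp ((c + d) * |x|) := by rw [add_mul, Real.exp_add]; ring

theorem sp2_sqrt_le {a b s : ℝ} (hs : s ∈ Icc a b) (v₀ d : ℝ) :
    √(v₀ + s * d) ≤ √(|v₀| + (|a| + |b|) * |d|) := by
  apply Real.sqrt_le_sqrt
  have h1 : |s| ≤ |a| + |b| := by
    rcases le_total 0 s with h | h
    · rw [abs_of_nonneg h]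
      linarith only [hs.2, le_abs_self b, abs_nonneg a]
    · rw [abs_of_nonpos h]
      linarith only [hs.1, neg_abs_le a, abs_nonneg b]
  have h2 : s * d ≤ |s| * |d| := by rw [← abs_mul]; exact le_abs_self _
  have h3 : |s| * |d| ≤ (|a| + |b|) * |d| := mul_le_mul_of_nonneg_right h1 (abs_nonneg _)
  linarith only [h2, h3, le_abs_self v₀]

/-- the pointwise bound along a Gaussian line. -/
theorem sp2_bound {a b C c : ℝ} {S : Set ℝ} (hS : S ⊆ Icc a b) {G : ℝ → ℝ → ℝ} (hC : 0 ≤ C)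
    (hc : 0 ≤ c) (h : ∀ s ∈ S, ∀ x, |G s x| ≤ C * Real.exp (c * |x|)) (v₀ d : ℝ) {s x R : ℝ}
    (hs : s ∈ S) (hx : |x| ≤ R) (z : ℝ) :
    |G s (x + √(v₀ + s * d) * z)| ≤
      C * Real.exp (c * R) * Real.exp (c * √(|v₀| + (|a| + |b|) * |d|) * |z|) := by
  refine (h s hs _).trans ?_
  rw [mul_assoc, ← Real.exp_add]
  refine mul_le_mul_of_nonneg_left (Real.exp_le_exp.2 ?_) hC
  have h1 : |x + √(v₀ + s * d) * z| ≤ R + √(|v₀| + (|a| + |b|) * |d|) * |z| := by
    refine (abs_add_le _ _).trans (add_le_add hx ?_)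
    rw [abs_mul, abs_of_nonneg (Real.sqrt_nonneg _)]
    exact mul_le_mul_of_nonneg_right (sp2_sqrt_le (hS hs) v₀ d) (abs_nonneg _)
  calc c * |x + √(v₀ + s * d) * z| ≤ c * (R + √(|v₀| + (|a| + |b|) * |d|) * |z|) :=
        mul_le_mul_of_nonneg_left h1 hc
    _ = _ := by ring

theorem sp2_slice {S : Set ℝ} {G : ℝ → ℝ → ℝ}
    (hG : ContinuousOn (fun p : ℝ × ℝ => G p.1 p.2) (S ×ˢ univ)) {s : ℝ} (hs : s ∈ S) :
    Continuous (G s) := by
  have h1 : ContinuousOn (fun y : ℝ => (s, y)) univ := by fun_prop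
  have h2 := hG.comp h1 (fun y _ => ⟨hs, mem_univ _⟩)
  exact continuousOn_univ.1 h2

/-- Continuity of Gaussian averages. -/
theorem sp2_cont {a b : ℝ} {S : Set ℝ} (hS : S ⊆ Icc a b) {G : ℝ → ℝ → ℝ}
    (hG : ContinuousOn (fun p : ℝ × ℝ => G p.1 p.2) (S ×ˢ univ)) (hE : sp2_EB S G) (v₀ d : ℝ) :
    ContinuousOn (fun p : ℝ × ℝ => ∫ z, G p.1 (p.2 + √(v₀ + p.1 * d) * z) ∂(gaussianReal 0 1))
      (S ×ˢ univ) := by
  obtain ⟨C, c, hC, hc, h⟩ := hE
  intro p₀ hp₀
  refine continuousWithinAt_of_dominated (bound := fun z => C * Real.exp (c * (|p₀.2| + 1)) *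
    Real.exp (c * √(|v₀| + (|a| + |b|) * |d|) * |z|)) ?_ ?_ ?_ ?_
  · refine eventually_nhdsWithin_of_forall fun p hp => ?_
    have := sp2_slice hG hp.1
    exact (this.comp (by fun_prop : Continuous fun z : ℝ => p.2 + √(v₀ + p.1 * d) * z)).aestronglyMeasurable
  · have h1 : ∀ᶠ p : ℝ × ℝ in 𝓝[S ×ˢ univ] p₀, |p.2| ≤ |p₀.2| + 1 := by
      have h2 : ∀ᶠ p : ℝ × ℝ in 𝓝 p₀, |p.2| < |p₀.2| + 1 :=
        (continuous_snd.abs.tendsto p₀).eventually_lt_const (by linarith only [])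
      exact (h2.filter_mono nhdsWithin_le_nhds).mono fun p hp => hp.le
    filter_upwards [h1, self_mem_nhdsWithin] with p hp1 hp2
    refine Eventually.of_forall fun z => ?_
    rw [Real.norm_eq_abs]
    exact sp2_bound hS hC hc h v₀ d hp2.1 hp1 z
  · exact (sp2_integrable_exp_abs _).const_mul _
  · refine Eventually.of_forall fun z => ?_
    have h1 : ContinuousOn (fun p : ℝ × ℝ => (p.1, p.2 + √(v₀ + p.1 * d) * z)) (S ×ˢ univ) := by
      fun_prop
    exact (hG.comp h1 (fun p hp => ⟨hp.1, mem_univ _⟩)) p₀ hp₀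

theorem sp2_integrable {a b : ℝ} {S : Set ℝ} (hS : S ⊆ Icc a b) {G : ℝ → ℝ → ℝ}
    (hG : ContinuousOn (fun p : ℝ × ℝ => G p.1 p.2) (S ×ˢ univ)) (hE : sp2_EB S G) (v₀ d : ℝ)
    {s : ℝ} (hs : s ∈ S) (x : ℝ) :
    Integrable (fun z => G s (x + √(v₀ + s * d) * z)) (gaussianReal 0 1) := by
  obtain ⟨C, c, hC, hc, h⟩ := hE
  refine ((sp2_integrable_exp_abs (c * √(|v₀| + (|a| + |b|) * |d|))).const_mul
    (C * Real.exp (c * |x|))).mono' ?_ (Eventually.of_forall fun z => ?_)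
  · have := sp2_slice hG hs
    exact (this.comp (by fun_prop : Continuous fun z : ℝ => x + √(v₀ + s * d) * z)).aestronglyMeasurable
  · rw [Real.norm_eq_abs]
    exact sp2_bound hS hC hc h v₀ d hs le_rfl z

theorem sp2_integrable_mul {a b : ℝ} {S : Set ℝ} (hS : S ⊆ Icc a b) {G : ℝ → ℝ → ℝ}
    (hG : ContinuousOn (fun p : ℝ × ℝ => G p.1 p.2) (S ×ˢ univ)) (hE : sp2_EB S G) (v₀ d : ℝ)
    {s : ℝ} (hs : s ∈ S) (x : ℝ) :
    Integrable (fun z => z * G s (x + √(v₀ + s * d) * z)) (gaussianReal 0 1) := by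
  obtain ⟨C, c, hC, hc, h⟩ := hE
  refine ((sp2_integrable_abs_mul_exp (c * √(|v₀| + (|a| + |b|) * |d|))).const_mul
    (C * Real.exp (c * |x|))).mono' ?_ (Eventually.of_forall fun z => ?_)
  · have := sp2_slice hG hs
    exact (continuous_id.mul (this.comp
      (by fun_prop : Continuous fun z : ℝ => x + √(v₀ + s * d) * z))).aestronglyMeasurable
  · rw [Real.norm_eq_abs, abs_mul]
    calc |z| * |G s (x + √(v₀ + s * d) * z)| ≤ |z| * (C * Real.exp (c * |x|) *
          Real.exp (c * √(|v₀| + (|a| + |b|) * |d|) * |z|)) :=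
          mul_le_mul_of_nonneg_left (sp2_bound hS hC hc h v₀ d hs le_rfl z) (abs_nonneg _)
      _ = _ := by ring

/-! ### the derivative in the parameter -/

theorem sp2_cont_span : Continuous fun r : ℝ => ContinuousLinearMap.toSpanSingleton ℝ r := by
  have h : (fun r : ℝ => ContinuousLinearMap.toSpanSingleton ℝ r) =
      fun r : ℝ => r • ContinuousLinearMap.id ℝ ℝ := by
    funext r
    ext
    simp only [ContinuousLinearMap.toSpanSingleton_apply, smul_eq_mul, one_mul, smul_apply, ContinuousLinearMap.id_apply, mul_one]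
  rw [h]
  fun_prop

/-- Chain rule along a curve. -/
theorem sp2_chain {a b : ℝ} {G G1 Gs : ℝ → ℝ → ℝ}
    (d1 : ∀ s ∈ Icc a b, ∀ x, HasDerivAt (G s) (G1 s x) x)
    (ds : ∀ s ∈ Ioo a b, ∀ x, HasDerivAt (fun s => G s x) (Gs s x) s)
    (c1 : ContinuousOn (fun p : ℝ × ℝ => G1 p.1 p.2) (Icc a b ×ˢ univ))
    (cs : ContinuousOn (fun p : ℝ × ℝ => Gs p.1 p.2) (Ioo a b ×ˢ univ))
    {v₀ d : ℝ} {s : ℝ} (hs : s ∈ Ioo a b) (hv : 0 < v₀ + s * d) (x z : ℝ) :
    HasDerivAt (fun s => G s (x + √(v₀ + s * d) * z))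
      (Gs s (x + √(v₀ + s * d) * z) +
        d / (2 * √(v₀ + s * d)) * (z * G1 s (x + √(v₀ + s * d) * z))) s := by
  set y := x + √(v₀ + s * d) * z with hy
  have hopen : IsOpen (Ioo a b ×ˢ (univ : Set ℝ)) := isOpen_Ioo.prod isOpen_univ
  have hmem : ((s, y) : ℝ × ℝ) ∈ Ioo a b ×ˢ (univ : Set ℝ) := ⟨hs, mem_univ _⟩
  have hnh : Ioo a b ×ˢ (univ : Set ℝ) ∈ 𝓝 ((s, y) : ℝ × ℝ) := hopen.mem_nhds hmem
  set f₁ : ℝ → ℝ → ℝ →L[ℝ] ℝ := fun s' y' => ContinuousLinearMap.toSpanSingleton ℝ (Gs s' y')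
    with hf₁
  set f₂ : ℝ → ℝ → ℝ →L[ℝ] ℝ := fun s' y' => ContinuousLinearMap.toSpanSingleton ℝ (G1 s' y')
    with hf₂
  have key : HasStrictFDerivAt ↿G ((↿f₁ (s, y)).coprod (↿f₂ (s, y))) (s, y) := by
    refine hasStrictFDerivAt_uncurry_coprod (f₁ := f₁) (f₂ := f₂) ?_ ?_ ?_ ?_
    · filter_upwards [hnh] with v hv'
      exact (ds v.1 hv'.1 v.2).hasFDerivAt
    · filter_upwards [hnh] with v hv'
      exact (d1 v.1 (Ioo_subset_Icc_self hv'.1) v.2).hasFDerivAt
    · have h1 : ContinuousAt (fun p : ℝ × ℝ => Gs p.1 p.2) (s, y) := cs.continuousAt hnh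
      have h2 := sp2_cont_span
      exact h2.continuousAt.comp h1
    · have h1 : ContinuousAt (fun p : ℝ × ℝ => G1 p.1 p.2) (s, y) :=
        (c1.mono (prod_mono Ioo_subset_Icc_self subset_rfl)).continuousAt hnh
      have h2 := sp2_cont_span
      exact h2.continuousAt.comp h1
  have hsq : HasDerivAt (fun s' : ℝ => √(v₀ + s' * d)) (d / (2 * √(v₀ + s * d))) s := by
    have h1 : HasDerivAt (fun s' : ℝ => v₀ + s' * d) d s := by
      simpa only [hasDerivAt_const_add_iff, id_eq, one_mul] using ((hasDerivAt_id s).mul_const d).const_add v₀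
    exact h1.sqrt hv.ne'
  have hcur : HasDerivAt (fun s' : ℝ => ((s', x + √(v₀ + s' * d) * z) : ℝ × ℝ))
      (1, d / (2 * √(v₀ + s * d)) * z) s :=
    (hasDerivAt_id s).prodMk ((hsq.mul_const z).const_add x)
  have h3 := key.hasFDerivAt.comp_hasDerivAt s hcur
  have h4 : ((↿f₁ (s, y)).coprod (↿f₂ (s, y))) (1, d / (2 * √(v₀ + s * d)) * z) =
      Gs s y + d / (2 * √(v₀ + s * d)) * (z * G1 s y) := by
    show (1 : ℝ) • Gs s y + (d / (2 * √(v₀ + s * d)) * z) • G1 s y = _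
    rw [smul_eq_mul, smul_eq_mul]
    ring
  rw [h4] at h3
  exact h3

/-- The derivative in the parameter of a Gaussian average. -/
theorem sp2_deriv {a b : ℝ} {G G1 G2 Gs : ℝ → ℝ → ℝ}
    (d1 : ∀ s ∈ Icc a b, ∀ x, HasDerivAt (G s) (G1 s x) x)
    (d2 : ∀ s ∈ Icc a b, ∀ x, HasDerivAt (G1 s) (G2 s x) x)
    (ds : ∀ s ∈ Ioo a b, ∀ x, HasDerivAt (fun s => G s x) (Gs s x) s)
    (c0 : ContinuousOn (fun p : ℝ × ℝ => G p.1 p.2) (Icc a b ×ˢ univ))
    (c1 : ContinuousOn (fun p : ℝ × ℝ => G1 p.1 p.2) (Icc a b ×ˢ univ))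
    (c2 : ContinuousOn (fun p : ℝ × ℝ => G2 p.1 p.2) (Icc a b ×ˢ univ))
    (cs : ContinuousOn (fun p : ℝ × ℝ => Gs p.1 p.2) (Ioo a b ×ˢ univ))
    (e0 : sp2_EB (Icc a b) G) (e1 : sp2_EB (Icc a b) G1) (e2 : sp2_EB (Icc a b) G2)
    (es : sp2_EB (Ioo a b) Gs)
    {v₀ d : ℝ} (hv : ∀ s ∈ Ioo a b, 0 < v₀ + s * d) {s : ℝ} (hs : s ∈ Ioo a b) (x : ℝ) :
    HasDerivAt (fun s => ∫ z, G s (x + √(v₀ + s * d) * z) ∂(gaussianReal 0 1))
      (∫ z, (Gs s (x + √(v₀ + s * d) * z) + d / 2 * G2 s (x + √(v₀ + s * d) * z))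
        ∂(gaussianReal 0 1)) s := by
  have hIoo : Ioo a b ⊆ Icc a b := Ioo_subset_Icc_self
  have hvs := hv s hs
  have hw : 0 < √(v₀ + s * d) := Real.sqrt_pos.2 hvs
  obtain ⟨C1, k1, hC1, hk1, hb1⟩ := e1
  obtain ⟨Cs, ks, hCs, hks, hbs⟩ := es
  set Sg : ℝ := √(|v₀| + (|a| + |b|) * |d|) with hSg
  -- neighbourhood with a lower bound for the variance
  have hnh : ∀ᶠ s' in 𝓝 s, s' ∈ Ioo a b ∧ √(v₀ + s * d) / 2 < √(v₀ + s' * d) := by
    refine (show ∀ᶠ s' in 𝓝 s, s' ∈ Ioo a b from isOpen_Ioo.mem_nhds hs).and ?_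
    have h1 : ContinuousAt (fun s' : ℝ => √(v₀ + s' * d)) s := by fun_prop
    exact h1.eventually_const_lt (by linarith only [hw])
  obtain ⟨ε, hε, hball⟩ := Metric.eventually_nhds_iff_ball.1 hnh
  have hder := hasDerivAt_integral_of_dominated_loc_of_deriv_le
    (μ := gaussianReal 0 1)
    (F := fun s z => G s (x + √(v₀ + s * d) * z))
    (F' := fun s z => Gs s (x + √(v₀ + s * d) * z) +
      d / (2 * √(v₀ + s * d)) * (z * G1 s (x + √(v₀ + s * d) * z)))
    (x₀ := s) (s := Metric.ball s ε)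
    (bound := fun z => Cs * Real.exp (ks * |x|) * Real.exp (ks * Sg * |z|) +
      |d| / √(v₀ + s * d) * (C1 * Real.exp (k1 * |x|) * (|z| * Real.exp (k1 * Sg * |z|))))
    (Metric.ball_mem_nhds s hε) ?_ ?_ ?_ ?_ ?_ ?_
  · have h1 := hder.2
    have hI1 : Integrable (fun z => Gs s (x + √(v₀ + s * d) * z)) (gaussianReal 0 1) :=
      sp2_integrable hIoo cs ⟨Cs, ks, hCs, hks, hbs⟩ v₀ d hs x
    have hI2 : Integrable (fun z => z * G1 s (x + √(v₀ + s * d) * z)) (gaussianReal 0 1) :=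
      sp2_integrable_mul subset_rfl c1 ⟨C1, k1, hC1, hk1, hb1⟩ v₀ d (hIoo hs) x
    have hI3 : Integrable (fun z => G2 s (x + √(v₀ + s * d) * z)) (gaussianReal 0 1) :=
      sp2_integrable subset_rfl c2 e2 v₀ d (hIoo hs) x
    have hst : ∫ z, z * G1 s (x + √(v₀ + s * d) * z) ∂(gaussianReal 0 1) =
        ∫ z, √(v₀ + s * d) * G2 s (x + √(v₀ + s * d) * z) ∂(gaussianReal 0 1) := by
      refine stein_one_int (fun z => G1 s (x + √(v₀ + s * d) * z))
        (fun z => √(v₀ + s * d) * G2 s (x + √(v₀ + s * d) * z)) ?_ ?_ hI2 (hI3.const_mul _)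
      · intro z
        have h2 : HasDerivAt (fun z : ℝ => x + √(v₀ + s * d) * z) (√(v₀ + s * d)) z := by
          simpa only [hasDerivAt_const_add_iff, id_eq, mul_one] using     ((hasDerivAt_id z).const_mul (√(v₀ + s * d))).const_add x
        have h3 := (d2 s (hIoo hs) (x + √(v₀ + s * d) * z)).comp z h2
        rw [mul_comm (G2 s _) (√(v₀ + s * d))] at h3
        exact h3
      · exact sp2_integrable subset_rfl c1 ⟨C1, k1, hC1, hk1, hb1⟩ v₀ d (hIoo hs) x
    have h4 : ∫ z, (Gs s (x + √(v₀ + s * d) * z) +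
        d / (2 * √(v₀ + s * d)) * (z * G1 s (x + √(v₀ + s * d) * z))) ∂(gaussianReal 0 1) =
        ∫ z, (Gs s (x + √(v₀ + s * d) * z) + d / 2 * G2 s (x + √(v₀ + s * d) * z))
          ∂(gaussianReal 0 1) := by
      rw [integral_add hI1 (hI2.const_mul _), integral_add hI1 (hI3.const_mul _),
        integral_const_mul, integral_const_mul, hst, integral_const_mul]
      (clear * - hvs; field_simp)
    rw [← h4]
    exact h1
  · filter_upwards [Metric.ball_mem_nhds s hε] with s' hs'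
    exact (sp2_integrable subset_rfl c0 e0 v₀ d (hIoo (hball s' hs').1) x).aestronglyMeasurable
  · exact sp2_integrable subset_rfl c0 e0 v₀ d (hIoo hs) x
  · exact ((sp2_integrable hIoo cs ⟨Cs, ks, hCs, hks, hbs⟩ v₀ d hs x).add
      ((sp2_integrable_mul subset_rfl c1 ⟨C1, k1, hC1, hk1, hb1⟩ v₀ d (hIoo hs)
        x).const_mul _)).aestronglyMeasurable
  · refine Eventually.of_forall fun z s' hs' => ?_
    obtain ⟨h1, h2⟩ := hball s' hs'
    rw [Real.norm_eq_abs]
    refine (abs_add_le _ _).trans (add_le_add ?_ ?_)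
    · exact sp2_bound hIoo hCs hks hbs v₀ d h1 le_rfl z
    · rw [abs_mul, abs_mul, abs_div, abs_of_pos (by linarith only [hw, h2] : 0 < 2 * √(v₀ + s' * d))]
      have h3 : |d| / (2 * √(v₀ + s' * d)) ≤ |d| / √(v₀ + s * d) :=
        div_le_div_of_nonneg_left (abs_nonneg _) hw (by linarith only [h2])
      have h4 : |z| * |G1 s' (x + √(v₀ + s' * d) * z)| ≤
          C1 * Real.exp (k1 * |x|) * (|z| * Real.exp (k1 * Sg * |z|)) := by
        calc |z| * |G1 s' (x + √(v₀ + s' * d) * z)| ≤ |z| * (C1 * Real.exp (k1 * |x|) *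
              Real.exp (k1 * Sg * |z|)) :=
              mul_le_mul_of_nonneg_left (sp2_bound subset_rfl hC1 hk1 hb1 v₀ d (hIoo h1) le_rfl z)
                (abs_nonneg _)
          _ = _ := by ring
      exact mul_le_mul h3 h4 (by (clear * -; positivity)) (by (clear * - hvs; positivity))
  · exact ((sp2_integrable_exp_abs _).const_mul _).add
      (((sp2_integrable_abs_mul_exp _).const_mul _).const_mul _)
  · refine Eventually.of_forall fun z s' hs' => ?_
    exact sp2_chain d1 ds c1 cs (hball s' hs').1 (hv s' (hball s' hs').1) x z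

/-! ### families -/

section SP2

variable {a b : ℝ} {u u1 u2 us : ℝ → ℝ → ℝ}

/-- a common bound for the first two derivatives. -/
theorem Fam.sp2_sm (h : Fam a b u u1 u2 us) :
    ∃ L B : ℝ, 0 ≤ L ∧ 0 ≤ B ∧ ∀ s ∈ Icc a b, Sm L B (u s) (u1 s) (u2 s) := by
  obtain ⟨L, hL⟩ := h.b1
  obtain ⟨B, hB⟩ := h.b2
  refine ⟨|L|, |B|, abs_nonneg _, abs_nonneg _, fun s hs => ⟨h.d1 s hs, h.d2 s hs,
    sp2_slice h.c2 hs, fun x => (hL s hs x).trans (le_abs_self _),
    fun x => (hB s hs x).trans (le_abs_self _)⟩⟩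

theorem Fam.sp2_lin (h : Fam a b u u1 u2 us) :
    ∃ K L : ℝ, 0 ≤ K ∧ 0 ≤ L ∧ ∀ s ∈ Icc a b, ∀ x, |u s x| ≤ K + L * |x| := by
  obtain ⟨L, B, hL, hB, hsm⟩ := h.sp2_sm
  have hc : ContinuousOn (fun s => u s 0) (Icc a b) :=
    h.c0.comp (f := fun s : ℝ => ((s, (0 : ℝ)) : ℝ × ℝ)) (by fun_prop)
      (fun s hs => ⟨hs, mem_univ _⟩)
  obtain ⟨K, hK⟩ := isCompact_Icc.exists_bound_of_continuousOn hc
  refine ⟨|K|, L, abs_nonneg _, hL, fun s hs x => ?_⟩
  have h1 : |u s x - u s 0| ≤ L * |x - 0| := by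
    have := Convex.norm_image_sub_le_of_norm_hasDerivWithin_le (f := u s) (f' := u1 s)
      (s := univ) (C := L) (x := 0) (y := x) (fun y _ => ((hsm s hs).d1 y).hasDerivWithinAt)
      (fun y _ => (hsm s hs).bM y) convex_univ (mem_univ _) (mem_univ _)
    exact this
  have h2 : |u s 0| ≤ |K| := (hK s hs).trans (le_abs_self _)
  rw [sub_zero] at h1
  have h3 : u s x = (u s x - u s 0) + u s 0 := by ring
  rw [h3]
  refine (abs_add_le _ _).trans ?_
  linarith only [h1, h2]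

theorem Fam.sp2_ebd (h : Fam a b u u1 u2 us) : sp2_EB (Icc a b) u := by
  obtain ⟨K, L, hK, hL, hb⟩ := h.sp2_lin
  refine ⟨K + L, 1, by (clear * - hK hL; positivity), zero_le_one, fun s hs x => (hb s hs x).trans ?_⟩
  have h1 : (1 : ℝ) ≤ Real.exp (1 * |x|) := by
    rw [one_mul]; exact Real.one_le_exp (abs_nonneg _)
  have h2 : |x| ≤ Real.exp (1 * |x|) := by
    rw [one_mul]; exact sp2_abs_le_exp x
  nlinarith only [h1, hK, h2, hL]

theorem Fam.sp2_ebd_exp (h : Fam a b u u1 u2 us) (m : ℝ) :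
    sp2_EB (Icc a b) (fun s x => Real.exp (m * u s x)) := by
  obtain ⟨K, L, hK, hL, hb⟩ := h.sp2_lin
  refine ⟨Real.exp (|m| * K), |m| * L, (Real.exp_pos _).le, by positivity, fun s hs x => ?_⟩
  rw [abs_of_pos (Real.exp_pos _), ← Real.exp_add]
  refine Real.exp_le_exp.2 ?_
  calc m * u s x ≤ |m * u s x| := le_abs_self _
    _ = |m| * |u s x| := abs_mul _ _
    _ ≤ |m| * (K + L * |x|) := mul_le_mul_of_nonneg_left (hb s hs x) (abs_nonneg _)
    _ = |m| * K + |m| * L * |x| := by ring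

theorem Fam.sp2_cexp (h : Fam a b u u1 u2 us) (m : ℝ) :
    ContinuousOn (fun p : ℝ × ℝ => Real.exp (m * u p.1 p.2)) (Icc a b ×ˢ univ) :=
  (h.c0.const_mul m).rexp

/-- continuity of tilted averages, for parameters in a subset of the segment. -/
theorem Fam.sp2_tlt_cont (h : Fam a b u u1 u2 us) {S : Set ℝ} (hS : S ⊆ Icc a b)
    {g : ℝ → ℝ → ℝ}
    (hg : ContinuousOn (fun p : ℝ × ℝ => g p.1 p.2) (S ×ˢ univ)) {B : ℝ}
    (hB : ∀ s ∈ S, ∀ x, |g s x| ≤ B) (m v₀ d : ℝ) :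
    ContinuousOn (fun p : ℝ × ℝ => tlt m (v₀ + p.1 * d) (u p.1) (g p.1) p.2) (S ×ˢ univ) := by
  have hsub : S ×ˢ (univ : Set ℝ) ⊆ Icc a b ×ˢ univ := prod_mono hS subset_rfl
  obtain ⟨L, B', -, -, hsm⟩ := h.sp2_sm
  unfold tlt
  refine ContinuousOn.div ?_ ?_ ?_
  · exact sp2_cont hS (G := fun s x => g s x * Real.exp (m * u s x))
      (hg.mul ((h.sp2_cexp m).mono hsub)) ((sp2_EB_of_bdd hB).mul ((h.sp2_ebd_exp m).mono hS)) v₀ d
  · exact sp2_cont hS (G := fun s x => Real.exp (m * u s x)) ((h.sp2_cexp m).mono hsub)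
      ((h.sp2_ebd_exp m).mono hS) v₀ d
  · intro p hp
    exact ((hsm p.1 (hS hp.1)).int_exp_pos m (v₀ + p.1 * d) p.2).ne'

theorem Fam.tlt_cont (h : Fam a b u u1 u2 us) {g : ℝ → ℝ → ℝ}
    (hg : ContinuousOn (fun p : ℝ × ℝ => g p.1 p.2) (Set.Icc a b ×ˢ Set.univ)) {B : ℝ}
    (hB : ∀ s ∈ Set.Icc a b, ∀ x, |g s x| ≤ B) (m v₀ d : ℝ) :
    ContinuousOn (fun p : ℝ × ℝ => tlt m (v₀ + p.1 * d) (u p.1) (g p.1) p.2)
      (Set.Icc a b ×ˢ Set.univ) :=
  h.sp2_tlt_cont subset_rfl hg hB m v₀ d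

theorem Fam.step (h : Fam a b u u1 u2 us) {m : ℝ} (hm : 0 < m) {v₀ d : ℝ}
    (hv : ∀ s ∈ Set.Ioo a b, 0 < v₀ + s * d) :
    Fam a b (fun s => gstep m (v₀ + s * d) (u s))
      (fun s => tlt m (v₀ + s * d) (u s) (u1 s))
      (fun s x => tlt m (v₀ + s * d) (u s) (fun y => u2 s y + m * u1 s y ^ 2) x -
        m * tlt m (v₀ + s * d) (u s) (u1 s) x ^ 2)
      (fun s => tlt m (v₀ + s * d) (u s)
        (fun y => us s y + d / 2 * (u2 s y + m * u1 s y ^ 2))) := by
  obtain ⟨L, B, hL, hB, hsm⟩ := h.sp2_sm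
  obtain ⟨Bs, hBs⟩ := h.bs
  have hIoo : Ioo a b ⊆ Icc a b := Ioo_subset_Icc_self
  have hsubp : Ioo a b ×ˢ (univ : Set ℝ) ⊆ Icc a b ×ˢ univ := prod_mono hIoo subset_rfl
  have hc2 : ContinuousOn (fun p : ℝ × ℝ => u2 p.1 p.2 + m * u1 p.1 p.2 ^ 2)
      (Icc a b ×ˢ univ) := h.c2.add ((h.c1.pow 2).const_mul m)
  have hb2 : ∀ s ∈ Icc a b, ∀ x, |u2 s x + m * u1 s x ^ 2| ≤ B + m * L ^ 2 := by
    intro s hs x
    refine (abs_add_le _ _).trans (add_le_add ((hsm s hs).bD x) ?_)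
    rw [abs_mul, abs_of_pos hm, abs_pow]
    exact mul_le_mul_of_nonneg_left (pow_le_pow_left₀ (abs_nonneg _) ((hsm s hs).bM x) 2) hm.le
  have hcs : ContinuousOn (fun p : ℝ × ℝ => us p.1 p.2 + d / 2 * (u2 p.1 p.2 +
      m * u1 p.1 p.2 ^ 2)) (Ioo a b ×ˢ univ) := h.cs.add ((hc2.mono hsubp).const_mul _)
  have hbs : ∀ s ∈ Ioo a b, ∀ x, |us s x + d / 2 * (u2 s x + m * u1 s x ^ 2)| ≤
      Bs + |d / 2| * (B + m * L ^ 2) := by
    intro s hs x
    refine (abs_add_le _ _).trans (add_le_add (hBs s hs x) ?_)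
    rw [abs_mul]
    exact mul_le_mul_of_nonneg_left (hb2 s (hIoo hs) x) (abs_nonneg _)
  have hgc : ContinuousOn (fun p : ℝ × ℝ =>
      ∫ z, Real.exp (m * u p.1 (p.2 + √(v₀ + p.1 * d) * z)) ∂(gaussianReal 0 1))
      (Icc a b ×ˢ univ) :=
    sp2_cont subset_rfl (G := fun s x => Real.exp (m * u s x)) (h.sp2_cexp m) (h.sp2_ebd_exp m)
      v₀ d
  refine ⟨fun s hs => ((hsm s hs).step hm _).d1, fun s hs => ((hsm s hs).step hm _).d2, ?_, ?_,
    ?_, ?_, ?_, ⟨L, fun s hs => ((hsm s hs).step hm _).bM⟩,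
    ⟨B + m * L ^ 2, fun s hs => ((hsm s hs).step hm _).bD⟩,
    ⟨Bs + |d / 2| * (B + m * L ^ 2), fun s hs x => ?_⟩⟩
  · -- the derivative in the parameter
    intro s hs x
    have hb1 : ∀ s ∈ Icc a b, ∀ x, |u1 s x| ≤ L := fun s hs => (hsm s hs).bM
    have hder := sp2_deriv (a := a) (b := b) (G := fun s x => Real.exp (m * u s x))
      (G1 := fun s x => (m * u1 s x) * Real.exp (m * u s x))
      (G2 := fun s x => (m * (u2 s x + m * u1 s x ^ 2)) * Real.exp (m * u s x))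
      (Gs := fun s x => (m * us s x) * Real.exp (m * u s x)) (v₀ := v₀) (d := d)
      (fun s hs x => by
        have h1 := ((h.d1 s hs x).const_mul m).exp
        rw [mul_comm] at h1
        exact h1)
      (fun s hs x => by
        have h1 := ((h.d2 s hs x).const_mul m).mul ((h.d1 s hs x).const_mul m).exp
        have e : m * u2 s x * Real.exp (m * u s x) + m * u1 s x *
            (Real.exp (m * u s x) * (m * u1 s x)) =
            (m * (u2 s x + m * u1 s x ^ 2)) * Real.exp (m * u s x) := by ring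
        rw [e] at h1
        exact h1)
      (fun s hs x => by
        have h1 := ((h.ds s hs x).const_mul m).exp
        rw [mul_comm] at h1
        exact h1)
      (h.sp2_cexp m) ((h.c1.const_mul m).mul (h.sp2_cexp m))
      ((hc2.const_mul m).mul (h.sp2_cexp m))
      ((h.cs.const_mul m).mul ((h.sp2_cexp m).mono hsubp))
      (h.sp2_ebd_exp m)
      ((sp2_EB_of_bdd (B := m * L) fun s hs x => by
        rw [abs_mul, abs_of_pos hm]
        exact mul_le_mul_of_nonneg_left (hb1 s hs x) hm.le).mul (h.sp2_ebd_exp m))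
      ((sp2_EB_of_bdd (B := m * (B + m * L ^ 2)) fun s hs x => by
        rw [abs_mul, abs_of_pos hm]
        exact mul_le_mul_of_nonneg_left (hb2 s hs x) hm.le).mul (h.sp2_ebd_exp m))
      ((sp2_EB_of_bdd (B := m * Bs) fun s hs x => by
        rw [abs_mul, abs_of_pos hm]
        exact mul_le_mul_of_nonneg_left (hBs s hs x) hm.le).mul ((h.sp2_ebd_exp m).mono hIoo))
      hv hs x
    have hpos := (hsm s (hIoo hs)).int_exp_pos m (v₀ + s * d) x
    have h2 := (hder.log hpos.ne').const_mul (1 / m)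
    have h3 : ∫ z, (m * us s (x + √(v₀ + s * d) * z) * Real.exp (m * u s (x + √(v₀ + s * d) * z)) +
        d / 2 * (m * (u2 s (x + √(v₀ + s * d) * z) + m * u1 s (x + √(v₀ + s * d) * z) ^ 2) *
          Real.exp (m * u s (x + √(v₀ + s * d) * z)))) ∂(gaussianReal 0 1) =
        m * ∫ z, (us s (x + √(v₀ + s * d) * z) + d / 2 * (u2 s (x + √(v₀ + s * d) * z) +
          m * u1 s (x + √(v₀ + s * d) * z) ^ 2)) * Real.exp (m * u s (x + √(v₀ + s * d) * z))
          ∂(gaussianReal 0 1) := by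
      rw [← integral_const_mul]
      refine integral_congr_ae (Eventually.of_forall fun z => ?_)
      ring
    rw [h3] at h2
    have h4 : 1 / m * (m * (∫ z, (us s (x + √(v₀ + s * d) * z) + d / 2 *
        (u2 s (x + √(v₀ + s * d) * z) + m * u1 s (x + √(v₀ + s * d) * z) ^ 2)) *
        Real.exp (m * u s (x + √(v₀ + s * d) * z)) ∂(gaussianReal 0 1)) /
        ∫ z, Real.exp (m * u s (x + √(v₀ + s * d) * z)) ∂(gaussianReal 0 1)) =
        tlt m (v₀ + s * d) (u s) (fun y => us s y + d / 2 * (u2 s y + m * u1 s y ^ 2)) x := by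
      unfold tlt
      rw [mul_div_assoc, ← mul_assoc, one_div, inv_mul_cancel₀ hm.ne', one_mul]
    rw [h4] at h2
    exact h2
  · -- continuity of the log-weight
    have : ContinuousOn (fun p : ℝ × ℝ => 1 / m * Real.log
        (∫ z, Real.exp (m * u p.1 (p.2 + √(v₀ + p.1 * d) * z)) ∂(gaussianReal 0 1)))
        (Icc a b ×ˢ univ) :=
      (hgc.log fun p hp => ((hsm p.1 hp.1).int_exp_pos m (v₀ + p.1 * d) p.2).ne').const_mul _
    exact this
  · exact h.tlt_cont h.c1 (fun s hs => (hsm s hs).bM) m v₀ d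
  · exact (h.tlt_cont hc2 hb2 m v₀ d).sub
      (((h.tlt_cont h.c1 (fun s hs => (hsm s hs).bM) m v₀ d).pow 2).const_mul m)
  · exact h.sp2_tlt_cont hIoo hcs hbs m v₀ d
  · exact (hsm s (hIoo hs)).abs_tlt_le
      (g := fun y => us s y + d / 2 * (u2 s y + m * u1 s y ^ 2))
      (sp2_slice (G := fun s y => us s y + d / 2 * (u2 s y + m * u1 s y ^ 2)) hcs hs)
      (hbs s hs) m (v₀ + s * d) x

theorem Fam.bottom_cont (h : Fam a b u u1 u2 us) {g : ℝ → ℝ → ℝ}
    (hg : ContinuousOn (fun p : ℝ × ℝ => g p.1 p.2) (Set.Icc a b ×ˢ Set.univ)) {B : ℝ}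
    (hB : ∀ s ∈ Set.Icc a b, ∀ x, |g s x| ≤ B) (v₀ d : ℝ) :
    ContinuousOn (fun s => ∫ z, g s (√(v₀ + s * d) * z) ∂(gaussianReal 0 1)) (Set.Icc a b) := by
  have h1 := sp2_cont subset_rfl hg (sp2_EB_of_bdd hB) v₀ d
  have h2 := h1.comp (f := fun s : ℝ => ((s, (0 : ℝ)) : ℝ × ℝ)) (s := Icc a b) (by fun_prop)
    (fun s hs => ⟨hs, mem_univ _⟩)
  simpa only [Function.comp_def, zero_add] using h2

theorem Fam.bottom (h : Fam a b u u1 u2 us) {v₀ d : ℝ}
    (hv : ∀ s ∈ Set.Ioo a b, 0 < v₀ + s * d) :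
    ContinuousOn (fun s => ∫ z, u s (√(v₀ + s * d) * z) ∂(gaussianReal 0 1)) (Set.Icc a b) ∧
      ∀ s ∈ Set.Ioo a b,
        HasDerivAt (fun s => ∫ z, u s (√(v₀ + s * d) * z) ∂(gaussianReal 0 1))
          (∫ z, (us s (√(v₀ + s * d) * z) + d / 2 * u2 s (√(v₀ + s * d) * z))
            ∂(gaussianReal 0 1)) s := by
  obtain ⟨L, B, hL, hB, hsm⟩ := h.sp2_sm
  obtain ⟨Bs, hBs⟩ := h.bs
  constructor
  · have h1 := sp2_cont subset_rfl h.c0 h.sp2_ebd v₀ d
    have h2 := h1.comp (f := fun s : ℝ => ((s, (0 : ℝ)) : ℝ × ℝ)) (s := Icc a b) (by fun_prop)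
      (fun s hs => ⟨hs, mem_univ _⟩)
    simpa only [Function.comp_def, zero_add] using h2
  · intro s hs
    have h1 := sp2_deriv h.d1 h.d2 h.ds h.c0 h.c1 h.c2 h.cs h.sp2_ebd
      (sp2_EB_of_bdd fun s hs => (hsm s hs).bM) (sp2_EB_of_bdd fun s hs => (hsm s hs).bD)
      (sp2_EB_of_bdd hBs) hv hs 0
    simpa only [zero_add] using h1

end SP2

end Vale.Agent.P157.Par
end

section

/-!
Monotone likelihood ratio comparisons for even convex log-weights (task SP3).
-/

open MeasureTheory ProbabilityTheory Filter Topology Set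

namespace Vale.Agent.P157.Par

variable {F M D F' M' D' : ℝ → ℝ}

/-! ### Basic facts -/

theorem sp3_abs_M (h : Ec F M D) (x : ℝ) : |M x| ≤ 1 := by
  have h1 := h.D0 x
  have h2 := h.D1 x
  rw [← sq_le_one_iff_abs_le_one]
  linarith

theorem sp3_odd (h : Ec F M D) (x : ℝ) : M (-x) = - M x := by
  have h1 : HasDerivAt (fun y => F (-y)) (M (-x) * (-1)) x :=
    HasDerivAt.comp x (h.d1 (-x)) (hasDerivAt_neg x)
  have h2 : (fun y => F (-y)) = F := funext h.even
  rw [h2] at h1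
  have := h1.unique (h.d1 x)
  linarith only [this]

theorem sp3_mono (h : Ec F M D) : Monotone M :=
  monotone_of_deriv_nonneg (fun x => (h.d2 x).differentiableAt)
    (fun x => by rw [(h.d2 x).deriv]; exact h.D0 x)

theorem sp3_nonneg (h : Ec F M D) {x : ℝ} (hx : 0 ≤ x) : 0 ≤ M x := by
  have h0 : M 0 = 0 := by
    have := sp3_odd h 0
    rw [neg_zero] at this
    linarith only [this]
  rw [← h0]
  exact sp3_mono h hx

theorem sp3_contF (h : Ec F M D) : Continuous F :=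
  continuous_iff_continuousAt.2 fun x => (h.d1 x).continuousAt

theorem sp3_contM (h : Ec F M D) : Continuous M :=
  continuous_iff_continuousAt.2 fun x => (h.d2 x).continuousAt

theorem sp3_lip (h : Ec F M D) (x : ℝ) : |F x| ≤ |F 0| + |x| := by
  have h1 := Convex.norm_image_sub_le_of_norm_hasDerivWithin_le (f := F) (f' := M) (s := univ)
    (C := 1) (x := 0) (y := x) (fun y _ => (h.d1 y).hasDerivWithinAt)
    (fun y _ => sp3_abs_M h y) convex_univ (mem_univ _) (mem_univ _)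
  rw [sub_zero, one_mul, Real.norm_eq_abs, Real.norm_eq_abs] at h1
  have h2 := abs_sub_abs_le_abs_sub (F x) (F 0)
  linarith only [h1, h2]

/-! ### Integrability -/

theorem sp3_exp_abs (c : ℝ) : Integrable (fun y : ℝ => Real.exp (c * |y|)) (gaussianReal 0 1) := by
  have h1 := (integrable_exp_mul_gaussianReal (μ := 0) (v := 1) c).add
    (integrable_exp_mul_gaussianReal (μ := 0) (v := 1) (-c))
  refine h1.mono' (by (clear * -; fun_prop)) (ae_of_all _ fun y => ?_)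
  rw [Real.norm_eq_abs, abs_of_pos (Real.exp_pos _), Pi.add_apply]
  rcases abs_cases y with ⟨h, -⟩ | ⟨h, -⟩ <;> rw [h]
  · linarith [Real.exp_pos (-c * y)]
  · rw [show c * -y = -c * y by ring]
    linarith only [Real.exp_pos (c * y)]

theorem sp3_int (h : Ec F M D) {G : ℝ → ℝ} (hG : Continuous G) {K : ℝ} (hK : ∀ y, |G y| ≤ K)
    (m s c : ℝ) : Integrable (fun y => G y * (Real.exp (m * F (s * y)) * Real.exp (c * y)))
      (gaussianReal 0 1) := by
  have hF := sp3_contF h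
  have h1 := (sp3_exp_abs (|m| * |s| + |c|)).const_mul (K * Real.exp (|m| * |F 0|))
  refine h1.mono' (by (clear * - hG hF; fun_prop)) (ae_of_all _ fun y => ?_)
  have hK0 : 0 ≤ K := (abs_nonneg _).trans (hK 0)
  rw [norm_mul, norm_mul, Real.norm_eq_abs, Real.norm_eq_abs, Real.norm_eq_abs,
    abs_of_pos (Real.exp_pos _), abs_of_pos (Real.exp_pos _), mul_assoc, ← Real.exp_add,
    ← Real.exp_add]
  refine mul_le_mul (hK y) (Real.exp_le_exp.2 ?_) (Real.exp_pos _).le hK0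
  have e1 : m * F (s * y) ≤ |m| * (|F 0| + |s| * |y|) := by
    refine (le_abs_self _).trans ?_
    rw [abs_mul]
    refine mul_le_mul_of_nonneg_left ?_ (abs_nonneg m)
    rw [← abs_mul]
    exact sp3_lip h _
  have e2 : c * y ≤ |c| * |y| := by
    rw [← abs_mul]
    exact le_abs_self _
  linarith

/-- the symmetrised weight -/
noncomputable def sp3_W (m s c : ℝ) (F : ℝ → ℝ) (y : ℝ) : ℝ :=
  Real.exp (m * F (s * y)) * Real.cosh (c * y)

theorem sp3_W_pos (m s c : ℝ) (F : ℝ → ℝ) (y : ℝ) : 0 < sp3_W m s c F y :=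
  mul_pos (Real.exp_pos _) (Real.cosh_pos _)

theorem sp3_W_int (h : Ec F M D) {G : ℝ → ℝ} (hG : Continuous G) {K : ℝ}
    (hK : ∀ y, |G y| ≤ K) (m s c : ℝ) :
    Integrable (fun y => G y * sp3_W m s c F y) (gaussianReal 0 1) := by
  have h1 := ((sp3_int h hG hK m s c).add (sp3_int h hG hK m s (-c))).const_mul (1 / 2)
  refine h1.congr (ae_of_all _ fun y => ?_)
  simp only [Pi.add_apply, sp3_W]
  rw [Real.cosh_eq, show -(c * y) = -c * y by ring]
  ring

theorem sp3_W_int1 (h : Ec F M D) (m s c : ℝ) :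
    Integrable (fun y => sp3_W m s c F y) (gaussianReal 0 1) := by
  have h1 := sp3_W_int h (G := fun _ => 1) continuous_const (K := 1) (fun _ => by simp) m s c
  simpa only [one_mul] using h1

theorem sp3_W_ipos (h : Ec F M D) (m s c : ℝ) :
    0 < ∫ y, sp3_W m s c F y ∂(gaussianReal 0 1) := by
  rw [integral_pos_iff_support_of_nonneg (fun y => (sp3_W_pos m s c F y).le) (sp3_W_int1 h m s c)]
  have : Function.support (fun y => sp3_W m s c F y) = univ := by
    ext y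
    simp [(sp3_W_pos m s c F y).ne']
  rw [this]
  simp

/-! ### Shift and symmetrisation -/

theorem sp3_shift (f : ℝ → ℝ) (c : ℝ) : ∫ z, f (z + c) ∂(gaussianReal 0 1) =
    Real.exp (-c ^ 2 / 2) * ∫ z, f z * Real.exp (c * z) ∂(gaussianReal 0 1) := by
  rw [integral_gaussianReal_eq_integral_smul one_ne_zero,
    integral_gaussianReal_eq_integral_smul one_ne_zero, ← integral_const_mul]
  rw [← integral_sub_right_eq_self (fun z => gaussianPDFReal 0 1 z • f (z + c)) c]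
  refine integral_congr_ae (ae_of_all _ fun z => ?_)
  simp only [smul_eq_mul, gaussianPDFReal, sub_add_cancel, sub_zero]
  have : Real.exp (-(z - c) ^ 2 / (2 * ((1 : NNReal) : ℝ))) =
      Real.exp (-c ^ 2 / 2) * Real.exp (-z ^ 2 / (2 * ((1 : NNReal) : ℝ))) * Real.exp (c * z) := by
    rw [← Real.exp_add, ← Real.exp_add]
    congr 1
    simp only [NNReal.coe_one]
    ring
  rw [this]
  ring

theorem sp3_neg (φ : ℝ → ℝ) : ∫ z, φ (-z) ∂(gaussianReal 0 1) = ∫ z, φ z ∂(gaussianReal 0 1) := by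
  have h1 : (gaussianReal 0 1).map (fun x : ℝ => -x) = gaussianReal 0 1 := by
    have := gaussianReal_map_neg (μ := 0) (v := 1)
    rw [neg_zero] at this
    exact this
  conv_rhs => rw [← h1]
  exact ((MeasurableEquiv.neg ℝ).measurableEmbedding.integral_map φ).symm

theorem sp3_num (h : Ec F M D) {G : ℝ → ℝ} {s : ℝ} (hs : 0 < s) (m x : ℝ) :
    ∫ z, G (x + s * z) * Real.exp (m * F (x + s * z)) ∂(gaussianReal 0 1) =
      Real.exp (-(x / s) ^ 2 / 2) *
        ∫ z, G (s * z) * (Real.exp (m * F (s * z)) * Real.exp (x / s * z)) ∂(gaussianReal 0 1) := by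
  have h1 := sp3_shift (fun z => G (s * z) * Real.exp (m * F (s * z))) (x / s)
  have h2 : ∀ z, s * (z + x / s) = x + s * z := by
    intro z
    field_simp
    ring
  simp only [h2] at h1
  rw [h1]
  congr 1
  refine integral_congr_ae (ae_of_all _ fun z => ?_)
  simp only
  ring

theorem sp3_num_even (h : Ec F M D) {G : ℝ → ℝ} (hG : Continuous G) {K : ℝ}
    (hK : ∀ y, |G y| ≤ K) (hev : ∀ y, G (-y) = G y) {s : ℝ} (hs : 0 < s) (m x : ℝ) :
    ∫ z, G (x + s * z) * Real.exp (m * F (x + s * z)) ∂(gaussianReal 0 1) =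
      Real.exp (-(x / s) ^ 2 / 2) * ∫ z, G (s * z) * sp3_W m s (x / s) F z ∂(gaussianReal 0 1) := by
  rw [sp3_num h hs m x]
  congr 1
  have hG' : Continuous fun y => G (s * y) := by fun_prop
  have i1 := sp3_int h hG' (fun y => hK (s * y)) m s (x / s)
  have i2 := sp3_int h hG' (fun y => hK (s * y)) m s (-(x / s))
  have e1 : ∫ z, G (s * z) * (Real.exp (m * F (s * z)) * Real.exp (-(x / s) * z))
      ∂(gaussianReal 0 1) =
      ∫ z, G (s * z) * (Real.exp (m * F (s * z)) * Real.exp (x / s * z)) ∂(gaussianReal 0 1) := by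
    rw [← sp3_neg (fun z => G (s * z) * (Real.exp (m * F (s * z)) * Real.exp (x / s * z)))]
    refine integral_congr_ae (ae_of_all _ fun z => ?_)
    simp only
    rw [show s * -z = -(s * z) by ring, hev, h.even, show x / s * -z = -(x / s) * z by ring]
  have e2 : ∀ z, G (s * z) * sp3_W m s (x / s) F z =
      1 / 2 * (G (s * z) * (Real.exp (m * F (s * z)) * Real.exp (x / s * z))) +
      1 / 2 * (G (s * z) * (Real.exp (m * F (s * z)) * Real.exp (-(x / s) * z))) := by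
    intro z
    rw [sp3_W, Real.cosh_eq, show -(x / s * z) = -(x / s) * z by ring]
    ring
  simp_rw [e2]
  rw [integral_add (i1.const_mul _) (i2.const_mul _), integral_const_mul, integral_const_mul, e1]
  ring

theorem sp3_num_odd (h : Ec F M D) {G : ℝ → ℝ} (hG : Continuous G) {K : ℝ}
    (hK : ∀ y, |G y| ≤ K) (hev : ∀ y, G (-y) = -G y) {s : ℝ} (hs : 0 < s) (m x : ℝ) :
    ∫ z, G (x + s * z) * Real.exp (m * F (x + s * z)) ∂(gaussianReal 0 1) =
      Real.exp (-(x / s) ^ 2 / 2) * ∫ z, (G (s * z) * Real.tanh (x / s * z)) *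
        sp3_W m s (x / s) F z ∂(gaussianReal 0 1) := by
  rw [sp3_num h hs m x]
  congr 1
  have hG' : Continuous fun y => G (s * y) := by fun_prop
  have i1 := sp3_int h hG' (fun y => hK (s * y)) m s (x / s)
  have i2 := sp3_int h hG' (fun y => hK (s * y)) m s (-(x / s))
  have e1 : ∫ z, G (s * z) * (Real.exp (m * F (s * z)) * Real.exp (-(x / s) * z))
      ∂(gaussianReal 0 1) =
      - ∫ z, G (s * z) * (Real.exp (m * F (s * z)) * Real.exp (x / s * z)) ∂(gaussianReal 0 1) := by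
    rw [← sp3_neg (fun z => G (s * z) * (Real.exp (m * F (s * z)) * Real.exp (x / s * z))),
      ← integral_neg]
    refine integral_congr_ae (ae_of_all _ fun z => ?_)
    simp only
    rw [show s * -z = -(s * z) by ring, hev, h.even, show x / s * -z = -(x / s) * z by ring]
    ring
  have e2 : ∀ z, (G (s * z) * Real.tanh (x / s * z)) * sp3_W m s (x / s) F z =
      1 / 2 * (G (s * z) * (Real.exp (m * F (s * z)) * Real.exp (x / s * z))) -
      1 / 2 * (G (s * z) * (Real.exp (m * F (s * z)) * Real.exp (-(x / s) * z))) := by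
    intro z
    have hc := (Real.cosh_pos (x / s * z)).ne'
    rw [sp3_W, Real.tanh_eq_sinh_div_cosh]
    have : G (s * z) * (Real.sinh (x / s * z) / Real.cosh (x / s * z)) *
        (Real.exp (m * F (s * z)) * Real.cosh (x / s * z)) =
        G (s * z) * Real.exp (m * F (s * z)) * Real.sinh (x / s * z) := by
      (clear * -; field_simp)
    rw [this, Real.sinh_eq, show -(x / s * z) = -(x / s) * z by ring]
    ring
  simp_rw [e2]
  rw [integral_sub (i1.const_mul _) (i2.const_mul _), integral_const_mul, integral_const_mul, e1]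
  ring

theorem sp3_den (h : Ec F M D) {s : ℝ} (hs : 0 < s) (m x : ℝ) :
    ∫ z, Real.exp (m * F (x + s * z)) ∂(gaussianReal 0 1) =
      Real.exp (-(x / s) ^ 2 / 2) * ∫ z, sp3_W m s (x / s) F z ∂(gaussianReal 0 1) := by
  have h1 := sp3_num_even h (G := fun _ => 1) continuous_const (K := 1) (fun _ => by simp)
    (fun _ => rfl) hs m x
  simpa only [one_mul] using h1

theorem sp3_tlt_even (h : Ec F M D) {G : ℝ → ℝ} (hG : Continuous G) {K : ℝ}
    (hK : ∀ y, |G y| ≤ K) (hev : ∀ y, G (-y) = G y) {v : ℝ} (hv : 0 < v) (m x : ℝ) :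
    tlt m v F G x = (∫ z, G (√v * z) * sp3_W m (√v) (x / √v) F z ∂(gaussianReal 0 1)) /
      ∫ z, sp3_W m (√v) (x / √v) F z ∂(gaussianReal 0 1) := by
  have hs : 0 < √v := Real.sqrt_pos.2 hv
  rw [tlt, sp3_num_even h hG hK hev hs, sp3_den h hs, mul_div_mul_left _ _ (Real.exp_pos _).ne']

theorem sp3_tlt_odd (h : Ec F M D) {G : ℝ → ℝ} (hG : Continuous G) {K : ℝ}
    (hK : ∀ y, |G y| ≤ K) (hev : ∀ y, G (-y) = -G y) {v : ℝ} (hv : 0 < v) (m x : ℝ) :
    tlt m v F G x = (∫ z, (G (√v * z) * Real.tanh (x / √v * z)) *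
      sp3_W m (√v) (x / √v) F z ∂(gaussianReal 0 1)) /
      ∫ z, sp3_W m (√v) (x / √v) F z ∂(gaussianReal 0 1) := by
  have hs : 0 < √v := Real.sqrt_pos.2 hv
  rw [tlt, sp3_num_odd h hG hK hev hs, sp3_den h hs, mul_div_mul_left _ _ (Real.exp_pos _).ne']

theorem sp3_tlt_triv {v : ℝ} (hv : v ≤ 0) (m x : ℝ) (F G : ℝ → ℝ) : tlt m v F G x = G x := by
  rw [tlt, Real.sqrt_eq_zero_of_nonpos hv]
  simp only [zero_mul, add_zero, integral_const, probReal_univ, one_smul]
  rw [mul_div_assoc, div_self (Real.exp_pos _).ne', mul_one]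

/-! ### Chebyshev association -/

theorem sp3_cheb {μ : Measure ℝ} [SFinite μ] {W f g : ℝ → ℝ} (hW : ∀ x, 0 ≤ W x)
    (hfg : ∀ x y, 0 ≤ (f x - f y) * (g x - g y)) (i1 : Integrable W μ)
    (i2 : Integrable (fun x => f x * W x) μ) (i3 : Integrable (fun x => g x * W x) μ)
    (i4 : Integrable (fun x => f x * (g x * W x)) μ) :
    (∫ x, f x * W x ∂μ) * (∫ x, g x * W x ∂μ) ≤ (∫ x, W x ∂μ) * ∫ x, f x * (g x * W x) ∂μ := by
  have h0 : 0 ≤ ∫ p : ℝ × ℝ, (f p.1 - f p.2) * (g p.1 - g p.2) * (W p.1 * W p.2) ∂(μ.prod μ) :=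
    integral_nonneg fun p => mul_nonneg (hfg _ _) (mul_nonneg (hW _) (hW _))
  have j1 : Integrable (fun p : ℝ × ℝ => (f p.1 * (g p.1 * W p.1)) * W p.2) (μ.prod μ) :=
    i4.mul_prod i1
  have j2 : Integrable (fun p : ℝ × ℝ => W p.1 * (f p.2 * (g p.2 * W p.2))) (μ.prod μ) :=
    i1.mul_prod i4
  have j3 : Integrable (fun p : ℝ × ℝ => (f p.1 * W p.1) * (g p.2 * W p.2)) (μ.prod μ) :=
    i2.mul_prod i3
  have j4 : Integrable (fun p : ℝ × ℝ => (g p.1 * W p.1) * (f p.2 * W p.2)) (μ.prod μ) :=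
    i3.mul_prod i2
  have e : ∀ p : ℝ × ℝ, (f p.1 - f p.2) * (g p.1 - g p.2) * (W p.1 * W p.2) =
      ((f p.1 * (g p.1 * W p.1)) * W p.2 + W p.1 * (f p.2 * (g p.2 * W p.2))) -
      ((f p.1 * W p.1) * (g p.2 * W p.2) + (g p.1 * W p.1) * (f p.2 * W p.2)) := by
    intro p
    ring
  rw [integral_congr_ae (ae_of_all _ e)] at h0
  have j12 : Integrable (fun p : ℝ × ℝ => (f p.1 * (g p.1 * W p.1)) * W p.2 +
      W p.1 * (f p.2 * (g p.2 * W p.2))) (μ.prod μ) := j1.add j2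
  have j34 : Integrable (fun p : ℝ × ℝ => (f p.1 * W p.1) * (g p.2 * W p.2) +
      (g p.1 * W p.1) * (f p.2 * W p.2)) (μ.prod μ) := j3.add j4
  rw [integral_sub j12 j34, integral_add j1 j2, integral_add j3 j4] at h0
  have k1 : ∫ p : ℝ × ℝ, (f p.1 * (g p.1 * W p.1)) * W p.2 ∂(μ.prod μ) =
      (∫ x, f x * (g x * W x) ∂μ) * ∫ x, W x ∂μ :=
    integral_prod_mul (fun x => f x * (g x * W x)) W
  have k2 : ∫ p : ℝ × ℝ, W p.1 * (f p.2 * (g p.2 * W p.2)) ∂(μ.prod μ) =
      (∫ x, W x ∂μ) * ∫ x, f x * (g x * W x) ∂μ :=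
    integral_prod_mul W (fun x => f x * (g x * W x))
  have k3 : ∫ p : ℝ × ℝ, (f p.1 * W p.1) * (g p.2 * W p.2) ∂(μ.prod μ) =
      (∫ x, f x * W x ∂μ) * ∫ x, g x * W x ∂μ :=
    integral_prod_mul (fun x => f x * W x) (fun x => g x * W x)
  have k4 : ∫ p : ℝ × ℝ, (g p.1 * W p.1) * (f p.2 * W p.2) ∂(μ.prod μ) =
      (∫ x, g x * W x ∂μ) * ∫ x, f x * W x ∂μ :=
    integral_prod_mul (fun x => g x * W x) (fun x => f x * W x)
  rw [k1, k2, k3, k4] at h0
  linarith only [h0]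

theorem sp3_evm_le {g : ℝ → ℝ} (hg : Evm g) {x y : ℝ} (h : |x| ≤ |y|) : g x ≤ g y := by
  have h1 : ∀ z, g |z| = g z := by
    intro z
    rcases abs_cases z with ⟨h, -⟩ | ⟨h, -⟩ <;> rw [h]
    exact hg.1 z
  rw [← h1 x, ← h1 y]
  exact hg.2 (abs_nonneg x) (abs_nonneg y) h

theorem sp3_evm_prod {f g : ℝ → ℝ} (hf : Evm f) (hg : Evm g) (x y : ℝ) :
    0 ≤ (f x - f y) * (g x - g y) := by
  rcases le_total |x| |y| with h | h
  · exact mul_nonneg_of_nonpos_of_nonpos (sub_nonpos.2 (sp3_evm_le hf h))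
      (sub_nonpos.2 (sp3_evm_le hg h))
  · exact mul_nonneg (sub_nonneg.2 (sp3_evm_le hf h)) (sub_nonneg.2 (sp3_evm_le hg h))

/-- comparison of two weights with a monotone ratio -/
theorem sp3_ratio {W W' k : ℝ → ℝ} (hW : ∀ x, 0 < W x) (hk : Evm k)
    (hr : Evm fun x => W' x / W x) (i1 : Integrable W (gaussianReal 0 1))
    (i2 : Integrable W' (gaussianReal 0 1))
    (i3 : Integrable (fun x => k x * W x) (gaussianReal 0 1))
    (i4 : Integrable (fun x => k x * W' x) (gaussianReal 0 1))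
    (p1 : 0 < ∫ x, W x ∂(gaussianReal 0 1)) (p2 : 0 < ∫ x, W' x ∂(gaussianReal 0 1)) :
    (∫ x, k x * W x ∂(gaussianReal 0 1)) / ∫ x, W x ∂(gaussianReal 0 1) ≤
      (∫ x, k x * W' x ∂(gaussianReal 0 1)) / ∫ x, W' x ∂(gaussianReal 0 1) := by
  have e1 : ∀ x, W' x / W x * W x = W' x := fun x => div_mul_cancel₀ _ (hW x).ne'
  have h := sp3_cheb (μ := gaussianReal 0 1) (W := W) (f := k) (g := fun x => W' x / W x)
    (fun x => (hW x).le) (sp3_evm_prod hk hr) i1 i3 (by simpa only [e1] using i2)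
    (by simpa only [e1] using i4)
  simp only [e1] at h
  rw [div_le_div_iff₀ p1 p2]
  linarith only [h]

/-! ### The two ratios -/

theorem sp3_cosh {a b y y' : ℝ} (ha : 0 ≤ a) (hab : a ≤ b) (hy : 0 ≤ y) (hyy : y ≤ y') :
    Real.cosh (b * y) * Real.cosh (a * y') ≤ Real.cosh (b * y') * Real.cosh (a * y) := by
  have e : ∀ u w : ℝ, Real.cosh u * Real.cosh w =
      (Real.cosh (u + w) + Real.cosh (u - w)) / 2 := by
    intro u w
    rw [Real.cosh_add, Real.cosh_sub]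
    ring
  have hb : 0 ≤ b := ha.trans hab
  have hy' : 0 ≤ y' := hy.trans hyy
  have h1 : 0 ≤ b * y := mul_nonneg hb hy
  have h2 : 0 ≤ a * y' := mul_nonneg ha hy'
  have h3 : 0 ≤ a * y := mul_nonneg ha hy
  have h4 : 0 ≤ b * y' := mul_nonneg hb hy'
  have h5 : 0 ≤ (b - a) * (y' - y) := mul_nonneg (by linarith only [hab]) (by linarith only [hyy])
  have h6 : 0 ≤ (b + a) * (y' - y) := mul_nonneg (by linarith only [ha, hab]) (by linarith only [hyy])
  have h7 : 0 ≤ (b - a) * (y' + y) := mul_nonneg (by linarith only [hab]) (by linarith)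
  have c1 : Real.cosh (b * y + a * y') ≤ Real.cosh (b * y' + a * y) := by
    rw [Real.cosh_le_cosh, abs_of_nonneg (by linarith), abs_of_nonneg (by linarith only [h3, h4])]
    linarith only [h5]
  have c2 : Real.cosh (b * y - a * y') ≤ Real.cosh (b * y' - a * y) := by
    rw [Real.cosh_le_cosh]
    refine le_trans ?_ (le_abs_self _)
    rw [abs_le]
    constructor <;> nlinarith only [h6, h7]
  rw [e, e]
  linarith only [c1, c2]

theorem sp3_evm_cosh {a b : ℝ} (ha : 0 ≤ a) (hab : a ≤ b) :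
    Evm fun y => Real.cosh (b * y) / Real.cosh (a * y) := by
  constructor
  · intro y
    simp only [mul_neg, Real.cosh_neg]
  · intro y hy y' _ hyy
    simp only
    rw [div_le_div_iff₀ (Real.cosh_pos _) (Real.cosh_pos _)]
    exact sp3_cosh ha hab hy hyy

theorem sp3_W_ratio1 (m s a b : ℝ) (F : ℝ → ℝ) (y : ℝ) :
    sp3_W m s b F y / sp3_W m s a F y = Real.cosh (b * y) / Real.cosh (a * y) := by
  rw [sp3_W, sp3_W, mul_div_mul_left _ _ (Real.exp_pos _).ne']

theorem sp3_W_ratio2 (m s a : ℝ) (F F' : ℝ → ℝ) (y : ℝ) :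
    sp3_W m s a F y / sp3_W m s a F' y = Real.exp (m * (F (s * y) - F' (s * y))) := by
  rw [sp3_W, sp3_W, mul_div_mul_right _ _ (Real.cosh_pos _).ne', ← Real.exp_sub]
  congr 1
  ring

theorem sp3_evm_exp (h : Ec F M D) (h' : Ec F' M' D') (hle : ∀ x, 0 ≤ x → M' x ≤ M x) {m s : ℝ}
    (hm : 0 < m) (hs : 0 ≤ s) : Evm fun y => Real.exp (m * (F (s * y) - F' (s * y))) := by
  have hmono : MonotoneOn (fun x => F x - F' x) (Ici 0) := by
    refine monotoneOn_of_deriv_nonneg (convex_Ici 0)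
      ((sp3_contF h).sub (sp3_contF h')).continuousOn
      (fun x _ => ((h.d1 x).sub (h'.d1 x)).differentiableAt.differentiableWithinAt) ?_
    intro x hx
    rw [interior_Ici] at hx
    have : deriv (fun x => F x - F' x) x = M x - M' x := ((h.d1 x).sub (h'.d1 x)).deriv
    rw [this]
    exact sub_nonneg.2 (hle x (le_of_lt hx))
  constructor
  · intro y
    simp only [mul_neg, h.even, h'.even]
  · intro y hy y' hy' hyy
    simp only
    refine Real.exp_le_exp.2 (mul_le_mul_of_nonneg_left ?_ hm.le)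
    exact hmono (mul_nonneg hs hy) (mul_nonneg hs hy') (mul_le_mul_of_nonneg_left hyy hs)

theorem sp3_evm_scale {g : ℝ → ℝ} (hg : Evm g) {s : ℝ} (hs : 0 ≤ s) : Evm fun y => g (s * y) := by
  constructor
  · intro y
    simp only [mul_neg, hg.1]
  · intro y hy y' hy' hyy
    exact hg.2 (mul_nonneg hs hy) (mul_nonneg hs hy') (mul_le_mul_of_nonneg_left hyy hs)

/-! ### The statements -/

theorem Ec.tlt_evm (h : Ec F M D) {g : ℝ → ℝ} (hg : Continuous g) {K : ℝ}
    (hK : ∀ x, |g x| ≤ K) (hev : Evm g) {m : ℝ} (hm : 0 < m) (v : ℝ) :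
    Evm (tlt m v F g) := by
  have _ := hm
  rcases le_or_gt v 0 with hv | hv
  · have : tlt m v F g = g := funext fun x => sp3_tlt_triv hv m x F g
    rw [this]
    exact hev
  · have hs : 0 < √v := Real.sqrt_pos.2 hv
    have hG : Continuous fun y => g (√v * y) := by fun_prop
    constructor
    · intro x
      rw [sp3_tlt_even h hg hK hev.1 hv, sp3_tlt_even h hg hK hev.1 hv]
      have e : sp3_W m (√v) (-x / √v) F = sp3_W m (√v) (x / √v) F := by
        funext y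
        rw [sp3_W, sp3_W, neg_div, neg_mul, Real.cosh_neg]
      rw [e]
    · intro x hx x' _ hxx
      rw [sp3_tlt_even h hg hK hev.1 hv, sp3_tlt_even h hg hK hev.1 hv]
      refine sp3_ratio (k := fun y => g (√v * y)) (fun y => sp3_W_pos _ _ _ _ _)
        (sp3_evm_scale hev hs.le) ?_ (sp3_W_int1 h _ _ _) (sp3_W_int1 h _ _ _)
        (sp3_W_int h hG (fun y => hK _) _ _ _) (sp3_W_int h hG (fun y => hK _) _ _ _)
        (sp3_W_ipos h _ _ _) (sp3_W_ipos h _ _ _)
      simp_rw [sp3_W_ratio1]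
      exact sp3_evm_cosh (div_nonneg hx hs.le) (div_le_div_of_nonneg_right hxx hs.le)

theorem tlt_cmp (h : Ec F M D) (h' : Ec F' M' D') (hle : ∀ x, 0 ≤ x → M' x ≤ M x)
    {g g' : ℝ → ℝ} (hg : Continuous g) {K : ℝ} (hK : ∀ x, |g x| ≤ K) (hg' : Continuous g')
    {K' : ℝ} (hK' : ∀ x, |g' x| ≤ K') (hge : ∀ x, g (-x) = g x) (hev : Evm g')
    (hgg : ∀ x, g' x ≤ g x) {m : ℝ} (hm : 0 < m) (v x : ℝ) :
    tlt m v F' g' x ≤ tlt m v F g x := by
  rcases le_or_gt v 0 with hv | hv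
  · rw [sp3_tlt_triv hv, sp3_tlt_triv hv]
    exact hgg x
  · have hs : 0 < √v := Real.sqrt_pos.2 hv
    have hG : Continuous fun y => g (√v * y) := by fun_prop
    have hG' : Continuous fun y => g' (√v * y) := by fun_prop
    rw [sp3_tlt_even h' hg' hK' hev.1 hv, sp3_tlt_even h hg hK hge hv]
    refine (sp3_ratio (k := fun y => g' (√v * y)) (W' := sp3_W m (√v) (x / √v) F)
      (fun y => sp3_W_pos _ _ _ _ _)
      (sp3_evm_scale hev hs.le) ?_ (sp3_W_int1 h' _ _ _) (sp3_W_int1 h _ _ _)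
      (sp3_W_int h' hG' (fun y => hK' _) _ _ _) (sp3_W_int h hG' (fun y => hK' _) _ _ _)
      (sp3_W_ipos h' _ _ _) (sp3_W_ipos h _ _ _)).trans ?_
    · simp_rw [sp3_W_ratio2]
      exact sp3_evm_exp h h' hle hm hs.le
    · refine div_le_div_of_nonneg_right ?_ (sp3_W_ipos h _ _ _).le
      refine integral_mono (sp3_W_int h hG' (fun y => hK' _) _ _ _)
        (sp3_W_int h hG (fun y => hK _) _ _ _) fun y => ?_
      exact mul_le_mul_of_nonneg_right (hgg _) (sp3_W_pos _ _ _ _ _).le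

theorem sp3_tanh_nonneg {a y : ℝ} (ha : 0 ≤ a) (hy : 0 ≤ y) : 0 ≤ Real.tanh (a * y) := by
  rw [Real.tanh_eq_sinh_div_cosh]
  exact div_nonneg (Real.sinh_nonneg_iff.2 (mul_nonneg ha hy)) (Real.cosh_pos _).le

theorem sp3_tanh_cont : Continuous Real.tanh := by
  have : Real.tanh = fun x => Real.sinh x / Real.cosh x := funext Real.tanh_eq_sinh_div_cosh
  rw [this]
  exact Real.continuous_sinh.div Real.continuous_cosh fun x => (Real.cosh_pos x).ne'

theorem sp3_tanh_mono {x y : ℝ} (h : x ≤ y) : Real.tanh x ≤ Real.tanh y := by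
  rw [Real.tanh_eq_sinh_div_cosh, Real.tanh_eq_sinh_div_cosh,
    div_le_div_iff₀ (Real.cosh_pos _) (Real.cosh_pos _)]
  have h1 : Real.sinh (y - x) = Real.sinh y * Real.cosh x - Real.cosh y * Real.sinh x :=
    Real.sinh_sub y x
  have h2 : 0 ≤ Real.sinh (y - x) := Real.sinh_nonneg_iff.2 (by linarith)
  linarith only [h1, h2]

theorem sp3_abs_tanh (x : ℝ) : |Real.tanh x| ≤ 1 := by
  rw [Real.tanh_eq_sinh_div_cosh, abs_div, abs_of_pos (Real.cosh_pos x),
    div_le_one (Real.cosh_pos x)]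
  have h1 := Real.cosh_sq x
  refine abs_le_of_sq_le_sq ?_ (Real.cosh_pos x).le
  linarith only [h1]

theorem tlt_cmp_odd (h : Ec F M D) (h' : Ec F' M' D') (hle : ∀ x, 0 ≤ x → M' x ≤ M x)
    {m : ℝ} (hm : 0 < m) (v : ℝ) {x : ℝ} (hx : 0 ≤ x) :
    tlt m v F' M' x ≤ tlt m v F M x := by
  rcases le_or_gt v 0 with hv | hv
  · rw [sp3_tlt_triv hv, sp3_tlt_triv hv]
    exact hle x hx
  · have hs : 0 < √v := Real.sqrt_pos.2 hv
    have ha : 0 ≤ x / √v := div_nonneg hx hs.le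
    have cM := sp3_contM h
    have cM' := sp3_contM h'
    have ct := sp3_tanh_cont
    have hG : Continuous fun y => M (√v * y) * Real.tanh (x / √v * y) := by fun_prop
    have hG' : Continuous fun y => M' (√v * y) * Real.tanh (x / √v * y) := by fun_prop
    have bG : ∀ y, |M (√v * y) * Real.tanh (x / √v * y)| ≤ 1 := by
      intro y
      rw [abs_mul]
      exact mul_le_one₀ (sp3_abs_M h _) (abs_nonneg _) (sp3_abs_tanh _)
    have bG' : ∀ y, |M' (√v * y) * Real.tanh (x / √v * y)| ≤ 1 := by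
      intro y
      rw [abs_mul]
      exact mul_le_one₀ (sp3_abs_M h' _) (abs_nonneg _) (sp3_abs_tanh _)
    have hev' : Evm fun y => M' (√v * y) * Real.tanh (x / √v * y) := by
      constructor
      · intro y
        simp only [mul_neg, sp3_odd h', Real.tanh_neg, neg_mul, neg_neg]
      · intro y hy y' hy' hyy
        refine mul_le_mul (sp3_mono h' (mul_le_mul_of_nonneg_left hyy hs.le))
          (sp3_tanh_mono (mul_le_mul_of_nonneg_left hyy ha)) (sp3_tanh_nonneg ha hy)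
          (sp3_nonneg h' (mul_nonneg hs.le hy'))
    rw [sp3_tlt_odd h' cM' (sp3_abs_M h') (sp3_odd h') hv,
      sp3_tlt_odd h cM (sp3_abs_M h) (sp3_odd h) hv]
    refine (sp3_ratio (k := fun y => M' (√v * y) * Real.tanh (x / √v * y))
      (W' := sp3_W m (√v) (x / √v) F) (fun y => sp3_W_pos _ _ _ _ _)
      hev' ?_ (sp3_W_int1 h' _ _ _) (sp3_W_int1 h _ _ _)
      (sp3_W_int h' hG' bG' _ _ _) (sp3_W_int h hG' bG' _ _ _)
      (sp3_W_ipos h' _ _ _) (sp3_W_ipos h _ _ _)).trans ?_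
    · simp_rw [sp3_W_ratio2]
      exact sp3_evm_exp h h' hle hm hs.le
    · refine div_le_div_of_nonneg_right ?_ (sp3_W_ipos h _ _ _).le
      refine integral_mono (sp3_W_int h hG' bG' _ _ _) (sp3_W_int h hG bG _ _ _) fun y => ?_
      refine mul_le_mul_of_nonneg_right ?_ (sp3_W_pos _ _ _ _ _).le
      rcases le_total 0 y with hy | hy
      · exact mul_le_mul_of_nonneg_right (hle _ (mul_nonneg hs.le hy)) (sp3_tanh_nonneg ha hy)
      · have h1 : ∀ G : ℝ → ℝ, (∀ z, G (-z) = -G z) → G (√v * y) * Real.tanh (x / √v * y) =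
            G (√v * -y) * Real.tanh (x / √v * -y) := by
          intro G hG
          rw [mul_neg, mul_neg, hG, Real.tanh_neg]
          ring
        rw [h1 M' (sp3_odd h'), h1 M (sp3_odd h)]
        have hy' : 0 ≤ -y := by linarith only [hy]
        exact mul_le_mul_of_nonneg_right (hle _ (mul_nonneg hs.le hy')) (sp3_tanh_nonneg ha hy')

theorem evm_gauss_mono {g : ℝ → ℝ} (hg : Continuous g) {K : ℝ} (hK : ∀ x, |g x| ≤ K)
    (hev : Evm g) {v v' : ℝ} (hv : v ≤ v') :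
    ∫ z, g (√v * z) ∂(gaussianReal 0 1) ≤ ∫ z, g (√v' * z) ∂(gaussianReal 0 1) := by
  have hint : ∀ s : ℝ, Integrable (fun z => g (s * z)) (gaussianReal 0 1) := by
    intro s
    refine Integrable.of_bound (by fun_prop) K (ae_of_all _ fun z => ?_)
    rw [Real.norm_eq_abs]
    exact hK _
  refine integral_mono (hint _) (hint _) fun z => ?_
  refine sp3_evm_le hev ?_
  rw [abs_mul, abs_mul]
  refine mul_le_mul_of_nonneg_right ?_ (abs_nonneg z)
  rw [abs_of_nonneg (Real.sqrt_nonneg _), abs_of_nonneg (Real.sqrt_nonneg _)]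
  exact Real.sqrt_le_sqrt hv

end Vale.Agent.P157.Par
end

section

/-!
The optimal strengths of the fields: existence, bounds, first and second order conditions,
concentration of the fields.
-/

open MeasureTheory ProbabilityTheory Filter Topology

namespace Vale.Agent.P157.Lv

set_option linter.unusedSectionVars false

open Par (incr Path Exponents cascade gstep patternPart spinPart topN lw)

/-- The coefficients `a_j = 1 - ∑_{l ≥ j} p_l q_l`. -/
noncomputable def aco (K : ℕ) (m q : ℕ → ℝ) (j : ℕ) : ℝ :=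
  1 - ∑ l ∈ Finset.Ico j (K + 1), (m (l + 1) - m l) * q l

/-- The penalty. -/
noncomputable def Pen (K : ℕ) (m q : ℕ → ℝ) (η : ℝ) (s : ℕ → ℝ) : ℝ :=
  ∑ j ∈ Finset.range (K + 1), (1 / 2 * (aco K m q j + η) * s j ^ 2 + η / s j)

lemma o8_m_nonneg {K : ℕ} {m : ℕ → ℝ} (hm : Exponents K m) : ∀ j ≤ K + 1, 0 ≤ m j := by
  intro j
  induction j with
  | zero => intro _; rw [hm.1]
  | succ j ih => intro hj; exact (ih (by omega)).trans (hm.2.2 j (by omega)).le

lemma o8_q_le {K : ℕ} {q : ℕ → ℝ} (hq : Path K q) (hq1 : q K ≤ 1) :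
    ∀ l ≤ K, 0 ≤ q l ∧ q l ≤ 1 := by
  have h0 : ∀ l ≤ K, 0 ≤ q l := by
    intro l
    induction l with
    | zero => intro _; exact hq.1
    | succ l ih => intro hl; exact (ih (by omega)).trans (hq.2 l (by omega))
  have h1 : ∀ d l, l + d = K → q l ≤ q K := by
    intro d
    induction d with
    | zero => intro l hl; rw [← hl]; simp
    | succ d ih => intro l hl; exact (hq.2 l (by omega)).trans (ih (l + 1) (by omega))
  intro l hl
  exact ⟨h0 l hl, (h1 (K - l) l (by omega)).trans hq1⟩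

lemma aco_nonneg {K : ℕ} {m q : ℕ → ℝ} (hm : Exponents K m) (hq : Path K q) (hq1 : q K ≤ 1)
    {j : ℕ} (hj : j ≤ K) : 0 ≤ aco K m q j := by
  have h1 : ∑ l ∈ Finset.Ico j (K + 1), (m (l + 1) - m l) * q l ≤
      ∑ l ∈ Finset.Ico j (K + 1), (m (l + 1) - m l) := by
    refine Finset.sum_le_sum fun l hl => ?_
    rw [Finset.mem_Ico] at hl
    have h2 := o8_q_le hq hq1 l (by omega)
    have h3 := hm.2.2 l (by omega)
    nlinarith only [h3, h2.2]
  rw [Finset.sum_Ico_sub _ (by omega : j ≤ K + 1), hm.2.1] at h1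
  have h2 := o8_m_nonneg hm j (by omega)
  unfold aco
  linarith only [h1, h2]

lemma aco_le_one {K : ℕ} {m q : ℕ → ℝ} (hm : Exponents K m) (hq : Path K q)
    {j : ℕ} (hj : j ≤ K) : aco K m q j ≤ 1 := by
  have h0 : ∀ l ≤ K, 0 ≤ q l := by
    intro l
    induction l with
    | zero => intro _; exact hq.1
    | succ l ih => intro hl; exact (ih (by omega)).trans (hq.2 l (by omega))
  have h1 : 0 ≤ ∑ l ∈ Finset.Ico j (K + 1), (m (l + 1) - m l) * q l := by
    refine Finset.sum_nonneg fun l hl => ?_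
    rw [Finset.mem_Ico] at hl
    have h3 := hm.2.2 l (by (clear * - hl; omega))
    exact mul_nonneg (by linarith only [h3]) (h0 l (by omega))
  unfold aco
  linarith only [h1]

/-- Summation by parts: the quadratic part of the penalty in terms of the path `r`. -/
lemma sum_aco (K : ℕ) (m q s : ℕ → ℝ) :
    1 / 2 * ∑ j ∈ Finset.range (K + 1), aco K m q j * s j ^ 2 =
      1 / 2 * ∑ j ∈ Finset.range (K + 1), s j ^ 2 - 1 / 2 * ∑ l ∈ Finset.range (K + 1),
        (m (l + 1) - m l) * (∑ j ∈ Finset.range (l + 1), s j ^ 2) * q l := by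
  have h1 : ∑ j ∈ Finset.range (K + 1), aco K m q j * s j ^ 2 =
      ∑ j ∈ Finset.range (K + 1), s j ^ 2 - ∑ j ∈ Finset.range (K + 1),
        ∑ l ∈ Finset.Ico j (K + 1), (m (l + 1) - m l) * q l * s j ^ 2 := by
    rw [← Finset.sum_sub_distrib]
    refine Finset.sum_congr rfl fun j _ => ?_
    unfold aco
    rw [sub_mul, one_mul, Finset.sum_mul]
  have h2 : ∑ j ∈ Finset.range (K + 1),
      ∑ l ∈ Finset.Ico j (K + 1), (m (l + 1) - m l) * q l * s j ^ 2 =
      ∑ l ∈ Finset.range (K + 1), ∑ j ∈ Finset.range (l + 1),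
        (m (l + 1) - m l) * q l * s j ^ 2 := by
    refine Finset.sum_comm' fun j l => ?_
    simp only [Finset.mem_range, Finset.mem_Ico]
    (clear * -; omega)
  have h3 : ∑ l ∈ Finset.range (K + 1), ∑ j ∈ Finset.range (l + 1),
        (m (l + 1) - m l) * q l * s j ^ 2 = ∑ l ∈ Finset.range (K + 1),
        (m (l + 1) - m l) * (∑ j ∈ Finset.range (l + 1), s j ^ 2) * q l := by
    refine Finset.sum_congr rfl fun l _ => ?_
    rw [← Finset.mul_sum]
    ring
  rw [h1, h2, h3]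
  ring

variable {X : Type} [Fintype X] [DecidableEq X] [Nonempty X] {A N K : ℕ}
  {m q : ℕ → ℝ} {f f' f'' : ℝ → ℝ} {B C₁ C₂ : ℝ} {u : X → ℝ} {φ : X → Fin N → ℝ}
  {s : ℕ → ℝ} {a : ℕ} {η : ℝ}

/-- The objective. -/
noncomputable def Ob (A K : ℕ) (m q : ℕ → ℝ) (η : ℝ) (f : ℝ → ℝ) (u : X → ℝ)
    (φ : X → Fin N → ℝ) (a : ℕ) (s : ℕ → ℝ) : ℝ := Fe A K m f u φ a s - Pen K m q η s

/-- Optimal strengths. -/
structure IsOpt (A K : ℕ) (m q : ℕ → ℝ) (η : ℝ) (f : ℝ → ℝ) (u : X → ℝ)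
    (φ : X → Fin N → ℝ) (a : ℕ) (s : ℕ → ℝ) : Prop where
  pos : ∀ j ≤ K, 0 < s j
  max : ∀ s' : ℕ → ℝ, (∀ j ≤ K, 0 < s' j) → Ob A K m q η f u φ a s' ≤ Ob A K m q η f u φ a s

/-- The objective depends only on the strengths of the levels `0, …, K`. -/
lemma o8_mdl_congr {s s' : ℕ → ℝ} (hs : ∀ j ≤ K, s j = s' j) :
    mdl A K m f u φ s a = mdl A K m f u φ s' a := by
  unfold mdl
  congr 1
  funext z x
  unfold en
  congr 1
  refine Finset.sum_congr rfl fun l hl => ?_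
  rw [Finset.mem_range] at hl
  rw [hs l (by omega)]

lemma o8_Fe_congr {s s' : ℕ → ℝ} (hs : ∀ j ≤ K, s j = s' j) :
    Fe A K m f u φ a s = Fe A K m f u φ a s' := by
  unfold Fe
  rw [o8_mdl_congr hs]

lemma o8_Pen_congr {s s' : ℕ → ℝ} (hs : ∀ j ≤ K, s j = s' j) :
    Pen K m q η s = Pen K m q η s' := by
  unfold Pen
  refine Finset.sum_congr rfl fun l hl => ?_
  rw [Finset.mem_range] at hl
  rw [hs l (by omega)]

lemma o8_Ob_congr {s s' : ℕ → ℝ} (hs : ∀ j ≤ K, s j = s' j) :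
    Ob A K m q η f u φ a s = Ob A K m q η f u φ a s' := by
  unfold Ob
  rw [o8_Fe_congr hs, o8_Pen_congr hs]

/-- Strengths from a vector. -/
def o8_ext (v : Fin (K + 1) → ℝ) (j : ℕ) : ℝ := if h : j < K + 1 then v ⟨j, h⟩ else 0

lemma o8_ext_apply (v : Fin (K + 1) → ℝ) {j : ℕ} (hj : j ≤ K) :
    o8_ext v j = v ⟨j, Nat.lt_succ_of_le hj⟩ := dif_pos _

lemma o8_ext_res (s : ℕ → ℝ) : ∀ j ≤ K, s j = o8_ext (fun i : Fin (K + 1) => s i) j := by
  intro j hj
  rw [o8_ext_apply _ hj]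

/-- The upper bound of the objective. -/
lemma o8_Ob_le (h : MD K m f f' f'' B C₁ C₂ u φ) (hη : 0 < η) (ha : a ≤ A) {C : ℝ}
    (hC : ∀ s : ℕ → ℝ, (∀ j ≤ K, 0 ≤ s j) → Fe A K m f u φ 0 s -
      1 / 2 * ∑ j ∈ Finset.range (K + 1), aco K m q j * s j ^ 2 ≤ C) (hs : ∀ j ≤ K, 0 < s j)
    {j : ℕ} (hj : j ≤ K) :
    η / 2 * s j ^ 2 + η / s j ≤ C + a * B / N - Ob A K m q η f u φ a s := by
  have h1 := hC s fun j hj => (hs j hj).le
  have h2 := (abs_le.1 (abs_Fe_sub_le (A := A) h s ha)).2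
  have h3 : Pen K m q η s = 1 / 2 * ∑ j ∈ Finset.range (K + 1), aco K m q j * s j ^ 2 +
      ∑ j ∈ Finset.range (K + 1), (η / 2 * s j ^ 2 + η / s j) := by
    unfold Pen
    rw [Finset.mul_sum, ← Finset.sum_add_distrib]
    refine Finset.sum_congr rfl fun l _ => ?_
    ring
  have h4 : η / 2 * s j ^ 2 + η / s j ≤
      ∑ j ∈ Finset.range (K + 1), (η / 2 * s j ^ 2 + η / s j) := by
    refine Finset.single_le_sum (f := fun j => η / 2 * s j ^ 2 + η / s j) (fun l hl => ?_)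
      (Finset.mem_range.2 (by omega : j < K + 1))
    rw [Finset.mem_range] at hl
    have := hs l (by omega)
    (clear * - hη this; positivity)
  unfold Ob
  linarith only [h1, h2, h3, h4]

/-- The free energy is convex in the strengths. -/
lemma o8_convex (h : MD K m f f' f'' B C₁ C₂ u φ) :
    ConvexOn ℝ Set.univ fun v : Fin (K + 1) → ℝ => Fe A K m f u φ a (o8_ext v) := by
  refine ⟨convex_univ, fun x _ y _ α β hα hβ hαβ => ?_⟩
  have h1 := Fe_tangent (A := A) (a := a) h (o8_ext (α • x + β • y)) (o8_ext x)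
  have h2 := Fe_tangent (A := A) (a := a) h (o8_ext (α • x + β • y)) (o8_ext y)
  have h3 : α * (∑ l ∈ Finset.range (K + 1), (o8_ext x l - o8_ext (α • x + β • y) l) *
      (mdl A K m f u φ (o8_ext (α • x + β • y)) a).Ex (hz φ zco l)) +
      β * (∑ l ∈ Finset.range (K + 1), (o8_ext y l - o8_ext (α • x + β • y) l) *
      (mdl A K m f u φ (o8_ext (α • x + β • y)) a).Ex (hz φ zco l)) = 0 := by
    rw [Finset.mul_sum, Finset.mul_sum, ← Finset.sum_add_distrib]
    refine Finset.sum_eq_zero fun l hl => ?_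
    rw [Finset.mem_range] at hl
    have hl' : l ≤ K := by omega
    rw [o8_ext_apply _ hl', o8_ext_apply _ hl', o8_ext_apply _ hl']
    simp only [Pi.add_apply, Pi.smul_apply, smul_eq_mul]
    generalize (mdl A K m f u φ (o8_ext (α • x + β • y)) a).Ex (hz φ zco l) = E
    have h4 : β = 1 - α := by linarith only [hαβ]
    subst h4
    ring
  have h4 := mul_le_mul_of_nonneg_left h1 hα
  have h5 := mul_le_mul_of_nonneg_left h2 hβ
  have h6 : Fe A K m f u φ a (o8_ext (α • x + β • y)) =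
      α * Fe A K m f u φ a (o8_ext (α • x + β • y)) +
      β * Fe A K m f u φ a (o8_ext (α • x + β • y)) := by
    rw [← add_mul, hαβ, one_mul]
  simp only [smul_eq_mul]
  linarith only [h3, h4, h5, h6]

/-- Existence. Proof: `Fe 0 s - (1/2) ∑ a_j s_j² ≤ C` and `abs_Fe_sub_le` make the objective tend to
`-∞` at infinity (like `-(η/2) |s|²`) and at the boundary of the orthant (like `-η / s_j`); it is
continuous (`Fe_tangent`). -/
theorem exists_opt (h : MD K m f f' f'' B C₁ C₂ u φ) (hη : 0 < η) (ha : a ≤ A) {C : ℝ}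
    (hC : ∀ s : ℕ → ℝ, (∀ j ≤ K, 0 ≤ s j) → Fe A K m f u φ 0 s -
      1 / 2 * ∑ j ∈ Finset.range (K + 1), aco K m q j * s j ^ 2 ≤ C) :
    ∃ s, IsOpt A K m q η f u φ a s := by
  classical
  obtain ⟨V, hV⟩ : ∃ V, V = Ob A K m q η f u φ a (fun _ => 1) := ⟨_, rfl⟩
  obtain ⟨M, hM⟩ : ∃ M, M = C + a * B / N - V := ⟨_, rfl⟩
  have hM0 : η / 2 + η ≤ M := by
    have := o8_Ob_le (q := q) (s := fun _ => (1 : ℝ)) h hη ha hC (fun _ _ => one_pos)
      (Nat.zero_le K)
    rw [hM, hV]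
    simpa only [ge_iff_le, one_pow, mul_one, div_one] using this
  have hMpos : 0 < M := by linarith only [hη, hM0]
  -- strengths with a large value lie in a box
  have hbox : ∀ s : ℕ → ℝ, (∀ j ≤ K, 0 < s j) → V ≤ Ob A K m q η f u φ a s →
      ∀ j ≤ K, η / M ≤ s j ∧ s j ≤ 1 + 2 * M / η := by
    intro s hs hVs j hj
    have h1 := o8_Ob_le h hη ha hC hs hj
    have hsj := hs j hj
    have h2 : 0 ≤ η / 2 * s j ^ 2 := by (clear * - hη hsj; positivity)
    have h3 : 0 ≤ η / s j := by positivity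
    constructor
    · have h4 : η / s j ≤ M := by linarith only [hM, hVs, h1, h2]
      rw [div_le_iff₀ hsj] at h4
      rw [div_le_iff₀ hMpos]
      linarith only [h4]
    · have h4 : η / 2 * s j ^ 2 ≤ M := by linarith only [hM, hVs, h1, h3]
      have h5 : s j ^ 2 ≤ 2 * M / η := by
        rw [le_div_iff₀ hη]
        linarith only [hM, hVs, h1, h3]
      linarith only [hsj, h5, sq_nonneg (s j - 1)]
  -- the maximum over the box
  obtain ⟨Kb, hKb⟩ : ∃ Kb : Set (Fin (K + 1) → ℝ),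
      Kb = Set.Icc (fun _ => η / M) (fun _ => 1 + 2 * M / η) := ⟨_, rfl⟩
  have hcomp : IsCompact Kb := by rw [hKb]; exact isCompact_Icc
  have hpos : ∀ v ∈ Kb, ∀ j ≤ K, 0 < o8_ext v j := by
    intro v hv j hj
    rw [hKb] at hv
    rw [o8_ext_apply _ hj]
    exact lt_of_lt_of_le (by positivity) (hv.1 _)
  have hFc : Continuous fun v : Fin (K + 1) → ℝ => Fe A K m f u φ a (o8_ext v) := by
    rw [← continuousOn_univ]
    exact (o8_convex h).continuousOn isOpen_univ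
  have hPc : ContinuousOn (fun v : Fin (K + 1) → ℝ => Pen K m q η (o8_ext v)) Kb := by
    unfold Pen
    refine continuousOn_finsetSum _ fun j hj => ?_
    rw [Finset.mem_range] at hj
    have hj' : j ≤ K := by omega
    have hc : Continuous fun v : Fin (K + 1) → ℝ => o8_ext v j := by
      have : (fun v : Fin (K + 1) → ℝ => o8_ext v j) =
          fun v => v ⟨j, Nat.lt_succ_of_le hj'⟩ := by
        funext v
        exact o8_ext_apply v hj'
      rw [this]
      exact continuous_apply _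
    refine ContinuousOn.add ((hc.pow 2).const_mul _).continuousOn ?_
    exact continuousOn_const.div hc.continuousOn fun v hv => (hpos v hv j hj').ne'
  have hOc : ContinuousOn (fun v : Fin (K + 1) → ℝ => Ob A K m q η f u φ a (o8_ext v)) Kb :=
    hFc.continuousOn.sub hPc
  have h1mem : (fun _ => (1 : ℝ)) ∈ Kb := by
    rw [hKb]
    have h2 := hbox (fun _ => 1) (fun _ _ => one_pos) hV.le 0 (Nat.zero_le _)
    exact ⟨fun _ => h2.1, fun _ => h2.2⟩
  obtain ⟨v, hv, hmax⟩ := hcomp.exists_isMaxOn ⟨_, h1mem⟩ hOc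
  have hVv : V ≤ Ob A K m q η f u φ a (o8_ext v) := by
    have h2 : Ob A K m q η f u φ a (o8_ext (fun _ : Fin (K + 1) => (1 : ℝ))) ≤
      Ob A K m q η f u φ a (o8_ext v) := hmax h1mem
    rw [hV, o8_Ob_congr (o8_ext_res (K := K) fun _ => (1 : ℝ))]
    exact h2
  refine ⟨o8_ext v, hpos v hv, fun s' hs' => ?_⟩
  by_cases hc : V ≤ Ob A K m q η f u φ a s'
  · have h2 := hbox s' hs' hc
    have h3 : (fun i : Fin (K + 1) => s' i) ∈ Kb := by
      rw [hKb]
      exact ⟨fun i => (h2 i (Nat.le_of_lt_succ i.2)).1, fun i => (h2 i (Nat.le_of_lt_succ i.2)).2⟩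
    have h4 : Ob A K m q η f u φ a (o8_ext (fun i : Fin (K + 1) => s' i)) ≤
      Ob A K m q η f u φ a (o8_ext v) := hmax h3
    rw [o8_Ob_congr (o8_ext_res s')]
    exact h4
  · exact (not_le.1 hc).le.trans hVv

/-- The penalty along one coordinate. -/
noncomputable def o8_pj (K : ℕ) (m q : ℕ → ℝ) (η : ℝ) (j : ℕ) (x : ℝ) : ℝ :=
  1 / 2 * (aco K m q j + η) * x ^ 2 + η / x

lemma o8_Pen_update {j : ℕ} (hj : j ≤ K) (x : ℝ) :
    Pen K m q η (Function.update s j x) - Pen K m q η s =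
      o8_pj K m q η j x - o8_pj K m q η j (s j) := by
  unfold Pen
  rw [← Finset.sum_sub_distrib, Finset.sum_eq_single j]
  · rw [Function.update_self]
    rfl
  · intro l _ hl
    rw [Function.update_of_ne hl, sub_self]
  · intro hl
    exact absurd (Finset.mem_range.2 (by omega)) hl

lemma IsOpt.o8_Fe_update (ho : IsOpt A K m q η f u φ a s) {j : ℕ} (hj : j ≤ K) {x : ℝ}
    (hx : 0 < x) : Fe A K m f u φ a (Function.update s j x) - Fe A K m f u φ a s ≤
      o8_pj K m q η j x - o8_pj K m q η j (s j) := by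
  have h1 := ho.max (Function.update s j x) (fun l hl => by
    by_cases hlj : l = j
    · subst hlj
      rw [Function.update_self]
      exact hx
    · rw [Function.update_of_ne hlj]
      exact ho.pos l hl)
  have h2 := o8_Pen_update (m := m) (q := q) (η := η) (s := s) hj x
  unfold Ob at h1
  linarith only [h1, h2]

/-- First order condition. -/
theorem IsOpt.first (h : MD K m f f' f'' B C₁ C₂ u φ) (ho : IsOpt A K m q η f u φ a s)
    {j : ℕ} (hj : j ≤ K) :
    (mdl A K m f u φ s a).Ex (hz φ zco j) = (aco K m q j + η) * s j - η / s j ^ 2 := by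
  have hsj := ho.pos j hj
  obtain ⟨E, hE⟩ : ∃ E, E = (mdl A K m f u φ s a).Ex (hz φ zco j) := ⟨_, rfl⟩
  rw [← hE]
  have hmin : IsLocalMin (fun x => o8_pj K m q η j x - E * x) (s j) := by
    filter_upwards [eventually_gt_nhds hsj] with x hx
    have h1 := ho.o8_Fe_update hj hx
    have h2 := Fe_tangent (A := A) (a := a) h s (Function.update s j x)
    have h3 : ∑ l ∈ Finset.range (K + 1), (Function.update s j x l - s l) *
        (mdl A K m f u φ s a).Ex (hz φ zco l) = (x - s j) * E := by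
      rw [Finset.sum_eq_single j]
      · rw [Function.update_self, hE]
      · intro l _ hl
        rw [Function.update_of_ne hl, sub_self, zero_mul]
      · intro hl
        exact absurd (Finset.mem_range.2 (by omega)) hl
    rw [h3] at h2
    linarith only [h1, h2]
  have hd : HasDerivAt (fun x => o8_pj K m q η j x - E * x)
      ((aco K m q j + η) * s j - η / s j ^ 2 - E) (s j) := by
    have h1 : HasDerivAt (fun x : ℝ => 1 / 2 * (aco K m q j + η) * x ^ 2)
        (1 / 2 * (aco K m q j + η) * (2 * s j)) (s j) := by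
      have := (hasDerivAt_pow 2 (s j)).const_mul (1 / 2 * (aco K m q j + η))
      simpa only [one_div, Nat.cast_ofNat, Nat.add_one_sub_one, pow_one] using this
    have h2 : HasDerivAt (fun x : ℝ => η / x) (-(η / s j ^ 2)) (s j) := by
      have := (hasDerivAt_inv hsj.ne').const_mul η
      refine (this.congr_of_eventuallyEq (Eventually.of_forall fun x => ?_)).congr_deriv ?_
      · exact div_eq_mul_inv _ _
      · ring
    have h3 := (h1.add h2).sub ((hasDerivAt_id (s j)).const_mul E)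
    refine h3.congr_deriv ?_
    ring
  have h0 := hmin.hasDerivAt_eq_zero hd
  linarith only [h0]

/-- The overlaps at the optimum (from `Fld.Ex_hz`). -/
theorem IsOpt.tails (h : MD K m f f' f'' B C₁ C₂ u φ) (ho : IsOpt A K m q η f u φ a s)
    {j : ℕ} (hj : j ≤ K) :
    ∑ l ∈ Finset.Ico j (K + 1), (m (l + 1) - m l) *
      ((mdl A K m f u φ s a).Rl φ l - q l) = η / s j ^ 3 - η := by
  have hsj := ho.pos j hj
  have h1 := ho.first h hj
  have h2 : (mdl A K m f u φ s a).Ex (hz φ zco j) =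
      s j * (1 - ∑ i ∈ Finset.Ico j (K + 1), (m (i + 1) - m i) *
        (mdl A K m f u φ s a).Rl φ i) :=
    (mdl_fld (A := A) (a := a) h fun l hl => (ho.pos l hl).le).Ex_hz (l := j) hj
  rw [h2] at h1
  unfold aco at h1
  have h3 : ∑ l ∈ Finset.Ico j (K + 1), (m (l + 1) - m l) *
      ((mdl A K m f u φ s a).Rl φ l - q l) =
      ∑ l ∈ Finset.Ico j (K + 1), (m (l + 1) - m l) * (mdl A K m f u φ s a).Rl φ l -
      ∑ l ∈ Finset.Ico j (K + 1), (m (l + 1) - m l) * q l := by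
    rw [← Finset.sum_sub_distrib]
    exact Finset.sum_congr rfl fun l _ => by ring
  rw [h3]
  generalize ∑ l ∈ Finset.Ico j (K + 1), (m (l + 1) - m l) *
    (mdl A K m f u φ s a).Rl φ l = P at h1 ⊢
  generalize ∑ l ∈ Finset.Ico j (K + 1), (m (l + 1) - m l) * q l = Q at h1 ⊢
  have h4 : s j * (P - Q) = s j * (η / s j ^ 3 - η) := by
    have h5 : s j * (η / s j ^ 3) = η / s j ^ 2 := by
      (clear * - hsj; field_simp)
    rw [mul_sub (s j) (η / s j ^ 3), h5]
    linarith only [h1]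
  exact mul_left_cancel₀ hsj.ne' h4

/-- Second order condition, for the extensive free energy. -/
theorem IsOpt.second (h : MD K m f f' f'' B C₁ C₂ u φ) (ho : IsOpt A K m q η f u φ a s)
    (hη : 0 < η) {j : ℕ} (hj : j ≤ K) {t : ℝ} (ht : 0 < t) (ht' : t ≤ s j / 2) :
    ((mdl A K m f u φ s a).pt (hx φ j) t).fe + ((mdl A K m f u φ s a).pt (hx φ j) (-t)).fe -
      2 * (mdl A K m f u φ s a).fe ≤ N * ((aco K m q j + η + 3 * η / s j ^ 3) * t ^ 2) := by
  have hsj := ho.pos j hj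
  have hN : (0 : ℝ) < N := by exact_mod_cast h.N0
  have h1 := ho.o8_Fe_update hj (x := s j + t) (by linarith only [ht, ht'])
  have h2 := ho.o8_Fe_update hj (x := s j + -t) (by linarith only [ht, ht'])
  rw [← mdl_pt hj t, ← mdl_pt hj (-t)]
  have h3 : o8_pj K m q η j (s j + t) + o8_pj K m q η j (s j + -t) -
      2 * o8_pj K m q η j (s j) ≤ (aco K m q j + η + 3 * η / s j ^ 3) * t ^ 2 := by
    have h4 : η / (s j + t) + η / (s j + -t) - 2 * (η / s j) ≤ 3 * η / s j ^ 3 * t ^ 2 := by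
      have hp : 0 < s j + t := by linarith only [ht, ht']
      have hq : 0 < s j + -t := by linarith only [ht, ht']
      have h5 : η / (s j + t) + η / (s j + -t) - 2 * (η / s j) =
          η * (2 * t ^ 2) / (s j * ((s j + t) * (s j + -t))) := by
        field_simp
        ring
      have h6 : 3 * η / s j ^ 3 * t ^ 2 = η * (3 * t ^ 2) / s j ^ 3 := by ring
      rw [h5, h6, div_le_div_iff₀ (by (clear * - hsj ht hq; positivity)) (by (clear * - hsj; positivity))]
      have h7 : 2 * s j ^ 2 ≤ 3 * ((s j + t) * (s j + -t)) := by nlinarith only [ht, ht']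
      have h8 : 0 ≤ η * t ^ 2 * s j := by (clear * - hη ht hsj; positivity)
      linarith only [mul_le_mul_of_nonneg_left h7 h8]
    unfold o8_pj
    linarith only [h4]
  have h4 : Fe A K m f u φ a (Function.update s j (s j + t)) +
      Fe A K m f u φ a (Function.update s j (s j + -t)) - 2 * Fe A K m f u φ a s ≤
      (aco K m q j + η + 3 * η / s j ^ 3) * t ^ 2 := by linarith only [h1, h2, h3]
  have h5 := mul_le_mul_of_nonneg_left h4 hN.le
  unfold Fe at h5
  have h6 : ∀ y : ℝ, (N : ℝ) * (1 / N * y) = y := fun y => by (clear * - hN; field_simp)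
  have h7 : (N : ℝ) * (1 / N * (mdl A K m f u φ (Function.update s j (s j + t)) a).fe +
      1 / N * (mdl A K m f u φ (Function.update s j (s j + -t)) a).fe -
      2 * (1 / N * (mdl A K m f u φ s a).fe)) =
      (mdl A K m f u φ (Function.update s j (s j + t)) a).fe +
      (mdl A K m f u φ (Function.update s j (s j + -t)) a).fe -
      2 * (mdl A K m f u φ s a).fe := by
    field_simp
  rw [h7] at h5
  exact h5

/-- The lower bound of the optimal strengths: `∑ η / s_j ≤ C + 2 a B / N + 3 (K + 1)`, by comparison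
with the strengths equal to `η^(1/3)`. -/
theorem IsOpt.lower (h : MD K m f f' f'' B C₁ C₂ u φ) (ho : IsOpt A K m q η f u φ a s)
    (hq : Path K q) (hq1 : q K ≤ 1) (hη : 0 < η) (hη1 : η ≤ 1) (ha : a ≤ A) {C : ℝ}
    (hu : ∑ x, Real.exp (u x) = 1)
    (hC : ∀ s : ℕ → ℝ, (∀ j ≤ K, 0 ≤ s j) → Fe A K m f u φ 0 s -
      1 / 2 * ∑ j ∈ Finset.range (K + 1), aco K m q j * s j ^ 2 ≤ C) {j : ℕ} (hj : j ≤ K) :
    η ≤ s j * (C + 2 * (a * B / N) + 3 * (K + 1)) := by
  have hsj := ho.pos j hj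
  have h1 := o8_Ob_le h hη ha hC ho.pos hj
  have h2 := ho.max (fun _ => 1) (fun _ _ => one_pos)
  have h3 := Fe_zero_le (A := A) (a := a) h (fun _ => 1)
  have h4 := (abs_le.1 (abs_Fe_sub_le (A := A) h (fun _ => 0) ha)).1
  rw [Fe_zero_zero h, hu, Real.log_one, mul_zero] at h4
  have h5 : Pen K m q η (fun _ => 1) ≤ 2 * (K + 1) := by
    have h6 : ∀ l ∈ Finset.range (K + 1),
        1 / 2 * (aco K m q l + η) * (1 : ℝ) ^ 2 + η / 1 ≤ 2 := by
      intro l hl
      rw [Finset.mem_range] at hl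
      have := aco_le_one h.hm hq (by omega : l ≤ K)
      linarith only [hη1, this]
    have h7 := Finset.sum_le_sum h6
    rw [Finset.sum_const, Finset.card_range, nsmul_eq_mul] at h7
    unfold Pen
    push_cast at h7
    linarith only [h7]
  have h6 : 0 ≤ η / 2 * s j ^ 2 := by (clear * - hη hsj; positivity)
  have h7 : η / s j ≤ C + 2 * (a * B / N) + 2 * (K + 1) := by
    have h8 : Ob A K m q η f u φ a (fun _ => 1) =
      Fe A K m f u φ a (fun _ => 1) - Pen K m q η (fun _ => 1) := rfl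
    linarith only [h1, h2, h3, h4, h5, h6, h8]
  rw [div_le_iff₀ hsj] at h7
  have hK : (0 : ℝ) ≤ K := Nat.cast_nonneg K
  linarith only [h7, mul_pos hsj (show (0 : ℝ) < K + 1 by linarith)]

/-- The upper bound of the strength of the level zero. -/
theorem IsOpt.upper (h : MD K m f f' f'' B C₁ C₂ u φ) (ho : IsOpt A K m q η f u φ a s)
    (hq : Path K q) (hq1 : q K ≤ 1) (hη : 0 < η) {σ : ℝ} (hσ : 0 < σ) (hs : σ ≤ s 0) :
    s 0 ≤ 1 / η + 1 / σ ^ 2 := by
  have hs0 := ho.pos 0 (Nat.zero_le _)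
  have h1 := ho.first h (Nat.zero_le K)
  have h2 := Ex_hz_zero_le (A := A) (a := a) (s := s) h
  have h3 := aco_nonneg h.hm hq hq1 (Nat.zero_le K)
  have h4 : η / s 0 ^ 2 ≤ η / σ ^ 2 := by (clear * - hη hσ hs; gcongr)
  have h5 : η * s 0 ≤ 1 + η / σ ^ 2 := by
    have := mul_nonneg h3 hs0.le
    linarith only [h1, h2, h4, this]
  have h6 : s 0 ≤ (1 + η / σ ^ 2) / η := by
    rw [le_div_iff₀ hη]
    linarith only [h5]
  refine h6.trans (le_of_eq ?_)
  (clear * - hσ hη; field_simp)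

lemma o8_nh_hx (j : ℕ) : Nh (ι := Ix A N K) (hx φ j) := by
  intro x
  unfold hx
  exact EG.sum _ fun i _ => (EG.coord _).mul (EG.const _)

/-- The variance of the free energy near the optimum. -/
lemma o8_var (h : MD K m f f' f'' B C₁ C₂ u φ) (ho : IsOpt A K m q η f u φ a s)
    {σ S₀ α₀ : ℝ} (hs : ∀ j ≤ K, σ ≤ s j) (hs0 : s 0 ≤ S₀)
    (hA : (A : ℝ) ≤ α₀ * N) {j : ℕ} (hj : j ≤ K) {t : ℝ} (ht1 : |t| ≤ 1) (ht2 : |t| ≤ σ / 2) :
    ∫ z, (((mdl A K m f u φ s a).pt (hx φ j) t).lg 0 z -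
      ((mdl A K m f u φ s a).pt (hx φ j) t).fe) ^ 2 ∂(gI (Ix A N K)) ≤
      2 * (N * (α₀ * C₁ ^ 2 + (S₀ + 1) ^ 2)) := by
  have hN : (0 : ℝ) < N := by exact_mod_cast h.N0
  rw [← mdl_pt hj t]
  refine (mdl_regD (A := A) (a := a) (s := Function.update s j (s j + t)) h).var_lg_zero
    (V := N * (α₀ * C₁ ^ 2 + (S₀ + 1) ^ 2)) fun z x => ?_
  refine (sum_enD_le h z x).trans ?_
  have h0 := ho.pos 0 (Nat.zero_le _)
  have h1 := abs_le.1 ht1
  have h2 := abs_le.1 ht2
  have h3 : |Function.update s j (s j + t) 0| ≤ S₀ + 1 := by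
    by_cases hj0 : j = 0
    · subst hj0
      rw [Function.update_self, abs_le]
      have := hs 0 (Nat.zero_le _)
      constructor <;> linarith only [hs0, h1.2, this, h2.1, h2.2]
    · rw [Function.update_of_ne (Ne.symm hj0), abs_le]
      constructor <;> linarith only [hs0, h0]
  have h4 : (Function.update s j (s j + t) 0) ^ 2 ≤ (S₀ + 1) ^ 2 := by
    rw [← sq_abs]
    exact pow_le_pow_left₀ (abs_nonneg _) h3 2
  have h5 : (A : ℝ) * C₁ ^ 2 ≤ α₀ * N * C₁ ^ 2 := mul_le_mul_of_nonneg_right hA (sq_nonneg _)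
  linarith only [h5, mul_le_mul_of_nonneg_left h4 hN.le]

/-- **Concentration of the fields at the optimum**, uniformly in the system. The constants: `σ`
bounds the strengths from below, `t ≤ σ / 2`, `t ≤ 1`. Proof: `Reg.conc` for the observable
`hx φ j`, divided by `N`; variance: `sum_enD_le` with `s 0 + t`. -/
theorem IsOpt.conc (h : MD K m f f' f'' B C₁ C₂ u φ) (ho : IsOpt A K m q η f u φ a s)
    (hq : Path K q) (hq1 : q K ≤ 1) (hη : 0 < η) (hη1 : η ≤ 1) {σ S₀ α₀ : ℝ} (hσ : 0 < σ)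
    (hs : ∀ j ≤ K, σ ≤ s j) (hs0 : s 0 ≤ S₀) (hA : (A : ℝ) ≤ α₀ * N) {j : ℕ} (hj : j ≤ K) {t : ℝ}
    (ht : 0 < t) (ht1 : t ≤ 1) (ht2 : t ≤ σ / 2) :
    ∃ c : ℝ, (mdl A K m f u φ s a).Ex (fun z x => |hz φ zco j z x - c|) ≤
      √((2 + 3 / σ ^ 3) / (m 1 * N)) + (2 + 3 / σ ^ 3) * t +
        4 * √(2 * (α₀ * C₁ ^ 2 + (S₀ + 1) ^ 2) / N) / t := by
  have hN : (0 : ℝ) < N := by exact_mod_cast h.N0
  have hR : (mdl A K m f u φ s a).Reg := (mdl_regD h).toReg
  have hreg : ∀ t, ((mdl A K m f u φ s a).pt (hx φ j) t).Reg := fun t => by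
    rw [← mdl_pt hj t]
    exact (mdl_regD h).toReg
  obtain ⟨Q, hQ⟩ : ∃ Q, Q = (N : ℝ) * (2 + 3 / σ ^ 3) := ⟨_, rfl⟩
  obtain ⟨V, hV⟩ : ∃ V, V = 2 * ((N : ℝ) * (α₀ * C₁ ^ 2 + (S₀ + 1) ^ 2)) := ⟨_, rfl⟩
  have hsec : ∀ t', 0 < t' → t' ≤ min 1 (σ / 2) →
      ((mdl A K m f u φ s a).pt (hx φ j) t').fe + ((mdl A K m f u φ s a).pt (hx φ j) (-t')).fe -
        2 * (mdl A K m f u φ s a).fe ≤ Q * t' ^ 2 := by
    intro t' h1 h2
    have h3 := hs j hj
    refine (ho.second h hη hj h1 ((h2.trans (min_le_right _ _)).trans (by linarith only [h3]))).trans ?_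
    have h4 : 3 * η / s j ^ 3 ≤ 3 / σ ^ 3 := by
      have : 3 * η ≤ 3 := by linarith only [hη1]
      (clear * - this hσ h3; gcongr)
    have h5 := aco_le_one h.hm hq hj
    have h6 : aco K m q j + η + 3 * η / s j ^ 3 ≤ 2 + 3 / σ ^ 3 := by linarith only [hη1, h4, h5]
    rw [hQ, mul_assoc]
    (clear * - h6 h1 hN; gcongr)
  obtain ⟨c, hc⟩ := hR.conc (o8_nh_hx j) hreg (Q := Q) (V := V) (t₀ := min 1 (σ / 2))
    (lt_min one_pos (by positivity)) hsec (fun t' ht' => by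
      rw [hV]
      exact o8_var h ho hs hs0 hA hj (ht'.trans (min_le_left _ _)) (ht'.trans (min_le_right _ _)))
    ht (le_min ht1 ht2)
  refine ⟨1 / N * c, ?_⟩
  have e1 : (fun (z : Ix A N K → ℝ) x => |hz φ zco j z x - 1 / N * c|) =
      fun z x => 1 / (N : ℝ) * |hx φ j z x - c| := by
    funext z x
    have : hz φ zco j z x - 1 / N * c = 1 / N * (hx φ j z x - c) := by
      unfold hz hx
      ring
    rw [this, abs_mul, abs_of_pos (by (clear * - hN; positivity))]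
  rw [e1, Sy.Ex_const_mul]
  have h1 := mul_le_mul_of_nonneg_left hc (show 0 ≤ 1 / (N : ℝ) by (clear * - hN; positivity))
  refine h1.trans (le_of_eq ?_)
  have hsq : ∀ y : ℝ, 1 / (N : ℝ) * √(N * y) = √(y / N) := by
    intro y
    have e2 : y / N = (N * y) / N ^ 2 := by
      (clear * - hN; field_simp)
    rw [e2, Real.sqrt_div' _ (sq_nonneg _), Real.sqrt_sq hN.le]
    ring
  have e3 : √(Q / (mdl A K m f u φ s a).m 1) = √(N * ((2 + 3 / σ ^ 3) / m 1)) := by
    congr 1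
    show Q / m 1 = _
    rw [hQ]
    ring
  have e4 : √V = √(N * (2 * (α₀ * C₁ ^ 2 + (S₀ + 1) ^ 2))) := by
    congr 1
    rw [hV]
    ring
  have e5 : (2 + 3 / σ ^ 3) / (m 1 * N) = (2 + 3 / σ ^ 3) / m 1 / N := by
    rw [div_div]
  rw [e3, e4, e5, ← hsq, ← hsq, hQ]
  (clear * - hσ ht hN; field_simp)

end Vale.Agent.P157.Lv
end

section

/-!
One step of the upper bound: the cost of one pattern at the optimal strengths.
-/

open MeasureTheory ProbabilityTheory Filter Topology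

namespace Vale.Agent.P157.Lv

set_option linter.unusedSectionVars false

open Par (incr Path Exponents cascade gstep patternPart spinPart parisi topN lw)

section General

variable {ι X : Type} [Fintype ι] [DecidableEq ι] [Fintype X] [DecidableEq X] [Nonempty X]
  {S : Sy ι X} {D : ι → (ι → ℝ) → X → ℝ} {N : ℕ} {φ : X → Fin N → ℝ} {zc : ℕ → Fin N → ι}
  {s : ℕ → ℝ}

/-- The path of the overlaps, the last value being replaced by `1`. -/
noncomputable def stR (S : Sy ι X) (φ : X → Fin N → ℝ) : ℕ → ℝ :=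
  fun l => if l < S.K then S.Rl φ l else 1

lemma stR_last (S : Sy ι X) (φ : X → Fin N → ℝ) : stR S φ S.K = 1 := by
  simp [stR]

lemma st_mono (F : Fld S D φ zc s) {l : ℕ} (hl : l < S.K) : S.Rl φ l ≤ S.Rl φ (l + 1) := by
  have h := F.Rl_sub hl
  have h2 : 0 ≤ 1 / N * S.Ex (fun z _ => ∑ i, (S.mg φ (l + 1) i z - S.mg φ l i z) ^ 2) := by
    rw [← Sy.Ex_const_mul, ← F.hreg.Ex_const 0]
    refine F.hreg.Ex_mono (Sy.Nh.fst (EG.const 0)) (Sy.Nh.fst (EG.const_mul _ (EG.sum _ fun i _ =>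
      ((Fld.eg_mg F.hreg hl i).sub (Fld.eg_mg F.hreg hl.le i)).pow 2))) fun z _ => ?_
    have := F.N_pos
    (clear * - this; positivity)
  linarith only [h, h2]

lemma st_path (F : Fld S D φ zc s) : Path S.K (stR S φ) := by
  refine ⟨?_, fun l hl => ?_⟩
  · unfold stR
    split_ifs with h
    · exact F.Rl_nonneg (Nat.zero_le _)
    · exact zero_le_one
  · unfold stR
    rw [if_pos hl]
    split_ifs with h
    · exact st_mono F hl
    · exact F.Rl_le_one hl.le

lemma st_le (F : Fld S D φ zc s) {l : ℕ} (hl : l ≤ S.K) : S.Rl φ l ≤ stR S φ l := by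
  unfold stR
  split_ifs with h
  · exact le_rfl
  · exact F.Rl_le_one hl

lemma st_p_nonneg (hS : S.Reg) {l : ℕ} (hl : l ≤ S.K) : 0 ≤ S.p l :=
  sub_nonneg.2 (hS.mono l hl)

lemma st_sum_p (hS : S.Reg) : ∑ l ∈ Finset.range (S.K + 1), S.p l = 1 := by
  unfold Sy.p
  rw [Finset.sum_range_sub, hS.mK, hS.m0, sub_zero]

/-- The total cost of the fluctuations of the overlaps. -/
lemma st_pair (F : Fld S D φ zc s) {δ E : ℝ} (hE : 0 ≤ E) (hδ : ∀ l ≤ S.K, S.p l ≤ δ)
    (hy : ∀ l < S.K, S.pairEx l (fun x x' => (Rov φ x x' - S.Rl φ l) ^ 2) ≤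
      2 * (S.Rl φ (l + 1) - S.Rl φ l) + E) :
    ∑ l ∈ Finset.range (S.K + 1), S.p l * S.pairEx l (fun x x' => |Rov φ x x' - stR S φ l|) ≤
      √(2 * δ) + 2 * δ + √E := by
  have hS := F.hreg
  have hp : ∀ l ≤ S.K, 0 ≤ S.p l := fun l hl => st_p_nonneg hS hl
  have hsum := st_sum_p hS
  have hδ0 : 0 ≤ δ := (hp S.K le_rfl).trans (hδ S.K le_rfl)
  rw [Finset.sum_range_succ] at hsum ⊢
  have hsum' : ∑ l ∈ Finset.range S.K, S.p l ≤ 1 := by
    have := hp S.K le_rfl
    linarith only [hsum, this]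
  have hsum0 : 0 ≤ ∑ l ∈ Finset.range S.K, S.p l :=
    Finset.sum_nonneg fun l hl => hp l (Finset.mem_range.1 hl).le
  -- the last level
  have hlast : S.p S.K * S.pairEx S.K (fun x x' => |Rov φ x x' - stR S φ S.K|) ≤ 2 * δ := by
    have h1 : S.pairEx S.K (fun x x' => |Rov φ x x' - stR S φ S.K|) ≤ 2 := by
      rw [← hS.pairEx_const le_rfl 2]
      refine hS.pairEx_mono le_rfl fun x x' => ?_
      have := abs_le.1 (F.abs_Rov_le x x')
      rw [stR_last, abs_le]
      constructor <;> linarith only [this]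
    have h0 := hp S.K le_rfl
    have hd := hδ S.K le_rfl
    calc S.p S.K * S.pairEx S.K (fun x x' => |Rov φ x x' - stR S φ S.K|) ≤ S.p S.K * 2 :=
          mul_le_mul_of_nonneg_left h1 h0
      _ ≤ 2 * δ := by linarith only [hd]
  -- one level
  have hone : ∀ l < S.K, S.pairEx l (fun x x' => |Rov φ x x' - stR S φ l|) ≤
      √(2 * (S.Rl φ (l + 1) - S.Rl φ l)) + √E := by
    intro l hl
    have e : stR S φ l = S.Rl φ l := by
      unfold stR
      rw [if_pos hl]
    rw [e]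
    refine (hS.pairEx_abs_le hl.le (fun x x' => Rov φ x x' - S.Rl φ l)).trans ?_
    refine (Real.sqrt_le_sqrt (hy l hl)).trans ?_
    have h0 : 0 ≤ 2 * (S.Rl φ (l + 1) - S.Rl φ l) := by
      have := st_mono F hl
      linarith only [this]
    rw [Real.sqrt_le_left (by (clear * -; positivity)), add_sq, Real.sq_sqrt h0, Real.sq_sqrt hE]
    have := mul_nonneg (Real.sqrt_nonneg (2 * (S.Rl φ (l + 1) - S.Rl φ l))) (Real.sqrt_nonneg E)
    linarith only [this]
  have h1 : ∑ l ∈ Finset.range S.K, S.p l * S.pairEx l (fun x x' => |Rov φ x x' - stR S φ l|) ≤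
      ∑ l ∈ Finset.range S.K, S.p l * √(2 * (S.Rl φ (l + 1) - S.Rl φ l)) +
        ∑ l ∈ Finset.range S.K, S.p l * √E := by
    rw [← Finset.sum_add_distrib]
    refine Finset.sum_le_sum fun l hl => ?_
    rw [← mul_add]
    exact mul_le_mul_of_nonneg_left (hone l (Finset.mem_range.1 hl))
      (hp l (Finset.mem_range.1 hl).le)
  have h2 : ∑ l ∈ Finset.range S.K, S.p l * √E ≤ √E := by
    rw [← Finset.sum_mul]
    exact mul_le_of_le_one_left (Real.sqrt_nonneg _) hsum'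
  have h3 : ∑ l ∈ Finset.range S.K, S.p l * √(2 * (S.Rl φ (l + 1) - S.Rl φ l)) ≤ √(2 * δ) := by
    have e : ∀ l ∈ Finset.range S.K, S.p l * √(2 * (S.Rl φ (l + 1) - S.Rl φ l)) =
        √(S.p l) * √(S.p l * (2 * (S.Rl φ (l + 1) - S.Rl φ l))) := by
      intro l hl
      have h0 := hp l (Finset.mem_range.1 hl).le
      rw [Real.sqrt_mul h0, ← mul_assoc, Real.mul_self_sqrt h0]
    rw [Finset.sum_congr rfl e]
    have hd : ∀ l ∈ Finset.range S.K, 0 ≤ S.p l * (2 * (S.Rl φ (l + 1) - S.Rl φ l)) := by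
      intro l hl
      have h0 := hp l (Finset.mem_range.1 hl).le
      have := st_mono F (Finset.mem_range.1 hl)
      exact mul_nonneg h0 (by linarith only [this])
    have hcs := Finset.sum_mul_sq_le_sq_mul_sq (Finset.range S.K) (fun l => √(S.p l))
      (fun l => √(S.p l * (2 * (S.Rl φ (l + 1) - S.Rl φ l))))
    have e1 : ∑ l ∈ Finset.range S.K, √(S.p l) ^ 2 = ∑ l ∈ Finset.range S.K, S.p l :=
      Finset.sum_congr rfl fun l hl => Real.sq_sqrt (hp l (Finset.mem_range.1 hl).le)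
    have e2 : ∑ l ∈ Finset.range S.K, √(S.p l * (2 * (S.Rl φ (l + 1) - S.Rl φ l))) ^ 2 =
        ∑ l ∈ Finset.range S.K, S.p l * (2 * (S.Rl φ (l + 1) - S.Rl φ l)) :=
      Finset.sum_congr rfl fun l hl => Real.sq_sqrt (hd l hl)
    rw [e1, e2] at hcs
    have e3 : ∑ l ∈ Finset.range S.K, S.p l * (2 * (S.Rl φ (l + 1) - S.Rl φ l)) ≤ 2 * δ := by
      have h5 : ∑ l ∈ Finset.range S.K, S.p l * (2 * (S.Rl φ (l + 1) - S.Rl φ l)) ≤
          ∑ l ∈ Finset.range S.K, δ * (2 * (S.Rl φ (l + 1) - S.Rl φ l)) := by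
        refine Finset.sum_le_sum fun l hl => ?_
        have := st_mono F (Finset.mem_range.1 hl)
        exact mul_le_mul_of_nonneg_right (hδ l (Finset.mem_range.1 hl).le) (by linarith only [this])
      have h6 : ∑ l ∈ Finset.range S.K, δ * (2 * (S.Rl φ (l + 1) - S.Rl φ l)) =
          2 * δ * (S.Rl φ S.K - S.Rl φ 0) := by
        rw [← Finset.sum_range_sub (fun l => S.Rl φ l), Finset.mul_sum]
        refine Finset.sum_congr rfl fun l _ => ?_
        ring
      have h7 := F.Rl_le_one le_rfl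
      have h8 := F.Rl_nonneg (Nat.zero_le S.K)
      rw [h6] at h5
      refine h5.trans ?_
      calc 2 * δ * (S.Rl φ S.K - S.Rl φ 0) ≤ 2 * δ * 1 :=
            mul_le_mul_of_nonneg_left (by linarith only [h7, h8]) (by linarith only [hδ0])
        _ = 2 * δ := mul_one _
    refine Real.le_sqrt_of_sq_le (hcs.trans ?_)
    have e0 : 0 ≤ ∑ l ∈ Finset.range S.K, S.p l * (2 * (S.Rl φ (l + 1) - S.Rl φ l)) :=
      Finset.sum_nonneg hd
    calc (∑ l ∈ Finset.range S.K, S.p l) *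
          ∑ l ∈ Finset.range S.K, S.p l * (2 * (S.Rl φ (l + 1) - S.Rl φ l)) ≤
          1 * ∑ l ∈ Finset.range S.K, S.p l * (2 * (S.Rl φ (l + 1) - S.Rl φ l)) :=
          mul_le_mul_of_nonneg_right hsum' e0
      _ ≤ 2 * δ := by linarith only [e3]
  linarith

/-- The means of a concentrated observable in two systems with close energies. -/
lemma st_mean (hS : S.Reg) {H' : (ι → ℝ) → X → ℝ} (hS' : (S.wH H').Reg) {B : ℝ}
    (hB : ∀ z x, |H' z x - S.H z x| ≤ B) {h : (ι → ℝ) → X → ℝ} (hh : Nh h) {c ε : ℝ}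
    (hc : S.Ex (fun z x => |h z x - c|) ≤ ε) (hB0 : 0 ≤ B) (hε : 0 ≤ ε) :
    (S.wH H').Ex (fun z x => |h z x - c|) ≤ Real.exp (2 * B) * ε ∧
      |(S.wH H').Ex h - S.Ex h| ≤ 2 * Real.exp (2 * B) * ε := by
  have hn : Nh (fun z x => |h z x - c|) := Sy.Nh.abs (Sy.Nh.sub hh (Sy.Nh.fst (EG.const c)))
  have h1 : (S.wH H').Ex (fun z x => |h z x - c|) ≤ Real.exp (2 * B) * ε :=
    (hS.Ex_pert_le hS' hB hn fun z x => abs_nonneg _).trans
      (mul_le_mul_of_nonneg_left hc (Real.exp_pos _).le)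
  refine ⟨h1, ?_⟩
  have key : ∀ {S : Sy ι X}, S.Reg → |S.Ex h - c| ≤ S.Ex (fun z x => |h z x - c|) := by
    intro S hS
    have h2 := hS.abs_Ex_le (Sy.Nh.sub hh (Sy.Nh.fst (EG.const c)))
    rw [hS.Ex_sub hh (Sy.Nh.fst (EG.const c)), hS.Ex_const] at h2
    exact h2
  have h2 := abs_le.1 ((key hS).trans hc)
  have h3 := abs_le.1 ((key hS').trans h1)
  have h4 : (1 : ℝ) ≤ Real.exp (2 * B) := Real.one_le_exp (by linarith only [hB0])
  have h5 : ε ≤ Real.exp (2 * B) * ε := le_mul_of_one_le_left hε h4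
  rw [abs_le]
  constructor <;> linarith only [h2, h3, h5]

end General

variable {X : Type} [Fintype X] [DecidableEq X] [Nonempty X] {A N K : ℕ}
  {m q : ℕ → ℝ} {f f' f'' : ℝ → ℝ} {B C₁ C₂ : ℝ} {u : X → ℝ} {φ : X → Fin N → ℝ}
  {s : ℕ → ℝ} {a : ℕ} {η : ℝ}

/-- The error of one step. -/
noncomputable def erS (B C₁ η σ π δ ε : ℝ) : ℝ :=
  1 / 2 * C₁ ^ 2 * (η + 2 * Real.exp (2 * B) * ε / σ) +
    1 / 2 * C₁ ^ 2 * Real.exp (6 * B) *
      (√(2 * δ) + 2 * δ + √(20 * (Real.exp (2 * B) * ε) / (σ * π)))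

/-- One pattern at the optimal strengths. -/
theorem opt_step (h : MD K m f f' f'' B C₁ C₂ u φ) (ha : a < A)
    (ho : IsOpt A K m q η f u φ (a + 1) s) (hq : Path K q) (hq1 : q K ≤ 1) (hη : 0 < η)
    {σ π δ ε : ℝ} (hσ : 0 < σ) (hπ : 0 < π) (hε : 0 ≤ ε) (hs : ∀ j ≤ K, σ ≤ s j)
    (hp : ∀ l ≤ K, π ≤ m (l + 1) - m l) (hd : ∀ l ≤ K, m (l + 1) - m l ≤ δ)
    (hc : ∀ j ≤ K, ∃ c : ℝ,
      (mdl A K m f u φ s (a + 1)).Ex (fun z x => |hz φ zco j z x - c|) ≤ ε) :
    (mdl A K m f u φ s (a + 1)).fe - (mdl A K m f u φ s a).fe ≤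
      patternPart f K m q + erS B C₁ η σ π δ ε := by
  have hB0 : 0 ≤ B := (abs_nonneg (f 0)).trans (h.hB 0)
  have hs0 : ∀ l ≤ K, 0 ≤ s l := fun l hl => (ho.pos l hl).le
  have F : Fld (mdl A K m f u φ s a) (enD f' φ s a) φ zco s := mdl_fld h hs0
  have F' : Fld (mdl A K m f u φ s (a + 1)) (enD f' φ s (a + 1)) φ zco s := mdl_fld h hs0
  have hn := mdl_new (s := s) h ha
  set S := mdl A K m f u φ s a with hSdef
  set S' := mdl A K m f u φ s (a + 1) with hSdef'
  have hK : S.K = K := rfl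
  have hK' : S'.K = K := rfl
  have hpS : ∀ l, S.p l = m (l + 1) - m l := fun l => rfl
  have hS := F.hreg
  have hS' := F'.hreg
  have eS' : S' = S.wH (fun z x => S.H z x + f (pf φ (gco (⟨a, ha⟩ : Fin A)) z x)) := mdl_succ ha
  -- the system `S` as a perturbation of `S'`
  have eS : S = S'.wH (fun z x => S.H z x) := by
    rw [eS']
    rfl
  have hdiff : ∀ z x, |S.H z x - S'.H z x| ≤ B := by
    intro z x
    rw [eS']
    show |S.H z x - (S.H z x + f (pf φ (gco (⟨a, ha⟩ : Fin A)) z x))| ≤ B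
    rw [sub_add_cancel_left, abs_neg]
    exact h.hB _
  have hSr : (S'.wH (fun z x => S.H z x)).Reg := by
    rw [← eS]
    exact hS
  have hzn : ∀ j, Nh (hz φ (zco (A := A) (N := N) (K := K)) j) := fun j => F.nh_hz j
  have hmean : ∀ j ≤ K, ∃ c : ℝ, S.Ex (fun z x => |hz φ zco j z x - c|) ≤ Real.exp (2 * B) * ε ∧
      |S.Ex (hz φ zco j) - S'.Ex (hz φ zco j)| ≤ 2 * Real.exp (2 * B) * ε := by
    intro j hj
    obtain ⟨c, hc'⟩ := hc j hj
    have := st_mean hS' hSr hdiff (hzn j) hc' hB0 hε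
    rw [← eS] at this
    exact ⟨c, this⟩
  -- the cost of the pattern
  have hR := st_path F
  have hR1 : stR S φ S.K = 1 := stR_last S φ
  have h1 := pattern_step F hn h.hf h.hB hR hR1
  have h2 : (S.wH fun z x => S.H z x + f (tf (yco (A := A) (N := N) (K := K)) S.K (stR S φ) z)).fe =
      S.fe + ∫ x, cascade S.m (stR S φ) S.K f (√(stR S φ 0) * x) ∂(gaussianReal 0 1) :=
    fe_add_tree F.reg hn.yl hn.Dy hR h.hf.lip
  have h3 := patternPart_eq_of_one (k := K) (m := m) hR1 f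
  have h4 : ∑ l ∈ Finset.range (S.K + 1), S.p l * S.pairEx l
      (fun x x' => |Rov φ x x' - stR S φ l|) ≤
      √(2 * δ) + 2 * δ + √(20 * (Real.exp (2 * B) * ε) / (σ * π)) := by
    refine st_pair F (by (clear * - hε hσ hπ; positivity)) hd fun l hl => ?_
    exact F.sync (by (clear * - hε; positivity)) hσ hs hπ hp (fun l hl => (hmean l hl).imp fun c hc => hc.1) hl
  -- comparison of the paths
  have h5 : patternPart f K m (stR S φ) ≤ patternPart f K m q +
      1 / 2 * C₁ ^ 2 * (η + 2 * Real.exp (2 * B) * ε / σ) := by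
    refine pattern_schur h.hm hq hq1 hR hR1.le h.hf (by (clear * - hη hε hσ; positivity)) fun j hj => ?_
    obtain ⟨c, -, hc2⟩ := hmean j hj
    have e1 := F.Ex_hz hj
    have e2 := F'.Ex_hz hj
    have e3 := ho.tails h hj
    rw [e1, e2, ← mul_sub, sub_sub_sub_cancel_left, abs_mul, abs_of_nonneg (hs0 j hj)] at hc2
    have hsj := hs j hj
    have hsj0 := ho.pos j hj
    have e4 : |∑ i ∈ Finset.Ico j (K + 1), (m (i + 1) - m i) * S'.Rl φ i -
        ∑ i ∈ Finset.Ico j (K + 1), (m (i + 1) - m i) * S.Rl φ i| ≤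
        2 * Real.exp (2 * B) * ε / σ := by
      rw [le_div_iff₀ hσ, mul_comm _ σ]
      exact (mul_le_mul_of_nonneg_right hsj (abs_nonneg _)).trans hc2
    have e5 := (abs_le.1 e4).2
    have e6 : ∑ l ∈ Finset.Ico j (K + 1), (m (l + 1) - m l) * (S'.Rl φ l - q l) =
        ∑ l ∈ Finset.Ico j (K + 1), (m (l + 1) - m l) * S'.Rl φ l -
          ∑ l ∈ Finset.Ico j (K + 1), (m (l + 1) - m l) * q l := by
      rw [← Finset.sum_sub_distrib]
      exact Finset.sum_congr rfl fun l _ => mul_sub _ _ _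
    have e7 : ∑ l ∈ Finset.Ico j (K + 1), (m (l + 1) - m l) * S.Rl φ l -
          ∑ l ∈ Finset.Ico j (K + 1), (m (l + 1) - m l) * q l ≤
        ∑ l ∈ Finset.Ico j (K + 1), (m (l + 1) - m l) * (stR S φ l - q l) := by
      rw [← Finset.sum_sub_distrib]
      refine Finset.sum_le_sum fun l hl => ?_
      rw [← mul_sub]
      have hlK : l ≤ K := by
        rw [Finset.mem_Ico] at hl
        omega
      refine mul_le_mul_of_nonneg_left ?_ (sub_nonneg.2 (hS.mono l hlK))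
      exact sub_le_sub_right (st_le F hlK) _
    have e8 : 0 ≤ η / s j ^ 3 := by (clear * - hη hsj0; positivity)
    rw [e6] at e3
    linarith only [e3, e5, e7, e8]
  have h6 : (S'.fe) = (S.wH fun z x => S.H z x + f (pf φ (gco (⟨a, ha⟩ : Fin A)) z x)).fe := by
    rw [← eS']
  have h7 : 1 / 2 * C₁ ^ 2 * Real.exp (6 * B) *
        ∑ l ∈ Finset.range (S.K + 1), S.p l * S.pairEx l (fun x x' => |Rov φ x x' - stR S φ l|) ≤
      1 / 2 * C₁ ^ 2 * Real.exp (6 * B) *
      (√(2 * δ) + 2 * δ + √(20 * (Real.exp (2 * B) * ε) / (σ * π))) :=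
    mul_le_mul_of_nonneg_left h4 (by (clear * -; positivity))
  have h8 : ∫ x, cascade S.m (stR S φ) S.K f (√(stR S φ 0) * x) ∂(gaussianReal 0 1) =
      patternPart f K m (stR S φ) := h3.symm
  rw [h2, h8, ← h6] at h1
  unfold erS
  linarith only [h1, h5, h7]

end Vale.Agent.P157.Lv
end

section

/-!
The upper bound of the Parisi formula for smooth bounded potentials: assembly.
-/

open MeasureTheory ProbabilityTheory Filter Topology

namespace Vale.Agent.P157.Lv

set_option linter.unusedSectionVars false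

open Par (incr Path Exponents cascade gstep patternPart spinPart parisi topN lw)

/-- A small parameter. -/
lemma up_small {F : ℝ → ℝ} (hF : ContinuousAt F 0) (h0 : F 0 = 0) {ε : ℝ} (hε : 0 < ε) :
    ∃ x : ℝ, 0 < x ∧ x ≤ 1 ∧ F x ≤ ε := by
  have h1 : ∀ᶠ x in 𝓝 (0 : ℝ), F x < ε := by
    have := hF.tendsto
    rw [h0] at this
    exact this (gt_mem_nhds hε)
  obtain ⟨r, hr, h2⟩ := Metric.eventually_nhds_iff.1 h1
  refine ⟨min (r / 2) 1, by (clear * - hr; positivity), min_le_right _ _, (h2 ?_).le⟩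
  have h3 : min (r / 2) 1 ≤ r / 2 := min_le_left _ _
  have h4 : 0 < min (r / 2) 1 := by (clear * - hr; positivity)
  rw [Real.dist_eq, sub_zero, abs_of_pos h4]
  linarith only [h3, h4]

/-- Positive increments are bounded below. -/
lemma up_inc {K : ℕ} {m : ℕ → ℝ} (hm : Exponents K m) :
    ∃ π : ℝ, 0 < π ∧ ∀ l ≤ K, π ≤ m (l + 1) - m l := by
  obtain ⟨l₀, h1, h2⟩ := Finset.exists_min_image (Finset.range (K + 1)) (fun l => m (l + 1) - m l)
    ⟨0, by simp only [Finset.mem_range, lt_add_iff_pos_left, Order.lt_add_one_iff, zero_le]⟩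
  refine ⟨m (l₀ + 1) - m l₀, ?_, fun l hl => h2 l (by simp only [Finset.mem_range, Order.lt_add_one_iff]; omega)⟩
  have := hm.2.2 l₀ (by simpa only [Finset.mem_range, Order.lt_add_one_iff] using h1)
  linarith only [this]

variable {X : Type} [Fintype X] [DecidableEq X] [Nonempty X] {A N K : ℕ}
  {m q : ℕ → ℝ} {f f' f'' : ℝ → ℝ} {B C₁ C₂ : ℝ} {u : X → ℝ} {φ : X → Fin N → ℝ}
  {s : ℕ → ℝ} {a : ℕ} {η : ℝ}

lemma Pen_ge (hη : 0 < η) (hs : ∀ j ≤ K, 0 < s j) :
    1 / 2 * ∑ j ∈ Finset.range (K + 1), aco K m q j * s j ^ 2 ≤ Pen K m q η s := by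
  unfold Pen
  rw [Finset.mul_sum]
  refine Finset.sum_le_sum fun j hj => ?_
  have hj' : j ≤ K := by simpa only [Finset.mem_range, Order.lt_add_one_iff] using hj
  have h1 : 0 < η / s j := div_pos hη (hs j hj')
  have h2 : 0 ≤ η * s j ^ 2 := by positivity
  linarith only [h1, h2]

lemma Pen_const_le (hm : Exponents K m) (hq : Path K q) {τ : ℝ} (hτ : 0 < τ) (hτ1 : τ ≤ 1) :
    Pen K m q (τ ^ 3) (fun _ => τ) ≤ 2 * (K + 1) * τ ^ 2 := by
  unfold Pen
  have : ∀ j ∈ Finset.range (K + 1),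
      1 / 2 * (aco K m q j + τ ^ 3) * τ ^ 2 + τ ^ 3 / τ ≤ 2 * τ ^ 2 := by
    intro j hj
    have hj' : j ≤ K := by simpa only [Finset.mem_range, Order.lt_add_one_iff] using hj
    have h1 := aco_le_one hm hq hj'
    have h2 : τ ^ 3 / τ = τ ^ 2 := by field_simp
    have h3 : τ ^ 3 ≤ 1 := pow_le_one₀ hτ.le hτ1
    rw [h2]
    have h4 : 0 ≤ τ ^ 2 := by positivity
    nlinarith only [h1, h3]
  refine (Finset.sum_le_sum this).trans_eq ?_
  simp only [Finset.sum_const, Finset.card_range, nsmul_eq_mul, Nat.cast_add, Nat.cast_one]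
  ring

/-- The chain of the optimal values. -/
theorem chain_le (h : MD K m f f' f'' B C₁ C₂ u φ) (hη : 0 < η) {C e : ℝ}
    (hC : ∀ s : ℕ → ℝ, (∀ j ≤ K, 0 ≤ s j) → Fe A K m f u φ 0 s -
      1 / 2 * ∑ j ∈ Finset.range (K + 1), aco K m q j * s j ^ 2 ≤ C)
    (hstep : ∀ a < A, ∀ s, IsOpt A K m q η f u φ (a + 1) s →
      Fe A K m f u φ (a + 1) s - Fe A K m f u φ a s ≤ e) {a : ℕ} (ha : a ≤ A) :
    ∀ s : ℕ → ℝ, (∀ j ≤ K, 0 < s j) → Ob A K m q η f u φ a s ≤ C + a * e := by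
  induction a with
  | zero =>
    intro s hs
    have h1 := hC s fun j hj => (hs j hj).le
    have h2 := Pen_ge (m := m) (q := q) hη hs
    unfold Ob
    simp only [Nat.cast_zero, zero_mul, add_zero]
    linarith only [h1, h2]
  | succ a ih =>
    intro s hs
    obtain ⟨s', h'⟩ := exists_opt h hη ha hC
    have h1 := h'.max s hs
    have h2 := hstep a (by omega) s' h'
    have h3 := ih (by omega) s' h'.pos
    unfold Ob at h1 h3 ⊢
    push_cast
    linarith only [h1, h2, h3]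

/-- The upper bound for given small parameters. -/
theorem upper_param (h : MD K m f f' f'' B C₁ C₂ u φ) (hq : Path K q) (hq1 : q K ≤ 1)
    (hu : ∑ x, Real.exp (u x) = 1) {τ σ S₀ π δ α₀ Cb ε₁ t C : ℝ} (hτ : 0 < τ) (hτ1 : τ ≤ 1)
    (hB0 : 0 ≤ B) (hCb : 0 ≤ Cb) (hα : 0 ≤ α₀)
    (hσ : σ = τ ^ 3 / (Cb + 2 * α₀ * B + 3 * (K + 1))) (hS : S₀ = 1 / τ ^ 3 + 1 / σ ^ 2)
    (hπ : 0 < π) (hp : ∀ l ≤ K, π ≤ m (l + 1) - m l) (hδ : ∀ l ≤ K, m (l + 1) - m l ≤ δ)
    (hA : (A : ℝ) ≤ α₀ * N) (hCC : C ≤ Cb)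
    (hC : ∀ s : ℕ → ℝ, (∀ j ≤ K, 0 ≤ s j) → Fe A K m f u φ 0 s -
      1 / 2 * ∑ j ∈ Finset.range (K + 1), aco K m q j * s j ^ 2 ≤ C)
    (hε : 0 ≤ ε₁) (ht : 0 < t) (ht1 : t ≤ 1) (ht2 : t ≤ σ / 2)
    (herr : √((2 + 3 / σ ^ 3) / (m 1 * N)) + (2 + 3 / σ ^ 3) * t +
        4 * √(2 * (α₀ * C₁ ^ 2 + (S₀ + 1) ^ 2) / N) / t ≤ ε₁) :
    Fe A K m f u φ A (fun _ => 0) ≤ C + A / N * patternPart f K m q +
      α₀ * erS B C₁ (τ ^ 3) σ π δ ε₁ + 2 * (K + 1) * τ ^ 2 := by
  have hN : (0 : ℝ) < N := by exact_mod_cast h.N0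
  have hη : 0 < τ ^ 3 := by positivity
  have hη1 : τ ^ 3 ≤ 1 := pow_le_one₀ hτ.le hτ1
  have hden : 0 < Cb + 2 * α₀ * B + 3 * ((K : ℝ) + 1) := by (clear * - hCb hα hB0; positivity)
  have hσ0 : 0 < σ := by rw [hσ]; (clear * - hτ hCb hα hB0; positivity)
  have hδ0 : 0 ≤ δ := hπ.le.trans ((hp 0 (Nat.zero_le _)).trans (hδ 0 (Nat.zero_le _)))
  have hlow : ∀ a ≤ A, ∀ s, IsOpt A K m q (τ ^ 3) f u φ a s → ∀ j ≤ K, σ ≤ s j := by
    intro a ha s hs j hj
    have h1 := hs.lower h hq hq1 hη hη1 ha hu hC hj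
    have h2 : (a : ℝ) * B / N ≤ α₀ * B := by
      rw [div_le_iff₀ hN]
      have : (a : ℝ) ≤ α₀ * N := le_trans (by exact_mod_cast ha) hA
      nlinarith only [hB0, this]
    have h3 := hs.pos j hj
    rw [hσ, div_le_iff₀ hden]
    have h4 : C + 2 * ((a : ℝ) * B / N) + 3 * ((K : ℝ) + 1) ≤
        Cb + 2 * α₀ * B + 3 * ((K : ℝ) + 1) := by linarith only [hCC, h2]
    nlinarith only [h1, hCC, h3, h2]
  have hstep : ∀ a < A, ∀ s, IsOpt A K m q (τ ^ 3) f u φ (a + 1) s →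
      Fe A K m f u φ (a + 1) s - Fe A K m f u φ a s ≤
        (patternPart f K m q + erS B C₁ (τ ^ 3) σ π δ ε₁) / N := by
    intro a ha s hs
    have h1 := hlow (a + 1) (by omega) s hs
    have h2 : s 0 ≤ S₀ := by
      rw [hS]
      exact hs.upper h hq hq1 hη hσ0 (h1 0 (Nat.zero_le _))
    have h3 := opt_step h ha hs hq hq1 hη hσ0 hπ hε h1 hp hδ (fun j hj => by
      obtain ⟨c, hc⟩ := hs.conc h hq hq1 hη hη1 hσ0 h1 h2 hA hj ht ht1 ht2
      exact ⟨c, hc.trans herr⟩)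
    have h4 : Fe A K m f u φ (a + 1) s - Fe A K m f u φ a s =
        ((mdl A K m f u φ s (a + 1)).fe - (mdl A K m f u φ s a).fe) / N := by
      unfold Fe
      ring
    rw [h4]
    exact div_le_div_of_nonneg_right h3 hN.le
  have h1 := chain_le h hη hC hstep le_rfl (fun _ => τ) (fun _ _ => hτ)
  have h2 := Fe_zero_le (A := A) (a := A) h (fun _ => τ)
  have h3 := Pen_const_le h.hm hq hτ hτ1
  unfold Ob at h1
  have her : 0 ≤ erS B C₁ (τ ^ 3) σ π δ ε₁ := by
    unfold erS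
    (clear * - hτ hε hσ0 hδ0; positivity)
  have h4 : (A : ℝ) * ((patternPart f K m q + erS B C₁ (τ ^ 3) σ π δ ε₁) / N) ≤
      A / N * patternPart f K m q + α₀ * erS B C₁ (τ ^ 3) σ π δ ε₁ := by
    have h5 : (A : ℝ) / N ≤ α₀ := by rwa [div_le_iff₀ hN]
    have h6 : (A : ℝ) * ((patternPart f K m q + erS B C₁ (τ ^ 3) σ π δ ε₁) / N) =
      A / N * patternPart f K m q + A / N * erS B C₁ (τ ^ 3) σ π δ ε₁ := by
      (clear * - hN; field_simp)
    rw [h6]
    linarith only [mul_le_mul_of_nonneg_right h5 her]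
  linarith only [h1, h2, h3, h4]

/-- **The upper bound, uniformly in the system.** -/
theorem upper_unif (hm : Exponents K m) (hq : Path K q) (hq1 : q K ≤ 1)
    (hf : Pot f f' f'' C₁ C₂) (hB : ∀ x, |f x| ≤ B) {δ : ℝ}
    (hδ : ∀ l ≤ K, m (l + 1) - m l ≤ δ) {α₀ Cb ε : ℝ} (hα : 0 ≤ α₀) (hε : 0 < ε) :
    ∃ N₀ : ℕ, ∀ N : ℕ, N₀ ≤ N → ∀ (X : Type) [Fintype X] [DecidableEq X] [Nonempty X]
      (u : X → ℝ) (φ : X → Fin N → ℝ), ∑ x, Real.exp (u x) = 1 → (∀ x, ∑ i, φ x i ^ 2 = N) →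
      ∀ A : ℕ, (A : ℝ) ≤ α₀ * N → ∀ C ≤ Cb, (∀ s : ℕ → ℝ, (∀ j ≤ K, 0 ≤ s j) →
        1 / N * topN m (fun l => ∑ j ∈ Finset.range (l + 1), s j ^ 2) K (lw φ 1 u) -
          1 / 2 * ∑ j ∈ Finset.range (K + 1), aco K m q j * s j ^ 2 ≤ C) →
        1 / N * ∫ g : Fin A → Fin N → ℝ,
          Real.log (∑ x, Real.exp (u x + ∑ b, f (1 / √(N : ℝ) * ∑ i, φ x i * g b i)))
            ∂(Measure.pi fun _ => Measure.pi fun _ => gaussianReal 0 1) ≤
          C + A / N * patternPart f K m q +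
            α₀ * (1 / 2 * C₁ ^ 2 * Real.exp (6 * B) * (√(2 * δ) + 2 * δ)) + ε := by
  have hB0 : 0 ≤ B := (abs_nonneg _).trans (hB 0)
  obtain ⟨π, hπ, hp⟩ := up_inc hm
  -- the parameter `τ`
  obtain ⟨τ, hτ, hτ1, hτ2⟩ := up_small (F := fun τ : ℝ =>
    α₀ * (1 / 2 * C₁ ^ 2 * τ ^ 3) + 2 * (K + 1) * τ ^ 2)
    (by (clear * -; fun_prop)) (by simp only [one_div, ne_eq, OfNat.ofNat_ne_zero, not_false_eq_true, zero_pow, mul_zero, add_zero]) (ε := ε / 2) (by positivity)
  set Cb' : ℝ := max Cb 0 with hCb'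
  have hCb0 : 0 ≤ Cb' := le_max_right _ _
  set σ : ℝ := τ ^ 3 / (Cb' + 2 * α₀ * B + 3 * (K + 1)) with hσ
  have hσ0 : 0 < σ := by rw [hσ]; (clear * - hτ hα hB0; positivity)
  set S₀ : ℝ := 1 / τ ^ 3 + 1 / σ ^ 2 with hS
  -- the parameter `ε₁`
  obtain ⟨ε₁, hε₁, -, hε₂⟩ := up_small (F := fun x : ℝ =>
    α₀ * (1 / 2 * C₁ ^ 2 * (2 * Real.exp (2 * B) * x / σ) +
      1 / 2 * C₁ ^ 2 * Real.exp (6 * B) * √(20 * (Real.exp (2 * B) * x) / (σ * π))))
    (by (clear * -; fun_prop)) (by simp only [one_div, mul_zero, zero_div, Real.sqrt_zero, add_zero]) (ε := ε / 2) (by positivity)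
  -- the parameter `t`
  obtain ⟨t, ht, ht1, ht2⟩ := up_small (F := fun t : ℝ => (2 + 3 / σ ^ 3) * t + 2 * t / σ)
    (by fun_prop) (by simp) (ε := min (ε₁ / 2) 1) (by (clear * - hε₁; positivity))
  have ht3 : (2 + 3 / σ ^ 3) * t ≤ ε₁ / 2 := by
    have h1 : 0 ≤ 2 * t / σ := by (clear * - ht hτ hα hB0; positivity)
    have h2 := min_le_left (ε₁ / 2) 1
    linarith only [ht2, h1, h2]
  have ht4 : t ≤ σ / 2 := by
    have h1 : 0 ≤ (2 + 3 / σ ^ 3) * t := by (clear * - hτ hα hB0 ht; positivity)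
    have h2 := min_le_right (ε₁ / 2) 1
    have h3 : 2 * t / σ ≤ 1 := by linarith only [ht2, h1, h2]
    rw [div_le_one hσ0] at h3
    linarith only [h3]
  -- the number `N`
  have hlim : Tendsto (fun N : ℕ => √((2 + 3 / σ ^ 3) / (m 1 * N)) +
      4 * √(2 * (α₀ * C₁ ^ 2 + (S₀ + 1) ^ 2) / N) / t) atTop (𝓝 0) := by
    have hN : Tendsto (fun N : ℕ => (N : ℝ)⁻¹) atTop (𝓝 0) :=
      tendsto_inv_atTop_zero.comp tendsto_natCast_atTop_atTop
    have h1 : Tendsto (fun N : ℕ => √((2 + 3 / σ ^ 3) / m 1 * (N : ℝ)⁻¹) +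
      4 * √(2 * (α₀ * C₁ ^ 2 + (S₀ + 1) ^ 2) * (N : ℝ)⁻¹) / t) atTop
      (𝓝 (√((2 + 3 / σ ^ 3) / m 1 * 0) +
        4 * √(2 * (α₀ * C₁ ^ 2 + (S₀ + 1) ^ 2) * 0) / t)) :=
      ((hN.const_mul _).sqrt).add ((((hN.const_mul _).sqrt).const_mul _).div_const _)
    simp only [mul_zero, Real.sqrt_zero, zero_div, add_zero] at h1
    refine h1.congr fun N => ?_
    have e1 : (2 + 3 / σ ^ 3) / (m 1 * (N : ℝ)) = (2 + 3 / σ ^ 3) / m 1 * (N : ℝ)⁻¹ := by
      rw [div_mul_eq_div_div, div_eq_mul_inv]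
    have e2 : 2 * (α₀ * C₁ ^ 2 + (S₀ + 1) ^ 2) / (N : ℝ) =
        2 * (α₀ * C₁ ^ 2 + (S₀ + 1) ^ 2) * (N : ℝ)⁻¹ := div_eq_mul_inv _ _
    rw [e1, e2]
  obtain ⟨N₀, hN₀⟩ := eventually_atTop.1 (hlim.eventually (gt_mem_nhds (half_pos hε₁)))
  refine ⟨max N₀ 1, fun N hN X _ _ _ u φ hu hφ A hA C hCC hC => ?_⟩
  have hN1 : 0 < N := lt_of_lt_of_le one_pos ((le_max_right _ _).trans hN)
  have hMD : MD K m f f' f'' B C₁ C₂ u φ := ⟨hm, hf, hB, hN1, hφ⟩
  have hC' : ∀ s : ℕ → ℝ, (∀ j ≤ K, 0 ≤ s j) → Fe A K m f u φ 0 s -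
      1 / 2 * ∑ j ∈ Finset.range (K + 1), aco K m q j * s j ^ 2 ≤ C := by
    intro s hs
    rw [Fe_no_pattern hMD hs]
    exact hC s hs
  have herr := hN₀ N ((le_max_left _ _).trans hN)
  have key := upper_param (A := A) hMD hq hq1 hu hτ hτ1 hB0 hCb0 hα hσ hS hπ hp hδ hA
    (hCC.trans (le_max_left _ _)) hC' hε₁.le ht ht1 ht4 (by linarith only [ht3, herr])
  rw [Fe_no_field hMD] at key
  refine key.trans ?_
  unfold erS
  linarith only [hτ2, hε₂]

/-- The mean pressure on the cube. -/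
theorem meanPressure_cube_eq (f : ℝ → ℝ) (α : ℝ) (N : ℕ) :
    meanPressure cube α f N = 1 / N * ∫ g : Fin ⌊α * N⌋₊ → Fin N → ℝ,
      Real.log (∑ x : Fin N → Bool, Real.exp (-(N * Real.log 2) +
        ∑ b, f (1 / √(N : ℝ) * ∑ i, spin x i * g b i)))
        ∂(Measure.pi fun _ => Measure.pi fun _ => gaussianReal 0 1) := by
  unfold meanPressure patterns
  rw [← integral_const_mul]
  refine integral_congr_ae (ae_of_all _ fun g => ?_)
  simp only
  unfold pressure
  rw [integral_cube, Finset.mul_sum]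
  congr 2
  refine Finset.sum_congr rfl fun x _ => ?_
  rw [Real.exp_add]
  congr 1
  · rw [Real.exp_neg, mul_comm, Real.exp_mul, Real.exp_log (by norm_num), Real.rpow_natCast,
      one_div, inv_pow]
  · congr 1
    refine Finset.sum_congr rfl fun a _ => ?_
    congr 1
    rw [div_eq_inv_mul, one_div]
    congr 1
    exact Finset.sum_congr rfl fun i _ => mul_comm _ _

/-- **The upper bound for smooth bounded potentials.** -/
theorem upper_smooth (hf : Pot f f' f'' C₁ C₂) (hB : ∀ x, |f x| ≤ B) {α : ℝ} (hα : 0 ≤ α) {k : ℕ}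
    (hm : Exponents k m) (hq : Path k q) (hq1 : q k ≤ 1) {C : ℝ}
    (hC : ∀ r, Par.Path k r → parisi α f k m q r ≤ C) {ε : ℝ} (hε : 0 < ε) :
    ∀ᶠ N in atTop, meanPressure cube α f N ≤ C + ε := by
  obtain ⟨δ, hδ, -, hδ2⟩ := up_small (F := fun δ : ℝ =>
    α * (1 / 2 * C₁ ^ 2 * Real.exp (6 * B) * (√(2 * δ) + 2 * δ))) (by fun_prop) (by simp only [one_div, mul_zero, Real.sqrt_zero, add_zero])
    (ε := ε / 3) (by (clear * - hε; positivity))
  obtain ⟨n, hn⟩ := exists_nat_ge (1 / δ)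
  have hn0 : (0 : ℝ) < n := (by positivity : (0 : ℝ) < 1 / δ).trans_le hn
  have hn1 : 0 < n := by exact_mod_cast hn0
  have hnδ : 1 / (n : ℝ) ≤ δ := by
    rw [div_le_iff₀ hn0]
    rw [div_le_iff₀ hδ] at hn
    linarith only [hn]
  set K := rfk n k with hK
  set m' := rfm n m with hm'
  set q' := rfp n q with hq'
  set Ψ := patternPart f k m q with hΨ
  have hm1 : Exponents K m' := rfm_exponents hn1 hm
  obtain ⟨N₀, hN₀⟩ := upper_unif (q := q') hm1 (rfp_path hn1 hq)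
    (by rw [hq', hK, rfp_last hn1]; exact hq1) hf hB
    (δ := δ) (fun l hl => (rfm_mesh hn1 hm hl).trans hnδ) (α₀ := α) (Cb := C - α * Ψ)
    (ε := ε / 3) hα (by (clear * - hε; positivity))
  obtain ⟨N₁, hN₁⟩ := exists_nat_ge (3 * |Ψ| / ε)
  filter_upwards [eventually_ge_atTop (max (max N₀ N₁) 1)] with N hN
  have hN2 : 0 < N := lt_of_lt_of_le one_pos ((le_max_right _ _).trans hN)
  have hN3 : (0 : ℝ) < N := by exact_mod_cast hN2
  have hN4 : N₀ ≤ N := (le_max_left _ _).trans ((le_max_left _ _).trans hN)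
  have hN5 : N₁ ≤ N := (le_max_right _ _).trans ((le_max_left _ _).trans hN)
  rw [meanPressure_cube_eq]
  have hA : ((⌊α * N⌋₊ : ℕ) : ℝ) ≤ α * N := Nat.floor_le (by (clear * - hα hN2; positivity))
  have hu : ∑ _x : Fin N → Bool, Real.exp (-(N * Real.log 2)) = 1 := by
    rw [Finset.sum_const, Finset.card_univ, Fintype.card_fun, Fintype.card_bool, Fintype.card_fin,
      nsmul_eq_mul, Real.exp_neg, mul_comm (N : ℝ), Real.exp_mul, Real.exp_log (by norm_num),
      Real.rpow_natCast]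
    push_cast
    exact mul_inv_cancel₀ (by positivity)
  have hφ : ∀ x : Fin N → Bool, ∑ i, spin x i ^ 2 = N := by
    intro x
    simp only [pow_two, spin_sq, Finset.sum_const, Finset.card_univ, Fintype.card_fin, nsmul_eq_mul, mul_one]
  have key := hN₀ N hN4 (Fin N → Bool) (fun _ => -(N * Real.log 2)) spin hu hφ ⌊α * N⌋₊ hA
    (C - α * Ψ) le_rfl (fun s hs => by
      rw [Par.topN_spin hm1, sum_aco]
      set r := fun l => ∑ j ∈ Finset.range (l + 1), s j ^ 2 with hr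
      have hrp : Par.Path K r := by
        refine ⟨by simp only [hr]; (clear * -; positivity), fun l hl => ?_⟩
        simp only [hr]
        rw [Finset.sum_range_succ _ (l + 1)]
        have := sq_nonneg (s (l + 1))
        linarith only [this]
      have h1 := spinPart_bav hn1 hm hrp
      have h2 := hC (bav n r) (bav_path hn1 hrp)
      have h3 := sum_bav (q := q) (r := r) hn1 hm
      unfold parisi at h2
      have h4 : ∑ j ∈ Finset.range (K + 1), s j ^ 2 = r K := rfl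
      have h5 : ∀ l, ∑ j ∈ Finset.range (l + 1), s j ^ 2 = r l := fun l => rfl
      simp only [h5]
      rw [h3]
      have h6 : 1 / (N : ℝ) * (N * (spinPart K m' r + r K / 2)) = spinPart K m' r + r K / 2 := by
        (clear * - hN2; field_simp)
      rw [h6]
      linarith only [h1, h2])
  refine key.trans ?_
  rw [hm', hq', hK, patternPart_rf hn1 hm, ← hΨ]
  have h1 : ((⌊α * N⌋₊ : ℕ) : ℝ) / N * Ψ ≤ α * Ψ + ε / 3 := by
    have h2 : |((⌊α * N⌋₊ : ℕ) : ℝ) / N - α| ≤ 1 / N := by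
      have h3 := Nat.lt_floor_add_one (α * N)
      have e : ((⌊α * N⌋₊ : ℕ) : ℝ) / N - α = (((⌊α * N⌋₊ : ℕ) : ℝ) - α * N) / N := by
        (clear * - hN2; field_simp)
      rw [e, abs_div, abs_of_pos hN3, div_le_div_iff_of_pos_right hN3, abs_le]
      constructor <;> linarith only [h3, hA]
    have h3 : (((⌊α * N⌋₊ : ℕ) : ℝ) / N - α) * Ψ ≤ 1 / N * |Ψ| :=
      (le_abs_self _).trans (by
        rw [abs_mul]
        exact mul_le_mul_of_nonneg_right h2 (abs_nonneg _))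
    have h4 : 1 / (N : ℝ) * |Ψ| ≤ ε / 3 := by
      have h5 : 3 * |Ψ| / ε ≤ N := hN₁.trans (by exact_mod_cast hN5)
      rw [div_le_iff₀ hε] at h5
      rw [one_div, inv_mul_le_iff₀ hN3]
      linarith only [h5]
    linarith only [h3, h4]
  linarith only [hδ2, h1]

end Vale.Agent.P157.Lv
end

section

/-!
From smooth bounded potentials to bounded measurable potentials.
-/

open MeasureTheory ProbabilityTheory Filter Topology

namespace Vale.Agent.P157.Lv

set_option linter.unusedSectionVars false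

open Par (Path Exponents cascade gstep patternPart spinPart parisi)

variable {f g : ℝ → ℝ} {B : ℝ}

/-- The `L¹(γ)` distance of two potentials. -/
noncomputable def dL (f g : ℝ → ℝ) : ℝ := ∫ x, |f x - g x| ∂(gaussianReal 0 1)

/-- Approximation by smooth potentials (density of the continuous functions with compact support in
`L¹`, truncation to `[-B, B]`, convolution with a smooth bump function). -/
theorem exists_pot (hf : Measurable f) (hB : ∀ x, |f x| ≤ B) {ε : ℝ} (hε : 0 < ε) :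
    ∃ (g g' g'' : ℝ → ℝ) (C₁ C₂ : ℝ), Pot g g' g'' C₁ C₂ ∧ (∀ x, |g x| ≤ B) ∧ dL f g ≤ ε :=
  bor_exists_pot hf hB hε

/-- The mean pressure is Lipschitz in the potential, for every reference probability measure on
the vectors of norm `√N`. Proof: change the patterns one at a time, `|log ⟨e^f⟩ - log ⟨e^g⟩| ≤
e^{2B} ⟨|f - g|⟩`, where the Gibbs average does not depend on the changed pattern. -/
theorem meanPressure_lipL (μ : (N : ℕ) → Measure (Fin N → ℝ)) {N : ℕ} (hN : 0 < N)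
    [IsProbabilityMeasure (μ N)] (hμ : ∀ᵐ x ∂(μ N), ∑ i, x i ^ 2 = (N : ℝ)) (hf : Measurable f)
    (hg : Measurable g) (hfB : ∀ x, |f x| ≤ B) (hgB : ∀ x, |g x| ≤ B) {α : ℝ} (hα : 0 ≤ α) :
    |meanPressure μ α f N - meanPressure μ α g N| ≤ α * Real.exp (2 * B) * dL f g :=
  bor_meanPressure_lip μ hN hμ hf hg hfB hgB hα

/-- The pattern part is Lipschitz in the potential, **uniformly** in the parameters. Proof: for
smooth potentials `fe_add_tree` on `X = Unit`, `Reg.jensen`, `Reg.dn_gb_le` (density at most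
`e^{2B}` with respect to the Gaussian measure); for measurable ones by approximation at fixed
`k, m, q` (`|gstep m v F - gstep m v G| ≤ e^{2mB} E|F - G|`). -/
theorem patternPart_lipL {k : ℕ} {m q : ℕ → ℝ} (hm : Exponents k m) (hq : Path k q)
    (hq1 : q k ≤ 1) (hf : Measurable f) (hg : Measurable g) (hfB : ∀ x, |f x| ≤ B)
    (hgB : ∀ x, |g x| ≤ B) :
    |patternPart f k m q - patternPart g k m q| ≤ Real.exp (2 * B) * dL f g :=
  bor_patternPart_lip hm hq hq1 hf hg hfB hgB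

lemma bor_cube_sq (N : ℕ) : ∀ᵐ x ∂(cube N), ∑ i, x i ^ 2 = (N : ℝ) := by
  have hms : MeasurableSet {x : Fin N → ℝ | ∑ i, x i ^ 2 = (N : ℝ)} :=
    measurableSet_eq_fun (by fun_prop) measurable_const
  rw [cube_eq, ae_iff]
  have hc : MeasurableSet {x : Fin N → ℝ | ¬ ∑ i, x i ^ 2 = (N : ℝ)} := hms.compl
  rw [Measure.finsetSum_apply]
  refine Finset.sum_eq_zero fun σ _ => ?_
  rw [Measure.smul_apply, Measure.dirac_apply' _ hc, smul_eq_mul]
  rw [Set.indicator_of_notMem, mul_zero]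
  have h : ∑ i, spin σ i ^ 2 = (N : ℝ) := by
    simp_rw [sq, spin_sq]
    simp only [Finset.sum_const, Finset.card_univ, Fintype.card_fin, nsmul_eq_mul, mul_one]
  simpa only [Set.mem_ofPred_eq, Decidable.not_not] using h

/-- **The upper bound for bounded measurable potentials.** -/
theorem upper_borel (hf : Measurable f) (hB : ∀ x, |f x| ≤ B) {α : ℝ} (hα : 0 ≤ α) {k : ℕ}
    {m q : ℕ → ℝ} (hm : Exponents k m) (hq : Path k q) (hq1 : q k ≤ 1) {C : ℝ}
    (hC : ∀ r, Par.Path k r → parisi α f k m q r ≤ C) {ε : ℝ} (hε : 0 < ε) :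
    ∀ᶠ N in atTop, meanPressure cube α f N ≤ C + ε := by
  have hE : 0 < Real.exp (2 * B) := Real.exp_pos _
  have hδ : 0 < ε / (4 * (α * Real.exp (2 * B) + 1)) := by (clear * - hε hα; positivity)
  obtain ⟨g, g', g'', C₁, C₂, hP, hg, hd⟩ := exists_pot hf hB hδ
  have hgm : Measurable g := hP.measurable.1
  have hd' : α * Real.exp (2 * B) * dL f g ≤ ε / 4 := by
    have h1 : (α * Real.exp (2 * B) + 1) * (ε / (4 * (α * Real.exp (2 * B) + 1))) = ε / 4 := by
      (clear * - hα hε; field_simp)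
    have h2 : α * Real.exp (2 * B) * dL f g ≤
        α * Real.exp (2 * B) * (ε / (4 * (α * Real.exp (2 * B) + 1))) :=
      mul_le_mul_of_nonneg_left hd (by (clear * - hα; positivity))
    linarith
  have hC' : ∀ r, Par.Path k r → parisi α g k m q r ≤ C + ε / 4 := fun r hr => by
    have h1 := hC r hr
    have h2 := (abs_le.1 (patternPart_lipL hm hq hq1 hf hgm hB hg)).1
    have h3 : α * (patternPart g k m q - patternPart f k m q) ≤
        α * (Real.exp (2 * B) * dL f g) := mul_le_mul_of_nonneg_left (by linarith only [h2]) hα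
    unfold parisi at h1 ⊢
    linarith only [hd', h1, h3]
  filter_upwards [upper_smooth hP hg hα hm hq hq1 hC' (half_pos hε), eventually_gt_atTop 0]
    with N hN hN0
  have h1 := (abs_le.1 (meanPressure_lipL cube hN0 (bor_cube_sq N) hf hgm hB hg hα)).2
  linarith only [hd', hN, h1]

end Vale.Agent.P157.Lv
end

section

/-! Deterministic selection, with both increments at the size `N + 1`. -/

open MeasureTheory ProbabilityTheory Filter Topology

namespace Vale.Agent.P157.Sph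

open Par

/-- Shifting the window by `α` costs `α` times the window average of the unit increments
(forward version). -/
lemma sphseldet_window_shift {g : ℕ → ℝ} {C : ℝ} (hC : 0 ≤ C)
    (hg : ∀ m, |g (m + 1) - g m| ≤ C) {α x L : ℝ} (hα : 0 < α) (hx : 0 ≤ x) (hL : 0 ≤ L) :
    α * (∫ θ in (0 : ℝ)..L, (g (⌊x + θ⌋₊ + 1) - g ⌊x + θ⌋₊)) -
        2 * α * C * (2 * α + 3) ≤
      ∫ θ in (0 : ℝ)..L, (g ⌊x + α + θ⌋₊ - g ⌊x + θ⌋₊) := by
  have e1 : ∫ θ in (0 : ℝ)..L, (g ⌊x + α + θ⌋₊ - g ⌊x + θ⌋₊) =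
      (∫ t in (x + L)..(x + L + α), g ⌊t⌋₊) - ∫ t in x..(x + α), g ⌊t⌋₊ := by
    rw [intervalIntegral.integral_sub (floor_intervalIntegrable_add g _ _ _)
      (floor_intervalIntegrable_add g _ _ _)]
    rw [intervalIntegral.integral_comp_add_left (fun t => g ⌊t⌋₊),
      intervalIntegral.integral_comp_add_left (fun t => g ⌊t⌋₊)]
    have h1 := intervalIntegral.integral_add_adjacent_intervals
      (floor_intervalIntegrable g (x + 0) (x + α)) (floor_intervalIntegrable g (x + α) (x + L + α))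
    have h2 := intervalIntegral.integral_add_adjacent_intervals
      (floor_intervalIntegrable g (x + 0) (x + L)) (floor_intervalIntegrable g (x + L) (x + L + α))
    have h3 : x + α + L = x + L + α := by ring
    simp only [add_zero] at h1 h2 ⊢
    rw [h3]
    linarith only [h1, h2]
  have e2 : ∫ θ in (0 : ℝ)..L, (g (⌊x + θ⌋₊ + 1) - g ⌊x + θ⌋₊) =
      (∫ t in (x + L)..(x + L + 1), g ⌊t⌋₊) - ∫ t in x..(x + 1), g ⌊t⌋₊ := by
    have h0 : ∫ θ in (0 : ℝ)..L, (g (⌊x + θ⌋₊ + 1) - g ⌊x + θ⌋₊) =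
        ∫ θ in (0 : ℝ)..L, (g ⌊x + 1 + θ⌋₊ - g ⌊x + θ⌋₊) := by
      refine intervalIntegral.integral_congr fun θ hθ => ?_
      rw [Set.uIcc_of_le hL] at hθ
      have h : x + 1 + θ = x + θ + 1 := by ring
      show g (⌊x + θ⌋₊ + 1) - g ⌊x + θ⌋₊ = g ⌊x + 1 + θ⌋₊ - g ⌊x + θ⌋₊
      rw [h, Nat.floor_add_one (add_nonneg hx hθ.1)]
    rw [h0, intervalIntegral.integral_sub (floor_intervalIntegrable_add g _ _ _)
      (floor_intervalIntegrable_add g _ _ _)]
    rw [intervalIntegral.integral_comp_add_left (fun t => g ⌊t⌋₊),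
      intervalIntegral.integral_comp_add_left (fun t => g ⌊t⌋₊)]
    have h1 := intervalIntegral.integral_add_adjacent_intervals
      (floor_intervalIntegrable g (x + 0) (x + 1)) (floor_intervalIntegrable g (x + 1) (x + L + 1))
    have h2 := intervalIntegral.integral_add_adjacent_intervals
      (floor_intervalIntegrable g (x + 0) (x + L)) (floor_intervalIntegrable g (x + L) (x + L + 1))
    have h3 : x + 1 + L = x + L + 1 := by ring
    simp only [add_zero] at h1 h2 ⊢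
    rw [h3]
    linarith only [h1, h2]
  rw [e1, e2]
  have b1 := short_integral hC hg (a := x + L) (b := x + L + α) (y := x + L) (r := α)
    (by linarith only [hα]) (fun t ht => by
      rw [abs_of_nonneg (by linarith only [ht.1])]; linarith only [ht.2])
  have b2 := short_integral hC hg (a := x) (b := x + α) (y := x) (r := α)
    (by linarith only [hα]) (fun t ht => by
      rw [abs_of_nonneg (by linarith only [ht.1])]; linarith only [ht.2])
  have b3 := short_integral hC hg (a := x + L) (b := x + L + 1) (y := x + L)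
    (r := 1) (by linarith only []) (fun t ht => by
      rw [abs_of_nonneg (by linarith only [ht.1])]; linarith only [ht.2])
  have b4 := short_integral hC hg (a := x) (b := x + 1) (y := x)
    (r := 1) (by linarith only []) (fun t ht => by
      rw [abs_of_nonneg (by linarith only [ht.1])]; linarith only [ht.2])
  have s1 : x + L + α - (x + L) = α := by ring
  have s2 : x + α - x = α := by ring
  have s3 : x + L + 1 - (x + L) = 1 := by ring
  have s4 : x + 1 - x = 1 := by ring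
  rw [s1] at b1
  rw [s2] at b2
  rw [s3] at b3
  rw [s4] at b4
  rw [abs_le] at b1 b2 b3 b4
  have b5 : (∫ t in (x + L)..(x + L + 1), g ⌊t⌋₊) - (∫ t in x..(x + 1), g ⌊t⌋₊) ≤
      g ⌊x + L⌋₊ - g ⌊x⌋₊ + 2 * (C * (1 + 1)) := by
    linarith only [b3, b4]
  have b6 := mul_le_mul_of_nonneg_left b5 hα.le
  have b7 : α * (g ⌊x + L⌋₊ - g ⌊x⌋₊) - 2 * (α * (C * (α + 1))) ≤
      (∫ t in (x + L)..(x + L + α), g ⌊t⌋₊) - ∫ t in x..(x + α), g ⌊t⌋₊ := by
    have := b1.1
    have := b2.2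
    linarith
  have hαC : 0 ≤ α * C := mul_nonneg hα.le hC
  have hααC : 0 ≤ α * (α * C) := mul_nonneg hα.le hαC
  linarith

/-- The deterministic selection lemma: the dimension increment at `(N, M)` and the pattern
increment at `(N + 1, M)` (compare `Par.window_selection'`). -/
theorem window_selection {a c : ℕ → ℕ → ℝ} {C α p : ℝ} {m κ : ℕ → ℝ} (hC : 0 ≤ C) (hα : 0 < α)
    (ha : ∀ N M, |a N (M + 1) - a N M| ≤ C)
    (hc : ∀ N M, c N M ≤ a (N + 1) M - a N M)
    (hm : ∀ N : ℕ, |a N ⌊α * ((N + 1 : ℕ) : ℝ)⌋₊ - ((N : ℝ) + 1) * m (N + 1)| ≤ κ N)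
    (hκ : Tendsto (fun N : ℕ => κ N / ((N : ℝ) + 1)) atTop (𝓝 0))
    (hp : ∀ ε > 0, ∃ᶠ N in atTop, m N < p + ε) {ε : ℝ} (hε : 0 < ε) :
    ∃ L : ℝ, 1 ≤ L ∧ ∀ N₀ : ℕ, ∃ N M : ℕ, N₀ ≤ N ∧ α * ((N : ℝ) + 1) - 1 ≤ M ∧
      (M : ℝ) ≤ α * ((N : ℝ) + 1) + L ∧
      c N M + α * (a (N + 1) (M + 1) - a (N + 1) M) ≤ p + 2 * ε := by
  set K : ℝ := 2 * α * C * (2 * α + 3) with hK
  have hK0 : 0 ≤ K := by (clear * - hα hC; positivity)
  obtain ⟨L, hL1, hL2⟩ : ∃ L : ℝ, 1 ≤ L ∧ K / L ≤ ε / 2 := by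
    refine ⟨max 1 (2 * K / ε), le_max_left _ _, ?_⟩
    have h1 : (0 : ℝ) < max 1 (2 * K / ε) := lt_of_lt_of_le one_pos (le_max_left _ _)
    rw [div_le_iff₀ h1]
    have h2 : 2 * K / ε ≤ max 1 (2 * K / ε) := le_max_right _ _
    have h3 := mul_le_mul_of_nonneg_left h2 (show 0 ≤ ε / 2 by linarith only [hε])
    have h4 : ε / 2 * (2 * K / ε) = K := by (clear * - hε; field_simp)
    (clear * - h3 h4; linarith)
  have hL0 : 0 < L := by linarith only [hL1]
  refine ⟨L, hL1, fun N₀ => ?_⟩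
  obtain ⟨N, hN, hinc⟩ := frequently_increment_le
    (A := fun N => wav L (a N) (α * ((N + 1 : ℕ) : ℝ))) (m := m)
    (κ := fun N => κ N + C * (L + 1)) (p := p) (fun N => by
      have h1 := wav_close hC (ha N) (x := α * ((N + 1 : ℕ) : ℝ)) hL1
      have h2 := hm N
      have h3 := abs_sub_le (wav L (a N) (α * ((N + 1 : ℕ) : ℝ)))
        (a N ⌊α * ((N + 1 : ℕ) : ℝ)⌋₊) (((N : ℝ) + 1) * m (N + 1))
      linarith only [h1, h2, h3]) (by
      have t1 : Tendsto (fun N : ℕ => C * (L + 1) * (1 / ((N : ℝ) + 1))) atTop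
          (𝓝 (C * (L + 1) * 0)) := tendsto_one_div_add_atTop_nhds_zero_nat.const_mul _
      have t2 := hκ.add t1
      rw [mul_zero, add_zero] at t2
      refine t2.congr fun N => ?_
      have : ((N : ℝ) + 1) ≠ 0 := by positivity
      field_simp) hp (show 0 < ε / 2 by linarith only [hε]) N₀
  by_contra hcon
  push Not at hcon
  set x : ℝ := α * ((N + 1 : ℕ) : ℝ) with hx
  have hx0 : 0 ≤ x := by rw [hx]; positivity
  have hxN : x = α * ((N : ℝ) + 1) := by rw [hx]; push_cast; ring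
  have hx'' : α * ((N + 1 + 1 : ℕ) : ℝ) = x + α := by rw [hx]; push_cast; ring
  simp only [hx''] at hinc
  have hw := sphseldet_window_shift hC (ha (N + 1)) (x := x) (L := L) hα hx0 hL0.le
  -- the lower bound of the integrand
  have hlow : ∀ θ ∈ Set.Icc (0 : ℝ) L, p + 2 * ε ≤ c N ⌊x + θ⌋₊ +
      α * (a (N + 1) (⌊x + θ⌋₊ + 1) - a (N + 1) ⌊x + θ⌋₊) := by
    intro θ hθ
    have hpos : 0 ≤ x + θ := add_nonneg hx0 hθ.1
    have h1 := Nat.floor_le hpos
    have h2 := Nat.lt_floor_add_one (x + θ)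
    refine (hcon N _ hN ?_ ?_).le
    · rw [← hxN]; linarith only [h2, hθ.1]
    · rw [← hxN]; linarith only [h1, hθ.2]
  have i1 : ∀ (N : ℕ) (y : ℝ), IntervalIntegrable (fun t : ℝ => a N ⌊y + t⌋₊) volume 0 L :=
    fun N y => floor_intervalIntegrable_add (a N) y 0 L
  have i2 : IntervalIntegrable (fun t : ℝ => c N ⌊x + t⌋₊) volume 0 L :=
    floor_intervalIntegrable_add (c N) _ 0 L
  have i3 : IntervalIntegrable (fun t : ℝ => a (N + 1) (⌊x + t⌋₊ + 1) - a (N + 1) ⌊x + t⌋₊)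
      volume 0 L :=
    floor_intervalIntegrable_add (fun k => a (N + 1) (k + 1) - a (N + 1) k) _ 0 L
  have s1 : (∫ θ in (0 : ℝ)..L, c N ⌊x + θ⌋₊) ≤
      (∫ θ in (0 : ℝ)..L, a (N + 1) ⌊x + θ⌋₊) - ∫ θ in (0 : ℝ)..L, a N ⌊x + θ⌋₊ := by
    rw [← intervalIntegral.integral_sub (i1 _ _) (i1 _ _)]
    exact intervalIntegral.integral_mono_on hL0.le i2 ((i1 _ _).sub (i1 _ _))
      fun t _ => hc N _
  have s2 : (∫ θ in (0 : ℝ)..L, (a (N + 1) ⌊x + α + θ⌋₊ - a (N + 1) ⌊x + θ⌋₊)) =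
      (∫ θ in (0 : ℝ)..L, a (N + 1) ⌊x + α + θ⌋₊) - ∫ θ in (0 : ℝ)..L, a (N + 1) ⌊x + θ⌋₊ :=
    intervalIntegral.integral_sub (i1 _ _) (i1 _ _)
  rw [s2] at hw
  have h3 := intervalIntegral.integral_mono_on hL0.le
    (intervalIntegrable_const (c := p + 2 * ε)) (i2.add (i3.const_mul α)) hlow
  have h3' : (∫ θ in (0 : ℝ)..L, ((fun t : ℝ => c N ⌊x + t⌋₊) θ +
      α * (fun t : ℝ => a (N + 1) (⌊x + t⌋₊ + 1) - a (N + 1) ⌊x + t⌋₊) θ)) =
      (∫ θ in (0 : ℝ)..L, c N ⌊x + θ⌋₊) +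
        α * ∫ θ in (0 : ℝ)..L, (a (N + 1) (⌊x + θ⌋₊ + 1) - a (N + 1) ⌊x + θ⌋₊) := by
    rw [intervalIntegral.integral_add i2 (i3.const_mul α), intervalIntegral.integral_const_mul]
  have h3'' : L * (p + 2 * ε) ≤ (∫ θ in (0 : ℝ)..L, c N ⌊x + θ⌋₊) +
        α * ∫ θ in (0 : ℝ)..L, (a (N + 1) (⌊x + θ⌋₊ + 1) - a (N + 1) ⌊x + θ⌋₊) := by
    rw [← h3']
    rw [intervalIntegral.integral_const, smul_eq_mul, sub_zero] at h3
    exact h3
  have h5 : L * (p + 2 * ε) ≤ (∫ θ in (0 : ℝ)..L, a (N + 1) ⌊x + α + θ⌋₊) -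
        (∫ θ in (0 : ℝ)..L, a N ⌊x + θ⌋₊) + K := by
    linarith only [hw, s1, h3'']
  have h6 : 1 / L * (L * (p + 2 * ε)) ≤ 1 / L * ((∫ θ in (0 : ℝ)..L, a (N + 1) ⌊x + α + θ⌋₊) -
        (∫ θ in (0 : ℝ)..L, a N ⌊x + θ⌋₊) + K) :=
    mul_le_mul_of_nonneg_left h5 (by (clear * - hL1; positivity))
  have h7 : 1 / L * (L * (p + 2 * ε)) = p + 2 * ε := by (clear * - hL1; field_simp)
  have h8 : 1 / L * ((∫ θ in (0 : ℝ)..L, a (N + 1) ⌊x + α + θ⌋₊) -
        (∫ θ in (0 : ℝ)..L, a N ⌊x + θ⌋₊) + K) =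
      (wav L (a (N + 1)) (x + α) - wav L (a N) x) + K / L := by
    unfold wav
    ring
  rw [h7, h8] at h6
  linarith only [hε, hL2, hinc, h6]

end Vale.Agent.P157.Sph
end
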