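import Vale.Agent.P157.Bdl.B14
import Vale.Agent.P157.Bdl.B3
import Vale.Agent.P157.Bdl.B15
import Vale.Agent.P157.Bdl.B11
import Vale.Agent.P157.Bdl.B12
import Vale.Agent.P157.Bdl.B7
import Vale.Agent.P157.Bdl.B13
attribute [-instance] ProperSMul.toContinuousSMul IsTopologicalTorsor.toContinuousSMul IdemSemiring.toCanonicallyOrderedAdd IdemSemiring.toMulLeftMono IdemSemiring.toMulRightMono AddQuantale.instAddLeftMono AddQuantale.instAddRightMono Quantale.instMulLeftMono Quantale.instMulRightMono FiniteDimensional.rclike_to_real IsScalarTower.complexToReal FiniteDimensional.complexToReal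

set_option linter.all false

section

/-! Lower bound for the Gaussian mass outside a ball. -/

open MeasureTheory ProbabilityTheory Filter Topology
open scoped RealInnerProductSpace

namespace Vale.Agent.P157.Sph

open Par

open Vale.Agent.P367.GT (gM)

set_option linter.unusedSectionVars false

/-- The Gaussian integral in terms of the density. -/
lemma sphtop_int (d : ℕ) (F : Ec d → ℝ) :
    ∫ z, F z ∂(stdGaussian (Ec d)) = ∫ x : Ec d, Exist.gprof d ‖x‖ * F x := by
  have hm : Measurable fun x : Ec d => Exist.gprof d ‖x‖ :=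
    (Exist.measurable_gprof d).comp measurable_norm
  have h := Exist.stdGaussian_density d
  rw [show stdGaussian (Ec d) = _ from h,
    integral_withDensity_eq_integral_toReal_smul (by fun_prop)
      (Filter.Eventually.of_forall fun _ => ENNReal.ofReal_lt_top)]
  refine integral_congr_ae (Filter.Eventually.of_forall fun x => ?_)
  simp only [smul_eq_mul]
  rw [ENNReal.toReal_ofReal (Exist.gprof_nonneg d _)]

/-- Change of variables for the Gaussian integral. -/
lemma sphtop_scale (d : ℕ) (F : Ec d → ℝ) {s : ℝ} (hs : 0 < s) :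
    ∫ z, F z ∂(stdGaussian (Ec d)) =
      s ^ d * ∫ y, Real.exp (-((s ^ 2 - 1) * ‖y‖ ^ 2 / 2)) * F (s • y) ∂(stdGaussian (Ec d)) := by
  rw [sphtop_int, sphtop_int]
  have h1 : ∀ y : Ec d, Exist.gprof d ‖y‖ *
      (Real.exp (-((s ^ 2 - 1) * ‖y‖ ^ 2 / 2)) * F (s • y)) =
      (fun x : Ec d => Exist.gprof d ‖x‖ * F x) (s • y) := by
    intro y
    simp only [Exist.gprof]
    rw [norm_smul, Real.norm_eq_abs, abs_of_pos hs, ← mul_assoc, mul_assoc _ (Real.exp _) (Real.exp _),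
      ← Real.exp_add]
    congr 3
    ring
  have h2 := Measure.integral_comp_smul (μ := (volume : Measure (Ec d)))
    (fun x : Ec d => Exist.gprof d ‖x‖ * F x) s
  rw [integral_congr_ae (Filter.Eventually.of_forall h1), h2]
  simp only [finrank_euclideanSpace, Fintype.card_fin, smul_eq_mul]
  rw [abs_of_pos (by positivity), ← mul_assoc, mul_inv_cancel₀ (by positivity), one_mul]

/-- Measurability of a shell. -/
lemma sphtop_meas (ε : ℝ) (d : ℕ) : MeasurableSet
    {y : Ec d | (d : ℝ) ≤ (1 + ε / 4) * ‖y‖ ^ 2 ∧ ‖y‖ ^ 2 ≤ (1 + ε / 4) * d} := by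
  have h1 : MeasurableSet {y : Ec d | (d : ℝ) ≤ (1 + ε / 4) * ‖y‖ ^ 2} :=
    measurableSet_le (by fun_prop) (by (clear * -; fun_prop))
  have h2 : MeasurableSet {y : Ec d | ‖y‖ ^ 2 ≤ (1 + ε / 4) * d} :=
    measurableSet_le (by fun_prop) (by fun_prop)
  exact h1.inter h2

/-- The squared norm is concentrated around the dimension. -/
lemma sphtop_conc {ε : ℝ} (hε : 0 < ε) (hε1 : ε ≤ 1) {d : ℕ} (hd0 : 0 < d)
    (hd : 50 * Exist.c4 ≤ ε ^ 2 * d) :
    1 / 2 ≤ (stdGaussian (Ec d)).real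
      {y | (d : ℝ) ≤ (1 + ε / 4) * ‖y‖ ^ 2 ∧ ‖y‖ ^ 2 ≤ (1 + ε / 4) * d} := by
  set E : Set (Ec d) := {y | (d : ℝ) ≤ (1 + ε / 4) * ‖y‖ ^ 2 ∧ ‖y‖ ^ 2 ≤ (1 + ε / 4) * d} with hE
  have hEm : MeasurableSet E := sphtop_meas ε d
  have hdr : (0 : ℝ) < d := by exact_mod_cast hd0
  have h1 : (stdGaussian (Ec d)).real Eᶜ ≤ 1 / 2 := by
    have hmk := mul_meas_ge_le_integral_of_nonneg (μ := stdGaussian (Ec d))
      (f := fun z => Exist.cn d z ^ 2) (Filter.Eventually.of_forall fun z => sq_nonneg _)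
      (Exist.memLp_cn d).integrable_sq ((ε / 5 * d) ^ 2)
    rw [Exist.integral_cn_sq] at hmk
    have hsub : Eᶜ ⊆ {z | (ε / 5 * d) ^ 2 ≤ Exist.cn d z ^ 2} := by
      intro y hy
      simp only [Set.mem_ofPred_eq]
      rw [← sq_abs (Exist.cn d y)]
      apply pow_le_pow_left₀ (by (clear * - hε hd0; positivity))
      simp only [hE, Set.mem_compl_iff, Set.mem_ofPred_eq, not_and_or, not_le] at hy
      unfold Exist.cn
      rcases hy with hy | hy
      · rw [abs_sub_comm]
        refine le_trans ?_ (le_abs_self _)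
        by_contra hcon
        push Not at hcon
        have h1 : (1 - ε / 5) * d < ‖y‖ ^ 2 := by linarith only [hcon]
        have h2 : (1 + ε / 4) * ((1 - ε / 5) * d) < (1 + ε / 4) * ‖y‖ ^ 2 :=
          mul_lt_mul_of_pos_left h1 (by positivity)
        have h3 : 0 ≤ ε * (1 - ε) * d :=
          mul_nonneg (mul_nonneg hε.le (sub_nonneg.2 hε1)) hdr.le
        linarith only [hy, h2, h3]
      · refine le_trans ?_ (le_abs_self _)
        nlinarith only [hy, hε]
    have hmono : (stdGaussian (Ec d)).real Eᶜ ≤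
        (stdGaussian (Ec d)).real {z | (ε / 5 * d) ^ 2 ≤ Exist.cn d z ^ 2} :=
      measureReal_mono hsub
    have h2 : (ε / 5 * d) ^ 2 * (stdGaussian (Ec d)).real Eᶜ ≤ d * Exist.c4 :=
      (mul_le_mul_of_nonneg_left hmono (by positivity)).trans hmk
    have h3 : d * Exist.c4 ≤ (ε / 5 * d) ^ 2 * (1 / 2) := by nlinarith only [hd]
    have h4 := h2.trans h3
    exact le_of_mul_le_mul_left h4 (by positivity)
  have h2 := probReal_compl_eq_one_sub (μ := stdGaussian (Ec d)) hEm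
  linarith only [h1, h2]

/-- Lower bound for the Gaussian mass outside a ball of radius `√(b d)`, `b ≥ 1`. -/
theorem chi_tail {ε : ℝ} (hε : 0 < ε) (hε1 : ε ≤ 1) : ∃ d₀ : ℕ, ∀ d : ℕ, d₀ ≤ d → ∀ b : ℝ, 1 ≤ b →
    Real.exp (-(d * ((b - 1 - Real.log b) / 2 + ε * b))) ≤
      (stdGaussian (Ec d)).real {z | √(b * d) ≤ ‖z‖} := by
  refine ⟨⌈50 * Exist.c4 / ε ^ 2⌉₊ + ⌈2 / ε⌉₊ + 1, fun d hd b hb => ?_⟩
  have hd0 : 0 < d := by omega
  have hdr : (0 : ℝ) < d := by exact_mod_cast hd0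
  have hd1 : 50 * Exist.c4 ≤ ε ^ 2 * d := by
    have h1 : 50 * Exist.c4 / ε ^ 2 ≤ (d : ℝ) :=
      (Nat.le_ceil _).trans (by exact_mod_cast (by omega : ⌈50 * Exist.c4 / ε ^ 2⌉₊ ≤ d))
    rw [div_le_iff₀ (by positivity)] at h1
    linarith only [h1]
  have hd2 : 2 ≤ ε * d := by
    have h1 : 2 / ε ≤ (d : ℝ) :=
      (Nat.le_ceil _).trans (by exact_mod_cast (by omega : ⌈2 / ε⌉₊ ≤ d))
    rw [div_le_iff₀ (by positivity)] at h1
    linarith only [h1]
  set γ := stdGaussian (Ec d) with hγ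
  set b' : ℝ := b * (1 + ε / 4) with hb'
  have hb0 : 0 < b := by linarith only [hb]
  have hb'0 : 0 < b' := by positivity
  have hb'1 : 1 ≤ b' := by
    rw [hb']; nlinarith only [hε, hb]
  have hbb' : b ≤ b' := by rw [hb']; nlinarith only [hε, hb]
  set s : ℝ := √b' with hs
  have hs0 : 0 < s := Real.sqrt_pos.2 hb'0
  have hs2 : s ^ 2 = b' := Real.sq_sqrt hb'0.le
  set T : Set (Ec d) := {z | √(b * d) ≤ ‖z‖} with hT
  have hTm : MeasurableSet T := measurableSet_le (by fun_prop) (by fun_prop)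
  set E : Set (Ec d) := {y | (d : ℝ) ≤ (1 + ε / 4) * ‖y‖ ^ 2 ∧ ‖y‖ ^ 2 ≤ (1 + ε / 4) * d} with hE
  have hEm : MeasurableSet E := sphtop_meas ε d
  have hconc : 1 / 2 ≤ γ.real E := sphtop_conc hε hε1 hd0 hd1
  have h1 : γ.real T = ∫ z, T.indicator (fun _ => (1 : ℝ)) z ∂γ := by
    rw [integral_indicator hTm]; simp only [integral_const, MeasurableSet.univ, measureReal_restrict_apply, Set.univ_inter, smul_eq_mul, mul_one]
  rw [h1, hγ, sphtop_scale d _ hs0, ← hγ]
  -- the lower bound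
  have h2 : Real.exp (-((b' - 1) * ((1 + ε / 4) * d) / 2)) * γ.real E ≤
      ∫ y, Real.exp (-((s ^ 2 - 1) * ‖y‖ ^ 2 / 2)) * T.indicator (fun _ => (1 : ℝ)) (s • y) ∂γ := by
    have h3 : Real.exp (-((b' - 1) * ((1 + ε / 4) * d) / 2)) * γ.real E =
        ∫ y, E.indicator (fun _ => Real.exp (-((b' - 1) * ((1 + ε / 4) * d) / 2))) y ∂γ := by
      rw [integral_indicator hEm]; simp only [mul_comm, integral_const, MeasurableSet.univ, measureReal_restrict_apply, Set.univ_inter, smul_eq_mul]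
    rw [h3]
    refine integral_mono ((integrable_const _).indicator hEm) ?_ ?_
    · refine Integrable.of_bound (C := 1) ?_ (Filter.Eventually.of_forall fun y => ?_)
      · refine AEStronglyMeasurable.mul ?_ ?_
        · exact Measurable.aestronglyMeasurable (by fun_prop)
        · refine Measurable.aestronglyMeasurable ?_
          exact (measurable_const.indicator hTm).comp (by (clear * -; fun_prop))
      · rw [norm_mul, Real.norm_eq_abs, Real.norm_eq_abs, abs_of_pos (Real.exp_pos _)]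
        refine mul_le_one₀ ?_ (abs_nonneg _) ?_
        · rw [Real.exp_le_one_iff, hs2]
          have : 0 ≤ (b' - 1) * ‖y‖ ^ 2 / 2 := by
            have : 0 ≤ b' - 1 := by linarith only [hb'1]
            (clear * - hb'1; positivity)
          linarith only [this]
        · unfold Set.indicator; split_ifs <;> simp
    · intro y
      simp only
      by_cases hy : y ∈ E
      · rw [Set.indicator_of_mem hy]
        have hyE := hy
        simp only [hE, Set.mem_ofPred_eq] at hyE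
        have hyT : s • y ∈ T := by
          simp only [hT, Set.mem_ofPred_eq]
          rw [norm_smul, Real.norm_eq_abs, abs_of_pos hs0]
          apply Real.sqrt_le_iff.2
          refine ⟨by (clear * - hb hε; positivity), ?_⟩
          rw [mul_pow, hs2, hb']
          nlinarith only [hb, hyE.1]
        rw [Set.indicator_of_mem hyT, mul_one, hs2]
        apply Real.exp_le_exp.2
        have : 0 ≤ b' - 1 := by linarith only [hb'1]
        linarith only [hyE.2, mul_le_mul_of_nonneg_left hyE.2 this]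
      · rw [Set.indicator_of_notMem hy]
        exact mul_nonneg (Real.exp_pos _).le (Set.indicator_nonneg (fun _ _ => zero_le_one) _)
  refine le_trans ?_ (mul_le_mul_of_nonneg_left h2 (by positivity))
  refine le_trans ?_ (mul_le_mul_of_nonneg_left
    (mul_le_mul_of_nonneg_left hconc (Real.exp_pos _).le) (by positivity))
  have hspow : s ^ d = Real.exp (d * (Real.log b' / 2)) := by
    rw [hs, Real.exp_nat_mul, ← Real.log_sqrt hb'0.le, Real.exp_log (Real.sqrt_pos.2 hb'0)]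
  have hhalf : (1 / 2 : ℝ) = Real.exp (-Real.log 2) := by
    rw [Real.exp_neg, Real.exp_log (by norm_num)]; norm_num
  rw [hspow, hhalf, ← Real.exp_add, ← Real.exp_add]
  apply Real.exp_le_exp.2
  have hlog : Real.log b ≤ Real.log b' := Real.log_le_log hb0 hbb'
  have hlog2 : Real.log 2 ≤ 1 := by
    have := Real.log_two_lt_d9
    linarith only [this]
  have h5 : (b' - 1) * (1 + ε / 4) / 2 ≤ (b - 1) / 2 + ε * b / 2 := by
    rw [hb']
    linarith only [hε, hb0, hε1, mul_pos hε hb0, mul_nonneg hε.le (sub_nonneg.2 hε1), mul_nonneg (mul_nonneg hε.le (sub_nonneg.2 hε1)) hb0.le]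
  have h6 : Real.log 2 ≤ d * (ε * b / 2) := by nlinarith only [hb, hd2, hlog2]
  linarith only [h6, mul_le_mul_of_nonneg_left h5 hdr.le, mul_le_mul_of_nonneg_left hlog hdr.le]

end Vale.Agent.P157.Sph
end

section

/-! Upper bound for the spherical integral. -/

open MeasureTheory ProbabilityTheory Filter Topology
open scoped RealInnerProductSpace

namespace Vale.Agent.P157.Sph

open Par

open Vale.Agent.P367.GT (gM)

set_option linter.unusedSectionVars false

open scoped ENNReal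

/-- The law of a linear functional of a standard Gaussian vector. -/
theorem sphtop2_map_inner {d : ℕ} (y : Ec d) :
    (stdGaussian (Ec d)).map (fun z => ⟪y, z⟫) = gaussianReal 0 (‖y‖ ^ 2).toNNReal := by
  have h := IsGaussian.map_eq_gaussianReal (μ := stdGaussian (Ec d)) (innerSL ℝ y)
  rw [integral_strongDual_stdGaussian, variance_dual_stdGaussian, innerSL_apply_norm] at h
  exact h

/-- The exponential moments of a standard Gaussian vector. -/
theorem sphtop2_lintegral_exp {d : ℕ} (y : Ec d) (t : ℝ) :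
    ∫⁻ z, ENNReal.ofReal (Real.exp (t * ⟪y, z⟫)) ∂(stdGaussian (Ec d)) =
      ENNReal.ofReal (Real.exp (t ^ 2 * ‖y‖ ^ 2 / 2)) := by
  have hm : Measurable fun z : Ec d => ⟪y, z⟫ := by fun_prop
  have h1 : Integrable (fun z : Ec d => Real.exp (t * ⟪y, z⟫)) (stdGaussian (Ec d)) := by
    have h2 := integrable_exp_mul_gaussianReal (μ := 0) (v := (‖y‖ ^ 2).toNNReal) t
    rw [← sphtop2_map_inner y] at h2
    exact h2.comp_measurable hm
  rw [← ofReal_integral_eq_lintegral_ofReal h1 (Eventually.of_forall fun z => (Real.exp_pos _).le)]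
  congr 1
  have h3 := mgf_gaussianReal (p := stdGaussian (Ec d)) (sphtop2_map_inner y) t
  rw [mgf] at h3
  rw [h3, Real.coe_toNNReal _ (sq_nonneg _)]
  congr 1
  ring

/-- The exponential moment of the uniform measure. -/
noncomputable def sphtop2L {d : ℕ} (y : Ec d) (r : ℝ) : ℝ≥0∞ :=
  ∫⁻ v, ENNReal.ofReal (Real.exp (r * ⟪y, v⟫)) ∂(usp d)

theorem sphtop2_symm {d : ℕ} (y : Ec d) (r : ℝ) :
    sphtop2L y r = ∫⁻ v, ENNReal.ofReal (Real.exp (-(r * ⟪y, v⟫))) ∂(usp d) := by
  have h := usp_iso d (LinearIsometryEquiv.neg ℝ)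
  have hm : Measurable fun v : Ec d => ENNReal.ofReal (Real.exp (r * ⟪y, v⟫)) := by fun_prop
  unfold sphtop2L
  conv_lhs => rw [← h]
  rw [lintegral_map hm (LinearIsometryEquiv.neg ℝ (E := Ec d)).continuous.measurable]
  refine lintegral_congr fun v => ?_
  rw [LinearIsometryEquiv.coe_neg, inner_neg_right, mul_neg]

theorem sphtop2_two {d : ℕ} (y : Ec d) (r : ℝ) :
    sphtop2L y r + sphtop2L y r =
      ∫⁻ v, ENNReal.ofReal (2 * Real.cosh (r * ⟪y, v⟫)) ∂(usp d) := by
  have hm : Measurable fun v : Ec d => ENNReal.ofReal (Real.exp (r * ⟪y, v⟫)) := by fun_prop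
  conv_lhs => rw [sphtop2_symm y r, ← sphtop2_symm y r]
  nth_rewrite 2 [sphtop2_symm y r]
  unfold sphtop2L
  rw [← lintegral_add_left hm]
  refine lintegral_congr fun v => ?_
  rw [← ENNReal.ofReal_add (Real.exp_pos _).le (Real.exp_pos _).le, Real.cosh_eq]
  congr 1
  ring

/-- The exponential moment is monotone. -/
theorem sphtop2_mono {d : ℕ} (y : Ec d) {r s : ℝ} (hr : 0 ≤ r) (hrs : r ≤ s) :
    sphtop2L y r ≤ sphtop2L y s := by
  have h : sphtop2L y r + sphtop2L y r ≤ sphtop2L y s + sphtop2L y s := by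
    rw [sphtop2_two, sphtop2_two]
    refine lintegral_mono fun v => ENNReal.ofReal_le_ofReal ?_
    refine mul_le_mul_of_nonneg_left ?_ zero_le_two
    rw [Real.cosh_le_cosh, abs_mul, abs_mul, abs_of_nonneg hr, abs_of_nonneg (hr.trans hrs)]
    exact mul_le_mul_of_nonneg_right hrs (abs_nonneg _)
  rw [← two_mul, ← two_mul] at h
  exact (ENNReal.mul_le_mul_iff_right (by norm_num) (by norm_num)).1 h

/-- Polar factorization of the Gaussian exponential moment. -/
theorem sphtop2_polar {d : ℕ} [NeZero d] (y : Ec d) (t : ℝ) :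
    ∫⁻ z, ENNReal.ofReal (Real.exp (t * ⟪y, z⟫)) ∂(stdGaussian (Ec d)) =
      ∫⁻ z, sphtop2L y (t * ‖z‖) ∂(stdGaussian (Ec d)) := by
  have hd0 : (0 : ℝ) < d := by exact_mod_cast Nat.pos_of_ne_zero (NeZero.ne d)
  have hsd : √(d : ℝ) ≠ 0 := (Real.sqrt_pos.2 hd0).ne'
  set g : (Fin d → ℝ) × ℝ → ℝ≥0∞ := fun p =>
    ENNReal.ofReal (Real.exp (t * p.2 * ((∑ i, y i * p.1 i) / √(d : ℝ)))) with hg
  have hgm : Measurable g := by (clear * -; fun_prop)
  have h1 : ∀ z : Ec d, ENNReal.ofReal (Real.exp (t * ⟪y, z⟫)) = g (Exist.dirn d z) := by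
    intro z
    rw [hg]
    congr 2
    rw [mul_assoc]
    congr 1
    by_cases hz : ‖z‖ = 0
    · rw [norm_eq_zero.1 hz]
      simp only [inner_zero_right, Exist.dirn, PiLp.zero_apply, norm_zero, div_zero, mul_zero, Finset.sum_const_zero, zero_div]
    · have h2 : ∑ i, y i * (√(d : ℝ) * (z i / ‖z‖)) = √(d : ℝ) / ‖z‖ * ⟪y, z⟫ := by
        rw [PiLp.inner_apply, Finset.mul_sum]
        refine Finset.sum_congr rfl fun i _ => ?_
        simp only [RCLike.inner_apply, conj_trivial]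
        ring
      show ⟪y, z⟫ = ‖z‖ * ((∑ i, y i * (√(d : ℝ) * (z i / ‖z‖))) / √(d : ℝ))
      rw [h2]
      (clear * - hz hsd; field_simp)
  simp_rw [h1]
  rw [← lintegral_map hgm (Exist.measurable_dirn d), Exist.map_dirn, lintegral_prod_symm _
    hgm.aemeasurable, Exist.chi, lintegral_map ?_ (by fun_prop)]
  · refine lintegral_congr fun z => ?_
    rw [sphere_eq_usp, lintegral_map (by (clear * - hgm; fun_prop)) (by fun_prop)]
    unfold sphtop2L
    refine lintegral_congr fun v => ?_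
    show ENNReal.ofReal (Real.exp (t * ‖z‖ * ((∑ i, y i * (√(d : ℝ) * v i)) / √(d : ℝ)))) =
      ENNReal.ofReal (Real.exp (t * ‖z‖ * ⟪y, v⟫))
    congr 3
    rw [PiLp.inner_apply, Finset.sum_div]
    refine Finset.sum_congr rfl fun i _ => ?_
    simp only [RCLike.inner_apply, conj_trivial]
    (clear * - hsd; field_simp)
  · exact Measurable.lintegral_prod_left' hgm

/-- The main estimate. -/
theorem sphtop2_main {d : ℕ} [NeZero d] (y : Ec d) {b : ℝ} (hb : 1 ≤ b) :
    sphtop2L y (√(d : ℝ)) * (stdGaussian (Ec d)) {z | √(b * d) ≤ ‖z‖} ≤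
      ENNReal.ofReal (Real.exp (‖y‖ ^ 2 / (2 * b))) := by
  have hb0 : 0 < b := by linarith only [hb]
  have hsb : 0 < √b := Real.sqrt_pos.2 hb0
  have h1 := sphtop2_polar y (1 / √b)
  rw [sphtop2_lintegral_exp] at h1
  have e : (1 / √b) ^ 2 * ‖y‖ ^ 2 / 2 = ‖y‖ ^ 2 / (2 * b) := by
    rw [div_pow, Real.sq_sqrt hb0.le]
    field_simp
  rw [e] at h1
  rw [h1]
  have hms : MeasurableSet {z : Ec d | √(b * d) ≤ ‖z‖} :=
    measurableSet_le measurable_const measurable_norm
  rw [← setLIntegral_const]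
  refine le_trans ?_ (setLIntegral_le_lintegral {z : Ec d | √(b * d) ≤ ‖z‖} _)
  refine setLIntegral_mono' hms fun z hz => ?_
  refine sphtop2_mono y (Real.sqrt_nonneg _) ?_
  have hz' : √(b * d) ≤ ‖z‖ := hz
  rw [Real.sqrt_mul hb0.le] at hz'
  rw [one_div, le_inv_mul_iff₀ hsb]
  exact hz'

/-- Upper bound for the spherical integral, uniformly in the Lagrange multiplier `b ≥ 1`. -/
theorem sph_integral_le {ε : ℝ} (hε : 0 < ε) (hε1 : ε ≤ 1) : ∃ d₀ : ℕ, ∀ d : ℕ, d₀ ≤ d →
    ∀ b : ℝ, 1 ≤ b → ∀ y : Ec d,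
      Real.log (∫ v, Real.exp (√(d : ℝ) * ⟪y, v⟫) ∂(usp d)) ≤
        d * ((b - 1 - Real.log b) / 2 + ε * b) + ‖y‖ ^ 2 / (2 * b) := by
  obtain ⟨d₀, hd₀⟩ := chi_tail hε hε1
  refine ⟨max d₀ 1, fun d hd b hb y => ?_⟩
  have hd1 : 1 ≤ d := (le_max_right _ _).trans hd
  have : NeZero d := ⟨by omega⟩
  have hb0 : 0 < b := by linarith only [hb]
  have htail := hd₀ d ((le_max_left _ _).trans hd) b hb
  have hmain := sphtop2_main y hb
  set I : ℝ := ∫ v, Real.exp (√(d : ℝ) * ⟪y, v⟫) ∂(usp d) with hI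
  set B : ℝ := d * ((b - 1 - Real.log b) / 2 + ε * b) with hB
  have hlog : Real.log b ≤ b - 1 := Real.log_le_sub_one_of_pos hb0
  have hB0 : 0 ≤ B := by
    rw [hB]
    have : 0 ≤ (b - 1 - Real.log b) / 2 := by linarith only [hlog]
    (clear * - hd1 hlog hε hb; positivity)
  have hR0 : 0 ≤ ‖y‖ ^ 2 / (2 * b) := by (clear * - hb; positivity)
  have hI1 : I = (sphtop2L y (√(d : ℝ))).toReal := by
    rw [hI, integral_eq_lintegral_of_nonneg_ae (Eventually.of_forall fun v => (Real.exp_pos _).le)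
      (by fun_prop)]
    rfl
  have hI0 : 0 ≤ I := by
    rw [hI1]
    exact ENNReal.toReal_nonneg
  have hle : I * (stdGaussian (Ec d)).real {z | √(b * d) ≤ ‖z‖} ≤
      Real.exp (‖y‖ ^ 2 / (2 * b)) := by
    have h2 := ENNReal.toReal_mono ENNReal.ofReal_ne_top hmain
    rw [ENNReal.toReal_mul, ENNReal.toReal_ofReal (Real.exp_pos _).le, ← hI1] at h2
    exact h2
  have hle2 : I * Real.exp (-B) ≤ Real.exp (‖y‖ ^ 2 / (2 * b)) :=
    (mul_le_mul_of_nonneg_left htail hI0).trans hle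
  have hle3 : I ≤ Real.exp (B + ‖y‖ ^ 2 / (2 * b)) := by
    rw [Real.exp_neg, ← div_eq_mul_inv, div_le_iff₀ (Real.exp_pos _)] at hle2
    rw [Real.exp_add, mul_comm]
    exact hle2
  rcases hI0.eq_or_lt with h0 | h0
  · rw [← h0, Real.log_zero]
    linarith only [hB0, hR0]
  · exact (Real.log_le_iff_le_exp h0).2 hle3

/-- The same for a net. -/
theorem lw_net_le {ε : ℝ} (hε : 0 < ε) (hε1 : ε ≤ 1) : ∃ (d₀ : ℕ) (κ₀ : ℝ), 0 < κ₀ ∧
    ∀ d : ℕ, d₀ ≤ d → ∀ A : Net d, A.Close κ₀ → ∀ b : ℝ, 1 ≤ b → ∀ y : Fin d → ℝ,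
      lw (fun x i => √(d : ℝ) * A.φ x i) 1 (fun x => Real.log (A.w x)) y ≤
        d * ((b - 1 - Real.log b) / 2 + ε * b) + (∑ i, y i ^ 2) / (2 * b) := by
  obtain ⟨d₀, hd₀⟩ := sph_integral_le (ε := ε / 4) (by positivity) (by linarith)
  refine ⟨d₀, ε / 2, by positivity, fun d hd A hA b hb y => ?_⟩
  have hb0 : 0 < b := by linarith only [hb]
  set y' : Ec d := WithLp.toLp 2 y with hy'
  have hny : ‖y'‖ ^ 2 = ∑ i, y i ^ 2 := by
    rw [EuclideanSpace.real_norm_sq_eq]
  have hlw : lw (fun x i => √(d : ℝ) * A.φ x i) 1 (fun x => Real.log (A.w x)) y =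
      Real.log (∑ x, A.w x * Real.exp (√(d : ℝ) * ⟪y', A.φ x⟫)) := by
    rw [lw]
    congr 1
    refine Finset.sum_congr rfl fun x _ => ?_
    rw [Real.exp_add, Real.exp_log (A.w0 x), one_mul, PiLp.inner_apply, Finset.mul_sum]
    congr 2
    refine Finset.sum_congr rfl fun i _ => ?_
    simp only [RCLike.inner_apply, conj_trivial, hy']
    ring
  have hclose := hA (fun v => √(d : ℝ) * ⟪y', v⟫) (√(d : ℝ) * ‖y'‖) (by fun_prop) (by (clear * -; positivity))
    (fun v v' _ _ => by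
      rw [← mul_sub, ← inner_sub_right, abs_mul, abs_of_nonneg (Real.sqrt_nonneg _), mul_assoc]
      exact mul_le_mul_of_nonneg_left (abs_real_inner_le_norm _ _) (Real.sqrt_nonneg _))
  have hη1 : 1 ≤ (1 + ε / 2) * b := by nlinarith only [hε, hb]
  have hint := hd₀ d hd ((1 + ε / 2) * b) hη1 y'
  rw [hlw, ← hny]
  have h1 := (abs_le.1 hclose).2
  have hlogm : Real.log ((1 + ε / 2) * b) = Real.log (1 + ε / 2) + Real.log b :=
    Real.log_mul (by positivity) hb0.ne'
  have hlog0 : 0 ≤ Real.log (1 + ε / 2) := Real.log_nonneg (by linarith only [hε])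
  rw [hlogm] at hint
  -- the quadratic estimate
  have hq : ε / 2 * (√(d : ℝ) * ‖y'‖) ≤ (ε / 2) * ‖y'‖ ^ 2 / (2 * ((1 + ε / 2) * b)) +
      (ε / 2) ^ 2 * d * b * (1 + ε / 2) / (2 * (ε / 2)) := by
    have hs : √(d : ℝ) ^ 2 = d := Real.sq_sqrt (Nat.cast_nonneg d)
    have e : (ε / 2) * ‖y'‖ ^ 2 / (2 * ((1 + ε / 2) * b)) +
      (ε / 2) ^ 2 * d * b * (1 + ε / 2) / (2 * (ε / 2)) - ε / 2 * (√(d : ℝ) * ‖y'‖) =
        (ε / 2) / (2 * ((1 + ε / 2) * b)) * (‖y'‖ - √(d : ℝ) * ((1 + ε / 2) * b)) ^ 2 := by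
      have h3 : (1 + ε / 2) * b ≠ 0 := by positivity
      have h4 : (1 + ε / 2) ≠ 0 := by positivity
      generalize √(d : ℝ) = s at hs ⊢
      rw [← hs]
      field_simp
      ring
    have : 0 ≤ (ε / 2) / (2 * ((1 + ε / 2) * b)) * (‖y'‖ - √(d : ℝ) * ((1 + ε / 2) * b)) ^ 2 := by
      (clear * - hε hb; positivity)
    linarith only [e, this]
  have hy2 : ‖y'‖ ^ 2 / (2 * ((1 + ε / 2) * b)) + (ε / 2) * ‖y'‖ ^ 2 / (2 * ((1 + ε / 2) * b)) =
      ‖y'‖ ^ 2 / (2 * b) := by
    (clear * - hε hb; field_simp)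
  have hc : (ε / 2) ^ 2 * d * b * (1 + ε / 2) / (2 * (ε / 2)) = d * (b * (ε / 4 * (1 + ε / 2))) := by
    field_simp
    ring
  rw [hc] at hq
  have hfin : (d : ℝ) * (((1 + ε / 2) * b - 1 - (Real.log (1 + ε / 2) + Real.log b)) / 2 +
      ε / 4 * ((1 + ε / 2) * b)) + d * (b * (ε / 4 * (1 + ε / 2))) ≤
      d * ((b - 1 - Real.log b) / 2 + ε * b) := by
    rw [← mul_add]
    refine mul_le_mul_of_nonneg_left ?_ (Nat.cast_nonneg d)
    have h5 : ε * ε * b ≤ ε * b := by
      have : ε * (ε * b) ≤ 1 * (ε * b) := mul_le_mul_of_nonneg_right hε1 (by positivity)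
      linarith only [this]
    linarith only [hlog0, h5]
  linarith only [hint, h1, hq, hy2, hfin]

end Vale.Agent.P157.Sph
end

section

/-! Optimization over the strengths of the fields. -/

open MeasureTheory ProbabilityTheory Filter Topology
open scoped RealInnerProductSpace

namespace Vale.Agent.P157.Sph

open Par

open Vale.Agent.P367.GT (gM)

set_option linter.unusedSectionVars false

lemma csopt_csA_step (K : ℕ) (m q : ℕ → ℝ) {j : ℕ} (hj : j < K) :
    csA K m q j = csA K m q (j + 1) + m (j + 1) * (q (j + 1) - q j) := by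
  unfold csA
  rw [Finset.sum_eq_sum_Ico_succ_bot hj]
  ring

lemma csopt_csA_last (K : ℕ) (m q : ℕ → ℝ) : csA K m q K = 1 - q K := by
  unfold csA
  simp

lemma csopt_aco_step (K : ℕ) (m q : ℕ → ℝ) {j : ℕ} (hj : j < K + 1) :
    Lv.aco K m q j = Lv.aco K m q (j + 1) - (m (j + 1) - m j) * q j := by
  unfold Lv.aco
  rw [Finset.sum_eq_sum_Ico_succ_bot hj]
  ring

/-- Abel summation. -/
lemma csopt_aco {K : ℕ} {m q : ℕ → ℝ} (hm : Exponents K m) :
    ∀ d j : ℕ, j + d = K → Lv.aco K m q j = csA K m q j + m j * q j := by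
  intro d
  induction d with
  | zero =>
    intro j hj
    have hj' : j = K := by omega
    subst hj'
    rw [csopt_aco_step _ _ _ (by omega), csopt_csA_last, hm.2.1]
    have h0 : Lv.aco j m q (j + 1) = 1 := by
      unfold Lv.aco
      simp
    rw [h0]
    ring
  | succ d ih =>
    intro j hj
    rw [csopt_aco_step _ _ _ (by omega), csopt_csA_step _ _ _ (by omega : j < K),
      ih (j + 1) (by omega)]
    ring

lemma csopt_m_pos {K : ℕ} {m : ℕ → ℝ} (hm : Exponents K m) {l : ℕ} (hl : l ≤ K) :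
    0 < m (l + 1) :=
  (Lv.o8_m_nonneg hm l (by omega)).trans_lt (hm.2.2 l hl)

/-- The values `b_l`. -/
noncomputable def csoptB (a0 : ℝ) (m r : ℕ → ℝ) (l : ℕ) : ℝ :=
  1 / a0 + ∑ j ∈ Finset.range l, m (j + 1) * (r (j + 1) - r j)

lemma csoptB_zero (a0 : ℝ) (m r : ℕ → ℝ) : csoptB a0 m r 0 = 1 / a0 := by
  simp [csoptB]

lemma csoptB_succ (a0 : ℝ) (m r : ℕ → ℝ) (l : ℕ) :
    csoptB a0 m r (l + 1) = csoptB a0 m r l + m (l + 1) * (r (l + 1) - r l) := by
  unfold csoptB
  rw [Finset.sum_range_succ]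
  ring

lemma csoptB_ge {K : ℕ} {m r : ℕ → ℝ} (hm : Exponents K m) (hr : Path K r) (a0 : ℝ) :
    ∀ l ≤ K, 1 / a0 ≤ csoptB a0 m r l := by
  intro l
  induction l with
  | zero => intro _; rw [csoptB_zero]
  | succ l ih =>
    intro hl
    rw [csoptB_succ]
    have h1 := ih (by omega)
    have h2 := csopt_m_pos hm (by omega : l ≤ K)
    have h3 := hr.2 l (by omega)
    have h4 : 0 ≤ m (l + 1) * (r (l + 1) - r l) := mul_nonneg h2.le (by linarith only [h3])
    linarith only [h1, h4]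

/-- The telescoping identity. -/
lemma csopt_sum {K : ℕ} {m q r : ℕ → ℝ} (hm : Exponents K m) {a0 : ℝ} :
    ∀ n ≤ K, ∑ j ∈ Finset.range (n + 1), Lv.aco K m q j * incr r j =
      csA K m q 0 * r 0 + q n * csoptB a0 m r n - q 0 * csoptB a0 m r 0 +
        ∑ l ∈ Finset.range n, (csA K m q (l + 1) * csoptB a0 m r (l + 1) -
          csA K m q l * csoptB a0 m r l) / m (l + 1) := by
  intro n
  induction n with
  | zero =>
    intro _
    have h := csopt_aco (q := q) hm K 0 (by omega)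
    simp [h, incr_zero_def, hm.1]
  | succ n ih =>
    intro hn
    rw [Finset.sum_range_succ, ih (by omega), Finset.sum_range_succ _ n,
      csopt_aco (q := q) hm (K - (n + 1)) (n + 1) (by omega)]
    have h1 := csopt_m_pos hm (by omega : n ≤ K)
    have h2 := csopt_csA_step K m q (by omega : n < K)
    have h3 := csoptB_succ a0 m r n
    have h4 : incr r (n + 1) = r (n + 1) - r n := rfl
    rw [h4, h3, h2]
    field_simp
    ring

/-- The elementary inequality. -/
lemma csopt_ineq {x : ℝ} (hx : 0 < x) : 0 ≤ x - 1 - Real.log x ∧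
    x / 2 - 1 ≤ x - 1 - Real.log x := by
  constructor
  · have := Real.log_le_sub_one_of_pos hx
    linarith only [this]
  · have h1 := Real.log_le_sub_one_of_pos (half_pos hx)
    have h2 : Real.log (x / 2) = Real.log x - Real.log 2 :=
      Real.log_div hx.ne' two_ne_zero
    have h3 : Real.log 2 ≤ 1 := by
      have := Real.log_two_lt_d9
      linarith only [this]
    linarith only [h1, h2, h3]

/-- Summation by parts with increasing exponents. -/
lemma csopt_abel {K : ℕ} {m h : ℕ → ℝ} (hm : Exponents K m) (h0 : h 0 = 0)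
    (hh : ∀ l ≤ K, 0 ≤ h l) : ∀ n, n + 1 ≤ K →
      h (n + 1) / m (n + 1) ≤ ∑ l ∈ Finset.range (n + 1), (h (l + 1) - h l) / m (l + 1) := by
  intro n
  induction n with
  | zero =>
    intro _
    simp only [zero_add, Finset.range_one, Finset.sum_singleton, h0, sub_zero, Std.le_refl]
  | succ n ih =>
    intro hn
    rw [Finset.sum_range_succ]
    have h1 := ih (by omega)
    have h2 := csopt_m_pos hm (by omega : n ≤ K)
    have h3 := csopt_m_pos hm (by omega : n + 1 ≤ K)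
    have h4 := hm.2.2 (n + 1) (by omega)
    have h5 := hh (n + 1) (by omega)
    have h6 : h (n + 1) / m (n + 1 + 1) ≤ h (n + 1) / m (n + 1) :=
      div_le_div_of_nonneg_left h5 h2 h4.le
    rw [sub_div]
    linarith only [h1, h6]

/-- The difference of the two functionals. -/
lemma csopt_diff {K : ℕ} {m q r : ℕ → ℝ} (hm : Exponents K m) (hq : Path K q) (hq1 : q K < 1)
    (hr : Path K r) {b : ℕ → ℝ} (hb : b = csoptB (csA K m q 0) m r) {h : ℕ → ℝ}
    (hh : h = fun l => csA K m q l * b l - 1 - Real.log (csA K m q l * b l)) :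
    (b K - 1 - Real.log (b K)) / 2 +
        (∑ l ∈ Finset.range K, 1 / (2 * m (l + 1)) * Real.log (b (l + 1) / b l) +
          r 0 / (2 * b 0)) -
        1 / 2 * ∑ j ∈ Finset.range (K + 1), Lv.aco K m q j * incr r j - csPart K m q =
      (h K - ∑ l ∈ Finset.range K, (h (l + 1) - h l) / m (l + 1)) / 2 := by
  have ha : ∀ l ≤ K, 0 < csA K m q l := fun l hl => by
    have := csA_pos hm hq hq1 hl
    linarith only [hq1, this]
  have hbp : ∀ l ≤ K, 0 < b l := fun l hl => by
    have := csoptB_ge hm hr (csA K m q 0) l hl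
    rw [← hb] at this
    have h1 : 0 < 1 / csA K m q 0 := by
      have := ha 0 (by omega)
      positivity
    linarith only [this, h1]
  have hs := csopt_sum (q := q) (r := r) hm (a0 := csA K m q 0) K le_rfl
  rw [← hb] at hs
  rw [hs]
  have hb0 : b 0 = 1 / csA K m q 0 := by rw [hb, csoptB_zero]
  unfold csPart
  have e1 : ∑ l ∈ Finset.range K, 1 / (2 * m (l + 1)) * Real.log (b (l + 1) / b l) =
      (∑ l ∈ Finset.range K, (Real.log (b (l + 1)) - Real.log (b l)) / m (l + 1)) / 2 := by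
    rw [Finset.sum_div]
    refine Finset.sum_congr rfl fun l hl => ?_
    rw [Finset.mem_range] at hl
    rw [Real.log_div (hbp _ (by omega)).ne' (hbp _ (by omega)).ne']
    have := csopt_m_pos hm (by omega : l ≤ K)
    (clear * - this; field_simp)
  have e2 : ∑ l ∈ Finset.range K, 1 / m (l + 1) *
      Real.log (csA K m q l / csA K m q (l + 1)) =
      ∑ l ∈ Finset.range K, (Real.log (csA K m q l) - Real.log (csA K m q (l + 1))) /
        m (l + 1) := by
    refine Finset.sum_congr rfl fun l hl => ?_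
    rw [Finset.mem_range] at hl
    rw [Real.log_div (ha _ (by omega)).ne' (ha _ (by omega)).ne']
    have := csopt_m_pos hm (by omega : l ≤ K)
    (clear * - this; field_simp)
  have e3 : ∑ l ∈ Finset.range K, (h (l + 1) - h l) / m (l + 1) =
      ∑ l ∈ Finset.range K, (csA K m q (l + 1) * b (l + 1) - csA K m q l * b l) / m (l + 1) -
      ∑ l ∈ Finset.range K, (Real.log (b (l + 1)) - Real.log (b l)) / m (l + 1) +
      ∑ l ∈ Finset.range K, (Real.log (csA K m q l) - Real.log (csA K m q (l + 1))) /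
        m (l + 1) := by
    rw [← Finset.sum_sub_distrib, ← Finset.sum_add_distrib]
    refine Finset.sum_congr rfl fun l hl => ?_
    rw [Finset.mem_range] at hl
    rw [hh]
    simp only
    rw [Real.log_mul (ha _ (by omega)).ne' (hbp _ (by omega)).ne',
      Real.log_mul (ha _ (by omega)).ne' (hbp _ (by omega)).ne']
    ring
  have e4 : h K = (1 - q K) * b K - 1 - Real.log (1 - q K) - Real.log (b K) := by
    rw [hh]
    simp only
    rw [Real.log_mul (ha _ le_rfl).ne' (hbp _ le_rfl).ne', csopt_csA_last]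
    ring
  rw [e1, e2, e3, e4, hb0]
  have h0 := (ha 0 (by omega)).ne'
  field_simp
  ring

/-- The optimization over the strengths. -/
theorem cs_opt {K : ℕ} {m q : ℕ → ℝ} (hm : Exponents K m) (hq : Path K q) (hq1 : q K < 1)
    {ε : ℝ} (hε : 0 < ε) : ∃ δ : ℝ, 0 < δ ∧ δ ≤ 1 ∧ ∀ r : ℕ → ℝ, Path K r → ∃ b : ℕ → ℝ, 0 < b 0 ∧
      1 ≤ b K ∧ (∀ l < K, b l = b (l + 1) - m (l + 1) * (r (l + 1) - r l)) ∧
      (b K - 1 - Real.log (b K)) / 2 + δ * b K +
        (∑ l ∈ Finset.range K, 1 / (2 * m (l + 1)) * Real.log (b (l + 1) / b l) +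
          r 0 / (2 * b 0)) -
        1 / 2 * ∑ j ∈ Finset.range (K + 1), Lv.aco K m q j * incr r j ≤ csPart K m q + ε := by
  have ha : ∀ l ≤ K, 0 < csA K m q l := fun l hl => by
    have := csA_pos hm hq hq1 hl
    linarith only [hq1, this]
  -- the key estimate
  have key : ∃ δ : ℝ, 0 < δ ∧ δ ≤ 1 ∧ ∀ h b : ℕ → ℝ, h 0 = 0 → (∀ l ≤ K, 0 < b l) →
      (h = fun l => csA K m q l * b l - 1 - Real.log (csA K m q l * b l)) →
      b 0 = 1 / csA K m q 0 →
      δ * b K + (h K - ∑ l ∈ Finset.range K, (h (l + 1) - h l) / m (l + 1)) / 2 ≤ ε := by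
    have haK := ha K le_rfl
    rcases Nat.eq_zero_or_pos K with hK | hK
    · refine ⟨min 1 (ε * csA K m q K), lt_min one_pos (by (clear * - hε haK; positivity)), min_le_left _ _, ?_⟩
      intro h b h0 hb hh hb0
      subst hK
      simp only [Finset.range_zero, Finset.sum_empty, sub_zero, h0, zero_div, add_zero]
      rw [hb0]
      have h1 := min_le_right 1 (ε * csA 0 m q 0)
      have h2 : min 1 (ε * csA 0 m q 0) * (1 / csA 0 m q 0) ≤
          (ε * csA 0 m q 0) * (1 / csA 0 m q 0) :=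
        mul_le_mul_of_nonneg_right h1 (by (clear * - haK; positivity))
      refine h2.trans (le_of_eq ?_)
      (clear * - haK hε; field_simp)
    · obtain ⟨k, rfl⟩ : ∃ k, K = k + 1 := ⟨K - 1, by omega⟩
      have hmk := csopt_m_pos hm (by omega : k ≤ k + 1)
      have hmk1 : m (k + 1) < 1 := by
        have := hm.2.2 (k + 1) le_rfl
        rwa [hm.2.1] at this
      obtain ⟨c, hc⟩ : ∃ c : ℝ, c = 1 / m (k + 1) - 1 := ⟨_, rfl⟩
      have hc0 : 0 < c := by
        rw [hc, sub_pos]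
        exact (one_lt_div hmk).2 hmk1
      obtain ⟨a, hadef⟩ : ∃ a : ℝ, a = csA (k + 1) m q (k + 1) := ⟨_, rfl⟩
      rw [← hadef] at haK
      refine ⟨min 1 (min (a * c / 4) (ε * a / 2)),
        lt_min one_pos (lt_min (by (clear * - haK hc0; positivity)) (by positivity)), min_le_left _ _, ?_⟩
      intro h b h0 hb hh hb0
      have hh0 : ∀ l ≤ k + 1, 0 ≤ h l := by
        intro l hl
        rw [hh]
        exact (csopt_ineq (mul_pos (ha l hl) (hb l hl))).1
      have hab := csopt_abel hm h0 hh0 k le_rfl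
      obtain ⟨δ, hδ⟩ : ∃ δ : ℝ, δ = min 1 (min (a * c / 4) (ε * a / 2)) := ⟨_, rfl⟩
      have hδ1 : δ ≤ a * c / 4 := by
        rw [hδ]
        exact (min_le_right _ _).trans (min_le_left _ _)
      have hδ2 : δ ≤ ε * a / 2 := by
        rw [hδ]
        exact (min_le_right _ _).trans (min_le_right _ _)
      have hδ0 : 0 < δ := by
        rw [hδ]
        exact lt_min one_pos (lt_min (by (clear * - haK hc0; positivity)) (by positivity))
      rw [← hδ]
      obtain ⟨x, hx⟩ : ∃ x : ℝ, x = a * b (k + 1) := ⟨_, rfl⟩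
      have hbk := hb (k + 1) le_rfl
      have hx0 : 0 < x := by rw [hx]; (clear * - haK hbk; positivity)
      have hxh : h (k + 1) = x - 1 - Real.log x := by rw [hh, hx, hadef]
      have hi := csopt_ineq hx0
      rw [← hxh] at hi
      -- c h ≥ (4 δ / a) (x/2 - 1)
      have h5 : 4 * δ / a * (x / 2 - 1) ≤ c * h (k + 1) := by
        have ht : 4 * δ / a ≤ c := by
          rw [div_le_iff₀ haK]
          linarith only [hδ1]
        rcases le_or_gt 0 (x / 2 - 1) with hx1 | hx1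
        · calc 4 * δ / a * (x / 2 - 1) ≤ c * (x / 2 - 1) :=
                mul_le_mul_of_nonneg_right ht hx1
            _ ≤ c * h (k + 1) := mul_le_mul_of_nonneg_left hi.2 hc0.le
        · have h6 : 4 * δ / a * (x / 2 - 1) ≤ 0 :=
            mul_nonpos_of_nonneg_of_nonpos (by (clear * - hδ0 haK; positivity)) hx1.le
          have h7 : 0 ≤ c * h (k + 1) := mul_nonneg hc0.le hi.1
          linarith only [h6, h7]
      have h8 : 4 * δ / a * (x / 2 - 1) = 2 * (δ * b (k + 1)) - 4 * δ / a := by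
        rw [hx]
        field_simp
        ring
      have h9 : 4 * δ / a ≤ 2 * ε := by
        rw [div_le_iff₀ haK]
        linarith only [hδ2]
      have h10 : h (k + 1) / m (k + 1) = (c + 1) * h (k + 1) := by
        rw [hc]
        ring
      rw [h10] at hab
      linarith only [hab, h5, h8, h9]
  obtain ⟨δ, hδ0, hδ1, hkey⟩ := key
  refine ⟨δ, hδ0, hδ1, fun r hr => ?_⟩
  have ha0 := ha 0 (by omega)
  have ha0' := (csA_pos hm hq hq1 (Nat.zero_le K)).2
  have hge := csoptB_ge hm hr (csA K m q 0)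
  have h1a : 1 ≤ 1 / csA K m q 0 := by
    rw [le_div_iff₀ ha0]
    linarith only [ha0']
  have hbp : ∀ l ≤ K, 0 < csoptB (csA K m q 0) m r l := fun l hl => by
    have := hge l hl
    linarith only [h1a, this]
  refine ⟨csoptB (csA K m q 0) m r, hbp 0 (by omega), h1a.trans (hge K le_rfl), ?_, ?_⟩
  · intro l _
    rw [csoptB_succ]
    ring
  · have hd := csopt_diff hm hq hq1 hr (b := csoptB (csA K m q 0) m r) rfl rfl
    have hk := hkey _ (csoptB (csA K m q 0) m r) (by
      simp only [csoptB_zero]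
      rw [mul_one_div_cancel ha0.ne']
      simp) hbp rfl (csoptB_zero _ _ _)
    linarith only [hd, hk]

end Vale.Agent.P157.Sph
end

section

/-! The spherical model in a field. -/

open MeasureTheory ProbabilityTheory Filter Topology
open scoped RealInnerProductSpace

namespace Vale.Agent.P157.Sph

open Par

open Vale.Agent.P367.GT (gM)

set_option linter.all false

lemma sphopt2_continuous_lw {X : Type} [Fintype X] [Nonempty X] {N : ℕ} (φ : X → Fin N → ℝ)
    (c : ℝ) (u : X → ℝ) : Continuous (lw φ c u) := by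
  unfold lw
  refine Continuous.log ?_ fun y => ?_
  · fun_prop
  · exact (Finset.sum_pos (fun x _ => Real.exp_pos _) Finset.univ_nonempty).ne'

lemma sphopt2_lw_low {X : Type} [Fintype X] [Nonempty X] {N : ℕ} (φ : X → Fin N → ℝ)
    (c : ℝ) (u : X → ℝ) : ∃ C : ℝ, ∀ y, -(C * (1 + ∑ i, |y i|)) ≤ lw φ c u y := by
  obtain ⟨x₀⟩ := (inferInstance : Nonempty X)
  refine ⟨|u x₀| + |c| * ∑ i, |φ x₀ i|, fun y => ?_⟩
  have h1 : u x₀ + c * ∑ i, y i * φ x₀ i ≤ lw φ c u y := by
    unfold lw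
    rw [Real.le_log_iff_exp_le (Finset.sum_pos (fun x _ => Real.exp_pos _) ⟨x₀, Finset.mem_univ _⟩)]
    exact Finset.single_le_sum (f := fun x => Real.exp (u x + c * ∑ i, y i * φ x i))
      (fun x _ => (Real.exp_pos _).le) (Finset.mem_univ x₀)
  refine le_trans ?_ h1
  have h2 : |∑ i, y i * φ x₀ i| ≤ (∑ i, |φ x₀ i|) * ∑ i, |y i| := by
    refine (Finset.abs_sum_le_sum_abs _ _).trans ?_
    rw [Finset.mul_sum]
    refine Finset.sum_le_sum fun i _ => ?_
    rw [abs_mul, mul_comm]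
    refine mul_le_mul_of_nonneg_right ?_ (abs_nonneg _)
    exact Finset.single_le_sum (f := fun i => |φ x₀ i|) (fun i _ => abs_nonneg _)
      (Finset.mem_univ i)
  have h3 : |c * ∑ i, y i * φ x₀ i| ≤ |c| * ((∑ i, |φ x₀ i|) * ∑ i, |y i|) := by
    rw [abs_mul]
    exact mul_le_mul_of_nonneg_left h2 (abs_nonneg _)
  have h4 := neg_abs_le (u x₀)
  have h5 := neg_abs_le (c * ∑ i, y i * φ x₀ i)
  have h6 : 0 ≤ ∑ i, |y i| := Finset.sum_nonneg fun i _ => abs_nonneg _
  have h7 : 0 ≤ |c| * ∑ i, |φ x₀ i| :=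
    mul_nonneg (abs_nonneg _) (Finset.sum_nonneg fun i _ => abs_nonneg _)
  have h8 : 0 ≤ |u x₀| * ∑ i, |y i| := mul_nonneg (abs_nonneg _) h6
  linarith

/-- **The spherical model in a field.** -/
theorem topN_net_le {K : ℕ} {m q : ℕ → ℝ} (hm : Exponents K m) (hq : Path K q) (hq1 : q K < 1)
    {ε : ℝ} (hε : 0 < ε) : ∃ (d₀ : ℕ) (κ₀ : ℝ), 0 < κ₀ ∧ ∀ d : ℕ, d₀ ≤ d → ∀ A : Net d,
      A.Close κ₀ → ∀ s : ℕ → ℝ, (∀ j ≤ K, 0 ≤ s j) →
      1 / d * topN m (fun l => ∑ j ∈ Finset.range (l + 1), s j ^ 2) K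
          (lw (fun x i => √(d : ℝ) * A.φ x i) 1 (fun x => Real.log (A.w x))) -
        1 / 2 * ∑ j ∈ Finset.range (K + 1), Lv.aco K m q j * s j ^ 2 ≤ csPart K m q + ε := by
  obtain ⟨δ, hδ, hδ1, hopt⟩ := cs_opt hm hq hq1 hε
  obtain ⟨d₀, κ₀, hκ₀, hlw⟩ := lw_net_le hδ hδ1
  refine ⟨max d₀ 1, κ₀, hκ₀, fun d hd A hA s hs => ?_⟩
  have hd0 : d₀ ≤ d := (le_max_left _ _).trans hd
  have hd1 : 1 ≤ d := (le_max_right _ _).trans hd
  have hdR : (0 : ℝ) < d := by exact_mod_cast hd1
  set r : ℕ → ℝ := fun l => ∑ j ∈ Finset.range (l + 1), s j ^ 2 with hr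
  have hsucc : ∀ l, r (l + 1) = r l + s (l + 1) ^ 2 := fun l => by
    simp only [hr]
    rw [Finset.sum_range_succ _ (l + 1)]
  have hr0 : r 0 = s 0 ^ 2 := by simp only [hr, zero_add, Finset.range_one, Finset.sum_singleton]
  have hpath : Path K r := by
    refine ⟨?_, fun l _ => ?_⟩
    · rw [hr0]; (clear * -; positivity)
    · rw [hsucc]
      nlinarith only []
  obtain ⟨b, hb0, hbK, hb, hle⟩ := hopt r hpath
  have hincr : ∀ j, incr r j = s j ^ 2 := by
    intro j
    rcases j with _ | j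
    · exact hr0
    · show r (j + 1) - r j = _
      rw [hsucc]; ring
  have hsum : ∑ j ∈ Finset.range (K + 1), Lv.aco K m q j * incr r j =
      ∑ j ∈ Finset.range (K + 1), Lv.aco K m q j * s j ^ 2 :=
    Finset.sum_congr rfl fun j _ => by rw [hincr]
  rw [hsum] at hle
  have htop := topN_le_quad (N := d) hm hpath hb0 hb
    (c := d * ((b K - 1 - Real.log (b K)) / 2 + δ * b K))
    (G := lw (fun x i => √(d : ℝ) * A.φ x i) 1 (fun x => Real.log (A.w x)))
    (sphopt2_continuous_lw _ _ _) (sphopt2_lw_low _ _ _)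
    (fun y => hlw d hd0 A hA (b K) hbK y)
  have h1 : 1 / (d : ℝ) * topN m r K
      (lw (fun x i => √(d : ℝ) * A.φ x i) 1 (fun x => Real.log (A.w x))) ≤
      ((b K - 1 - Real.log (b K)) / 2 + δ * b K) +
        (∑ l ∈ Finset.range K, 1 / (2 * m (l + 1)) * Real.log (b (l + 1) / b l) +
          r 0 / (2 * b 0)) := by
    calc 1 / (d : ℝ) * topN m r K _ ≤ 1 / (d : ℝ) * _ :=
          mul_le_mul_of_nonneg_left htop (by positivity)
      _ = _ := by (clear * - hb0 hd1; field_simp)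
  linarith only [hle, h1]

end Vale.Agent.P157.Sph
end

section

/-! The Crisanti-Sommers functional does not change under a refinement. -/

open MeasureTheory ProbabilityTheory Filter Topology
open scoped RealInnerProductSpace

namespace Vale.Agent.P157.Sph

open Par

open Vale.Agent.P367.GT (gM)

set_option linter.unusedSectionVars false

theorem sphrf_csA_step {k l : ℕ} (m q : ℕ → ℝ) (hl : l < k) :
    csA k m q l = csA k m q (l + 1) + m (l + 1) * (q (l + 1) - q l) := by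
  unfold csA
  rw [Finset.sum_eq_sum_Ico_succ_bot hl]
  ring

theorem sphrf_rfp_succ {n : ℕ} (l : ℕ) (h : ¬ n ∣ l + 1) :
    (l + 1) / n = l / n := by
  rw [Nat.succ_div, if_neg h, add_zero]

theorem sphrf_div_succ {n : ℕ} (l : ℕ) (h : n ∣ l + 1) : (l + 1) / n = l / n + 1 := by
  rw [Nat.succ_div, if_pos h]

theorem sphrf_rfm_dvd {n : ℕ} (m : ℕ → ℝ) (l : ℕ) (h : n ∣ l) : Lv.rfm n m l = m (l / n) := by
  unfold Lv.rfm
  rw [Nat.mod_eq_zero_of_dvd h]
  simp

theorem sphrf_csA {n k : ℕ} (m q : ℕ → ℝ) (hn : 0 < n) (d : ℕ) (hd : d ≤ Lv.rfk n k) :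
    csA (Lv.rfk n k) (Lv.rfm n m) (Lv.rfp n q) (Lv.rfk n k - d) =
      csA k m q ((Lv.rfk n k - d) / n) := by
  induction d with
  | zero =>
    have h1 : Lv.rfk n k / n = k := by
      have h1 : Lv.rfk n k = k * n + (n - 1) := by
        have h := Lv.rf_rfk_succ (k := k) hn
        have : (k + 1) * n = k * n + n := by ring
        omega
      rw [h1, Lv.rf_div k (by omega)]
    unfold csA
    rw [Nat.sub_zero, h1, Finset.Ico_self, Finset.Ico_self, Lv.rfp_last hn]
    simp only [Finset.sum_empty, add_zero]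
  | succ d ih =>
    have ih := ih (by omega)
    obtain ⟨l, hl⟩ : ∃ l, l = Lv.rfk n k - (d + 1) := ⟨_, rfl⟩
    have e : Lv.rfk n k - d = l + 1 := by omega
    rw [e] at ih
    rw [← hl, sphrf_csA_step _ _ (by (clear * - hd hl e; omega) : l < Lv.rfk n k), ih]
    by_cases h : n ∣ l + 1
    · have h1 := sphrf_div_succ l h
      have h2 : (l + 1) / n ≤ k := Lv.rf_div_le hn (by omega)
      rw [sphrf_csA_step m q (by omega : l / n < k), sphrf_rfm_dvd m (l + 1) h]
      unfold Lv.rfp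
      rw [h1]
    · have h1 := sphrf_rfp_succ l h
      unfold Lv.rfp
      rw [h1]
      ring

theorem sphrf_log_self (x : ℝ) : Real.log (x / x) = 0 := by
  rcases eq_or_ne x 0 with h | h
  · rw [h]; simp only [div_zero, Real.log_zero]
  · rw [div_self h, Real.log_one]

theorem sphrf_sum {n : ℕ} (hn : 0 < n) (g h : ℕ → ℝ) (h0 : ∀ l, ¬ n ∣ l + 1 → g l = 0)
    (h1 : ∀ b, g (b * n + (n - 1)) = h b) (K : ℕ) :
    ∑ l ∈ Finset.range (K * n + (n - 1)), g l = ∑ b ∈ Finset.range K, h b := by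
  have hz : ∀ b i, i + 1 < n → g (b * n + i) = 0 := by
    intro b i hi
    refine h0 _ fun hd => ?_
    have h2 : n ∣ i + 1 := by
      rw [add_assoc] at hd
      exact (Nat.dvd_add_right (Dvd.intro_left b rfl)).1 hd
    exact absurd (Nat.le_of_dvd (by omega) h2) (by omega)
  induction K with
  | zero =>
    rw [zero_mul, zero_add, Finset.range_zero, Finset.sum_empty]
    refine Finset.sum_eq_zero fun i hi => ?_
    rw [Finset.mem_range] at hi
    have := hz 0 i (by omega)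
    rwa [zero_mul, zero_add] at this
  | succ K ih =>
    have e : (K + 1) * n + (n - 1) = (K * n + (n - 1)) + ((n - 1) + 1) := by
      have : (K + 1) * n = K * n + n := by ring
      (clear * - hn this; omega)
    rw [e, Finset.sum_range_add, ih, Finset.sum_range_succ h K,
      Finset.sum_range_succ' (fun x => g (K * n + (n - 1) + x)) (n - 1)]
    have h2 : ∑ i ∈ Finset.range (n - 1), g (K * n + (n - 1) + (i + 1)) = 0 := by
      refine Finset.sum_eq_zero fun i hi => ?_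
      rw [Finset.mem_range] at hi
      have := hz (K + 1) i (by omega)
      have e2 : K * n + (n - 1) + (i + 1) = (K + 1) * n + i := by
        have : (K + 1) * n = K * n + n := by ring
        (clear * - e; omega)
      rw [e2]
      exact this
    rw [h2, zero_add, add_zero, h1]

/-- The Crisanti-Sommers functional does not change under a refinement. -/
theorem csPart_rf {n k : ℕ} {m q : ℕ → ℝ} (hn : 0 < n) (hm : Exponents k m) (hq : Path k q)
    (hq1 : q k < 1) :
    csPart (Lv.rfk n k) (Lv.rfm n m) (Lv.rfp n q) = csPart k m q := by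
  have hA : ∀ l ≤ Lv.rfk n k,
      csA (Lv.rfk n k) (Lv.rfm n m) (Lv.rfp n q) l = csA k m q (l / n) := by
    intro l hl
    have h := sphrf_csA (k := k) m q hn (Lv.rfk n k - l) (by omega)
    have e : Lv.rfk n k - (Lv.rfk n k - l) = l := by omega
    rwa [e] at h
  have hk : Lv.rfk n k = k * n + (n - 1) := by
    have h := Lv.rf_rfk_succ (k := k) hn
    have : (k + 1) * n = k * n + n := by ring
    omega
  have hS : ∑ l ∈ Finset.range (Lv.rfk n k), 1 / Lv.rfm n m (l + 1) *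
      Real.log (csA (Lv.rfk n k) (Lv.rfm n m) (Lv.rfp n q) l /
        csA (Lv.rfk n k) (Lv.rfm n m) (Lv.rfp n q) (l + 1)) =
      ∑ l ∈ Finset.range k, 1 / m (l + 1) * Real.log (csA k m q l / csA k m q (l + 1)) := by
    have h1 : ∀ l ∈ Finset.range (Lv.rfk n k), 1 / Lv.rfm n m (l + 1) *
        Real.log (csA (Lv.rfk n k) (Lv.rfm n m) (Lv.rfp n q) l /
          csA (Lv.rfk n k) (Lv.rfm n m) (Lv.rfp n q) (l + 1)) =
        1 / Lv.rfm n m (l + 1) * Real.log (csA k m q (l / n) / csA k m q ((l + 1) / n)) := by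
      intro l hl
      rw [Finset.mem_range] at hl
      rw [hA l hl.le, hA (l + 1) (by omega)]
    rw [Finset.sum_congr rfl h1, hk]
    refine sphrf_sum hn (fun l => 1 / Lv.rfm n m (l + 1) *
      Real.log (csA k m q (l / n) / csA k m q ((l + 1) / n))) _ (fun l hl => ?_) (fun b => ?_) k
    · rw [sphrf_rfp_succ l hl, sphrf_log_self, mul_zero]
    · have e : b * n + (n - 1) + 1 = (b + 1) * n := by
        have : (b + 1) * n = b * n + n := by ring
        omega
      have h2 : n ∣ (b + 1) * n := Dvd.intro_left _ rfl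
      rw [e, sphrf_rfm_dvd m _ h2, Lv.rf_div b (by (clear * - hn e; omega)), Nat.mul_div_cancel _ hn]
  unfold csPart
  rw [hS, Lv.rfp_last hn, hA 0 (Nat.zero_le _), Nat.zero_div]
  congr 3
  unfold Lv.rfp
  rw [Nat.zero_div]

end Vale.Agent.P157.Sph
end

section

/-! The mean pressure of the sphere and the free energy of a net. -/

open MeasureTheory ProbabilityTheory Filter Topology
open scoped RealInnerProductSpace

namespace Vale.Agent.P157.Sph

open Par

open Vale.Agent.P367.GT (gM)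

set_option linter.unusedSectionVars false

/-- The energy of the patterns. -/
noncomputable def sphmp_E (f : ℝ → ℝ) {M N : ℕ} (g : Fin M → Fin N → ℝ) (y : Ec N) : ℝ :=
  ∑ b, f (∑ i, y i * g b i)

theorem sphmp_cont {f : ℝ → ℝ} (hf : Continuous f) {M N : ℕ} :
    Continuous fun p : (Fin M → Fin N → ℝ) × Ec N => sphmp_E f p.1 p.2 := by
  unfold sphmp_E
  fun_prop

theorem sphmp_abs {f : ℝ → ℝ} {B : ℝ} (hB : ∀ x, |f x| ≤ B) {M N : ℕ} (g : Fin M → Fin N → ℝ)
    (y : Ec N) : |sphmp_E f g y| ≤ M * B := by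
  unfold sphmp_E
  refine (Finset.abs_sum_le_sum_abs _ _).trans ((Finset.sum_le_sum fun b _ => hB _).trans ?_)
  rw [Finset.sum_const, Finset.card_univ, Fintype.card_fin, nsmul_eq_mul]

/-- The Lipschitz constant of the energy. -/
noncomputable def sphmp_L (C₁ : ℝ) {M N : ℕ} (g : Fin M → Fin N → ℝ) : ℝ :=
  C₁ * ∑ b, √(∑ i, g b i ^ 2)

theorem sphmp_lip {f : ℝ → ℝ} {C₁ : ℝ} (hC₁ : 0 ≤ C₁)
    (hL : ∀ x y, |f x - f y| ≤ C₁ * |x - y|) {M N : ℕ} (g : Fin M → Fin N → ℝ) :
    LipS (sphmp_E f g) (sphmp_L C₁ g) := by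
  intro y y' _ _
  unfold sphmp_E sphmp_L
  rw [← Finset.sum_sub_distrib, mul_assoc, Finset.sum_mul, Finset.mul_sum]
  refine (Finset.abs_sum_le_sum_abs _ _).trans (Finset.sum_le_sum fun b _ => ?_)
  refine (hL _ _).trans (mul_le_mul_of_nonneg_left ?_ hC₁)
  rw [← Finset.sum_sub_distrib]
  have h1 : ∑ i, (y i * g b i - y' i * g b i) = ∑ i, g b i * (y - y') i := by
    refine Finset.sum_congr rfl fun i _ => ?_
    simp only [PiLp.sub_apply]
    ring
  rw [h1, EuclideanSpace.norm_eq, ← Real.sqrt_mul (Finset.sum_nonneg fun i _ => sq_nonneg _)]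
  apply Real.abs_le_sqrt
  refine (Finset.sum_mul_sq_le_sq_mul_sq _ _ _).trans (le_of_eq ?_)
  congr 1
  refine Finset.sum_congr rfl fun i _ => ?_
  rw [Real.norm_eq_abs, sq_abs]

/-- The log-partition function of the sphere. -/
noncomputable def sphmp_A (f : ℝ → ℝ) {M N : ℕ} (g : Fin M → Fin N → ℝ) : ℝ :=
  Real.log (∫ y, Real.exp (sphmp_E f g y) ∂(usp N))

theorem sphmp_pressure {f : ℝ → ℝ} (hf : Continuous f) {M N : ℕ} [NeZero N]
    (g : Fin M → Fin N → ℝ) : pressure (sphere N) f g = 1 / N * sphmp_A f g := by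
  have hN : (0 : ℝ) < N := by
    have := NeZero.pos N
    exact_mod_cast this
  have hs : √(N : ℝ) ≠ 0 := (Real.sqrt_pos.2 hN).ne'
  unfold pressure sphmp_A
  have hmap : ∫ x, Real.exp (∑ a, f ((∑ i, g a i * x i) / √(N : ℝ)))
      ∂((usp N).map fun (y : Ec N) (i : Fin N) => √(N : ℝ) * y i) =
      ∫ y, Real.exp (∑ a, f ((∑ i, g a i * (√(N : ℝ) * y i)) / √(N : ℝ))) ∂(usp N) :=
    integral_map (φ := fun (y : Ec N) (i : Fin N) => √(N : ℝ) * y i)
      (f := fun x : Fin N → ℝ => Real.exp (∑ a, f ((∑ i, g a i * x i) / √(N : ℝ))))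
      (by fun_prop : Continuous fun (y : Ec N) (i : Fin N) => √(N : ℝ) * y i).measurable.aemeasurable
      (by fun_prop : Continuous fun x : Fin N → ℝ =>
        Real.exp (∑ a, f ((∑ i, g a i * x i) / √(N : ℝ)))).aestronglyMeasurable
  rw [sphere_eq_usp, hmap]
  congr 2
  refine integral_congr_ae (Eventually.of_forall fun y => ?_)
  simp only [sphmp_E]
  congr 1
  refine Finset.sum_congr rfl fun b _ => ?_
  congr 1
  rw [div_eq_iff hs, Finset.sum_mul]
  refine Finset.sum_congr rfl fun i _ => ?_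
  ring

theorem sphmp_int_exp {f : ℝ → ℝ} (hf : Continuous f) {B : ℝ} (hB : ∀ x, |f x| ≤ B) {M N : ℕ}
    (g : Fin M → Fin N → ℝ) : Integrable (fun y => Real.exp (sphmp_E f g y)) (usp N) := by
  refine (integrable_const (Real.exp (M * B))).mono' ?_ (Eventually.of_forall fun y => ?_)
  · have h1 : Continuous fun y : Ec N => sphmp_E f g y :=
      (sphmp_cont hf).comp (Continuous.prodMk continuous_const continuous_id)
    exact (Real.continuous_exp.comp h1).aestronglyMeasurable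
  · rw [Real.norm_of_nonneg (Real.exp_pos _).le]
    exact Real.exp_le_exp.2 ((le_abs_self _).trans (sphmp_abs hB g y))

theorem sphmp_A_abs {f : ℝ → ℝ} (hf : Continuous f) {B : ℝ} (hB : ∀ x, |f x| ≤ B) {M N : ℕ}
    (g : Fin M → Fin N → ℝ) : |sphmp_A f g| ≤ M * B := by
  have hint := sphmp_int_exp hf hB g
  have h1 : Real.exp (-(M * B)) ≤ ∫ y, Real.exp (sphmp_E f g y) ∂(usp N) := by
    calc Real.exp (-(M * B)) = ∫ _y, Real.exp (-(M * B)) ∂(usp N) := by simp only [integral_const, probReal_univ, smul_eq_mul, one_mul]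
      _ ≤ _ := integral_mono (integrable_const _) hint fun y =>
          Real.exp_le_exp.2 (abs_le.1 (sphmp_abs hB g y)).1
  have h2 : ∫ y, Real.exp (sphmp_E f g y) ∂(usp N) ≤ Real.exp (M * B) := by
    calc ∫ y, Real.exp (sphmp_E f g y) ∂(usp N) ≤ ∫ _y, Real.exp (M * B) ∂(usp N) :=
          integral_mono hint (integrable_const _) fun y =>
            Real.exp_le_exp.2 (abs_le.1 (sphmp_abs hB g y)).2
      _ = _ := by simp only [integral_const, probReal_univ, smul_eq_mul, one_mul]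
  unfold sphmp_A
  have h3 := Real.log_le_log (Real.exp_pos _) h1
  have h4 := Real.log_le_log (lt_of_lt_of_le (Real.exp_pos _) h1) h2
  rw [Real.log_exp] at h3 h4
  exact abs_le.2 ⟨h3, h4⟩

theorem sphmp_A_meas {f : ℝ → ℝ} (hf : Continuous f) {M N : ℕ} :
    Measurable fun g : Fin M → Fin N → ℝ => sphmp_A f g := by
  unfold sphmp_A
  refine Real.measurable_log.comp ?_
  have h1 : StronglyMeasurable (Function.uncurry fun (g : Fin M → Fin N → ℝ) (y : Ec N) =>
      Real.exp (sphmp_E f g y)) := (Real.continuous_exp.comp (sphmp_cont hf)).stronglyMeasurable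
  exact h1.integral_prod_right.measurable

/-- The log-partition function of a net. -/
noncomputable def sphmp_B (f : ℝ → ℝ) {M N : ℕ} (A : Net N) (g : Fin M → Fin N → ℝ) : ℝ :=
  Real.log (∑ x, A.w x * Real.exp (sphmp_E f g (A.φ x)))

theorem sphmp_B_cont {f : ℝ → ℝ} (hf : Continuous f) {M N : ℕ} (A : Net N) :
    Continuous fun g : Fin M → Fin N → ℝ => sphmp_B f A g := by
  unfold sphmp_B
  refine Continuous.log ?_ fun g => ?_
  · refine continuous_finsetSum _ fun x _ => continuous_const.mul ?_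
    exact Real.continuous_exp.comp
      ((sphmp_cont hf).comp (Continuous.prodMk continuous_id continuous_const))
  · exact (Finset.sum_pos (fun x _ => mul_pos (A.w0 x) (Real.exp_pos _))
      Finset.univ_nonempty).ne'

theorem sphmp_B_abs {f : ℝ → ℝ} {B : ℝ} (hB : ∀ x, |f x| ≤ B) {M N : ℕ} (A : Net N)
    (g : Fin M → Fin N → ℝ) : |sphmp_B f A g| ≤ M * B := by
  have h1 : Real.exp (-(M * B)) ≤ ∑ x, A.w x * Real.exp (sphmp_E f g (A.φ x)) := by
    calc Real.exp (-(M * B)) = ∑ x, A.w x * Real.exp (-(M * B)) := by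
          rw [← Finset.sum_mul, A.w1, one_mul]
      _ ≤ _ := Finset.sum_le_sum fun x _ => mul_le_mul_of_nonneg_left
          (Real.exp_le_exp.2 (abs_le.1 (sphmp_abs hB g _)).1) (A.w0 x).le
  have h2 : ∑ x, A.w x * Real.exp (sphmp_E f g (A.φ x)) ≤ Real.exp (M * B) := by
    calc _ ≤ ∑ x, A.w x * Real.exp (M * B) := Finset.sum_le_sum fun x _ =>
          mul_le_mul_of_nonneg_left (Real.exp_le_exp.2 (abs_le.1 (sphmp_abs hB g _)).2)
            (A.w0 x).le
      _ = _ := by rw [← Finset.sum_mul, A.w1, one_mul]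
  unfold sphmp_B
  have h3 := Real.log_le_log (Real.exp_pos _) h1
  have h4 := Real.log_le_log (lt_of_lt_of_le (Real.exp_pos _) h1) h2
  rw [Real.log_exp] at h3 h4
  exact abs_le.2 ⟨h3, h4⟩

/-! ### The expected Lipschitz constant -/

theorem sphmp_integral_sq : ∫ x : ℝ, x ^ 2 ∂(gaussianReal 0 1) = 1 := by
  have h1 := variance_id_gaussianReal (μ := 0) (v := 1)
  rw [variance_eq_integral (by fun_prop)] at h1
  simpa only [id_eq, integral_id_gaussianReal, sub_zero, NNReal.coe_one] using h1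

theorem sphmp_eval (M N : ℕ) (b : Fin M) (i : Fin N) :
    MeasurePreserving (fun g : Fin M → Fin N → ℝ => g b i) (patterns M N) (gaussianReal 0 1) := by
  unfold patterns
  exact (measurePreserving_eval (fun _ : Fin N => gaussianReal 0 1) i).comp
    (measurePreserving_eval (fun _ : Fin M => Measure.pi fun _ : Fin N => gaussianReal 0 1) b)

theorem sphmp_int_sq (M N : ℕ) (b : Fin M) (i : Fin N) :
    Integrable (fun g : Fin M → Fin N → ℝ => g b i ^ 2) (patterns M N) ∧
      ∫ g, g b i ^ 2 ∂(patterns M N) = 1 := by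
  have h1 : Integrable (fun x : ℝ => x ^ 2) (gaussianReal 0 1) :=
    (memLp_id_gaussianReal (μ := 0) (v := 1) 2).integrable_sq
  have h2 := sphmp_eval M N b i
  constructor
  · exact h2.integrable_comp_of_integrable h1
  · have h3 : ∫ g, (fun x : ℝ => x ^ 2) (g b i) ∂(patterns M N) =
        ∫ x : ℝ, x ^ 2 ∂(gaussianReal 0 1) := by
      rw [← h2.map_eq]
      exact (integral_map (φ := fun g : Fin M → Fin N → ℝ => g b i) (f := fun x : ℝ => x ^ 2)
        h2.measurable.aemeasurable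
        (by fun_prop : Continuous fun x : ℝ => x ^ 2).aestronglyMeasurable).symm
    rw [sphmp_integral_sq] at h3
    exact h3

instance sphmp_prob (M N : ℕ) : IsProbabilityMeasure (patterns M N) := by
  unfold patterns
  infer_instance

theorem sphmp_sqrt {N : ℕ} (hN : 0 < N) {S : ℝ} (hS : 0 ≤ S) :
    √S ≤ (S / √(N : ℝ) + √(N : ℝ)) / 2 := by
  have hs : 0 < √(N : ℝ) := Real.sqrt_pos.2 (by exact_mod_cast hN)
  have h1 : S / √(N : ℝ) = √S * √S / √(N : ℝ) := by rw [Real.mul_self_sqrt hS]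
  rw [h1, le_div_iff₀ two_pos, ← sub_nonneg]
  have h2 : √S * √S / √(N : ℝ) + √(N : ℝ) - √S * 2 = (√S - √(N : ℝ)) ^ 2 / √(N : ℝ) := by
    field_simp
    ring
  rw [h2]
  (clear * - hN; positivity)

theorem sphmp_int_L (C₁ : ℝ) (hC₁ : 0 ≤ C₁) (M : ℕ) {N : ℕ} (hN : 0 < N) :
    Integrable (fun g : Fin M → Fin N → ℝ => sphmp_L C₁ g) (patterns M N) ∧
      ∫ g, sphmp_L C₁ g ∂(patterns M N) ≤ C₁ * (M * √(N : ℝ)) := by
  have hNR : (0 : ℝ) < N := by exact_mod_cast hN
  have hs : 0 < √(N : ℝ) := Real.sqrt_pos.2 hNR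
  have hS : ∀ b : Fin M, Integrable (fun g : Fin M → Fin N → ℝ => ∑ i, g b i ^ 2)
      (patterns M N) := fun b => integrable_finsetSum _ fun i _ => (sphmp_int_sq M N b i).1
  have hS1 : ∀ b : Fin M, ∫ g : Fin M → Fin N → ℝ, ∑ i, g b i ^ 2 ∂(patterns M N) = N := by
    intro b
    rw [integral_finsetSum _ fun i _ => (sphmp_int_sq M N b i).1]
    simp only [(sphmp_int_sq M N b _).2]
    simp only [Finset.sum_const, Finset.card_univ, Fintype.card_fin, nsmul_eq_mul, mul_one]
  have hI : ∀ b : Fin M, Integrable (fun g : Fin M → Fin N → ℝ =>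
      ((∑ i, g b i ^ 2) / √(N : ℝ) + √(N : ℝ)) / 2) (patterns M N) := fun b =>
    (((hS b).div_const _).add (integrable_const _)).div_const _
  have hQ : ∀ b : Fin M, Integrable (fun g : Fin M → Fin N → ℝ => √(∑ i, g b i ^ 2))
      (patterns M N) := by
    intro b
    refine (hI b).mono' ?_ (Eventually.of_forall fun g => ?_)
    · exact (by fun_prop : Continuous fun g : Fin M → Fin N → ℝ =>
        √(∑ i, g b i ^ 2)).aestronglyMeasurable
    · rw [Real.norm_of_nonneg (Real.sqrt_nonneg _)]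
      exact sphmp_sqrt hN (Finset.sum_nonneg fun i _ => sq_nonneg _)
  have hQ1 : ∀ b : Fin M, ∫ g : Fin M → Fin N → ℝ, √(∑ i, g b i ^ 2) ∂(patterns M N) ≤
      √(N : ℝ) := by
    intro b
    calc ∫ g : Fin M → Fin N → ℝ, √(∑ i, g b i ^ 2) ∂(patterns M N)
        ≤ ∫ g : Fin M → Fin N → ℝ, ((∑ i, g b i ^ 2) / √(N : ℝ) + √(N : ℝ)) / 2
          ∂(patterns M N) := integral_mono (hQ b) (hI b) fun g =>
            sphmp_sqrt hN (Finset.sum_nonneg fun i _ => sq_nonneg _)
      _ = √(N : ℝ) := by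
          rw [integral_div, integral_add ((hS b).div_const _) (integrable_const _),
            integral_div, hS1 b, integral_const, probReal_univ, one_smul]
          have h1 : (N : ℝ) / √(N : ℝ) = √(N : ℝ) := Real.div_sqrt
          rw [h1]
          ring
  constructor
  · exact (integrable_finsetSum _ fun b _ => hQ b).const_mul C₁
  · unfold sphmp_L
    rw [integral_const_mul, integral_finsetSum _ fun b _ => hQ b]
    apply mul_le_mul_of_nonneg_left _ hC₁
    refine (Finset.sum_le_sum fun b _ => hQ1 b).trans ?_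
    rw [Finset.sum_const, Finset.card_univ, Fintype.card_fin, nsmul_eq_mul]

/-- The mean pressure of the sphere and the free energy of a net. -/
theorem meanPressure_net {f : ℝ → ℝ} {B C₁ : ℝ} (hf : Continuous f) (hB : ∀ x, |f x| ≤ B)
    (hC₁ : 0 ≤ C₁) (hL : ∀ x y, |f x - f y| ≤ C₁ * |x - y|) {α : ℝ} (hα : 0 ≤ α) {N : ℕ}
    (hN : 0 < N) {A : Net N} {κ : ℝ} (hκ : 0 ≤ κ) (hA : A.Close κ) :
    |meanPressure sphere α f N - 1 / N * ∫ g : Fin ⌊α * N⌋₊ → Fin N → ℝ,
      Real.log (∑ x, Real.exp (Real.log (A.w x) +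
        ∑ b, f (1 / √(N : ℝ) * ∑ i, √(N : ℝ) * A.φ x i * g b i)))
        ∂(Measure.pi fun _ => Measure.pi fun _ => gaussianReal 0 1)| ≤ κ * C₁ * α * N := by
  have : NeZero N := ⟨hN.ne'⟩
  have hNR : (0 : ℝ) < N := by exact_mod_cast hN
  have hN1 : (1 : ℝ) ≤ N := by exact_mod_cast hN
  have hs : √(N : ℝ) ≠ 0 := (Real.sqrt_pos.2 hNR).ne'
  set M := ⌊α * N⌋₊ with hM
  have hMle : (M : ℝ) ≤ α * N := Nat.floor_le (by (clear * - hα hN; positivity))
  have h1 : meanPressure sphere α f N = 1 / N * ∫ g, sphmp_A f g ∂(patterns M N) := by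
    unfold meanPressure
    rw [← integral_const_mul]
    exact integral_congr_ae (Eventually.of_forall fun g => sphmp_pressure hf g)
  have h2 : (∫ g : Fin M → Fin N → ℝ, Real.log (∑ x, Real.exp (Real.log (A.w x) +
        ∑ b, f (1 / √(N : ℝ) * ∑ i, √(N : ℝ) * A.φ x i * g b i)))
        ∂(Measure.pi fun _ => Measure.pi fun _ => gaussianReal 0 1)) =
      ∫ g, sphmp_B f A g ∂(patterns M N) := by
    unfold patterns
    refine integral_congr_ae (Eventually.of_forall fun g => ?_)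
    simp only [sphmp_B, sphmp_E]
    congr 1
    refine Finset.sum_congr rfl fun x _ => ?_
    rw [Real.exp_add, Real.exp_log (A.w0 x)]
    congr 2
    refine Finset.sum_congr rfl fun b _ => ?_
    congr 1
    rw [Finset.mul_sum]
    refine Finset.sum_congr rfl fun i _ => ?_
    (clear * - hs; field_simp)
  have hIA : Integrable (fun g : Fin M → Fin N → ℝ => sphmp_A f g) (patterns M N) :=
    (integrable_const (M * B)).mono' (sphmp_A_meas hf).aestronglyMeasurable
      (Eventually.of_forall fun g => by rw [Real.norm_eq_abs]; exact sphmp_A_abs hf hB g)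
  have hIB : Integrable (fun g : Fin M → Fin N → ℝ => sphmp_B f A g) (patterns M N) :=
    (integrable_const (M * B)).mono' (sphmp_B_cont hf A).aestronglyMeasurable
      (Eventually.of_forall fun g => by rw [Real.norm_eq_abs]; exact sphmp_B_abs hB A g)
  obtain ⟨hIL, hIL1⟩ := sphmp_int_L C₁ hC₁ M hN
  rw [h1, h2, ← mul_sub, ← integral_sub hIA hIB, abs_mul, abs_of_pos (by positivity)]
  have hpt : ∀ g : Fin M → Fin N → ℝ, |sphmp_A f g - sphmp_B f A g| ≤ κ * sphmp_L C₁ g := by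
    intro g
    have h3 := hA (sphmp_E f g) (sphmp_L C₁ g)
      ((sphmp_cont hf).comp (Continuous.prodMk continuous_const continuous_id))
      (mul_nonneg hC₁ (Finset.sum_nonneg fun b _ => Real.sqrt_nonneg _)) (sphmp_lip hC₁ hL g)
    rw [abs_sub_comm] at h3
    exact h3
  have h4 : |∫ g, (sphmp_A f g - sphmp_B f A g) ∂(patterns M N)| ≤ κ * (C₁ * (M * √(N : ℝ))) := by
    calc |∫ g, (sphmp_A f g - sphmp_B f A g) ∂(patterns M N)|
        ≤ ∫ g, |sphmp_A f g - sphmp_B f A g| ∂(patterns M N) := abs_integral_le_integral_abs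
      _ ≤ ∫ g, κ * sphmp_L C₁ g ∂(patterns M N) :=
          integral_mono (hIA.sub hIB).abs (hIL.const_mul κ) hpt
      _ = κ * ∫ g, sphmp_L C₁ g ∂(patterns M N) := integral_const_mul _ _
      _ ≤ κ * (C₁ * (M * √(N : ℝ))) := mul_le_mul_of_nonneg_left hIL1 hκ
  have h5 : √(N : ℝ) ≤ N := by
    rw [Real.sqrt_le_left hNR.le]
    nlinarith only [hN1]
  calc 1 / (N : ℝ) * |∫ g, (sphmp_A f g - sphmp_B f A g) ∂(patterns M N)|
      ≤ 1 / (N : ℝ) * (κ * (C₁ * (M * √(N : ℝ)))) :=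
        mul_le_mul_of_nonneg_left h4 (by (clear * - hN; positivity))
    _ ≤ 1 / (N : ℝ) * (κ * (C₁ * ((α * N) * N))) := by
        apply mul_le_mul_of_nonneg_left _ (by positivity)
        apply mul_le_mul_of_nonneg_left _ hκ
        apply mul_le_mul_of_nonneg_left _ hC₁
        exact mul_le_mul hMle h5 (Real.sqrt_nonneg _) (by (clear * - hα hN; positivity))
    _ = κ * C₁ * α * N := by (clear * - hN; field_simp)

end Vale.Agent.P157.Sph
end

section

/-! The upper bound on the sphere. -/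

open MeasureTheory ProbabilityTheory Filter Topology
open scoped RealInnerProductSpace

namespace Vale.Agent.P157.Sph

open Par

open Vale.Agent.P367.GT (gM)

set_option linter.unusedSectionVars false

/-- **The upper bound on the sphere, for smooth bounded potentials.** -/
theorem upper_smooth {f f' f'' : ℝ → ℝ} {B C₁ C₂ : ℝ} (hf : Lv.Pot f f' f'' C₁ C₂)
    (hB : ∀ x, |f x| ≤ B) {α : ℝ} (hα : 0 ≤ α) {k : ℕ} {m q : ℕ → ℝ} (hm : Exponents k m)
    (hq : Path k q) (hq1 : q k < 1) {ε : ℝ} (hε : 0 < ε) :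
    ∀ᶠ N in atTop, meanPressure sphere α f N ≤ α * patternPart f k m q + csPart k m q + ε := by
  have hC₁ : 0 ≤ C₁ := hf.C1_nonneg
  have hfc : Continuous f := continuous_iff_continuousAt.2 fun x => (hf.d1 x).continuousAt
  obtain ⟨δ, hδ, -, hδ2⟩ := Lv.up_small (F := fun δ : ℝ =>
    α * (1 / 2 * C₁ ^ 2 * Real.exp (6 * B) * (√(2 * δ) + 2 * δ))) (by fun_prop) (by simp only [one_div, mul_zero, Real.sqrt_zero, add_zero])
    (ε := ε / 5) (by (clear * - hε; positivity))
  obtain ⟨n, hn⟩ := exists_nat_ge (1 / δ)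
  have hn0 : (0 : ℝ) < n := (by positivity : (0 : ℝ) < 1 / δ).trans_le hn
  have hn1 : 0 < n := by exact_mod_cast hn0
  have hnδ : 1 / (n : ℝ) ≤ δ := by
    rw [div_le_iff₀ hn0]
    rw [div_le_iff₀ hδ] at hn
    linarith only [hn]
  set Ψ := patternPart f k m q with hΨ
  have hm1 : Exponents (Lv.rfk n k) (Lv.rfm n m) := Lv.rfm_exponents hn1 hm
  have hqp : Path (Lv.rfk n k) (Lv.rfp n q) := Lv.rfp_path hn1 hq
  have hql : Lv.rfp n q (Lv.rfk n k) < 1 := by
    rw [Lv.rfp_last hn1]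
    exact hq1
  obtain ⟨d₀, κ₀, hκ₀, hnet⟩ := topN_net_le hm1 hqp hql (ε := ε / 5) (by positivity)
  rw [csPart_rf hn1 hm hq hq1] at hnet
  obtain ⟨N₀, hN₀⟩ := Lv.upper_unif (q := Lv.rfp n q) hm1 hqp hql.le hf hB
    (δ := δ) (fun l hl => (Lv.rfm_mesh hn1 hm hl).trans hnδ) (α₀ := α)
    (Cb := csPart k m q + ε / 5) (ε := ε / 5) hα (by positivity)
  obtain ⟨N₁, hN₁⟩ := exists_nat_ge (5 * |Ψ| / ε)
  filter_upwards [eventually_ge_atTop (max (max N₀ N₁) (max d₀ 1))] with N hN
  have hN2 : 0 < N :=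
    lt_of_lt_of_le one_pos ((le_max_right _ _).trans ((le_max_right _ _).trans hN))
  have hN3 : (0 : ℝ) < N := by exact_mod_cast hN2
  have hN4 : N₀ ≤ N := (le_max_left _ _).trans ((le_max_left _ _).trans hN)
  have hN5 : N₁ ≤ N := (le_max_right _ _).trans ((le_max_left _ _).trans hN)
  have hN6 : d₀ ≤ N := (le_max_left _ _).trans ((le_max_right _ _).trans hN)
  have : NeZero N := ⟨hN2.ne'⟩
  -- the net
  set κ : ℝ := min κ₀ (ε / 5 / (C₁ * α * N + 1)) with hκd
  have hden : 0 < C₁ * α * N + 1 := by (clear * - hC₁ hα hN2; positivity)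
  have hκ : 0 < κ := lt_min hκ₀ (by (clear * - hε hC₁ hα hN2; positivity))
  obtain ⟨A, hA⟩ := exists_net N hκ
  have hA0 : A.Close κ₀ := fun Φ Λ h1 h2 h3 =>
    (hA Φ Λ h1 h2 h3).trans (mul_le_mul_of_nonneg_right (min_le_left _ _) h2)
  have hmp := (abs_le.1 (meanPressure_net hfc hB hC₁ hf.lip hα hN2 hκ.le hA)).2
  have hκ2 : κ * C₁ * α * N ≤ ε / 5 := by
    have h1 : κ * (C₁ * α * N + 1) ≤ ε / 5 := by
      rw [← le_div_iff₀ hden]
      exact min_le_right _ _
    have h2 : 0 ≤ κ := hκ.le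
    linarith only [hκ, h1]
  -- the main estimate
  classical
  have hAf : ((⌊α * N⌋₊ : ℕ) : ℝ) ≤ α * N := Nat.floor_le (by (clear * - hα hN2; positivity))
  have hu : ∑ x, Real.exp (Real.log (A.w x)) = 1 := by
    rw [← A.w1]
    exact Finset.sum_congr rfl fun x _ => Real.exp_log (A.w0 x)
  have hφ : ∀ x, ∑ i, (√(N : ℝ) * A.φ x i) ^ 2 = N := by
    intro x
    have h1 : ∑ i, (A.φ x i) ^ 2 = 1 := by
      have h2 := EuclideanSpace.norm_sq_eq (A.φ x)
      rw [A.hφ x, one_pow] at h2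
      rw [h2]
      exact Finset.sum_congr rfl fun i _ => by rw [Real.norm_eq_abs, sq_abs]
    simp only [mul_pow, Real.sq_sqrt hN3.le]
    rw [← Finset.mul_sum, h1, mul_one]
  have key := hN₀ N hN4 A.X (fun x => Real.log (A.w x)) (fun x i => √(N : ℝ) * A.φ x i) hu hφ
    ⌊α * N⌋₊ hAf (csPart k m q + ε / 5) le_rfl (fun s hs => hnet N hN6 A hA0 s hs)
  rw [Lv.patternPart_rf hn1 hm, ← hΨ] at key
  have h1 : ((⌊α * N⌋₊ : ℕ) : ℝ) / N * Ψ ≤ α * Ψ + ε / 5 := by
    have h2 : |((⌊α * N⌋₊ : ℕ) : ℝ) / N - α| ≤ 1 / N := by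
      have h3 := Nat.lt_floor_add_one (α * N)
      have e : ((⌊α * N⌋₊ : ℕ) : ℝ) / N - α = (((⌊α * N⌋₊ : ℕ) : ℝ) - α * N) / N := by
        (clear * - hN2; field_simp)
      rw [e, abs_div, abs_of_pos hN3, div_le_div_iff_of_pos_right hN3, abs_le]
      constructor <;> linarith only [h3, hAf]
    have h3 : (((⌊α * N⌋₊ : ℕ) : ℝ) / N - α) * Ψ ≤ 1 / N * |Ψ| :=
      (le_abs_self _).trans (by
        rw [abs_mul]
        exact mul_le_mul_of_nonneg_right h2 (abs_nonneg _))
    have h4 : 1 / (N : ℝ) * |Ψ| ≤ ε / 5 := by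
      have h5 : 5 * |Ψ| / ε ≤ N := hN₁.trans (by exact_mod_cast hN5)
      rw [div_le_iff₀ hε] at h5
      rw [one_div, inv_mul_le_iff₀ hN3]
      linarith only [h5]
    linarith only [h3, h4]
  linarith only [hδ2, hmp, hκ2, key, h1]

end Vale.Agent.P157.Sph
end

section

/-! Nets and slices. -/

open MeasureTheory ProbabilityTheory Filter Topology
open scoped RealInnerProductSpace

namespace Vale.Agent.P157.Sph

open Par

open Vale.Agent.P367.GT (gM)

set_option linter.unusedSectionVars false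

/-- truncation of the height -/
noncomputable def sphns_cl (t : ℝ) : ℝ := max (-1) (min t 1)

theorem sphns_cl_cont : Continuous sphns_cl :=
  continuous_const.max (continuous_id.min continuous_const)

theorem sphns_cl_mem (t : ℝ) : sphns_cl t ∈ Set.Icc (-1 : ℝ) 1 :=
  ⟨le_max_left _ _, max_le (by norm_num) (min_le_right _ _)⟩

theorem sphns_cl_eq {t : ℝ} (ht : |t| ≤ 1) : sphns_cl t = t := by
  unfold sphns_cl
  rw [min_eq_left (abs_le.1 ht).2, max_eq_right (abs_le.1 ht).1]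

theorem sphns_last_le {d : ℕ} (y y' : Ec (d + 1)) :
    |y (Fin.last d) - y' (Fin.last d)| ≤ ‖y - y'‖ := by
  have h := PiLp.norm_apply_le (y - y') (Fin.last d)
  rw [Real.norm_eq_abs] at h
  exact h

/-- The comparison of a rotated net of the sphere of `ℝ^(d+1)`, weighted with a window, and of a
net of the sphere of `ℝ^d`. -/
theorem net_slice {d : ℕ} [NeZero d] {A : Net (d + 1)} {A' : Net d} {κ κ' : ℝ}
    (hA : A.Close κ) (hA' : A'.Close κ') {V : ℝ → ℝ} (hVc : Continuous V) {a L : ℝ} (ha : 0 < a)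
    (hL : 0 ≤ L) (hVa : ∀ x, a ≤ V x) (hV1 : ∀ x, V x ≤ 1)
    (hVL : ∀ x y, |Real.log (V x) - Real.log (V y)| ≤ L * |x - y|)
    (O : Ec (d + 1) ≃ₗᵢ[ℝ] Ec (d + 1)) {H : Ec (d + 1) → ℝ} (hHc : Continuous H) {Λ : ℝ}
    (hΛ : 0 ≤ Λ) (hH : LipS H Λ) :
    Real.log (∫ t, V t ∂(ht d)) +
      (∫ t, V t * Real.log (∑ x, A'.w x * Real.exp (H (lift d t (A'.φ x)))) ∂(ht d)) /
        (∫ t, V t ∂(ht d)) - κ * (Λ + L) - κ' * Λ ≤
      Real.log (∑ x, A.w x * (V (O (A.φ x) (Fin.last d)) * Real.exp (H (O (A.φ x))))) := by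
  have hV0 : ∀ x, 0 < V x := fun x => ha.trans_le (hVa x)
  -- the rotated net
  obtain ⟨Φ, hΦ⟩ : ∃ Φ : Ec (d + 1) → ℝ, Φ = fun y => H y + Real.log (V (y (Fin.last d))) :=
    ⟨_, rfl⟩
  have hlast : Continuous fun y : Ec (d + 1) => y (Fin.last d) := by fun_prop
  have hΦc : Continuous Φ := by
    rw [hΦ]
    exact hHc.add ((hVc.comp hlast).log fun y => (hV0 _).ne')
  have hΦL : LipS Φ (Λ + L) := by
    intro y y' hy hy'
    rw [hΦ]
    have h1 := hH y y' hy hy'
    have h2 := hVL (y (Fin.last d)) (y' (Fin.last d))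
    have h3 := mul_le_mul_of_nonneg_left (sphns_last_le y y') hL
    have h4 : H y + Real.log (V (y (Fin.last d))) - (H y' + Real.log (V (y' (Fin.last d))))
        = (H y - H y') + (Real.log (V (y (Fin.last d))) - Real.log (V (y' (Fin.last d)))) := by
      ring
    simp only
    rw [h4]
    refine (abs_add_le _ _).trans ?_
    rw [add_mul]
    linarith only [h1, h2, h3]
  have hexp : ∀ y, Real.exp (Φ y) = V (y (Fin.last d)) * Real.exp (H y) := by
    intro y
    rw [hΦ]
    simp only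
    rw [Real.exp_add, Real.exp_log (hV0 _), mul_comm]
  have hrot := hA.rot O hΦc (by linarith : 0 ≤ Λ + L) hΦL
  simp only [hexp] at hrot
  have hrot' := (abs_le.1 hrot).1
  -- the slices
  obtain ⟨G, hG⟩ : ∃ G : ℝ → ℝ, G = fun t =>
    Real.log (∑ x, A'.w x * Real.exp (H (lift d t (A'.φ x)))) := ⟨_, rfl⟩
  have hsum : ∀ t, 0 < ∑ x, A'.w x * Real.exp (H (lift d t (A'.φ x))) := fun t =>
    Finset.sum_pos (fun x _ => mul_pos (A'.w0 x) (Real.exp_pos _)) Finset.univ_nonempty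
  have hGc : Continuous G := by
    rw [hG]
    refine Continuous.log ?_ fun t => (hsum t).ne'
    refine continuous_finsetSum _ fun x _ => continuous_const.mul (Real.continuous_exp.comp
      (hHc.comp ?_))
    exact (continuous_lift d).comp (continuous_id.prodMk continuous_const)
  obtain ⟨B, hB⟩ := isCompact_Icc.exists_bound_of_continuousOn
    (hGc.continuousOn : ContinuousOn G (Set.Icc (-1) 1))
  obtain ⟨J, hJ⟩ : ∃ J : ℝ → ℝ, J = fun t => G (sphns_cl t) - κ' * Λ := ⟨_, rfl⟩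
  have hJm : Measurable J := by
    rw [hJ]
    exact ((hGc.comp sphns_cl_cont).sub continuous_const).measurable
  have hGB : ∀ t, |G (sphns_cl t)| ≤ B := fun t => hB _ (sphns_cl_mem t)
  have hJB : ∀ t, |J t| ≤ B + |κ' * Λ| := by
    intro t
    rw [hJ]
    exact (abs_sub _ _).trans (add_le_add (hGB t) le_rfl)
  have hJle : ∀ t, |t| ≤ 1 → J t ≤ Real.log (∫ y, Real.exp (H (lift d t y)) ∂(usp d)) := by
    intro t ht
    have h1 : Continuous fun y : Ec d => H (lift d t y) :=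
      hHc.comp ((continuous_lift d).comp (continuous_const.prodMk continuous_id))
    have h2 : LipS (fun y : Ec d => H (lift d t y)) Λ := by
      intro y y' hy hy'
      refine (hH _ _ (norm_lift ht hy) (norm_lift ht hy')).trans ?_
      exact mul_le_mul_of_nonneg_left (norm_lift_sub ht y y') hΛ
    have h3 := hA' _ Λ h1 hΛ h2
    rw [hJ, hG]
    simp only
    rw [sphns_cl_eq ht]
    have h4 := (abs_le.1 h3).2
    linarith only [h4]
  have hjen := slice_jensen hVc ha hVa hV1 hHc hJm hJB hJle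
  -- integrals
  have hVi : Integrable V (ht d) :=
    Integrable.of_bound hVc.aestronglyMeasurable 1 (Eventually.of_forall fun t => by
      rw [Real.norm_eq_abs, abs_of_pos (hV0 t)]
      exact hV1 t)
  have hVpos : 0 < ∫ t, V t ∂(ht d) := by
    have h1 : ∫ _, a ∂(ht d) ≤ ∫ t, V t ∂(ht d) :=
      integral_mono (integrable_const a) hVi fun t => hVa t
    simp only [integral_const, probReal_univ, one_smul] at h1
    linarith only [ha, h1]
  have hVGi : Integrable (fun t => V t * G (sphns_cl t)) (ht d) := by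
    refine Integrable.of_bound
      (hVc.mul (hGc.comp sphns_cl_cont)).aestronglyMeasurable B (Eventually.of_forall fun t => ?_)
    rw [Real.norm_eq_abs, abs_mul, abs_of_pos (hV0 t)]
    calc V t * |G (sphns_cl t)| ≤ 1 * |G (sphns_cl t)| :=
          mul_le_mul_of_nonneg_right (hV1 t) (abs_nonneg _)
      _ ≤ B := by rw [one_mul]; exact hGB t
  have hint : ∫ t, V t * J t ∂(ht d) = (∫ t, V t * Real.log
      (∑ x, A'.w x * Real.exp (H (lift d t (A'.φ x)))) ∂(ht d)) - κ' * Λ * ∫ t, V t ∂(ht d) := by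
    have h1 : ∫ t, V t * J t ∂(ht d)
        = ∫ t, (V t * G (sphns_cl t) - κ' * Λ * V t) ∂(ht d) := by
      refine integral_congr_ae (Eventually.of_forall fun t => ?_)
      rw [hJ]
      simp only
      ring
    rw [h1, integral_sub hVGi (hVi.const_mul _), integral_const_mul]
    congr 1
    refine integral_congr_ae ?_
    filter_upwards [ht_abs d] with t ht
    rw [sphns_cl_eq ht, hG]
  rw [hint, sub_div, mul_div_assoc, div_self hVpos.ne', mul_one] at hjen
  linarith only [hrot', hjen]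

end Vale.Agent.P157.Sph
end

section

/-! Comparison of the slices at different heights. -/

open MeasureTheory ProbabilityTheory Filter Topology
open scoped RealInnerProductSpace

namespace Vale.Agent.P157.Sph

open Par

open Vale.Agent.P367.GT (gM)

set_option linter.unusedSectionVars false

/-- Gluing of a last Gaussian coordinate. -/
theorem sphc3_mp (d : ℕ) : MeasurePreserving
    (fun p : (Fin d → ℝ) × (Unit → ℝ) => (Fin.snoc p.1 (p.2 ()) : Fin (d + 1) → ℝ))
    ((gM (Fin d)).prod (gM Unit)) (gM (Fin (d + 1))) := by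
  have h1 := (measurePreserving_piFinSuccAbove
    (fun _ : Fin (d + 1) => gaussianReal 0 1) (Fin.last d)).symm
  have h2 : MeasurePreserving (fun p : (Fin d → ℝ) × (Unit → ℝ) => (p.2 (), p.1))
      ((gM (Fin d)).prod (gM Unit)) ((gaussianReal 0 1).prod (gM (Fin d))) := by
    have h3 : MeasurePreserving (fun g : Unit → ℝ => g ()) (gM Unit) (gaussianReal 0 1) :=
      measurePreserving_funUnique (gaussianReal 0 1) Unit
    exact (h3.prod (MeasurePreserving.id (gM (Fin d)))).comp Measure.measurePreserving_swap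
  have h4 := h1.comp h2
  convert h4 using 1
  funext p
  exact (Fin.insertNth_last' (p.2 ()) p.1).symm

/-- Restriction to the first coordinates. -/
theorem sphc3_mp2 (d : ℕ) : MeasurePreserving
    (fun (g : Fin (d + 1) → ℝ) (j : Fin d) => g j.castSucc) (gM (Fin (d + 1))) (gM (Fin d)) := by
  have h1 := measurePreserving_piFinSuccAbove
    (fun _ : Fin (d + 1) => gaussianReal 0 1) (Fin.last d)
  have h2 : MeasurePreserving (Prod.snd : ℝ × (Fin d → ℝ) → (Fin d → ℝ))
      ((gaussianReal 0 1).prod (gM (Fin d))) (gM (Fin d)) := measurePreserving_snd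
  have h4 := h2.comp h1
  convert h4 using 1
  funext g
  funext j
  simp only [MeasurableEquiv.piFinSuccAbove, Fin.insertNthEquiv_last, MeasurableEquiv.coe_mk, Function.comp_apply, Fin.snocEquiv_symm_apply, Fin.init]

/-- One pattern at the height `t`. -/
theorem sphc3_one {C : ℝ} {f f1 f2 f3 : ℝ → ℝ} (hf : CB3 C f f1 f2 f3) (hfm : Measurable f) :
    ∃ D : ℝ, 0 ≤ D ∧ ∀ (d : ℕ) (X : Type) [Fintype X] [Nonempty X]
      (φ : X → Ec d), (∀ x, ‖φ x‖ = 1) → ∀ t : ℝ, |t| ≤ 1 → ∀ w : X → ℝ, (∀ x, 0 < w x) →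
      |(∫ g : Fin (d + 1) → ℝ, Real.log (∑ y, w y * Real.exp (f (∑ i, g i * lift d t (φ y) i)))
          ∂(gM (Fin (d + 1)))) -
        ∫ g : Fin (d + 1) → ℝ, Real.log (∑ y, w y * Real.exp
          (f (∑ i : Fin d, g i.castSucc * φ y i))) ∂(gM (Fin (d + 1)))| ≤ D * t ^ 2 := by
  obtain ⟨D, hD0, hD⟩ := one_height hf
  refine ⟨D, hD0, ?_⟩
  intro d X _ _ φ hφ t ht w hw
  have hφ2 : ∀ y, ∑ i, φ y i ^ 2 = 1 := by
    intro y
    have := EuclideanSpace.real_norm_sq_eq (φ y)
    rw [hφ y] at this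
    rw [← this]; norm_num
  set sg : ℝ := if t < 0 then -1 else 1 with hsg
  have hsg2 : sg ^ 2 = 1 := by
    rw [hsg]; split_ifs <;> norm_num
  have hst : √(t ^ 2) * sg = t := by
    rw [Real.sqrt_sq_eq_abs, hsg]
    split_ifs with h
    · rw [abs_of_neg h]; ring
    · rw [abs_of_nonneg (not_lt.1 h)]; ring
  have ht2 : t ^ 2 ≤ 1 := by
    rw [← sq_abs]; nlinarith only [ht, abs_nonneg t]
  have h := hD (Fin d) Unit X w (fun y i => φ y i) (fun _ _ => sg) hw inferInstance hφ2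
    (fun _ => by simp [hsg2]) (t ^ 2) (sq_nonneg t) ht2
  have hmp := sphc3_mp d
  have m1 : ∀ F : X → (Fin (d + 1) → ℝ) → ℝ, (∀ y, Measurable (F y)) →
      Measurable fun g : Fin (d + 1) → ℝ => Real.log (∑ y, w y * Real.exp (f (F y g))) := by
    intro F hF
    exact Real.measurable_log.comp (Finset.measurable_sum _ fun y _ =>
      (Real.measurable_exp.comp (hfm.comp (hF y))).const_mul _)
  rw [← hmp.map_eq, integral_map hmp.measurable.aemeasurable
      (m1 (fun y g => ∑ i, g i * lift d t (φ y) i) fun y => by fun_prop).aestronglyMeasurable,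
    integral_map hmp.measurable.aemeasurable
      (m1 (fun y g => ∑ i : Fin d, g i.castSucc * φ y i) fun y => by fun_prop).aestronglyMeasurable]
  have e1 : ∀ (p : (Fin d → ℝ) × (Unit → ℝ)) (y : X),
      ∑ i, (Fin.snoc p.1 (p.2 ()) : Fin (d + 1) → ℝ) i * lift d t (φ y) i =
        √(1 - t ^ 2) * lin (fun y i => φ y i) p.1 y + √(t ^ 2) * lin (fun _ _ => sg) p.2 y := by
    intro p y
    have hU : lin (fun (_ : X) (_ : Unit) => sg) p.2 y = sg * p.2 () := by
      simp only [lin, Finset.univ_unique, PUnit.default_eq_unit, Finset.sum_singleton]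
    rw [Fin.sum_univ_castSucc, hU, ← mul_assoc, hst]
    simp only [Fin.snoc_castSucc, Fin.snoc_last, lift_castSucc, lift_last, lin]
    rw [Finset.mul_sum, mul_comm (p.2 ()) t]
    congr 1
    exact Finset.sum_congr rfl fun i _ => by ring
  have e2 : ∀ (p : (Fin d → ℝ) × (Unit → ℝ)) (y : X),
      ∑ i : Fin d, (Fin.snoc p.1 (p.2 ()) : Fin (d + 1) → ℝ) i.castSucc * φ y i =
        lin (fun y i => φ y i) p.1 y := by
    intro p y
    simp only [Fin.snoc_castSucc, lin]
    exact Finset.sum_congr rfl fun i _ => mul_comm _ _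
  simp_rw [e1, e2]
  exact h

/-- The free energy of the slice at the height `t`. -/
theorem fr_lift {C : ℝ} {f f1 f2 f3 : ℝ → ℝ} (hf : CB3 C f f1 f2 f3) (hfm : Measurable f) :
    ∃ D : ℝ, 0 ≤ D ∧ ∀ (d M P : ℕ) (s : ℝ) (u : Fin P → ℝ) (X : Type) [Fintype X] [Nonempty X]
      (V : X → ℝ) (φ : X → Ec d), 0 ≤ s → (∀ q, 0 ≤ u q ∧ u q ≤ 2) → (∀ x, 0 < V x) →
      (∀ x, ‖φ x‖ = 1) → ∀ t : ℝ, |t| ≤ 1 →
      |fr f M P s u V (fun x => lift d t (φ x)) - fr f M P s u V φ| ≤
        D * (M + s ^ 2) * t ^ 2 := by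
  obtain ⟨D, hD0, hD⟩ := sphc3_one hf hfm
  refine ⟨D + 2, by linarith, ?_⟩
  intro d M P s u X _ _ V φ hs hu hV hφ t ht
  classical
  set Pm : Measure (Fin M → Fin (d + 1) → ℝ) := Measure.pi fun _ : Fin M => gM (Fin (d + 1))
    with hPm
  set Pm' : Measure (Fin M → Fin d → ℝ) := Measure.pi fun _ : Fin M => gM (Fin d) with hPm'
  let EA : (Fin M → Fin (d + 1) → ℝ) → X → ℝ := fun g x =>
    ∑ a, f (∑ i, g a i * lift d t (φ x) i)
  let EB : (Fin M → Fin (d + 1) → ℝ) → X → ℝ := fun g x =>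
    ∑ a, f (∑ i : Fin d, g a i.castSucc * φ x i)
  let EC : (Fin M → Fin d → ℝ) → X → ℝ := fun g x =>
    ∑ a, f (∑ i : Fin d, g a i * φ x i)
  let pe : (GI P (d + 1) → ℝ) → X → ℝ := fun h x =>
    ∑ e : GI P (d + 1), h e * (s * u e.1 * (1 / 2) ^ ((e.1 : ℕ) + 1) *
      ∏ r, lift d t (φ x) (e.2 r))
  let pe' : (GI P d → ℝ) → X → ℝ := fun h x =>
    ∑ e : GI P d, h e * (s * u e.1 * (1 / 2) ^ ((e.1 : ℕ) + 1) * ∏ r, φ x (e.2 r))
  have hC : ∀ x, |f x| ≤ C := hf.b0
  -- integrability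
  have iA := integrable_fr hfm hC M P s u hV (fun x => lift d t (φ x))
  have iC := integrable_fr hfm hC M P s u hV φ
  have ipe' : ∀ x, Integrable (fun h => pe' h x) (gM (GI P d)) := by
    intro x
    refine integrable_finsetSum _ fun e _ => ?_
    refine Integrable.mul_const ?_ _
    exact integrable_comp_eval (μ := fun _ : GI P d => gaussianReal 0 1) (i := e)
      (f := fun y : ℝ => y)
      ((memLp_id_gaussianReal (μ := 0) (v := 1) 1).integrable le_rfl)
  have iEA : ∀ x, Integrable (fun g => EA g x) Pm := by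
    intro x
    refine Integrable.of_bound (C := M * C) ?_ (Eventually.of_forall fun g => ?_)
    · exact (Finset.measurable_sum _ fun a _ => hfm.comp (by fun_prop)).aestronglyMeasurable
    · refine (Finset.abs_sum_le_sum_abs _ _).trans
          ((Finset.sum_le_sum fun a _ => hC _).trans ?_)
      rw [Finset.sum_const, Finset.card_univ, Fintype.card_fin, nsmul_eq_mul]
  have iB : Integrable (fun z : (Fin M → Fin (d + 1) → ℝ) × (GI P d → ℝ) =>
      Real.log (∑ x, V x * Real.exp (EA z.1 x + pe' z.2 x))) (Pm.prod (gM (GI P d))) :=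
    Lin.integrable_logsum hV fun x => ((iEA x).comp_fst _).add ((ipe' x).comp_snd _)
  -- the perturbation
  have s1 : |fr f M P s u V (fun x => lift d t (φ x)) -
      ∫ z : (Fin M → Fin (d + 1) → ℝ) × (GI P d → ℝ),
        Real.log (∑ x, V x * Real.exp (EA z.1 x + pe' z.2 x)) ∂(Pm.prod (gM (GI P d)))| ≤
      2 * (s ^ 2 * t ^ 2) := by
    unfold fr
    rw [integral_prod _ iA, integral_prod _ iB,
      ← integral_sub iA.integral_prod_left iB.integral_prod_left]
    have hb : ∀ g : Fin M → Fin (d + 1) → ℝ,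
        ‖(∫ h, Real.log (∑ x, V x * Real.exp (en f s u g h (lift d t (φ x))))
            ∂(gM (GI P (d + 1)))) -
          ∫ h, Real.log (∑ x, V x * Real.exp (EA g x + pe' h x)) ∂(gM (GI P d))‖ ≤
          2 * (s ^ 2 * t ^ 2) := by
      intro g
      have := pert_height hs hu (V := fun x => V x * Real.exp (EA g x))
        (fun x => mul_pos (hV x) (Real.exp_pos _)) hφ ht
      simp_rw [mul_assoc (V _), ← Real.exp_add] at this
      exact this
    have := norm_integral_le_of_norm_le_const (μ := Pm) (Filter.Eventually.of_forall hb)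
    simpa only [ge_iff_le, Real.norm_eq_abs, probReal_univ, mul_one] using this
  -- the patterns
  have s2 : |(∫ z : (Fin M → Fin (d + 1) → ℝ) × (GI P d → ℝ),
        Real.log (∑ x, V x * Real.exp (EA z.1 x + pe' z.2 x)) ∂(Pm.prod (gM (GI P d)))) -
      fr f M P s u V φ| ≤ M * (D * t ^ 2) := by
    unfold fr
    rw [integral_prod_symm _ iB, integral_prod_symm _ iC,
      ← integral_sub iB.integral_prod_right iC.integral_prod_right]
    have hb : ∀ h : GI P d → ℝ,
        ‖(∫ g, Real.log (∑ x, V x * Real.exp (EA g x + pe' h x)) ∂Pm) -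
          ∫ g, Real.log (∑ x, V x * Real.exp (en f s u g h (φ x))) ∂Pm'‖ ≤
          M * (D * t ^ 2) := by
      intro h
      have hmp := measurePreserving_pi (fun _ : Fin M => gM (Fin (d + 1)))
        (fun _ : Fin M => gM (Fin d)) (fun _ => sphc3_mp2 d)
      have mC : Measurable fun g : Fin M → Fin d → ℝ =>
          Real.log (∑ x, V x * Real.exp (EC g x + pe' h x)) := by
        refine Real.measurable_log.comp (Finset.measurable_sum _ fun y _ =>
          (Real.measurable_exp.comp ?_).const_mul _)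
        exact (Finset.measurable_sum _ fun a _ => hfm.comp (by fun_prop)).add measurable_const
      have e3 : ∫ g, Real.log (∑ x, V x * Real.exp (en f s u g h (φ x))) ∂Pm' =
          ∫ g, Real.log (∑ x, V x * Real.exp (EB g x + pe' h x)) ∂Pm := by
        have := integral_map (μ := Pm) hmp.measurable.aemeasurable
          (f := fun g : Fin M → Fin d → ℝ =>
            Real.log (∑ x, V x * Real.exp (EC g x + pe' h x))) mC.aestronglyMeasurable
        rw [hmp.map_eq] at this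
        exact this
      rw [e3]
      have := Lin.replace_many (gM (Fin (d + 1)))
        (x := fun g y => f (∑ i, g i * lift d t (φ y) i))
        (z := fun g y => f (∑ i : Fin d, g i.castSucc * φ y i))
        (fun y => Integrable.of_bound (C := C)
          (hfm.comp (by fun_prop)).aestronglyMeasurable (Eventually.of_forall fun g => hC _))
        (fun y => Integrable.of_bound (C := C)
          (hfm.comp (by fun_prop)).aestronglyMeasurable (Eventually.of_forall fun g => hC _))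
        (ε := D * t ^ 2) (fun w hw => hD d X φ hφ t ht w hw) M
        (fun x => V x * Real.exp (pe' h x)) (fun x => mul_pos (hV x) (Real.exp_pos _))
      simp_rw [mul_assoc (V _), ← Real.exp_add, add_comm (pe' h _)] at this
      exact this
    have := norm_integral_le_of_norm_le_const (μ := gM (GI P d)) (Filter.Eventually.of_forall hb)
    simpa only [ge_iff_le, Real.norm_eq_abs, probReal_univ, mul_one] using this
  have h3 := abs_sub_le (fr f M P s u V (fun x => lift d t (φ x)))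
    (∫ z : (Fin M → Fin (d + 1) → ℝ) × (GI P d → ℝ),
        Real.log (∑ x, V x * Real.exp (EA z.1 x + pe' z.2 x)) ∂(Pm.prod (gM (GI P d))))
    (fr f M P s u V φ)
  have t2 : 0 ≤ t ^ 2 := sq_nonneg t
  have hM : (0 : ℝ) ≤ M := Nat.cast_nonneg M
  have s20 : 0 ≤ s ^ 2 := sq_nonneg s
  linarith only [s1, s2, h3, mul_nonneg hM t2, mul_nonneg (mul_nonneg hD0 s20) t2]

end Vale.Agent.P157.Sph
end

section

/-! The systems of the nets. -/

open MeasureTheory ProbabilityTheory Filter Topology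
open scoped RealInnerProductSpace

namespace Vale.Agent.P157.Sph

open Par

open Vale.Agent.P367.GT (gM)

set_option linter.unusedSectionVars false

section Net

variable {d : ℕ} (A : Net d) {f : ℝ → ℝ} (hf : Measurable f) {C : ℝ} (hC : ∀ x, |f x| ≤ C)
  (M P : ℕ) (s : ℝ) (u : Fin P → ℝ)

lemma sphsys_gen (ω : Fin M → Fin d → ℝ) (g : GI P d → ℝ) (x : A.X) :
    gen ((A.base f hf C hC M).H ω) ((A.base f hf C hC M).coef P s u) g x =
      Real.log (A.w x) + en f s u ω g (A.φ x) := by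
  change ∑ a, f (∑ i, ω a i * A.φ x i) + Real.log (A.w x) +
    ∑ e : GI P d, g e * (s * u e.1 * (1 / 2) ^ ((e.1 : ℕ) + 1) * ∏ r, A.φ x (e.2 r)) = _
  unfold en
  ring

lemma sphsys_exp (ω : Fin M → Fin d → ℝ) (g : GI P d → ℝ) (x : A.X) :
    Real.exp (gen ((A.base f hf C hC M).H ω) ((A.base f hf C hC M).coef P s u) g x) =
      A.w x * Real.exp (en f s u ω g (A.φ x)) := by
  rw [sphsys_gen, Real.exp_add, Real.exp_log (A.w0 x)]

/-- The free energy of a net. -/
theorem Net.elz_eq : (A.base f hf C hC M).elz s u = fr f M P s u A.w A.φ :=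
  integral_congr_ae (Filter.Eventually.of_forall fun z =>
    congrArg Real.log (Finset.sum_congr rfl fun y _ => sphsys_exp A hf hC M P s u z.1 z.2 y))

/-- The Gibbs weights of a net. -/
theorem Net.w_eq (z : (Fin M → Fin d → ℝ) × (GI P d → ℝ)) (x : A.X) :
    ((A.base f hf C hC M).sys P s u).w z x =
      A.w x * Real.exp (en f s u z.1 z.2 (A.φ x)) /
        ∑ y, A.w y * Real.exp (en f s u z.1 z.2 (A.φ y)) := by
  have h1 : ((A.base f hf C hC M).sys P s u).w z x =
      Real.exp (gen ((A.base f hf C hC M).H z.1) ((A.base f hf C hC M).coef P s u) z.2 x) /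
        ∑ y : A.X, Real.exp (gen ((A.base f hf C hC M).H z.1)
          ((A.base f hf C hC M).coef P s u) z.2 y) := rfl
  rw [h1]
  have h2 := sphsys_exp A hf hC M P s u z.1 z.2
  simp_rw [h2]

include hf hC in
lemma sphsys_int_f {Ω : Type} [MeasurableSpace Ω] {μ : Measure Ω} [IsFiniteMeasure μ]
    {g : Ω → Fin d → ℝ} (hg : Measurable g) (y : Ec d) :
    Integrable (fun ω => f (∑ i, g ω i * y i)) μ := by
  refine Integrable.mono' (integrable_const C) ?_ (Filter.Eventually.of_forall fun _ => hC _)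
  exact (hf.comp (by fun_prop)).aestronglyMeasurable

include hf hC in
lemma sphsys_int_en (y : Ec d) : Integrable
    (fun z : (Fin M → Fin d → ℝ) × (GI P d → ℝ) => en f s u z.1 z.2 y) (dis M P d) := by
  unfold en
  refine Integrable.add ?_ ?_
  · exact integrable_finsetSum _ fun a _ => sphsys_int_f hf hC (by fun_prop) y
  · exact integrable_finsetSum _ fun e _ => ((integrable_coord_gM e).comp_snd _).mul_const _

lemma sphsys_log_ratio {Y : Type} [Fintype Y] [Nonempty Y] (w : Y → ℝ) (hw : ∀ y, 0 < w y)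
    (E B : Y → ℝ) (hB : ∀ y, 0 < B y) :
    Real.log (∑ y, w y * Real.exp (E y) * B y) = Real.log (∑ y, w y * Real.exp (E y)) +
      Real.log (∑ y, w y * Real.exp (E y) / (∑ y', w y' * Real.exp (E y')) * B y) := by
  have h := Cube.log_ratio (fun y => Real.log (w y) + E y) B hB
  simp_rw [Real.exp_add, fun y => Real.exp_log (hw y)] at h
  exact h

/-- One more pattern. -/
theorem Net.pattern_increment :
    (A.base f hf C hC (M + 1)).elz s u - (A.base f hf C hC M).elz s u =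
      ((A.base f hf C hC M).sys P s u).dM f := by
  set μ := gM (Fin d) with hμ
  set ν := gM (GI P d) with hν
  set pm : Measure (Fin M → Fin d → ℝ) := Measure.pi fun _ => μ with hpm
  set pm1 : Measure (Fin (M + 1) → Fin d → ℝ) := Measure.pi fun _ => μ with hpm1
  -- the rearrangement of the variables
  have mp1 : MeasurePreserving (fun z : (Fin (M + 1) → Fin d → ℝ) × (GI P d → ℝ) =>
      ((MeasurableEquiv.piFinSuccAbove (fun _ => Fin d → ℝ) 0 z.1, z.2) :
        ((Fin d → ℝ) × (Fin M → Fin d → ℝ)) × (GI P d → ℝ)))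
      (pm1.prod ν) ((μ.prod pm).prod ν) :=
    (measurePreserving_piFinSuccAbove (fun _ : Fin (M + 1) => μ) 0).prod (MeasurePreserving.id ν)
  have mp2 := measurePreserving_prodAssoc μ pm ν
  have mp3 := Measure.measurePreserving_swap (μ := μ) (ν := pm.prod ν)
  have mp := mp3.comp (mp2.comp mp1)
  have hF : Integrable (fun z : ((Fin M → Fin d → ℝ) × (GI P d → ℝ)) × (Fin d → ℝ) =>
      Real.log (∑ y, A.w y * Real.exp (en f s u z.1.1 z.1.2 (A.φ y) +
        f (∑ i, z.2 i * A.φ y i)))) ((pm.prod ν).prod μ) := by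
    refine Lin.integrable_logsum A.w0 fun y => ?_
    refine Integrable.add ((sphsys_int_en hf hC M P s u (A.φ y)).comp_fst _) ?_
    exact sphsys_int_f hf hC (by fun_prop) (A.φ y)
  have e1 : (A.base f hf C hC (M + 1)).elz s u = ∫ z, Real.log (∑ y, A.w y * Real.exp
        (en f s u z.1.1 z.1.2 (A.φ y) + f (∑ i, z.2 i * A.φ y i))) ∂((pm.prod ν).prod μ) := by
    rw [← mp.map_eq, integral_map mp.measurable.aemeasurable
      (by rw [mp.map_eq]; exact hF.aestronglyMeasurable), Net.elz_eq]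
    refine integral_congr_ae (Filter.Eventually.of_forall fun z => ?_)
    change Real.log (∑ y, A.w y * Real.exp (en f s u z.1 z.2 (A.φ y))) =
      Real.log (∑ y : A.X, A.w y * Real.exp (en f s u (fun i => z.1 i.succ) z.2 (A.φ y) +
        f (∑ i, z.1 0 i * A.φ y i)))
    congr 1
    refine Finset.sum_congr rfl fun y _ => ?_
    congr 2
    unfold en
    rw [Fin.sum_univ_succ]
    ring
  have hlz : Integrable (fun z : (Fin M → Fin d → ℝ) × (GI P d → ℝ) =>
      Real.log (∑ y, A.w y * Real.exp (en f s u z.1 z.2 (A.φ y)))) (pm.prod ν) :=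
    Lin.integrable_logsum A.w0 fun y => sphsys_int_en hf hC M P s u (A.φ y)
  have e2 : (A.base f hf C hC M).elz s u = ∫ z : ((Fin M → Fin d → ℝ) ×
      (GI P d → ℝ)) × (Fin d → ℝ),
      Real.log (∑ y, A.w y * Real.exp (en f s u z.1.1 z.1.2 (A.φ y))) ∂((pm.prod ν).prod μ) := by
    rw [integral_fun_fst (μ := pm.prod ν) (ν := μ)
      (fun z => Real.log (∑ y, A.w y * Real.exp (en f s u z.1 z.2 (A.φ y)))), Net.elz_eq]
    simp only [fr, hμ, probReal_univ, hpm, hν, smul_eq_mul, one_mul]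
  rw [e1, e2, ← integral_sub hF (hlz.comp_fst _)]
  change _ = ∫ z : ((Fin M → Fin d → ℝ) × (GI P d → ℝ)) × (Fin d → ℝ),
    Real.log (∑ x : A.X, ((A.base f hf C hC M).sys P s u).w z.1 x *
      Real.exp (f (∑ i, z.2 i * A.φ x i))) ∂((pm.prod ν).prod μ)
  refine integral_congr_ae (Filter.Eventually.of_forall fun z => ?_)
  have h := sphsys_log_ratio A.w A.w0 (fun y => en f s u z.1.1 z.1.2 (A.φ y))
    (fun y => Real.exp (f (∑ i, z.2 i * A.φ y i))) fun y => Real.exp_pos _
  simp only [Net.w_eq]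
  simp_rw [mul_assoc, ← Real.exp_add] at h
  rw [h]
  ring

/-- Concentration with respect to the patterns. -/
theorem Net.conc : (A.base f hf C hC M).Conc (M * (2 * C) ^ 2) := by
  refine conc_patBase _ _ _ _ _ _ _ _ fun ω a e x => ?_
  have h1 : ∀ η : Fin M → Fin d → ℝ, ∑ b, f (∑ i, η b i * A.φ x i) =
      f (∑ i, η a i * A.φ x i) + ∑ b ∈ Finset.univ.erase a, f (∑ i, η b i * A.φ x i) := fun η =>
    (Finset.add_sum_erase _ _ (Finset.mem_univ a)).symm
  rw [h1, h1]
  have h2 : ∑ b ∈ Finset.univ.erase a, f (∑ i, (Function.update ω a e) b i * A.φ x i) =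
      ∑ b ∈ Finset.univ.erase a, f (∑ i, ω b i * A.φ x i) :=
    Finset.sum_congr rfl fun b hb => by
      rw [Function.update_of_ne (Finset.ne_of_mem_erase hb)]
  rw [h2, add_sub_add_right_eq_sub, add_sub_add_right_eq_sub]
  refine (abs_sub _ _).trans ?_
  linarith [hC (∑ i, (Function.update ω a e) a i * A.φ x i), hC (∑ i, ω a i * A.φ x i)]

/-- The increment of the free energy for a window in a Gaussian direction. -/
theorem Net.window_increment {V : ℝ → ℝ} (hV : Measurable V) {a : ℝ} (ha : 0 < a)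
    (hVa : ∀ x, a ≤ V x) (hV1 : ∀ x, V x ≤ 1) :
    (A.base f hf C hC M).elz s u +
      ((A.base f hf C hC M).sys P s u).dM (fun x => Real.log (V x)) =
    ∫ ζ, fr f M P s u (fun x => A.w x * V (∑ i, ζ i * A.φ x i)) A.φ ∂(gM (Fin d)) := by
  have hV0 : ∀ x, 0 < V x := fun x => ha.trans_le (hVa x)
  have hlV : ∀ x, |Real.log (V x)| ≤ |Real.log a| := by
    intro x
    have h1 : Real.log (V x) ≤ 0 := Real.log_nonpos (hV0 x).le (hV1 x)
    have h2 : Real.log a ≤ Real.log (V x) := Real.log_le_log ha (hVa x)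
    rw [abs_of_nonpos h1, abs_of_nonpos (h2.trans h1)]
    linarith only [h2]
  have hlm : Measurable fun x => Real.log (V x) := Real.measurable_log.comp hV
  set μ := gM (Fin d) with hμ
  set ν := gM (GI P d) with hν
  set pm : Measure (Fin M → Fin d → ℝ) := Measure.pi fun _ => μ with hpm
  have hF : Integrable (fun z : ((Fin M → Fin d → ℝ) × (GI P d → ℝ)) × (Fin d → ℝ) =>
      Real.log (∑ y, A.w y * Real.exp (en f s u z.1.1 z.1.2 (A.φ y) +
        Real.log (V (∑ i, z.2 i * A.φ y i))))) ((pm.prod ν).prod μ) := by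
    refine Lin.integrable_logsum A.w0 fun y => ?_
    refine Integrable.add ((sphsys_int_en hf hC M P s u (A.φ y)).comp_fst _) ?_
    exact sphsys_int_f hlm hlV (by fun_prop) (A.φ y)
  have hlz : Integrable (fun z : (Fin M → Fin d → ℝ) × (GI P d → ℝ) =>
      Real.log (∑ y, A.w y * Real.exp (en f s u z.1 z.2 (A.φ y)))) (pm.prod ν) :=
    Lin.integrable_logsum A.w0 fun y => sphsys_int_en hf hC M P s u (A.φ y)
  have e2 : (A.base f hf C hC M).elz s u = ∫ z : ((Fin M → Fin d → ℝ) ×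
      (GI P d → ℝ)) × (Fin d → ℝ),
      Real.log (∑ y, A.w y * Real.exp (en f s u z.1.1 z.1.2 (A.φ y))) ∂((pm.prod ν).prod μ) := by
    rw [integral_fun_fst (μ := pm.prod ν) (ν := μ)
      (fun z => Real.log (∑ y, A.w y * Real.exp (en f s u z.1 z.2 (A.φ y)))), Net.elz_eq]
    simp only [fr, hμ, probReal_univ, hpm, hν, smul_eq_mul, one_mul]
  have e3 : ((A.base f hf C hC M).sys P s u).dM (fun x => Real.log (V x)) =
      ∫ z : ((Fin M → Fin d → ℝ) × (GI P d → ℝ)) × (Fin d → ℝ),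
        (Real.log (∑ y, A.w y * Real.exp (en f s u z.1.1 z.1.2 (A.φ y) +
          Real.log (V (∑ i, z.2 i * A.φ y i)))) -
        Real.log (∑ y, A.w y * Real.exp (en f s u z.1.1 z.1.2 (A.φ y))))
        ∂((pm.prod ν).prod μ) := by
    change ∫ z : ((Fin M → Fin d → ℝ) × (GI P d → ℝ)) × (Fin d → ℝ),
      Real.log (∑ x : A.X, ((A.base f hf C hC M).sys P s u).w z.1 x *
        Real.exp (Real.log (V (∑ i, z.2 i * A.φ x i)))) ∂((pm.prod ν).prod μ) = _
    refine integral_congr_ae (Filter.Eventually.of_forall fun z => ?_)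
    have h := sphsys_log_ratio A.w A.w0 (fun y => en f s u z.1.1 z.1.2 (A.φ y))
      (fun y => Real.exp (Real.log (V (∑ i, z.2 i * A.φ y i)))) fun y => Real.exp_pos _
    simp only [Net.w_eq]
    simp_rw [mul_assoc, ← Real.exp_add] at h
    rw [h]
    ring
  rw [e2, e3, integral_sub hF (hlz.comp_fst _), add_sub_cancel, integral_prod_symm _ hF]
  refine integral_congr_ae (Filter.Eventually.of_forall fun ζ => ?_)
  change ∫ z : (Fin M → Fin d → ℝ) × (GI P d → ℝ), Real.log (∑ y, A.w y * Real.exp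
      (en f s u z.1 z.2 (A.φ y) + Real.log (V (∑ i, ζ i * A.φ y i)))) ∂(pm.prod ν) =
    ∫ z : (Fin M → Fin d → ℝ) × (GI P d → ℝ), Real.log (∑ y, A.w y * V (∑ i, ζ i * A.φ y i) *
      Real.exp (en f s u z.1 z.2 (A.φ y))) ∂(pm.prod ν)
  refine integral_congr_ae (Filter.Eventually.of_forall fun z => ?_)
  change Real.log (∑ y, A.w y * Real.exp
      (en f s u z.1 z.2 (A.φ y) + Real.log (V (∑ i, ζ i * A.φ y i)))) =
    Real.log (∑ y, A.w y * V (∑ i, ζ i * A.φ y i) * Real.exp (en f s u z.1 z.2 (A.φ y)))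
  congr 1
  refine Finset.sum_congr rfl fun y _ => ?_
  rw [Real.exp_add, Real.exp_log (hV0 _)]
  ring

end Net

end Vale.Agent.P157.Sph
end

section

/-! The increment of the free energy with the dimension, for a window in a fixed direction. -/

open MeasureTheory ProbabilityTheory Filter Topology
open scoped RealInnerProductSpace

namespace Vale.Agent.P157.Sph

open Par

open Vale.Agent.P367.GT (gM)

set_option linter.unusedSectionVars false

/-- A linear isometry whose last coordinate is the scalar product with a given unit vector. -/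
lemma sphinc_iso {d : ℕ} {v : Ec (d + 1)} (hv : ‖v‖ = 1) :
    ∃ O : Ec (d + 1) ≃ₗᵢ[ℝ] Ec (d + 1), ∀ y, O y (Fin.last d) = ⟪v, y⟫ := by
  let e : Ec (d + 1) := EuclideanSpace.single (Fin.last d) (1 : ℝ)
  have he : ‖v‖ = ‖e‖ := by
    rw [hv]; simp [e]
  refine ⟨(Submodule.span ℝ {v - e})ᗮ.reflection, fun y => ?_⟩
  have h1 : (Submodule.span ℝ {v - e})ᗮ.reflection v = e := Submodule.reflection_sub he
  rw [← LinearIsometryEquiv.inner_map_map ((Submodule.span ℝ {v - e})ᗮ.reflection) v y, h1]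
  simp [e, EuclideanSpace.inner_single_left]

/-- Bound of a log-partition function. -/
lemma sphinc_log {X : Type} [Fintype X] {w h : X → ℝ} (w0 : ∀ x, 0 < w x) (w1 : ∑ x, w x = 1)
    {B : ℝ} (hB : ∀ x, |h x| ≤ B) : |Real.log (∑ x, w x * Real.exp (h x))| ≤ B := by
  have h1 : Real.exp (-B) ≤ ∑ x, w x * Real.exp (h x) := by
    calc Real.exp (-B) = ∑ x, w x * Real.exp (-B) := by rw [← Finset.sum_mul, w1, one_mul]
      _ ≤ _ := Finset.sum_le_sum fun x _ => mul_le_mul_of_nonneg_left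
          (Real.exp_le_exp.2 (abs_le.1 (hB x)).1) (w0 x).le
  have h2 : ∑ x, w x * Real.exp (h x) ≤ Real.exp B := by
    calc _ ≤ ∑ x, w x * Real.exp B := Finset.sum_le_sum fun x _ => mul_le_mul_of_nonneg_left
          (Real.exp_le_exp.2 (abs_le.1 (hB x)).2) (w0 x).le
      _ = Real.exp B := by rw [← Finset.sum_mul, w1, one_mul]
  have h0 : 0 < ∑ x, w x * Real.exp (h x) := (Real.exp_pos _).trans_le h1
  rw [abs_le]
  exact ⟨(Real.le_log_iff_exp_le h0).2 h1, (Real.log_le_iff_le_exp h0).2 h2⟩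

/-- Bound of the energy on the unit sphere. -/
lemma sphinc_en {C : ℝ} {f : ℝ → ℝ} (hC : ∀ x, |f x| ≤ C) {d M P : ℕ} {s : ℝ} (hs : 0 ≤ s)
    {u : Fin P → ℝ} (hu : ∀ q, 0 ≤ u q ∧ u q ≤ 2) (g : Fin M → Fin d → ℝ) (h : GI P d → ℝ)
    {y : Ec d} (hy : ‖y‖ = 1) :
    |en f s u g h y| ≤ M * C + ∑ e : GI P d, |h e| * (2 * s) := by
  unfold en
  refine (abs_add_le _ _).trans (add_le_add ?_ ?_)
  · refine (Finset.abs_sum_le_sum_abs _ _).trans ((Finset.sum_le_sum fun a _ => hC _).trans ?_)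
    rw [Finset.sum_const, Finset.card_univ, Fintype.card_fin, nsmul_eq_mul]
  · refine (Finset.abs_sum_le_sum_abs _ _).trans (Finset.sum_le_sum fun e _ => ?_)
    rw [abs_mul]
    refine mul_le_mul_of_nonneg_left ?_ (abs_nonneg _)
    have h1 : |∏ r, y (e.2 r)| ≤ 1 := by
      rw [Finset.abs_prod]
      refine Finset.prod_le_one (fun _ _ => abs_nonneg _) fun r _ => ?_
      have := PiLp.norm_apply_le y (e.2 r)
      rw [Real.norm_eq_abs, hy] at this
      exact this
    have h2 : (1 / 2 : ℝ) ^ ((e.1 : ℕ) + 1) ≤ 1 := pow_le_one₀ (by (clear * -; norm_num)) (by norm_num)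
    have h3 : (0 : ℝ) ≤ (1 / 2 : ℝ) ^ ((e.1 : ℕ) + 1) := by positivity
    rw [abs_mul, abs_mul, abs_mul, abs_of_nonneg hs, abs_of_nonneg (hu e.1).1, abs_of_nonneg h3]
    have h4 : s * u e.1 ≤ 2 * s := by nlinarith only [hs, (hu e.1).2]
    have h5 : 0 ≤ s * u e.1 := mul_nonneg hs (hu e.1).1
    calc s * u e.1 * (1 / 2) ^ ((e.1 : ℕ) + 1) * |∏ r, y (e.2 r)|
        ≤ s * u e.1 * (1 / 2) ^ ((e.1 : ℕ) + 1) * 1 :=
          mul_le_mul_of_nonneg_left h1 (mul_nonneg h5 h3)
      _ ≤ s * u e.1 * 1 * 1 := by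
          simpa only [one_div, inv_pow, mul_one] using mul_le_mul_of_nonneg_left h2 h5
      _ ≤ 2 * s := by linarith only [h4]

/-- The increment for one more dimension, for a window in a fixed direction. -/
theorem increment_dir {C : ℝ} {f f1 f2 f3 : ℝ → ℝ} (hf : CB3 C f f1 f2 f3)
    (hfm : Measurable f) :
    ∃ D : ℝ, 0 ≤ D ∧ ∀ (d : ℕ) [NeZero d] (A : Net (d + 1)) (A' : Net d) (κ κ' : ℝ), 0 ≤ κ →
      0 ≤ κ' → A.Close κ → A'.Close κ' → ∀ (M P : ℕ) (s : ℝ) (u : Fin P → ℝ), 0 ≤ s →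
      (∀ q, 0 ≤ u q ∧ u q ≤ 2) → ∀ (V : ℝ → ℝ) (a L : ℝ), Continuous V → 0 < a → 0 ≤ L →
      (∀ x, a ≤ V x) → (∀ x, V x ≤ 1) →
      (∀ x y, |Real.log (V x) - Real.log (V y)| ≤ L * |x - y|) →
      ∀ v : Ec (d + 1), ‖v‖ = 1 →
      Real.log (∫ t, V t ∂(ht d)) + fr f M P s u A'.w A'.φ -
        D * (M + s ^ 2) * ((∫ t, V t * t ^ 2 ∂(ht d)) / ∫ t, V t ∂(ht d)) -
        κ * (lb C (d + 1) M P s + L) - κ' * lb C (d + 1) M P s ≤
      fr f M P s u (fun x => A.w x * V ⟪v, A.φ x⟫) A.φ := by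
  obtain ⟨D, hD, hDl⟩ := fr_lift hf hfm
  refine ⟨D, hD, ?_⟩
  intro d _ A A' κ κ' hκ hκ' hA hA' M P s u hs hu V a L hVc ha hL hVa hV1 hVL v hv
  obtain ⟨O, hO⟩ := sphinc_iso hv
  obtain ⟨Λ, hΛ0, hΛi, hΛb, hΛl⟩ := lip_en hf (d := d + 1) M P hs hu
  have hfc : Continuous f := continuous_iff_continuousAt.2 fun x => (hf.d1 x).continuousAt
  set F : ((Fin M → Fin (d + 1) → ℝ) × (GI P (d + 1) → ℝ)) → ℝ → ℝ := fun z t =>
    Real.log (∑ x, A'.w x * Real.exp (en f s u z.1 z.2 (lift d t (A'.φ x)))) with hF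
  have hVpos : ∀ t, 0 < V t := fun t => ha.trans_le (hVa t)
  -- integrability with respect to the height
  have hVi : Integrable V (ht d) :=
    Integrable.of_bound hVc.aestronglyMeasurable 1 (ae_of_all _ fun t => by
      rw [Real.norm_eq_abs, abs_of_pos (hVpos t)]; exact hV1 t)
  have hIa : a ≤ ∫ t, V t ∂(ht d) := by
    have := integral_mono (μ := ht d) (integrable_const a) hVi hVa
    simpa only [ge_iff_le, integral_const, probReal_univ, smul_eq_mul, one_mul] using this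
  have hI : 0 < ∫ t, V t ∂(ht d) := ha.trans_le hIa
  have hV2 : Integrable (fun t => V t * t ^ 2) (ht d) := by
    refine Integrable.of_bound (hVc.mul (continuous_pow 2)).aestronglyMeasurable 1 ?_
    filter_upwards [ht_abs d] with t h1
    rw [Real.norm_eq_abs, abs_mul, abs_of_pos (hVpos t), abs_pow]
    have h2 : |t| ^ 2 ≤ 1 := pow_le_one₀ (abs_nonneg _) h1
    have h3 : 0 ≤ |t| ^ 2 := by (clear * -; positivity)
    calc V t * |t| ^ 2 ≤ 1 * 1 := mul_le_mul (hV1 t) h2 h3 zero_le_one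
      _ = 1 := one_mul _
  -- joint integrability
  have hFm : Measurable fun p : ((Fin M → Fin (d + 1) → ℝ) × (GI P (d + 1) → ℝ)) × ℝ =>
      V p.2 * F p.1 p.2 := by
    refine (hVc.measurable.comp measurable_snd).mul ?_
    refine Real.measurable_log.comp ?_
    refine Continuous.measurable ?_
    refine continuous_finsetSum _ fun x _ => continuous_const.mul (Real.continuous_exp.comp ?_)
    have hl : ∀ i, Continuous fun p : ((Fin M → Fin (d + 1) → ℝ) × (GI P (d + 1) → ℝ)) × ℝ =>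
        lift d p.2 (A'.φ x) i := fun i => by
      have h1 : Continuous fun p : ((Fin M → Fin (d + 1) → ℝ) × (GI P (d + 1) → ℝ)) × ℝ =>
          lift d p.2 (A'.φ x) :=
        (continuous_lift d).comp (continuous_snd.prodMk continuous_const)
      fun_prop
    unfold en
    refine (continuous_finsetSum _ fun b _ => hfc.comp
      (continuous_finsetSum _ fun i _ => ?_)).add
      (continuous_finsetSum _ fun e _ => ?_)
    · exact (by fun_prop : Continuous fun p : ((Fin M → Fin (d + 1) → ℝ) ×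
        (GI P (d + 1) → ℝ)) × ℝ => p.1.1 b i).mul (hl i)
    · exact (by fun_prop : Continuous fun p : ((Fin M → Fin (d + 1) → ℝ) ×
        (GI P (d + 1) → ℝ)) × ℝ => p.1.2 e).mul
        (continuous_const.mul (continuous_finsetProd _ fun r _ => hl _))
  have hdom : Integrable (fun z : (Fin M → Fin (d + 1) → ℝ) × (GI P (d + 1) → ℝ) =>
      M * C + ∑ e : GI P (d + 1), |z.2 e| * (2 * s)) (dis M P (d + 1)) := by
    refine (integrable_const _).add (integrable_finsetSum _ fun e _ => ?_)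
    exact (((integrable_coord_gM e).abs).mul_const (2 * s)).comp_snd _
  have hJ : Integrable (fun p : ((Fin M → Fin (d + 1) → ℝ) × (GI P (d + 1) → ℝ)) × ℝ =>
      V p.2 * F p.1 p.2) ((dis M P (d + 1)).prod (ht d)) := by
    refine Integrable.mono' (hdom.comp_fst (ht d)) hFm.aestronglyMeasurable ?_
    have h1 : ∀ᵐ p ∂((dis M P (d + 1)).prod (ht d)), |p.2| ≤ 1 :=
      Measure.quasiMeasurePreserving_snd.ae (ht_abs d)
    filter_upwards [h1] with p hp
    rw [Real.norm_eq_abs, abs_mul, abs_of_pos (hVpos p.2)]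
    have h2 : |F p.1 p.2| ≤ M * C + ∑ e : GI P (d + 1), |p.1.2 e| * (2 * s) :=
      sphinc_log A'.w0 A'.w1 fun x => sphinc_en hf.b0 hs hu _ _ (norm_lift hp (A'.hφ x))
    calc V p.2 * |F p.1 p.2| ≤ 1 * |F p.1 p.2| :=
          mul_le_mul_of_nonneg_right (hV1 _) (abs_nonneg _)
      _ ≤ _ := by rw [one_mul]; exact h2
  -- the inequality for each disorder
  have hz : ∀ z : (Fin M → Fin (d + 1) → ℝ) × (GI P (d + 1) → ℝ),
      Real.log (∫ t, V t ∂(ht d)) + (∫ t, V t * F z t ∂(ht d)) / (∫ t, V t ∂(ht d)) -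
        κ * (Λ z + L) - κ' * Λ z ≤
      Real.log (∑ x, (A.w x * V ⟪v, A.φ x⟫) * Real.exp (en f s u z.1 z.2 (O (A.φ x)))) := by
    intro z
    have := net_slice hA hA' hVc ha hL hVa hV1 hVL O (continuous_en hfc s u z.1 z.2) (hΛ0 z)
      (hΛl z)
    simp only [hO] at this
    simpa only [mul_assoc] using this
  have hG : fr f M P s u (fun x => A.w x * V ⟪v, A.φ x⟫) A.φ =
      fr f M P s u (fun x => A.w x * V ⟪v, A.φ x⟫) (fun x => O (A.φ x)) :=
    fr_gram hfm s u _ _ _ fun x y => (LinearIsometryEquiv.inner_map_map O _ _).symm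
  have hRi := integrable_fr hfm hf.b0 M P s u (V := fun x => A.w x * V ⟪v, A.φ x⟫)
    (fun x => mul_pos (A.w0 x) (hVpos _)) (fun x => O (A.φ x))
  have hJl : Integrable (fun z => ∫ t, V t * F z t ∂(ht d)) (dis M P (d + 1)) :=
    hJ.integral_prod_left
  have hLi : Integrable (fun z => Real.log (∫ t, V t ∂(ht d)) +
      (∫ t, V t * F z t ∂(ht d)) / (∫ t, V t ∂(ht d)) -
        κ * (Λ z + L) - κ' * Λ z) (dis M P (d + 1)) :=
    ((((integrable_const _).add (hJl.div_const _)).sub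
      ((hΛi.add (integrable_const _)).const_mul κ)).sub (hΛi.const_mul κ'))
  have hmain := integral_mono hLi hRi hz
  have e1 : ∫ z, (Real.log (∫ t, V t ∂(ht d)) +
      (∫ t, V t * F z t ∂(ht d)) / (∫ t, V t ∂(ht d)) -
        κ * (Λ z + L) - κ' * Λ z) ∂(dis M P (d + 1)) =
      Real.log (∫ t, V t ∂(ht d)) +
      (∫ z, (∫ t, V t * F z t ∂(ht d)) ∂(dis M P (d + 1))) / (∫ t, V t ∂(ht d)) -
        κ * ((∫ z, Λ z ∂(dis M P (d + 1))) + L) - κ' * ∫ z, Λ z ∂(dis M P (d + 1)) := by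
    have i1 : Integrable (fun z => Real.log (∫ t, V t ∂(ht d)) +
        (∫ t, V t * F z t ∂(ht d)) / (∫ t, V t ∂(ht d))) (dis M P (d + 1)) :=
      (integrable_const _).add (hJl.div_const _)
    have i2 : Integrable (fun z => κ * (Λ z + L)) (dis M P (d + 1)) :=
      (hΛi.add (integrable_const _)).const_mul κ
    have i3 : Integrable (fun z => Real.log (∫ t, V t ∂(ht d)) +
        (∫ t, V t * F z t ∂(ht d)) / (∫ t, V t ∂(ht d)) - κ * (Λ z + L)) (dis M P (d + 1)) :=
      i1.sub i2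
    rw [integral_sub i3 (hΛi.const_mul κ'), integral_sub i1 i2,
      integral_add (integrable_const _) (hJl.div_const _), integral_div, integral_const_mul,
      integral_const_mul, integral_add hΛi (integrable_const _)]
    simp only [integral_const, probReal_univ, smul_eq_mul, one_mul]
  -- Fubini
  have e2 : ∫ z, (∫ t, V t * F z t ∂(ht d)) ∂(dis M P (d + 1)) =
      ∫ t, V t * fr f M P s u A'.w (fun x => lift d t (A'.φ x)) ∂(ht d) := by
    rw [integral_integral_swap hJ]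
    refine integral_congr_ae (ae_of_all _ fun t => ?_)
    simp only
    rw [integral_const_mul]
    rfl
  have hJr : Integrable (fun t => V t * fr f M P s u A'.w (fun x => lift d t (A'.φ x)))
      (ht d) := by
    have := hJ.integral_prod_right
    refine this.congr (ae_of_all _ fun t => ?_)
    simp only
    rw [integral_const_mul]
    rfl
  have e3 : (∫ t, V t ∂(ht d)) * fr f M P s u A'.w A'.φ -
      D * (M + s ^ 2) * (∫ t, V t * t ^ 2 ∂(ht d)) ≤
      ∫ t, V t * fr f M P s u A'.w (fun x => lift d t (A'.φ x)) ∂(ht d) := by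
    have h1 : (∫ t, V t ∂(ht d)) * fr f M P s u A'.w A'.φ -
        D * (M + s ^ 2) * (∫ t, V t * t ^ 2 ∂(ht d)) =
        ∫ t, (V t * fr f M P s u A'.w A'.φ - D * (M + s ^ 2) * (V t * t ^ 2)) ∂(ht d) := by
      rw [integral_sub (hVi.mul_const _) (hV2.const_mul _), integral_mul_const,
        integral_const_mul]
    rw [h1]
    refine integral_mono_ae ((hVi.mul_const _).sub (hV2.const_mul _)) hJr ?_
    filter_upwards [ht_abs d] with t h2
    have h3 := (abs_le.1 (hDl d M P s u A'.X A'.w A'.φ hs hu A'.w0 A'.hφ t h2)).1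
    have h4 := mul_le_mul_of_nonneg_left h3 (hVpos t).le
    linarith only [h4]
  rw [hG]
  have h5 : κ * ((∫ z, Λ z ∂(dis M P (d + 1))) + L) ≤ κ * (lb C (d + 1) M P s + L) :=
    mul_le_mul_of_nonneg_left (by linarith only [hΛb]) hκ
  have h6 : κ' * (∫ z, Λ z ∂(dis M P (d + 1))) ≤ κ' * lb C (d + 1) M P s :=
    mul_le_mul_of_nonneg_left hΛb hκ'
  have h7 : fr f M P s u A'.w A'.φ - D * (M + s ^ 2) *
      ((∫ t, V t * t ^ 2 ∂(ht d)) / ∫ t, V t ∂(ht d)) ≤
      (∫ t, V t * fr f M P s u A'.w (fun x => lift d t (A'.φ x)) ∂(ht d)) /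
        (∫ t, V t ∂(ht d)) := by
    rw [le_div_iff₀ hI]
    have h8 : (fr f M P s u A'.w A'.φ - D * (M + s ^ 2) *
      ((∫ t, V t * t ^ 2 ∂(ht d)) / ∫ t, V t ∂(ht d))) * (∫ t, V t ∂(ht d)) =
      (∫ t, V t ∂(ht d)) * fr f M P s u A'.w A'.φ -
      D * (M + s ^ 2) * (∫ t, V t * t ^ 2 ∂(ht d)) := by
      (clear * - hI; field_simp)
    rw [h8]
    exact e3
  rw [e1, e2] at hmain
  have h9 : fr f M P s u (fun x => A.w x * V ⟪v, A.φ x⟫) (fun x => O (A.φ x)) =
    ∫ z, Real.log (∑ x, (A.w x * V ⟪v, A.φ x⟫) *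
      Real.exp (en f s u z.1 z.2 (O (A.φ x)))) ∂(dis M P (d + 1)) := rfl
  rw [h9]
  linarith only [hmain, h5, h6, h7]

end Vale.Agent.P157.Sph
end

section

set_option linter.all false

/-! The increment of the free energy with the dimension. -/

open MeasureTheory ProbabilityTheory Filter Topology
open scoped RealInnerProductSpace

namespace Vale.Agent.P157.Sph

open Par

open Vale.Agent.P367.GT (gM)

set_option linter.unusedSectionVars false

/-! ### the window -/

theorem sphinc_win_cont (a τ : ℝ) : Continuous (win a τ) := by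
  unfold win
  fun_prop

theorem sphinc_win_ge {a : ℝ} (ha1 : a ≤ 1) (τ x : ℝ) : a ≤ win a τ x := by
  unfold win
  have : 0 ≤ (1 - a) * Real.exp (-(x ^ 2 / (2 * τ ^ 2))) :=
    mul_nonneg (by linarith) (Real.exp_pos _).le
  linarith only [this]

theorem sphinc_win_le {a : ℝ} (ha1 : a ≤ 1) (τ x : ℝ) : win a τ x ≤ 1 := by
  unfold win
  have h : Real.exp (-(x ^ 2 / (2 * τ ^ 2))) ≤ 1 := by
    rw [Real.exp_le_one_iff]
    have : 0 ≤ x ^ 2 / (2 * τ ^ 2) := by (clear * -; positivity)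
    linarith only [this]
  have : (1 - a) * Real.exp (-(x ^ 2 / (2 * τ ^ 2))) ≤ (1 - a) * 1 :=
    mul_le_mul_of_nonneg_left h (by linarith only [ha1])
  linarith only [this]

theorem sphinc_win_deriv (a τ x : ℝ) (hτ : 0 < τ) : HasDerivAt (win a τ)
    ((1 - a) * (Real.exp (-(x ^ 2 / (2 * τ ^ 2))) * -(x / τ ^ 2))) x := by
  unfold win
  have h1 : HasDerivAt (fun y : ℝ => -(y ^ 2 / (2 * τ ^ 2))) (-(x / τ ^ 2)) x := by
    have h0 : HasDerivAt (fun y : ℝ => -(y ^ 2 / (2 * τ ^ 2)))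
        (-(((2 : ℕ) : ℝ) * x ^ (2 - 1) / (2 * τ ^ 2))) x :=
      ((hasDerivAt_pow 2 x).div_const (2 * τ ^ 2)).neg
    have e : ((2 : ℕ) : ℝ) * x ^ (2 - 1) / (2 * τ ^ 2) = x / τ ^ 2 := by
      rw [Nat.cast_ofNat, show (2 - 1 : ℕ) = 1 from rfl, pow_one,
        mul_div_mul_left _ _ two_ne_zero]
    rwa [e] at h0
  exact (h1.exp.const_mul (1 - a)).const_add a

theorem sphinc_win_lip {a τ : ℝ} (ha : 0 < a) (ha1 : a ≤ 1) (hτ : 0 < τ) (x y : ℝ) :
    |win a τ x - win a τ y| ≤ 1 / τ * |x - y| := by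
  have hb : ∀ x : ℝ, |(1 - a) * (Real.exp (-(x ^ 2 / (2 * τ ^ 2))) * -(x / τ ^ 2))| ≤ 1 / τ := by
    intro x
    rw [abs_mul, abs_mul, abs_neg, abs_of_nonneg (show 0 ≤ 1 - a by linarith only [ha1]),
      abs_of_pos (Real.exp_pos _), abs_div, abs_of_pos (show 0 < τ ^ 2 by positivity)]
    have h1 : |x| / τ ≤ Real.exp (x ^ 2 / (2 * τ ^ 2)) := by
      have h2 := Real.add_one_le_exp (x ^ 2 / (2 * τ ^ 2))
      have h3 : x ^ 2 / (2 * τ ^ 2) = (|x| / τ) ^ 2 / 2 := by
        rw [div_pow, sq_abs]; (clear * - hτ; field_simp)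
      linarith only [h2, h3, sq_nonneg (|x| / τ - 1)]
    have h4 : Real.exp (-(x ^ 2 / (2 * τ ^ 2))) * (|x| / τ ^ 2) ≤ 1 / τ := by
      rw [Real.exp_neg]
      have h5 : (Real.exp (x ^ 2 / (2 * τ ^ 2)))⁻¹ * (|x| / τ ^ 2) =
          ((|x| / τ) / Real.exp (x ^ 2 / (2 * τ ^ 2))) * (1 / τ) := by
        (clear * - hτ; field_simp)
      rw [h5]
      have h6 : (|x| / τ) / Real.exp (x ^ 2 / (2 * τ ^ 2)) ≤ 1 :=
        (div_le_one (Real.exp_pos _)).2 h1
      calc _ ≤ 1 * (1 / τ) := mul_le_mul_of_nonneg_right h6 (by positivity)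
        _ = 1 / τ := one_mul _
    have h7 : 0 ≤ Real.exp (-(x ^ 2 / (2 * τ ^ 2))) * (|x| / τ ^ 2) := by (clear * - hτ; positivity)
    nlinarith only [h4, ha, h7]
  have h := Convex.norm_image_sub_le_of_norm_hasDerivWithin_le (f := win a τ)
    (f' := fun x => (1 - a) * (Real.exp (-(x ^ 2 / (2 * τ ^ 2))) * -(x / τ ^ 2))) (C := 1 / τ)
    (s := Set.univ) (x := y) (y := x)
    (fun z _ => (sphinc_win_deriv a τ z hτ).hasDerivWithinAt)
    (fun z _ => by rw [Real.norm_eq_abs]; exact hb z) convex_univ (Set.mem_univ _)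
    (Set.mem_univ _)
  simpa only [Real.norm_eq_abs] using h

theorem sphinc_log_lip {a u v : ℝ} (ha : 0 < a) (hu : a ≤ u) (hv : a ≤ v) :
    |Real.log u - Real.log v| ≤ |u - v| / a := by
  have key : ∀ u v : ℝ, a ≤ u → a ≤ v → Real.log u - Real.log v ≤ |u - v| / a := by
    intro u v hu hv
    have hu0 : 0 < u := ha.trans_le hu
    have hv0 : 0 < v := ha.trans_le hv
    rw [← Real.log_div hu0.ne' hv0.ne']
    refine (Real.log_le_sub_one_of_pos (div_pos hu0 hv0)).trans ?_
    have h1 : u / v - 1 = (u - v) / v := by (clear * - hv0; field_simp)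
    rw [h1]
    calc (u - v) / v ≤ |u - v| / v := div_le_div_of_nonneg_right (le_abs_self _) hv0.le
      _ ≤ |u - v| / a := div_le_div_of_nonneg_left (abs_nonneg _) ha hv
  rw [abs_le]
  constructor
  · have := key v u hv hu
    rw [abs_sub_comm v u] at this
    linarith
  · exact key u v hu hv

theorem sphinc_win_sq {a τ : ℝ} (ha : 0 < a) (ha1 : a ≤ 1) (hτ : 0 < τ) (x : ℝ) :
    win a τ x * x ^ 2 ≤ a * x ^ 2 + τ ^ 2 := by
  unfold win
  have h1 : x ^ 2 * Real.exp (-(x ^ 2 / (2 * τ ^ 2))) ≤ τ ^ 2 := by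
    have h2 : 2 * (x ^ 2 / (2 * τ ^ 2)) ≤ Real.exp (x ^ 2 / (2 * τ ^ 2)) := by
      have h3 := Real.add_one_le_exp (x ^ 2 / (2 * τ ^ 2) / 2)
      have h4 : Real.exp (x ^ 2 / (2 * τ ^ 2)) = Real.exp (x ^ 2 / (2 * τ ^ 2) / 2) ^ 2 := by
        rw [← Real.exp_nat_mul]; congr 1; push_cast; ring
      rw [h4]
      have h5 : 0 ≤ x ^ 2 / (2 * τ ^ 2) := by positivity
      nlinarith only [h3, sq_nonneg (x ^ 2 / (2 * τ ^ 2) / 2 - 1)]
    rw [Real.exp_neg, ← div_eq_mul_inv, div_le_iff₀ (Real.exp_pos _)]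
    calc x ^ 2 = τ ^ 2 * (2 * (x ^ 2 / (2 * τ ^ 2))) := by field_simp
      _ ≤ τ ^ 2 * Real.exp (x ^ 2 / (2 * τ ^ 2)) :=
        mul_le_mul_of_nonneg_left h2 (by positivity)
  have h6 : 0 ≤ x ^ 2 * Real.exp (-(x ^ 2 / (2 * τ ^ 2))) := by (clear * -; positivity)
  nlinarith only [h1, ha, h6]

theorem sphinc_ht_win (d : ℕ) {a τ : ℝ} (ha : 0 < a) (ha1 : a ≤ 1) (hτ : 0 < τ) :
    a ≤ ∫ t, win a τ (√((d : ℝ) + 1) * t) ∂(ht d) ∧
    ∫ t, win a τ (√((d : ℝ) + 1) * t) * t ^ 2 ∂(ht d) ≤ (a + τ ^ 2) / ((d : ℝ) + 1) := by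
  have hd : (0 : ℝ) < (d : ℝ) + 1 := by positivity
  have hc : Continuous fun t : ℝ => win a τ (√((d : ℝ) + 1) * t) :=
    (sphinc_win_cont a τ).comp (by fun_prop)
  have hi1 : Integrable (fun t : ℝ => win a τ (√((d : ℝ) + 1) * t)) (ht d) := by
    refine Integrable.of_bound hc.aestronglyMeasurable 1 (ae_of_all _ fun t => ?_)
    rw [Real.norm_eq_abs, abs_le]
    have h1 := sphinc_win_ge ha1 τ (√((d : ℝ) + 1) * t)
    have h2 := sphinc_win_le ha1 τ (√((d : ℝ) + 1) * t)
    constructor <;> linarith only [h2, ha, h1]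
  have hi2 : Integrable (fun t : ℝ => t ^ 2) (ht d) := by
    refine Integrable.of_bound (by fun_prop) 1 ?_
    filter_upwards [ht_abs d] with t ht
    rw [Real.norm_eq_abs, abs_pow]
    exact pow_le_one₀ (abs_nonneg _) ht
  have hi3 : Integrable (fun t : ℝ => win a τ (√((d : ℝ) + 1) * t) * t ^ 2) (ht d) := by
    refine Integrable.of_bound (hc.mul (by fun_prop)).aestronglyMeasurable 1 ?_
    filter_upwards [ht_abs d] with t ht
    rw [Real.norm_eq_abs, abs_mul, abs_pow]
    have h1 := sphinc_win_ge ha1 τ (√((d : ℝ) + 1) * t)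
    have h2 := sphinc_win_le ha1 τ (√((d : ℝ) + 1) * t)
    have h3 : |win a τ (√((d : ℝ) + 1) * t)| ≤ 1 := by
      rw [abs_le]; constructor <;> linarith only [h2, ha, h1]
    exact mul_le_one₀ h3 (by (clear * -; positivity)) (pow_le_one₀ (abs_nonneg _) ht)
  constructor
  · have h := integral_mono (integrable_const a) hi1 fun t => sphinc_win_ge ha1 τ _
    simpa only [ge_iff_le, integral_const, probReal_univ, smul_eq_mul, one_mul] using h
  · have h : ∫ t, win a τ (√((d : ℝ) + 1) * t) * t ^ 2 ∂(ht d) ≤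
        ∫ t, (a * t ^ 2 + τ ^ 2 / ((d : ℝ) + 1)) ∂(ht d) := by
      refine integral_mono hi3 ((hi2.const_mul a).add (integrable_const _)) fun t => ?_
      have h1 := sphinc_win_sq ha ha1 hτ (√((d : ℝ) + 1) * t)
      rw [mul_pow, Real.sq_sqrt hd.le] at h1
      have h2 : ((d : ℝ) + 1) * (win a τ (√((d : ℝ) + 1) * t) * t ^ 2) ≤
          ((d : ℝ) + 1) * (a * t ^ 2 + τ ^ 2 / ((d : ℝ) + 1)) := by
        have h3 : ((d : ℝ) + 1) * (a * t ^ 2 + τ ^ 2 / ((d : ℝ) + 1)) =
            a * (((d : ℝ) + 1) * t ^ 2) + τ ^ 2 := by (clear * - ha hτ; field_simp)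
        rw [h3]
        calc _ = win a τ (√((d : ℝ) + 1) * t) * (((d : ℝ) + 1) * t ^ 2) := by ring
          _ ≤ _ := h1
      exact le_of_mul_le_mul_left h2 hd
    refine h.trans (le_of_eq ?_)
    rw [integral_add (hi2.const_mul a) (integrable_const _), integral_const_mul, ht_sq,
      integral_const]
    simp only [one_div, probReal_univ, smul_eq_mul, one_mul]
    ring

/-! ### the free energy and the weights -/

theorem sphinc_meas_en {f : ℝ → ℝ} (hf : Measurable f) {d M P : ℕ} (s : ℝ) (u : Fin P → ℝ)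
    (y : Ec d) : Measurable fun z : (Fin M → Fin d → ℝ) × (GI P d → ℝ) =>
      en f s u z.1 z.2 y := by
  unfold en
  exact (Finset.measurable_sum _ fun a _ => hf.comp (by fun_prop)).add
    (Finset.measurable_sum _ fun e _ => by fun_prop)

theorem sphinc_fr {f : ℝ → ℝ} (hf : Measurable f) {C : ℝ} (hC : ∀ x, |f x| ≤ C) {d : ℕ}
    (M P : ℕ) (s : ℝ) (u : Fin P → ℝ) {X : Type} [Fintype X] [Nonempty X] (w : X → ℝ)
    (hw : ∀ x, 0 < w x) (φ : X → Ec d) {a : ℝ} (ha : 0 < a) :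
    ∃ g : X → ℝ, (∀ x, 0 ≤ g x) ∧ ∑ x, g x = 1 ∧ ∀ W1 W2 : X → ℝ, (∀ x, a ≤ W1 x) →
      (∀ x, a ≤ W2 x) → fr f M P s u (fun x => w x * W2 x) φ -
        1 / a * ∑ x, g x * |W1 x - W2 x| ≤ fr f M P s u (fun x => w x * W1 x) φ := by
  classical
  -- the Gibbs weights
  have hme : ∀ x, Measurable fun z : (Fin M → Fin d → ℝ) × (GI P d → ℝ) =>
      w x * Real.exp (en f s u z.1 z.2 (φ x)) := fun x =>
    (Real.measurable_exp.comp (sphinc_meas_en hf s u (φ x))).const_mul _
  have hpos : ∀ (z : (Fin M → Fin d → ℝ) × (GI P d → ℝ)) (x : X),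
      0 < w x * Real.exp (en f s u z.1 z.2 (φ x)) := fun z x => mul_pos (hw x) (Real.exp_pos _)
  have hsum : ∀ z : (Fin M → Fin d → ℝ) × (GI P d → ℝ),
      0 < ∑ y, w y * Real.exp (en f s u z.1 z.2 (φ y)) := fun z =>
    Finset.sum_pos (fun y _ => hpos z y) Finset.univ_nonempty
  have hle : ∀ (z : (Fin M → Fin d → ℝ) × (GI P d → ℝ)) (x : X),
      w x * Real.exp (en f s u z.1 z.2 (φ x)) ≤ ∑ y, w y * Real.exp (en f s u z.1 z.2 (φ y)) :=
    fun z x => Finset.single_le_sum (f := fun y => w y * Real.exp (en f s u z.1 z.2 (φ y)))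
      (fun y _ => (hpos z y).le) (Finset.mem_univ x)
  have hint : ∀ x, Integrable (fun z : (Fin M → Fin d → ℝ) × (GI P d → ℝ) =>
      w x * Real.exp (en f s u z.1 z.2 (φ x)) /
        ∑ y, w y * Real.exp (en f s u z.1 z.2 (φ y))) (dis M P d) := by
    intro x
    refine Integrable.of_bound ((hme x).div
      (Finset.measurable_sum _ fun y _ => hme y)).aestronglyMeasurable 1 (ae_of_all _ fun z => ?_)
    rw [Real.norm_eq_abs, abs_of_nonneg (div_nonneg (hpos z x).le (hsum z).le)]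
    exact (div_le_one (hsum z)).2 (hle z x)
  refine ⟨fun x => ∫ z, w x * Real.exp (en f s u z.1 z.2 (φ x)) /
        ∑ y, w y * Real.exp (en f s u z.1 z.2 (φ y)) ∂(dis M P d),
    fun x => integral_nonneg fun z => div_nonneg (hpos z x).le (hsum z).le, ?_, ?_⟩
  · rw [← integral_finset_sum _ fun x _ => hint x]
    have : (fun z : (Fin M → Fin d → ℝ) × (GI P d → ℝ) =>
        ∑ x, w x * Real.exp (en f s u z.1 z.2 (φ x)) /
          ∑ y, w y * Real.exp (en f s u z.1 z.2 (φ y))) = fun _ => 1 := by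
      funext z
      rw [← Finset.sum_div, div_self (hsum z).ne']
    rw [this, integral_const]
    simp
  · intro W1 W2 h1 h2
    have hi2 := integrable_fr hf hC M P s u (V := fun x => w x * W2 x)
      (fun x => mul_pos (hw x) (ha.trans_le (h2 x))) φ
    have hi1 := integrable_fr hf hC M P s u (V := fun x => w x * W1 x)
      (fun x => mul_pos (hw x) (ha.trans_le (h1 x))) φ
    have hi3 : Integrable (fun z : (Fin M → Fin d → ℝ) × (GI P d → ℝ) =>
        1 / a * ∑ x, w x * Real.exp (en f s u z.1 z.2 (φ x)) /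
          (∑ y, w y * Real.exp (en f s u z.1 z.2 (φ y))) * |W1 x - W2 x|) (dis M P d) :=
      (integrable_finset_sum _ fun x _ => (hint x).mul_const _).const_mul _
    have e3 : 1 / a * ∑ x, (∫ z, w x * Real.exp (en f s u z.1 z.2 (φ x)) /
        ∑ y, w y * Real.exp (en f s u z.1 z.2 (φ y)) ∂(dis M P d)) * |W1 x - W2 x| =
        ∫ z, 1 / a * ∑ x, w x * Real.exp (en f s u z.1 z.2 (φ x)) /
          (∑ y, w y * Real.exp (en f s u z.1 z.2 (φ y))) * |W1 x - W2 x| ∂(dis M P d) := by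
      rw [integral_const_mul, integral_finset_sum _ fun x _ => (hint x).mul_const _]
      congr 1
      refine Finset.sum_congr rfl fun x _ => ?_
      rw [integral_mul_const]
    show fr f M P s u (fun x => w x * W2 x) φ - 1 / a * ∑ x, (∫ z, w x *
      Real.exp (en f s u z.1 z.2 (φ x)) / ∑ y, w y * Real.exp (en f s u z.1 z.2 (φ y))
        ∂(dis M P d)) * |W1 x - W2 x| ≤ _
    rw [e3]
    unfold fr
    rw [← integral_sub hi2 hi3]
    refine integral_mono (hi2.sub hi3) hi1 fun z => ?_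
    -- pointwise
    have p1 : ∀ x, 0 < w x * W1 x * Real.exp (en f s u z.1 z.2 (φ x)) := fun x =>
      mul_pos (mul_pos (hw x) (ha.trans_le (h1 x))) (Real.exp_pos _)
    have p2 : ∀ x, 0 < w x * W2 x * Real.exp (en f s u z.1 z.2 (φ x)) := fun x =>
      mul_pos (mul_pos (hw x) (ha.trans_le (h2 x))) (Real.exp_pos _)
    have s1 : 0 < ∑ x, w x * W1 x * Real.exp (en f s u z.1 z.2 (φ x)) :=
      Finset.sum_pos (fun y _ => p1 y) Finset.univ_nonempty
    have s2 : 0 < ∑ x, w x * W2 x * Real.exp (en f s u z.1 z.2 (φ x)) :=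
      Finset.sum_pos (fun y _ => p2 y) Finset.univ_nonempty
    show Real.log (∑ x, w x * W2 x * Real.exp (en f s u z.1 z.2 (φ x))) -
      1 / a * ∑ x, w x * Real.exp (en f s u z.1 z.2 (φ x)) /
          (∑ y, w y * Real.exp (en f s u z.1 z.2 (φ y))) * |W1 x - W2 x| ≤
      Real.log (∑ x, w x * W1 x * Real.exp (en f s u z.1 z.2 (φ x)))
    have hlog : Real.log (∑ x, w x * W2 x * Real.exp (en f s u z.1 z.2 (φ x))) -
        Real.log (∑ x, w x * W1 x * Real.exp (en f s u z.1 z.2 (φ x))) ≤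
        (∑ x, w x * W2 x * Real.exp (en f s u z.1 z.2 (φ x)) -
          ∑ x, w x * W1 x * Real.exp (en f s u z.1 z.2 (φ x))) /
            ∑ x, w x * W1 x * Real.exp (en f s u z.1 z.2 (φ x)) := by
      rw [← Real.log_div s2.ne' s1.ne']
      refine (Real.log_le_sub_one_of_pos (div_pos s2 s1)).trans (le_of_eq ?_)
      (clear * - s1; field_simp)
    have hnum : ∑ x, w x * W2 x * Real.exp (en f s u z.1 z.2 (φ x)) -
          ∑ x, w x * W1 x * Real.exp (en f s u z.1 z.2 (φ x)) ≤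
        ∑ x, w x * Real.exp (en f s u z.1 z.2 (φ x)) * |W1 x - W2 x| := by
      rw [← Finset.sum_sub_distrib]
      refine Finset.sum_le_sum fun x _ => ?_
      have h3 : W2 x - W1 x ≤ |W1 x - W2 x| := by
        rw [abs_sub_comm]; exact le_abs_self _
      calc w x * W2 x * Real.exp (en f s u z.1 z.2 (φ x)) -
            w x * W1 x * Real.exp (en f s u z.1 z.2 (φ x)) =
          w x * Real.exp (en f s u z.1 z.2 (φ x)) * (W2 x - W1 x) := by ring
        _ ≤ _ := mul_le_mul_of_nonneg_left h3 (hpos z x).le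
    have hden : a * ∑ y, w y * Real.exp (en f s u z.1 z.2 (φ y)) ≤
        ∑ x, w x * W1 x * Real.exp (en f s u z.1 z.2 (φ x)) := by
      rw [Finset.mul_sum]
      refine Finset.sum_le_sum fun x _ => ?_
      calc a * (w x * Real.exp (en f s u z.1 z.2 (φ x))) ≤
          W1 x * (w x * Real.exp (en f s u z.1 z.2 (φ x))) :=
          mul_le_mul_of_nonneg_right (h1 x) (hpos z x).le
        _ = _ := by ring
    have hn0 : 0 ≤ ∑ x, w x * Real.exp (en f s u z.1 z.2 (φ x)) * |W1 x - W2 x| :=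
      Finset.sum_nonneg fun x _ => mul_nonneg (hpos z x).le (abs_nonneg _)
    have hq : (∑ x, w x * W2 x * Real.exp (en f s u z.1 z.2 (φ x)) -
          ∑ x, w x * W1 x * Real.exp (en f s u z.1 z.2 (φ x))) /
            ∑ x, w x * W1 x * Real.exp (en f s u z.1 z.2 (φ x)) ≤
        1 / a * ∑ x, w x * Real.exp (en f s u z.1 z.2 (φ x)) /
          (∑ y, w y * Real.exp (en f s u z.1 z.2 (φ y))) * |W1 x - W2 x| := by
      calc _ ≤ (∑ x, w x * Real.exp (en f s u z.1 z.2 (φ x)) * |W1 x - W2 x|) /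
            ∑ x, w x * W1 x * Real.exp (en f s u z.1 z.2 (φ x)) :=
            div_le_div_of_nonneg_right hnum s1.le
        _ ≤ (∑ x, w x * Real.exp (en f s u z.1 z.2 (φ x)) * |W1 x - W2 x|) /
            (a * ∑ y, w y * Real.exp (en f s u z.1 z.2 (φ y))) :=
            div_le_div_of_nonneg_left hn0 (mul_pos ha (hsum z)) hden
        _ = 1 / a * ∑ x, w x * Real.exp (en f s u z.1 z.2 (φ x)) /
          (∑ y, w y * Real.exp (en f s u z.1 z.2 (φ y))) * |W1 x - W2 x| := by
          rw [div_eq_mul_inv, mul_inv, Finset.sum_mul, Finset.mul_sum]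
          refine Finset.sum_congr rfl fun x _ => ?_
          ring
    linarith only [hlog, hq]

theorem sphinc_ae_ne (d : ℕ) : ∀ᵐ ζ : Fin (d + 1) → ℝ ∂(gM (Fin (d + 1))), ζ ≠ 0 := by
  haveI : NullSingletonClass (gaussianReal 0 1) := nullSingletonClass_gaussianReal one_ne_zero
  haveI : NullSingletonClass (gM (Fin (d + 1))) :=
    Measure.pi_nullSingletonClass (0 : Fin (d + 1))
  rw [ae_iff]
  have : {ζ : Fin (d + 1) → ℝ | ¬ζ ≠ 0} = {0} := by
    ext ζ; simp
  rw [this]
  exact measure_singleton 0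

/-- The increment for one more dimension, for a window in a Gaussian direction. -/
theorem increment {C : ℝ} {f f1 f2 f3 : ℝ → ℝ} (hf : CB3 C f f1 f2 f3) (hfm : Measurable f) :
    ∃ D : ℝ, 0 ≤ D ∧ ∀ (d : ℕ) [NeZero d] (A : Net (d + 1)) (A' : Net d) (κ κ' : ℝ), 0 ≤ κ →
      0 ≤ κ' → A.Close κ → A'.Close κ' → ∀ (M P : ℕ) (s : ℝ) (u : Fin P → ℝ), 0 ≤ s →
      (∀ q, 0 ≤ u q ∧ u q ≤ 2) → ∀ a τ : ℝ, 0 < a → a ≤ 1 → 0 < τ → τ ≤ 1 →
      (A'.base f hfm C hf.b0 M).elz s u +
        Real.log (∫ t, win a τ (√((d : ℝ) + 1) * t) ∂(ht d)) -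
        D * ((M + s ^ 2) / ((d : ℝ) + 1)) *
          ((a + τ ^ 2) / ∫ t, win a τ (√((d : ℝ) + 1) * t) ∂(ht d)) -
        2 / (a * τ * √((d : ℝ) + 1)) -
        κ * (lb C (d + 1) M P s + √((d : ℝ) + 1) / (a * τ)) - κ' * lb C (d + 1) M P s ≤
      (A.base f hfm C hf.b0 M).elz s u +
        ((A.base f hfm C hf.b0 M).sys P s u).dM (fun x => Real.log (win a τ x)) := by
  obtain ⟨D, hD, H⟩ := increment_dir hf hfm
  refine ⟨D, hD, ?_⟩
  intro d _ A A' κ κ' hκ hκ' hA hA' M P s u hs hu a τ ha ha1 hτ hτ1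
  have hd : (0 : ℝ) < (d : ℝ) + 1 := by (clear * -; positivity)
  have hc : (0 : ℝ) < √((d : ℝ) + 1) := Real.sqrt_pos.2 hd
  rw [Net.elz_eq, Net.window_increment A hfm hf.b0 M P s u (sphinc_win_cont a τ).measurable ha
    (sphinc_win_ge ha1 τ) (sphinc_win_le ha1 τ)]
  obtain ⟨hV0, hV2⟩ := sphinc_ht_win d ha ha1 hτ
  have hVpos := ha.trans_le hV0
  obtain ⟨g, hg0, hg1, hg⟩ := sphinc_fr hfm hf.b0 M P s u A.w A.w0 A.φ ha
  -- the direction inequality
  have key : ∀ v : Ec (d + 1), ‖v‖ = 1 →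
      fr f M P s u A'.w A'.φ + Real.log (∫ t, win a τ (√((d : ℝ) + 1) * t) ∂(ht d)) -
        D * ((M + s ^ 2) / ((d : ℝ) + 1)) *
          ((a + τ ^ 2) / ∫ t, win a τ (√((d : ℝ) + 1) * t) ∂(ht d)) -
        κ * (lb C (d + 1) M P s + √((d : ℝ) + 1) / (a * τ)) - κ' * lb C (d + 1) M P s ≤
      fr f M P s u (fun x => A.w x * win a τ (√((d : ℝ) + 1) * ⟪v, A.φ x⟫)) A.φ := by
    intro v hv
    have h1 := H d A A' κ κ' hκ hκ' hA hA' M P s u hs hu
      (fun t => win a τ (√((d : ℝ) + 1) * t)) a (√((d : ℝ) + 1) / (a * τ))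
      ((sphinc_win_cont a τ).comp (by fun_prop)) ha (by (clear * - ha hτ; positivity))
      (fun x => sphinc_win_ge ha1 τ _) (fun x => sphinc_win_le ha1 τ _)
      (fun x y => by
        refine (sphinc_log_lip ha (sphinc_win_ge ha1 τ _) (sphinc_win_ge ha1 τ _)).trans ?_
        have h2 := sphinc_win_lip ha ha1 hτ (√((d : ℝ) + 1) * x) (√((d : ℝ) + 1) * y)
        rw [← mul_sub, abs_mul, abs_of_pos hc] at h2
        calc _ ≤ (1 / τ * (√((d : ℝ) + 1) * |x - y|)) / a :=
              div_le_div_of_nonneg_right h2 ha.le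
          _ = √((d : ℝ) + 1) / (a * τ) * |x - y| := by (clear * - ha hτ; field_simp)) v hv
    have h3 : D * (M + s ^ 2) * ((∫ t, win a τ (√((d : ℝ) + 1) * t) * t ^ 2 ∂(ht d)) /
        ∫ t, win a τ (√((d : ℝ) + 1) * t) ∂(ht d)) ≤
        D * ((M + s ^ 2) / ((d : ℝ) + 1)) *
          ((a + τ ^ 2) / ∫ t, win a τ (√((d : ℝ) + 1) * t) ∂(ht d)) := by
      have hDM : 0 ≤ D * ((M : ℝ) + s ^ 2) := by (clear * - hD; positivity)
      calc _ ≤ D * (M + s ^ 2) * (((a + τ ^ 2) / ((d : ℝ) + 1)) /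
            ∫ t, win a τ (√((d : ℝ) + 1) * t) ∂(ht d)) :=
            mul_le_mul_of_nonneg_left (div_le_div_of_nonneg_right hV2 hVpos.le) hDM
        _ = _ := by
          have := hVpos.ne'
          (clear * - this ha hτ; field_simp)
    linarith only [h1, h3]
  -- the Gaussian direction
  have hue := fun x => unit_window (d + 1) (A.hφ x)
  have hcast : √(((d + 1 : ℕ) : ℝ)) = √((d : ℝ) + 1) := by push_cast; rfl
  rw [hcast] at hue
  set B : ℝ := fr f M P s u A'.w A'.φ +
      Real.log (∫ t, win a τ (√((d : ℝ) + 1) * t) ∂(ht d)) -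
        D * ((M + s ^ 2) / ((d : ℝ) + 1)) *
          ((a + τ ^ 2) / ∫ t, win a τ (√((d : ℝ) + 1) * t) ∂(ht d)) -
        κ * (lb C (d + 1) M P s + √((d : ℝ) + 1) / (a * τ)) - κ' * lb C (d + 1) M P s with hB
  have hae : ∀ᵐ ζ : Fin (d + 1) → ℝ ∂(gM (Fin (d + 1))),
      B - 1 / (a * τ) * ∑ x, g x * |√((d : ℝ) + 1) *
        ((∑ i, ζ i * A.φ x i) / √(∑ i, ζ i ^ 2)) - ∑ i, ζ i * A.φ x i| ≤
      fr f M P s u (fun x => A.w x * win a τ (∑ i, ζ i * A.φ x i)) A.φ := by
    filter_upwards [sphinc_ae_ne d] with ζ hζ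
    have hS : 0 < ∑ i, ζ i ^ 2 := by
      obtain ⟨i, hi⟩ := Function.ne_iff.1 hζ
      exact Finset.sum_pos' (fun j _ => sq_nonneg _) ⟨i, Finset.mem_univ _, by
        have : ζ i ≠ 0 := hi
        (clear * - this; positivity)⟩
    have hSq : 0 < √(∑ i, ζ i ^ 2) := Real.sqrt_pos.2 hS
    have hv : ‖(WithLp.toLp 2 fun i => ζ i / √(∑ i, ζ i ^ 2) : Ec (d + 1))‖ = 1 := by
      rw [EuclideanSpace.norm_eq]
      have : ∑ i, ‖(WithLp.toLp 2 fun i => ζ i / √(∑ i, ζ i ^ 2) : Ec (d + 1)) i‖ ^ 2 = 1 := by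
        have e : ∀ i, ‖(WithLp.toLp 2 fun i => ζ i / √(∑ i, ζ i ^ 2) : Ec (d + 1)) i‖ ^ 2 =
            ζ i ^ 2 / ∑ i, ζ i ^ 2 := by
          intro i
          show ‖ζ i / √(∑ i, ζ i ^ 2)‖ ^ 2 = _
          rw [Real.norm_eq_abs, sq_abs, div_pow, Real.sq_sqrt hS.le]
        rw [Finset.sum_congr rfl fun i _ => e i, ← Finset.sum_div, div_self hS.ne']
      rw [this, Real.sqrt_one]
    have hk := key _ hv
    have hin : ∀ x, ⟪(WithLp.toLp 2 fun i => ζ i / √(∑ i, ζ i ^ 2) : Ec (d + 1)), A.φ x⟫ =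
        (∑ i, ζ i * A.φ x i) / √(∑ i, ζ i ^ 2) := by
      intro x
      rw [PiLp.inner_apply, Finset.sum_div]
      refine Finset.sum_congr rfl fun i _ => ?_
      show A.φ x i * (starRingEnd ℝ) (ζ i / √(∑ i, ζ i ^ 2)) = _
      rw [conj_trivial]
      ring
    simp only [hin] at hk
    have hgx := hg (fun x => win a τ (∑ i, ζ i * A.φ x i))
      (fun x => win a τ (√((d : ℝ) + 1) * ((∑ i, ζ i * A.φ x i) / √(∑ i, ζ i ^ 2))))
      (fun x => sphinc_win_ge ha1 τ _) (fun x => sphinc_win_ge ha1 τ _)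
    have hle : 1 / a * ∑ x, g x * |win a τ (∑ i, ζ i * A.φ x i) -
        win a τ (√((d : ℝ) + 1) * ((∑ i, ζ i * A.φ x i) / √(∑ i, ζ i ^ 2)))| ≤
        1 / (a * τ) * ∑ x, g x * |√((d : ℝ) + 1) *
        ((∑ i, ζ i * A.φ x i) / √(∑ i, ζ i ^ 2)) - ∑ i, ζ i * A.φ x i| := by
      have e1 : 1 / (a * τ) * ∑ x, g x * |√((d : ℝ) + 1) *
          ((∑ i, ζ i * A.φ x i) / √(∑ i, ζ i ^ 2)) - ∑ i, ζ i * A.φ x i| =
          1 / a * ∑ x, g x * (1 / τ * |∑ i, ζ i * A.φ x i - √((d : ℝ) + 1) *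
          ((∑ i, ζ i * A.φ x i) / √(∑ i, ζ i ^ 2))|) := by
        rw [Finset.mul_sum, Finset.mul_sum]
        refine Finset.sum_congr rfl fun x _ => ?_
        rw [abs_sub_comm]
        (clear * - hS hτ ha; field_simp)
      rw [e1]
      refine mul_le_mul_of_nonneg_left (Finset.sum_le_sum fun x _ => ?_) (by (clear * - ha; positivity))
      exact mul_le_mul_of_nonneg_left (sphinc_win_lip ha ha1 hτ _ _) (hg0 x)
    linarith only [hk, hgx, hle]
  -- integrability
  have hmz : StronglyMeasurable fun ζ : Fin (d + 1) → ℝ =>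
      fr f M P s u (fun x => A.w x * win a τ (∑ i, ζ i * A.φ x i)) A.φ := by
    unfold fr
    refine StronglyMeasurable.integral_prod_right (Measurable.stronglyMeasurable ?_)
    show Measurable fun p : (Fin (d + 1) → ℝ) ×
      ((Fin M → Fin (d + 1) → ℝ) × (GI P (d + 1) → ℝ)) =>
      Real.log (∑ x, A.w x * win a τ (∑ i, p.1 i * A.φ x i) *
        Real.exp (en f s u p.2.1 p.2.2 (A.φ x)))
    refine Real.measurable_log.comp (Finset.measurable_sum _ fun x _ => ?_)
    refine (((sphinc_win_cont a τ).measurable.comp (by fun_prop)).const_mul _).mul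
      (Real.measurable_exp.comp ((sphinc_meas_en hfm s u (A.φ x)).comp measurable_snd))
  have hbz : ∀ ζ : Fin (d + 1) → ℝ,
      |fr f M P s u (fun x => A.w x * win a τ (∑ i, ζ i * A.φ x i)) A.φ| ≤
        |fr f M P s u (fun x => A.w x * 1) A.φ| + 1 / a := by
    intro ζ
    have hw1 : ∀ x, |win a τ (∑ i, ζ i * A.φ x i) - 1| ≤ 1 := by
      intro x
      have h1 := sphinc_win_ge ha1 τ (∑ i, ζ i * A.φ x i)
      have h2 := sphinc_win_le ha1 τ (∑ i, ζ i * A.φ x i)
      rw [abs_le]; constructor <;> linarith only [h2, ha, h1]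
    have h1 := hg (fun x => win a τ (∑ i, ζ i * A.φ x i)) (fun _ => 1)
      (fun x => sphinc_win_ge ha1 τ _) (fun x => ha1)
    have h2 := hg (fun _ => 1) (fun x => win a τ (∑ i, ζ i * A.φ x i))
      (fun x => ha1) (fun x => sphinc_win_ge ha1 τ _)
    have h3 : 1 / a * ∑ x, g x * |win a τ (∑ i, ζ i * A.φ x i) - 1| ≤ 1 / a := by
      have : ∑ x, g x * |win a τ (∑ i, ζ i * A.φ x i) - 1| ≤ ∑ x, g x * 1 :=
        Finset.sum_le_sum fun x _ => mul_le_mul_of_nonneg_left (hw1 x) (hg0 x)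
      simp only [mul_one, hg1] at this
      calc _ ≤ 1 / a * 1 := mul_le_mul_of_nonneg_left this (by (clear * - ha; positivity))
        _ = 1 / a := mul_one _
    have h4 : 1 / a * ∑ x, g x * |1 - win a τ (∑ i, ζ i * A.φ x i)| ≤ 1 / a := by
      simp only [abs_sub_comm (1 : ℝ)]
      exact h3
    have h5 := abs_le.1 (le_refl |fr f M P s u (fun x => A.w x * 1) A.φ|)
    rw [abs_le]
    constructor <;> linarith only [h1, h3, h5.1, h2, h4, h5.2]
  have hiz : Integrable (fun ζ : Fin (d + 1) → ℝ =>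
      fr f M P s u (fun x => A.w x * win a τ (∑ i, ζ i * A.φ x i)) A.φ)
      (gM (Fin (d + 1))) :=
    Integrable.of_bound hmz.aestronglyMeasurable _ (ae_of_all _ fun ζ => by
      rw [Real.norm_eq_abs]; exact hbz ζ)
  have hir : Integrable (fun ζ : Fin (d + 1) → ℝ => B - 1 / (a * τ) *
      ∑ x, g x * |√((d : ℝ) + 1) *
        ((∑ i, ζ i * A.φ x i) / √(∑ i, ζ i ^ 2)) - ∑ i, ζ i * A.φ x i|)
      (gM (Fin (d + 1))) :=
    (integrable_const B).sub
      ((integrable_finset_sum _ fun x _ => (hue x).1.const_mul (g x)).const_mul _)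
  have hfin := integral_mono_ae hir hiz hae
  rw [integral_sub (integrable_const B)
    ((integrable_finset_sum _ fun x _ => (hue x).1.const_mul (g x)).const_mul _),
    integral_const_mul, integral_finset_sum _ fun x _ => (hue x).1.const_mul (g x)] at hfin
  simp only [integral_const_mul] at hfin
  have hsum : 1 / (a * τ) * ∑ x, g x * ∫ ζ : Fin (d + 1) → ℝ, |√((d : ℝ) + 1) *
        ((∑ i, ζ i * A.φ x i) / √(∑ i, ζ i ^ 2)) - ∑ i, ζ i * A.φ x i| ∂(gM (Fin (d + 1))) ≤
      2 / (a * τ * √((d : ℝ) + 1)) := by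
    have h1 : ∑ x, g x * ∫ ζ : Fin (d + 1) → ℝ, |√((d : ℝ) + 1) *
        ((∑ i, ζ i * A.φ x i) / √(∑ i, ζ i ^ 2)) - ∑ i, ζ i * A.φ x i| ∂(gM (Fin (d + 1))) ≤
        ∑ x, g x * (2 / √((d : ℝ) + 1)) :=
      Finset.sum_le_sum fun x _ => mul_le_mul_of_nonneg_left (hue x).2 (hg0 x)
    rw [← Finset.sum_mul, hg1, one_mul] at h1
    calc _ ≤ 1 / (a * τ) * (2 / √((d : ℝ) + 1)) :=
          mul_le_mul_of_nonneg_left h1 (by positivity)
      _ = _ := by (clear * - hτ ha; field_simp)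
  have hcB : ∫ _ζ : Fin (d + 1) → ℝ, B ∂(gM (Fin (d + 1))) = B := by
    rw [integral_const]; simp
  rw [hcB] at hfin
  linarith only [hfin, hsum]

end Vale.Agent.P157.Sph
end

section

/-! The systems of the nets: cost of the perturbation, comparison with the sphere. -/

open MeasureTheory ProbabilityTheory Filter Topology
open scoped RealInnerProductSpace

namespace Vale.Agent.P157.Sph

open Par

open Vale.Agent.P367.GT (gM)

set_option linter.unusedSectionVars false

/-- The coefficients of the perturbation. -/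
noncomputable def sys2_cf {X : Type} {d P : ℕ} (φ : X → Ec d) (s : ℝ) (u : Fin P → ℝ) (x : X)
    (e : GI P d) : ℝ :=
  s * u e.1 * (1 / 2) ^ ((e.1 : ℕ) + 1) * ∏ r, φ x (e.2 r)

lemma sys2_sum_sq {d : ℕ} {y : Ec d} (hy : ‖y‖ = 1) : ∑ i, y i ^ 2 = 1 := by
  rw [← EuclideanSpace.real_norm_sq_eq, hy, one_pow]

lemma sys2_sum_cf_sq {X : Type} {d P : ℕ} {φ : X → Ec d} (hφ : ∀ x, ‖φ x‖ = 1) (s : ℝ)
    (u : Fin P → ℝ) (x : X) :
    ∑ e, sys2_cf φ s u x e ^ 2 = ∑ p : Fin P, (s * u p * (1 / 2) ^ ((p : ℕ) + 1)) ^ 2 := by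
  unfold sys2_cf
  rw [Fintype.sum_sigma]
  refine Finset.sum_congr rfl fun p _ => ?_
  have h := sys2_sum_sq (hφ x)
  have h2 : (∑ i, φ x i ^ 2) ^ ((p : ℕ) + 1) = 1 := by rw [h, one_pow]
  rw [Fintype.sum_pow] at h2
  simp only [mul_pow (s * u p * (1 / 2) ^ ((p : ℕ) + 1)), ← Finset.prod_pow]
  rw [← Finset.mul_sum, h2, mul_one]

lemma sys2_sum_cf_sq_le {X : Type} {d P : ℕ} {φ : X → Ec d} (hφ : ∀ x, ‖φ x‖ = 1) {s : ℝ}
    {u : Fin P → ℝ} (hu : ∀ q, 0 ≤ u q ∧ u q ≤ 2) (x : X) :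
    ∑ e, sys2_cf φ s u x e ^ 2 ≤ 2 * s ^ 2 := by
  rw [sys2_sum_cf_sq hφ]
  refine (Finset.sum_le_sum fun p _ => Cube.coef_sq_le hu p).trans ?_
  rw [← Finset.mul_sum]
  nlinarith only [Cube.geo P]

lemma sys2_en {f : ℝ → ℝ} {X : Type} {d M P : ℕ} (φ : X → Ec d) (s : ℝ) (u : Fin P → ℝ)
    (g : Fin M → Fin d → ℝ) (h : GI P d → ℝ) (x : X) :
    en f s u g h (φ x) = ∑ a, f (∑ i, g a i * φ x i) + lin (sys2_cf φ s u) h x := by
  unfold en lin sys2_cf
  congr 1
  exact Finset.sum_congr rfl fun e _ => mul_comm _ _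

section Net

variable {d : ℕ} (A : Net d) {f : ℝ → ℝ} (hf : Measurable f) {C : ℝ} (hC : ∀ x, |f x| ≤ C)
  (M P : ℕ) (s : ℝ) (u : Fin P → ℝ)

include hf hC in
lemma sys2_integrable : Integrable (fun g : Fin M → Fin d → ℝ =>
    Real.log (∑ x, A.w x * Real.exp (∑ a, f (∑ i, g a i * A.φ x i)))) (patterns M d) := by
  have : IsProbabilityMeasure (patterns M d) := by unfold patterns; infer_instance
  refine Lin.integrable_logsum A.w0 fun x => ?_
  refine integrable_finsetSum _ fun a _ => ?_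
  refine Integrable.mono' (integrable_const C) ?_ (Filter.Eventually.of_forall fun _ => hC _)
  exact (hf.comp (by fun_prop)).aestronglyMeasurable

/-- The cost of the perturbation. -/
theorem Net.elz_pert (hs : 0 ≤ s) (hu : ∀ q, 0 ≤ u q ∧ u q ≤ 2) :
    |(A.base f hf C hC M).elz s u -
      ∫ g, Real.log (∑ x, A.w x * Real.exp (∑ a, f (∑ i, g a i * A.φ x i)))
        ∂(patterns M d)| ≤ s ^ 2 := by
  classical
  rw [Net.elz_eq]
  unfold fr
  have hint := integrable_fr hf hC M P s u A.w0 A.φ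
  rw [integral_prod _ hint]
  have hJ : ∀ g : Fin M → Fin d → ℝ,
      Real.log (∑ x, A.w x * Real.exp (∑ a, f (∑ i, g a i * A.φ x i))) ≤
        ∫ h, Real.log (∑ x, A.w x * Real.exp (en f s u g h (A.φ x))) ∂(gM (GI P d)) ∧
      ∫ h, Real.log (∑ x, A.w x * Real.exp (en f s u g h (A.φ x))) ∂(gM (GI P d)) ≤
        Real.log (∑ x, A.w x * Real.exp (∑ a, f (∑ i, g a i * A.φ x i))) + (2 * s ^ 2) / 2 := by
    intro g
    simp_rw [sys2_en, Real.exp_add, ← mul_assoc]
    exact Cube.jensen (fun x => mul_pos (A.w0 x) (Real.exp_pos _)) (sys2_cf A.φ s u)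
      fun x => sys2_sum_cf_sq_le A.hφ hu x
  have hi1 := sys2_integrable A hf hC M
  have hi2 : Integrable (fun g : Fin M → Fin d → ℝ =>
      ∫ h, Real.log (∑ x, A.w x * Real.exp (en f s u g h (A.φ x))) ∂(gM (GI P d)))
      (patterns M d) := hint.integral_prod_left
  have hpat : IsProbabilityMeasure (patterns M d) := by unfold patterns; infer_instance
  change |(∫ g, (∫ h, Real.log (∑ x, A.w x * Real.exp (en f s u g h (A.φ x)))
    ∂(gM (GI P d))) ∂(patterns M d)) - _| ≤ _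
  rw [← integral_sub hi2 hi1, ← Real.norm_eq_abs]
  have hb : ∀ g : Fin M → Fin d → ℝ,
      ‖∫ h, Real.log (∑ x, A.w x * Real.exp (en f s u g h (A.φ x))) ∂(gM (GI P d)) -
      Real.log (∑ x, A.w x * Real.exp (∑ a, f (∑ i, g a i * A.φ x i)))‖ ≤ s ^ 2 := by
    intro g
    rw [Real.norm_eq_abs, abs_le]
    have := hJ g
    constructor <;> linarith only [this.1, this.2]
  have := norm_integral_le_of_norm_le_const (μ := patterns M d)
    (Filter.Eventually.of_forall hb)
  simpa only [Real.norm_eq_abs, ge_iff_le, probReal_univ, mul_one] using this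

lemma sys2_pressure (d : ℕ) [NeZero d] {f : ℝ → ℝ} (hf : Continuous f) {M : ℕ}
    (g : Fin M → Fin d → ℝ) :
    (d : ℝ) * pressure (sphere d) f g =
      Real.log (∫ y, Real.exp (∑ a, f (∑ i, g a i * y i)) ∂(usp d)) := by
  have hd : (0 : ℝ) < d := by exact_mod_cast Nat.pos_of_ne_zero (NeZero.ne d)
  have hs : √(d : ℝ) ≠ 0 := (Real.sqrt_pos.2 hd).ne'
  unfold pressure
  rw [← mul_assoc, mul_one_div_cancel hd.ne', one_mul, sphere_eq_usp,
    integral_map (Measurable.aemeasurable (by fun_prop))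
      (Continuous.aestronglyMeasurable (by fun_prop))]
  have e : ∀ (y : Ec d) (a : Fin M),
      (∑ i, g a i * (√(d : ℝ) * y i)) / √(d : ℝ) = ∑ i, g a i * y i := by
    intro y a
    rw [Finset.sum_div]
    refine Finset.sum_congr rfl fun i _ => ?_
    field_simp
  simp_rw [e]

/-- Comparison with the pressure of the sphere. -/
theorem Net.elz_pressure [NeZero d] {f1 f2 f3 : ℝ → ℝ} (hf' : CB3 C f f1 f2 f3) {κ : ℝ}
    (hκ : 0 ≤ κ) (hA : A.Close κ) (hs : 0 ≤ s) (hu : ∀ q, 0 ≤ u q ∧ u q ≤ 2) :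
    |(A.base f hf C hC M).elz s u - ∫ g, (d : ℝ) * pressure (sphere d) f g ∂(patterns M d)| ≤
      s ^ 2 + κ * lb C d M 0 0 := by
  have hfc : Continuous f := continuous_iff_continuousAt.2 fun x => (hf'.d1 x).continuousAt
  have hpat : IsProbabilityMeasure (patterns M d) := by unfold patterns; infer_instance
  have h1 := Net.elz_pert A hf hC M P s u hs hu
  have hi1 := sys2_integrable A hf hC M
  obtain ⟨Λ, hΛ0, hΛi, hΛb, hΛl⟩ := lip_en (d := d) hf' M 0 (s := 0) le_rfl
    (u := fun _ => 0) (fun q => q.elim0)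
  have hsub : Subsingleton (GI 0 d → ℝ) := inferInstance
  set h0 : GI 0 d → ℝ := fun _ => 0 with hh0
  have hΛeq : ∀ g h, Λ (g, h) = Λ (g, h0) := fun g h => by rw [Subsingleton.elim h h0]
  have hi2 := hΛi.integral_prod_left
  have hint2 : ∫ z, Λ z ∂(dis M 0 d) = ∫ g, Λ (g, h0) ∂(patterns M d) := by
    rw [integral_prod _ hΛi]
    simp_rw [hΛeq]
    simp only [integral_const, probReal_univ, smul_eq_mul, one_mul]
    rfl
  have hi3 : Integrable (fun g : Fin M → Fin d → ℝ => Λ (g, h0)) (patterns M d) := by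
    simp_rw [hΛeq] at hi2
    simp only [integral_const, probReal_univ, smul_eq_mul, one_mul] at hi2
    exact hi2
  have hen : ∀ (g : Fin M → Fin d → ℝ) (y : Ec d), en f 0 (fun _ : Fin 0 => (0 : ℝ)) g h0 y =
      ∑ a, f (∑ i, g a i * y i) := by
    intro g y
    unfold en
    simp only [Finset.univ_eq_empty, mul_zero, one_div, inv_pow, zero_mul, Finset.sum_const_zero, add_zero]
  have hpt : ∀ g : Fin M → Fin d → ℝ,
      |Real.log (∑ x, A.w x * Real.exp (∑ a, f (∑ i, g a i * A.φ x i))) -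
        (d : ℝ) * pressure (sphere d) f g| ≤ κ * Λ (g, h0) := by
    intro g
    rw [sys2_pressure d hfc g]
    refine hA (fun y => ∑ a, f (∑ i, g a i * y i)) _ (by fun_prop) (hΛ0 (g, h0)) ?_
    have := hΛl (g, h0)

    intro y y' hy hy'
    have h3 := this y y' hy hy'
    simpa only [hen] using h3
  have hm : Measurable fun g : Fin M → Fin d → ℝ => (d : ℝ) * pressure (sphere d) f g := by
    simp_rw [sys2_pressure d hfc]
    refine Real.measurable_log.comp ?_
    refine StronglyMeasurable.measurable ?_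
    refine StronglyMeasurable.integral_prod_right'
      (f := fun p : (Fin M → Fin d → ℝ) × Ec d =>
        Real.exp (∑ a, f (∑ i, p.1 a i * p.2 i))) ?_
    exact (Continuous.stronglyMeasurable (by fun_prop))
  have hi4 : Integrable (fun g : Fin M → Fin d → ℝ =>
      Real.log (∑ x, A.w x * Real.exp (∑ a, f (∑ i, g a i * A.φ x i))) -
        (d : ℝ) * pressure (sphere d) f g) (patterns M d) := by
    refine Integrable.mono' (hi3.const_mul κ) ?_ (Filter.Eventually.of_forall fun g => ?_)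
    · exact hi1.aestronglyMeasurable.sub hm.aestronglyMeasurable
    · rw [Real.norm_eq_abs]; exact hpt g
  have hi5 : Integrable (fun g : Fin M → Fin d → ℝ => (d : ℝ) * pressure (sphere d) f g)
      (patterns M d) := by
    have := hi1.sub hi4
    refine this.congr (Filter.Eventually.of_forall fun g => ?_)
    simp only [Pi.sub_apply, sub_sub_cancel]
  have h2 : |∫ g, Real.log (∑ x, A.w x * Real.exp (∑ a, f (∑ i, g a i * A.φ x i)))
      ∂(patterns M d) - ∫ g, (d : ℝ) * pressure (sphere d) f g ∂(patterns M d)| ≤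
      κ * lb C d M 0 0 := by
    rw [← integral_sub hi1 hi5]
    refine (abs_integral_le_integral_abs).trans ?_
    refine (integral_mono hi4.abs (hi3.const_mul κ) hpt).trans ?_
    rw [integral_const_mul]
    refine mul_le_mul_of_nonneg_left ?_ hκ
    rw [← hint2]
    exact hΛb
  calc _ = |((A.base f hf C hC M).elz s u -
        ∫ g, Real.log (∑ x, A.w x * Real.exp (∑ a, f (∑ i, g a i * A.φ x i)))
          ∂(patterns M d)) +
      (∫ g, Real.log (∑ x, A.w x * Real.exp (∑ a, f (∑ i, g a i * A.φ x i)))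
        ∂(patterns M d) - ∫ g, (d : ℝ) * pressure (sphere d) f g ∂(patterns M d))| := by
        congr 1; ring
    _ ≤ _ := (abs_add_le _ _).trans (add_le_add h1 h2)

end Net

end Vale.Agent.P157.Sph
end

section

/-! Selection of the parameters, on the sphere: auxiliary results. -/

open MeasureTheory ProbabilityTheory Filter Topology
open scoped RealInnerProductSpace

namespace Vale.Agent.P157.Sph

open Par

open Vale.Agent.P367.GT (gM)

set_option linter.unusedSectionVars false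

section General

/-- The increment for one more pattern is bounded. -/
lemma ssl_abs_dM_le (S : Sys) {f : ℝ → ℝ} {C : ℝ} (hC : ∀ x, |f x| ≤ C) : |S.dM f| ≤ C := by
  unfold Sys.dM
  have hne : Nonempty S.X := by
    by_contra h
    rw [not_nonempty_iff] at h
    obtain ⟨ω⟩ : Nonempty S.Ω := nonempty_of_isProbabilityMeasure S.P
    have := S.w1 ω
    simp at this
  have hb : ∀ z : S.Ω × (Fin S.d → ℝ),
      ‖Real.log (∑ x, S.w z.1 x * Real.exp (f (∑ i, z.2 i * S.φ x i)))‖ ≤ C := by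
    intro z
    rw [Real.norm_eq_abs]
    have hpos := logw_pos (S.w0 z.1) (S.w1 z.1) fun x => f (∑ i, z.2 i * S.φ x i)
    have h1 : Real.exp (-C) ≤ ∑ x, S.w z.1 x * Real.exp (f (∑ i, z.2 i * S.φ x i)) := by
      rw [← one_mul (Real.exp (-C)), ← S.w1 z.1, Finset.sum_mul]
      refine Finset.sum_le_sum fun y _ =>
        mul_le_mul_of_nonneg_left (Real.exp_le_exp.2 ?_) (S.w0 _ _)
      linarith [neg_abs_le (f (∑ i, z.2 i * S.φ y i)), hC (∑ i, z.2 i * S.φ y i)]
    have h2 : ∑ x, S.w z.1 x * Real.exp (f (∑ i, z.2 i * S.φ x i)) ≤ Real.exp C := by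
      rw [← one_mul (Real.exp C), ← S.w1 z.1, Finset.sum_mul]
      refine Finset.sum_le_sum fun y _ =>
        mul_le_mul_of_nonneg_left (Real.exp_le_exp.2 ?_) (S.w0 _ _)
      linarith only [le_abs_self (f (∑ i, z.2 i * S.φ y i)), hC (∑ i, z.2 i * S.φ y i)]
    have l1 := Real.log_le_log (Real.exp_pos _) h1
    have l2 := Real.log_le_log hpos h2
    rw [Real.log_exp] at l1 l2
    rw [abs_le]
    exact ⟨l1, l2⟩
  have h := norm_integral_le_of_norm_le_const (μ := S.P.prod (gM (Fin S.d)))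
    (Filter.Eventually.of_forall hb)
  rw [Real.norm_eq_abs] at h
  simpa only [ge_iff_le, probReal_univ, mul_one] using h

/-- The increment of the zero potential. -/
lemma ssl_dM_zero (S : Sys) : S.dM (fun _ => 0) = 0 := by
  have h := ssl_abs_dM_le S (f := fun _ => 0) (C := 0) (fun _ => by simp)
  exact abs_eq_zero.1 (le_antisymm h (abs_nonneg _))

/-- The average of the expected free energy over the parameters. -/
noncomputable def sslA (P : ℕ) (B : Base) (s : ℝ) : ℝ := ∫ u : Fin P → ℝ, B.elz s u ∂(nuP P)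

lemma ssl_int_elz (P : ℕ) (B : Base) (s : ℝ) :
    Integrable (fun u : Fin P → ℝ => B.elz s u) (nuP P) := int_nuP (B.cont_elz s)

lemma ssl_A_mono (P : ℕ) (B : Base) {s s' : ℝ} (hs : 0 ≤ s) (hss : s ≤ s') (hs' : 0 < s') :
    sslA P B s ≤ sslA P B s' := by
  unfold sslA
  refine integral_mono_ae (ssl_int_elz P B s) (ssl_int_elz P B s') ?_
  filter_upwards [ae_nuP P] with u hu
  exact B.elz_mono_s hs hss hs' fun q => by linarith [(hu q).1]

lemma ssl_A_sub_le (P : ℕ) (B B' : Base) {s C : ℝ}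
    (h : ∀ u : Fin P → ℝ, |B.elz s u - B'.elz s u| ≤ C) :
    |sslA P B s - sslA P B' s| ≤ C := by
  unfold sslA
  rw [← integral_sub (ssl_int_elz P B s) (ssl_int_elz P B' s)]
  have h := norm_integral_le_of_norm_le_const (μ := nuP P) (C := C)
    (f := fun u => B.elz s u - B'.elz s u)
    (Filter.Eventually.of_forall fun u => by
      rw [Real.norm_eq_abs]
      exact h u)
  rw [Real.norm_eq_abs] at h
  simpa only [ge_iff_le, probReal_univ, mul_one] using h

lemma ssl_A_close (P : ℕ) (B : Base) {s c κ : ℝ}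
    (h : ∀ u : Fin P → ℝ, (∀ q, 1 ≤ u q ∧ u q ≤ 2) → |B.elz s u - c| ≤ κ) :
    |sslA P B s - c| ≤ κ := by
  unfold sslA
  have e : ∫ u, (B.elz s u - c) ∂(nuP P) = ∫ u, B.elz s u ∂(nuP P) - c := by
    rw [integral_sub (ssl_int_elz P B s) (integrable_const _)]
    simp
  have h := norm_integral_le_of_norm_le_const (μ := nuP P) (C := κ)
    (f := fun u => B.elz s u - c) (by
      filter_upwards [ae_nuP P] with u hu
      rw [Real.norm_eq_abs]
      exact h u hu)
  rw [Real.norm_eq_abs, e] at h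
  simpa only [ge_iff_le, probReal_univ, mul_one] using h

/-- Markov's inequality: choice of the parameters. -/
lemma ssl_select {P : ℕ} {X : (Fin P → ℝ) → ℝ} {Dv : Fin P → (Fin P → ℝ) → ℝ}
    (hX : Integrable X (nuP P)) (hD : ∀ q, Integrable (Dv q) (nuP P))
    (hD0 : ∀ q u, 0 ≤ Dv q u) {p ε K0 s : ℝ} {R : Fin P → ℝ} (hε : 0 < ε) (hε1 : ε ≤ 1)
    (hs : 0 < s) (hK0 : 0 ≤ K0) (hR : ∀ q, ∫ u, Dv q u ∂(nuP P) ≤ R q)
    (g1 : (|p| + 3 + K0) / ε * ((∑ q, R q) / s) ≤ ε)
    (hsel : ∫ u, X u ∂(nuP P) ≤ p + 2 * ε)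
    (hlow : ∀ u : Fin P → ℝ, (∀ q, 1 ≤ u q ∧ u q ≤ 2) → -K0 ≤ X u) :
    ∃ u : Fin P → ℝ, (∀ q, 1 ≤ u q ∧ u q ≤ 2) ∧ (∀ q, Dv q u ≤ ε * s) ∧ X u ≤ p + 3 * ε := by
  set lam : ℝ := (|p| + 3 + K0) / ε with hlam
  have hlam0 : 0 < lam := by
    have := abs_nonneg p
    have : 0 < |p| + 3 + K0 := by (clear * - hK0 this; linarith)
    rw [hlam]
    (clear * - hK0 hε; positivity)
  have hDv : Integrable (fun u => ∑ q, Dv q u) (nuP P) := integrable_finsetSum _ fun q _ => hD q
  have iD : ∫ u, ∑ q, Dv q u ∂(nuP P) ≤ ∑ q, R q := by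
    rw [integral_finsetSum _ fun q _ => hD q]
    exact Finset.sum_le_sum fun q _ => hR q
  have hY : Integrable (fun u => X u + lam / s * ∑ q, Dv q u) (nuP P) := hX.add (hDv.const_mul _)
  have iY : ∫ u, (X u + lam / s * ∑ q, Dv q u) ∂(nuP P) ≤ p + 3 * ε := by
    rw [integral_add hX (hDv.const_mul _), integral_const_mul]
    have h1 := mul_le_mul_of_nonneg_left iD (show 0 ≤ lam / s by (clear * - hK0 hε hs; positivity))
    have h2 : lam / s * (∑ q, R q) = lam * ((∑ q, R q) / s) := by ring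
    linarith only [hsel, g1, h1, h2]
  obtain ⟨u, hu, hYu⟩ := exists_notMem_null_le_integral hY (ae_iff.1 (ae_nuP P))
  have hu' : ∀ q, 1 ≤ u q ∧ u q ≤ 2 := by simpa using hu
  have hYu' := hYu.trans iY
  have hXK := hlow u hu'
  have hDv0 : 0 ≤ ∑ q, Dv q u := Finset.sum_nonneg fun q _ => hD0 q u
  have hDvle : ∑ q, Dv q u ≤ ε * s := by
    have h1 : lam / s * ∑ q, Dv q u ≤ |p| + 3 + K0 := by
      have := le_abs_self p
      linarith only [hε1, iY, hYu, hXK, this]
    have h2 : |p| + 3 + K0 = lam * ε := by rw [hlam]; (clear * - hε hK0; field_simp)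
    rw [h2, div_mul_eq_mul_div, div_le_iff₀ hs, mul_assoc] at h1
    exact le_of_mul_le_mul_left h1 hlam0
  refine ⟨u, hu', fun q => ?_, ?_⟩
  · exact (Finset.single_le_sum (f := fun q => Dv q u) (fun q _ => hD0 q u)
      (Finset.mem_univ q)).trans hDvle
  · have h1 : 0 ≤ lam / s * ∑ q, Dv q u := by (clear * - hK0 hε hs hDv0; positivity)
    linarith only [iY, hYu, h1]

/-- The combination of free energies to be minimized. -/
noncomputable def sslX (P : ℕ) (B0 B1 B2 : Base) (α s : ℝ) (u : Fin P → ℝ) : ℝ :=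
  B1.elz s u - B0.elz s u + α * (B2.elz s u - B1.elz s u)

lemma ssl_int_X (P : ℕ) (B0 B1 B2 : Base) (α s : ℝ) :
    Integrable (sslX P B0 B1 B2 α s) (nuP P) :=
  ((ssl_int_elz P B1 s).sub (ssl_int_elz P B0 s)).add
    (((ssl_int_elz P B2 s).sub (ssl_int_elz P B1 s)).const_mul α)

lemma ssl_integral_X (P : ℕ) (B0 B1 B2 : Base) (α s : ℝ) :
    ∫ u, sslX P B0 B1 B2 α s u ∂(nuP P) =
      sslA P B1 s - sslA P B0 s + α * (sslA P B2 s - sslA P B1 s) := by
  have j0 := ssl_int_elz P B0 s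
  have j1 := ssl_int_elz P B1 s
  have j2 := ssl_int_elz P B2 s
  have j10 : Integrable (fun u : Fin P → ℝ => B1.elz s u - B0.elz s u) (nuP P) := j1.sub j0
  have j21 : Integrable (fun u : Fin P → ℝ => B2.elz s u - B1.elz s u) (nuP P) := j2.sub j1
  unfold sslX sslA
  rw [integral_add j10 (j21.const_mul α), integral_const_mul, integral_sub j1 j0,
    integral_sub j2 j1]

end General

section Net

variable {f f1 f2 f3 : ℝ → ℝ} {C : ℝ} {A : ∀ N : ℕ, Net (N + 1)}

/-- The base system of the net of the sphere of `ℝ^(N+1)`. -/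
noncomputable def sslB (A : ∀ N : ℕ, Net (N + 1)) (f : ℝ → ℝ) (hfm : Measurable f) (C : ℝ)
    (hC : ∀ x, |f x| ≤ C) (N M : ℕ) : Base := (A N).base f hfm C hC M

lemma sslB_d (hfm : Measurable f) (hC : ∀ x, |f x| ≤ C) (N M : ℕ) :
    ((sslB A f hfm C hC N M).d : ℝ) = (N : ℝ) + 1 := by
  change (((N + 1 : ℕ)) : ℝ) = _
  push_cast
  ring

lemma sslB_pattern (hfm : Measurable f) (hC : ∀ x, |f x| ≤ C) (N M P : ℕ) (s : ℝ)
    (u : Fin P → ℝ) :
    (sslB A f hfm C hC N (M + 1)).elz s u - (sslB A f hfm C hC N M).elz s u =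
      ((sslB A f hfm C hC N M).sys P s u).dM f :=
  (A N).pattern_increment hfm hC M P s u

lemma sslB_step (hfm : Measurable f) (hC : ∀ x, |f x| ≤ C) (N M P : ℕ) (s : ℝ)
    (u : Fin P → ℝ) :
    |(sslB A f hfm C hC N (M + 1)).elz s u - (sslB A f hfm C hC N M).elz s u| ≤ C := by
  rw [sslB_pattern]
  exact ssl_abs_dM_le _ hC

lemma ssl_kp_nonneg {C : ℝ} (hC : 0 ≤ C) (N : ℕ) : 0 ≤ kp C N := by
  unfold kp lb
  (clear * - hC; positivity)

/-- The error in the comparison with the pressure of the sphere. -/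
lemma ssl_kappa (hC : 0 ≤ C) {α : ℝ} (hα : 0 < α) :
    Tendsto (fun N : ℕ => (sN N ^ 2 + kp C N * lb C (N + 1) ⌊α * ((N + 1 : ℕ) : ℝ)⌋₊ 0 0) /
      ((N : ℝ) + 1)) atTop (𝓝 0) := by
  have h1 : Tendsto (fun N : ℕ => sN N ^ 2 / ((N : ℝ) + 1) + 1 / ((N : ℝ) + 1)) atTop (𝓝 0) := by
    have := tendsto_sN_sq_div.add tendsto_one_div_add_atTop_nhds_zero_nat
    rwa [add_zero] at this
  refine squeeze_zero' (Filter.Eventually.of_forall fun N => ?_) ?_ h1
  · have h2 : 0 ≤ kp C N := ssl_kp_nonneg hC N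
    have h3 : 0 ≤ lb C (N + 1) ⌊α * ((N + 1 : ℕ) : ℝ)⌋₊ 0 0 := by
      unfold lb
      (clear * - hC; positivity)
    positivity
  · filter_upwards [tendsto_natCast_atTop_atTop.eventually_ge_atTop α] with N hN
    have hM : ⌊α * ((N + 1 : ℕ) : ℝ)⌋₊ ≤ (N + 3) ^ 2 := by
      refine Nat.floor_le_of_le ?_
      push_cast
      have h0 : (0 : ℝ) ≤ N := Nat.cast_nonneg N
      nlinarith only [hα, hN]
    have h4 := kp_lb hC (N := N) (d := N + 1) (M := ⌊α * ((N + 1 : ℕ) : ℝ)⌋₊) (P := 0) (s := 0)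
      le_rfl (by omega) hM (by omega) (by (clear * -; positivity))
    have h5 : (0 : ℝ) < (N : ℝ) + 1 := by positivity
    have h6 : 1 / ((N : ℝ) + 1) ≤ 1 := by
      rw [div_le_one h5]
      linarith only []
    rw [add_div]
    gcongr
    linarith only [h4, h6]

/-- Selection of the size and of the number of patterns. -/
lemma ssl_selection_N (hf : CB3 C f f1 f2 f3) (hfm : Measurable f)
    (hA : ∀ N, (A N).Close (kp C N)) {α p : ℝ} (hα : 0 < α)
    (hp : ∀ ε > 0, ∃ᶠ N in atTop, meanPressure sphere α f N < p + ε) {ε : ℝ} (hε : 0 < ε)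
    (P : ℕ) :
    ∃ L : ℝ, 1 ≤ L ∧ ∀ N₀ : ℕ, ∃ N M : ℕ, N₀ ≤ N ∧ α * ((N : ℝ) + 1) - 1 ≤ M ∧
      (M : ℝ) ≤ α * ((N : ℝ) + 1) + L ∧
      sslA P (sslB A f hfm C hf.b0 (N + 1) M) (sN (N + 1)) -
        sslA P (sslB A f hfm C hf.b0 N M) (sN (N + 1)) +
      α * (sslA P (sslB A f hfm C hf.b0 (N + 1) (M + 1)) (sN (N + 1)) -
        sslA P (sslB A f hfm C hf.b0 (N + 1) M) (sN (N + 1))) ≤ p + 2 * ε := by
  have hC0 : 0 ≤ C := (abs_nonneg _).trans (hf.b0 0)
  exact window_selection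
    (a := fun N M => sslA P (sslB A f hfm C hf.b0 N M) (sN N))
    (c := fun N M => sslA P (sslB A f hfm C hf.b0 (N + 1) M) (sN (N + 1)) -
      sslA P (sslB A f hfm C hf.b0 N M) (sN (N + 1)))
    (m := fun N => meanPressure sphere α f N)
    (κ := fun N => sN N ^ 2 + kp C N * lb C (N + 1) ⌊α * ((N + 1 : ℕ) : ℝ)⌋₊ 0 0) hC0 hα
    (fun N M => ssl_A_sub_le P _ _ fun u => sslB_step hfm hf.b0 N M P (sN N) u)
    (fun N M => by
      have h := ssl_A_mono P (sslB A f hfm C hf.b0 N M) (s := sN N) (s' := sN (N + 1))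
        (by linarith only [sN_ge N]) (sN_mono (Nat.le_succ N)) (by linarith only [sN_ge (N + 1)])
      linarith only [h])
    (fun N => by
      refine ssl_A_close P _ fun u hu => ?_
      have h := (A N).elz_pressure hfm hf.b0 ⌊α * ((N + 1 : ℕ) : ℝ)⌋₊ P (sN N) u hf
        (ssl_kp_nonneg hC0 N) (hA N) (by linarith only [sN_ge N])
        fun q => ⟨by linarith only [(hu q).1], (hu q).2⟩
      have e : ((N : ℝ) + 1) * meanPressure sphere α f (N + 1) =
          ∫ g, ((N + 1 : ℕ) : ℝ) * pressure (sphere (N + 1)) f g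
            ∂(patterns ⌊α * ((N + 1 : ℕ) : ℝ)⌋₊ (N + 1)) := by
        unfold meanPressure
        rw [integral_const_mul]
        push_cast
        rfl
      rw [e]
      exact h)
    (ssl_kappa hC0 hα) hp hε

/-- The error terms of the increment. -/
noncomputable def sslE (a τ : ℝ) (N : ℕ) : ℝ :=
  2 / (a * τ * √(((N + 1 : ℕ) : ℝ) + 1)) + (1 + 1 / (a * τ)) * (1 / (((N + 1 : ℕ) : ℝ) + 1)) +
    1 / ((N : ℝ) + 1)

lemma sslE_one (N : ℕ) : sslE 1 1 N ≤ 5 := by
  unfold sslE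
  have h0 : (0 : ℝ) ≤ N := Nat.cast_nonneg N
  have h1 : (1 : ℝ) ≤ √(((N + 1 : ℕ) : ℝ) + 1) := by
    rw [Real.one_le_sqrt]
    push_cast
    linarith
  have h2 : 2 / (1 * 1 * √(((N + 1 : ℕ) : ℝ) + 1)) ≤ 2 := by
    rw [div_le_iff₀ (by positivity)]
    linarith only [h1]
  have h3 : 1 / (((N + 1 : ℕ) : ℝ) + 1) ≤ 1 := by
    rw [div_le_one (by positivity)]
    push_cast
    linarith only []
  have h4 : 1 / ((N : ℝ) + 1) ≤ 1 := by
    rw [div_le_one (by positivity)]
    linarith only []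
  have h5 : (1 : ℝ) + 1 / (1 * 1) = 2 := by norm_num
  rw [h5]
  linarith only [h2, h3, h4]

lemma sslE_tendsto (a τ : ℝ) : Tendsto (fun N : ℕ => sslE a τ N) atTop (𝓝 0) := by
  unfold sslE
  have h0 : Tendsto (fun N : ℕ => 1 / ((N : ℝ) + 1)) atTop (𝓝 0) :=
    tendsto_one_div_add_atTop_nhds_zero_nat
  have h1 : Tendsto (fun N : ℕ => 1 / (((N + 1 : ℕ) : ℝ) + 1)) atTop (𝓝 0) :=
    h0.comp (tendsto_add_atTop_nat 1)
  have h2 : Tendsto (fun N : ℕ => 2 / (a * τ * √(((N + 1 : ℕ) : ℝ) + 1))) atTop (𝓝 0) := by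
    have h3 : Tendsto (fun N : ℕ => √(1 / (((N + 1 : ℕ) : ℝ) + 1))) atTop (𝓝 0) := by
      have := h1.sqrt
      rwa [Real.sqrt_zero] at this
    have h4 := h3.const_mul (2 / (a * τ))
    rw [mul_zero] at h4
    refine h4.congr fun N => ?_
    rw [Real.sqrt_div zero_le_one, Real.sqrt_one, div_mul_div_comm, mul_one]
  have h5 := (h2.add (h1.const_mul (1 + 1 / (a * τ)))).add h0
  simpa only [Nat.cast_add, Nat.cast_one, one_div, mul_inv_rev, mul_zero, add_zero] using h5

/-- The increment of the dimension, for the sequence of nets. -/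
lemma ssl_increment (hf : CB3 C f f1 f2 f3) (hfm : Measurable f) :
    ∃ D : ℝ, 0 ≤ D ∧ ∀ (A : ∀ N : ℕ, Net (N + 1)), (∀ N, (A N).Close (kp C N)) →
      ∀ (N M P : ℕ) (u : Fin P → ℝ), M ≤ (N + 3) ^ 2 → P ≤ N + 3 →
      (∀ q, 0 ≤ u q ∧ u q ≤ 2) → ∀ a τ : ℝ, 0 < a → a ≤ 1 → 0 < τ → τ ≤ 1 →
      Real.log (∫ t, win a τ (√(((N + 1 : ℕ) : ℝ) + 1) * t) ∂(ht (N + 1))) -
        D * ((M + sN (N + 1) ^ 2) / (((N + 1 : ℕ) : ℝ) + 1)) *
          ((a + τ ^ 2) / ∫ t, win a τ (√(((N + 1 : ℕ) : ℝ) + 1) * t) ∂(ht (N + 1))) -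
        sslE a τ N ≤
      (sslB A f hfm C hf.b0 (N + 1) M).elz (sN (N + 1)) u -
        (sslB A f hfm C hf.b0 N M).elz (sN (N + 1)) u +
        ((sslB A f hfm C hf.b0 (N + 1) M).sys P (sN (N + 1)) u).dM
          (fun x => Real.log (win a τ x)) := by
  obtain ⟨D, hD0, hD⟩ := increment hf hfm
  refine ⟨D, hD0, fun A hA N M P u hM hP hu a τ ha ha1 hτ hτ1 => ?_⟩
  have hC0 : 0 ≤ C := (abs_nonneg _).trans (hf.b0 0)
  have hs1 := sN_ge (N + 1)
  have hs2 := sN_sq_le (N + 1)
  have hs3 : sN (N + 1) ≤ (N : ℝ) + 2 := by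
    push_cast at hs2
    nlinarith only [hs2, hs1]
  have h := hD (N + 1) (A (N + 1)) (A N) (kp C (N + 1)) (kp C N) (ssl_kp_nonneg hC0 _)
    (ssl_kp_nonneg hC0 _) (hA (N + 1)) (hA N) M P (sN (N + 1)) u (by linarith only [hs1]) hu a τ ha ha1 hτ hτ1
  have k1 := kp_lb hC0 (N := N + 1) (d := N + 1 + 1) (M := M) (P := P) (s := sN (N + 1))
    (by linarith only [hs1]) (by omega) (hM.trans (Nat.pow_le_pow_left (by omega) 2)) (by omega)
    (by push_cast; linarith only [hs3])
  have k2 := kp_lb hC0 (N := N) (d := N + 1 + 1) (M := M) (P := P) (s := sN (N + 1))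
    (by linarith only [hs1]) (by omega) hM hP (by linarith only [hs3])
  have k3 := kp_sqrt hC0 (N + 1)
  have k4 : kp C (N + 1) * (√(((N + 1 : ℕ) : ℝ) + 1) / (a * τ)) ≤
      1 / (a * τ) * (1 / (((N + 1 : ℕ) : ℝ) + 1)) := by
    have haτ : 0 < a * τ := by (clear * - ha hτ; positivity)
    rw [← mul_div_assoc, one_div_mul_eq_div]
    (clear * - k3 ha hτ; gcongr)
  have k5 : kp C (N + 1) * (lb C (N + 1 + 1) M P (sN (N + 1)) +
      √(((N + 1 : ℕ) : ℝ) + 1) / (a * τ)) ≤
      (1 + 1 / (a * τ)) * (1 / (((N + 1 : ℕ) : ℝ) + 1)) := by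
    rw [mul_add, add_mul, one_mul]
    exact add_le_add k1 k4
  unfold sslE
  unfold sslB
  linarith only [hfm, hf, h, k1, k2, k4]

/-- The conditions on large `N`. -/
lemma ssl_large_N (α L Kl ε : ℝ) (hε : 0 < ε) (N₀ : ℕ) :
    ∃ N₁ : ℕ, ∀ N, N₁ ≤ N → Kl * (√(√(((N + 1 : ℕ) : ℝ) + 1)) / sN (N + 1)) ≤ ε ∧
      L / (((N + 1 : ℕ) : ℝ) + 1) + sN (N + 1) ^ 2 / (((N + 1 : ℕ) : ℝ) + 1) ≤ 1 ∧
      α + L ≤ (N : ℝ) ∧ N₀ ≤ N := by
  have l1 : ∀ᶠ N : ℕ in atTop, Kl * (√(√(((N + 1 : ℕ) : ℝ) + 1)) / sN (N + 1)) ≤ ε := by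
    have h := (tendsto_sqrt_sqrt_div_sN.comp (tendsto_add_atTop_nat 1)).const_mul Kl
    rw [mul_zero] at h
    exact h.eventually (ge_mem_nhds hε)
  have l2 : ∀ᶠ N : ℕ in atTop, L / (((N + 1 : ℕ) : ℝ) + 1) +
      sN (N + 1) ^ 2 / (((N + 1 : ℕ) : ℝ) + 1) ≤ 1 := by
    have h1 : Tendsto (fun N : ℕ => L / (((N + 1 : ℕ) : ℝ) + 1)) atTop (𝓝 0) := by
      have h0 : Tendsto (fun N : ℕ => 1 / ((N : ℝ) + 1)) atTop (𝓝 0) :=
        tendsto_one_div_add_atTop_nhds_zero_nat
      have h2 := (h0.comp (tendsto_add_atTop_nat 1)).const_mul L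
      rw [mul_zero] at h2
      refine h2.congr fun N => ?_
      simp only [Function.comp_apply]
      ring
    have h := h1.add (tendsto_sN_sq_div.comp (tendsto_add_atTop_nat 1))
    rw [add_zero] at h
    exact h.eventually (ge_mem_nhds one_pos)
  have l3 : ∀ᶠ N : ℕ in atTop, α + L ≤ (N : ℝ) :=
    tendsto_natCast_atTop_atTop.eventually_ge_atTop (α + L)
  obtain ⟨N₁, hN₁⟩ := eventually_atTop.1 (l1.and (l2.and (l3.and (eventually_ge_atTop N₀))))
  exact ⟨N₁, hN₁⟩

/-- The average over the parameters of the fluctuation. -/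
lemma ssl_dev_le (hfm : Measurable f) (hC : ∀ x, |f x| ≤ C) {N M P : ℕ} (q : Fin P) {A₀ : ℝ}
    (hA₀ : 0 ≤ A₀) (hM : (M : ℝ) * (2 * C) ^ 2 ≤ A₀ * ((N : ℝ) + 1)) :
    ∫ u, (sslB A f hfm C hC N M).dev P (sN N) u q ((sslB A f hfm C hC N M).mh P (sN N) u q)
      ∂(nuP P) ≤ 2 ^ ((q : ℕ) + 1) * (15 + 3 * √(6 + A₀)) * √(√((N : ℝ) + 1)) := by
  have h := integral_dev_le (sslB A f hfm C hC N M) (sN N) (sN_ge N) q hA₀
    (((A N).conc hfm hC M).mono (by rw [sslB_d]; exact hM))
    (by rw [sslB_d]; exact sN_sq_le N) (by rw [sslB_d]; exact sqrt_le_sN_sq N)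
  rw [sslB_d] at h
  exact h

/-- The lower bound for the combination of free energies. -/
lemma ssl_low (hfm : Measurable f) (hC : ∀ x, |f x| ≤ C) {D α : ℝ} (hD0 : 0 ≤ D)
    (hα : 0 < α) {N M P : ℕ} {u : Fin P → ℝ}
    (h : Real.log (∫ t, win 1 1 (√(((N + 1 : ℕ) : ℝ) + 1) * t) ∂(ht (N + 1))) -
        D * ((M + sN (N + 1) ^ 2) / (((N + 1 : ℕ) : ℝ) + 1)) *
          ((1 + 1 ^ 2) / ∫ t, win 1 1 (√(((N + 1 : ℕ) : ℝ) + 1) * t) ∂(ht (N + 1))) -
        sslE 1 1 N ≤
      (sslB A f hfm C hC (N + 1) M).elz (sN (N + 1)) u -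
        (sslB A f hfm C hC N M).elz (sN (N + 1)) u +
        ((sslB A f hfm C hC (N + 1) M).sys P (sN (N + 1)) u).dM
          (fun x => Real.log (win 1 1 x)))
    (hr : ((M : ℝ) + sN (N + 1) ^ 2) / (((N + 1 : ℕ) : ℝ) + 1) ≤ α + 1) :
    -(2 * D * (α + 1) + 5 + α * C) ≤ sslX P (sslB A f hfm C hC N M)
      (sslB A f hfm C hC (N + 1) M) (sslB A f hfm C hC (N + 1) (M + 1)) α (sN (N + 1)) u := by
  have hw : ∀ x, win 1 1 x = 1 := fun x => by simp [win]
  have hz : (fun x : ℝ => Real.log (win 1 1 x)) = fun _ => 0 := by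
    funext x
    rw [hw, Real.log_one]
  rw [hz, ssl_dM_zero] at h
  simp only [hw] at h
  have h1 : ∫ _, (1 : ℝ) ∂(ht (N + 1)) = 1 := by simp
  rw [h1, Real.log_one] at h
  have h2 := sslE_one N
  have h3 := (abs_le.1 (sslB_step (A := A) hfm hC (N + 1) M P (sN (N + 1)) u)).1
  have h4 := mul_le_mul_of_nonneg_left h3 hα.le
  have h5 := mul_le_mul_of_nonneg_left hr hD0
  have h6 : ((1 : ℝ) + 1 ^ 2) / 1 = 2 := by norm_num
  rw [h6] at h
  unfold sslX
  linarith only [hfm, hC, h, h2, h4, h5]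

/-- Selection of the size, of the number of patterns and of the parameters of the perturbation. -/
lemma ssl_step (hf : CB3 C f f1 f2 f3) (hfm : Measurable f)
    (hA : ∀ N, (A N).Close (kp C N)) {D : ℝ} (hD0 : 0 ≤ D)
    (hD : ∀ (N M P : ℕ) (u : Fin P → ℝ), M ≤ (N + 3) ^ 2 → P ≤ N + 3 →
      (∀ q, 0 ≤ u q ∧ u q ≤ 2) →
      Real.log (∫ t, win 1 1 (√(((N + 1 : ℕ) : ℝ) + 1) * t) ∂(ht (N + 1))) -
        D * ((M + sN (N + 1) ^ 2) / (((N + 1 : ℕ) : ℝ) + 1)) *
          ((1 + 1 ^ 2) / ∫ t, win 1 1 (√(((N + 1 : ℕ) : ℝ) + 1) * t) ∂(ht (N + 1))) -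
        sslE 1 1 N ≤
      (sslB A f hfm C hf.b0 (N + 1) M).elz (sN (N + 1)) u -
        (sslB A f hfm C hf.b0 N M).elz (sN (N + 1)) u +
        ((sslB A f hfm C hf.b0 (N + 1) M).sys P (sN (N + 1)) u).dM
          (fun x => Real.log (win 1 1 x)))
    {α p : ℝ} (hα : 0 < α)
    (hp : ∀ ε > 0, ∃ᶠ N in atTop, meanPressure sphere α f N < p + ε) {ε : ℝ} (hε : 0 < ε)
    (hε1 : ε ≤ 1) (P : ℕ) :
    ∃ (N M : ℕ) (u : Fin P → ℝ), P ≤ N ∧ M ≤ (N + 3) ^ 2 ∧
      ((M : ℝ) + sN (N + 1) ^ 2) / (((N + 1 : ℕ) : ℝ) + 1) ≤ α + 1 ∧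
      (∀ q, 1 ≤ u q ∧ u q ≤ 2) ∧
      (∀ q, (sslB A f hfm C hf.b0 (N + 1) M).dev P (sN (N + 1)) u q
        ((sslB A f hfm C hf.b0 (N + 1) M).mh P (sN (N + 1)) u q) ≤ ε * sN (N + 1)) ∧
      sslX P (sslB A f hfm C hf.b0 N M) (sslB A f hfm C hf.b0 (N + 1) M)
        (sslB A f hfm C hf.b0 (N + 1) (M + 1)) α (sN (N + 1)) u ≤ p + 3 * ε := by
  have hC0 : 0 ≤ C := (abs_nonneg _).trans (hf.b0 0)
  obtain ⟨L, hL1, hL⟩ := ssl_selection_N hf hfm hA hα hp hε P
  set A₀ : ℝ := (2 * C) ^ 2 * (α + L) with hA₀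
  have hA₀0 : 0 ≤ A₀ := by (clear * - hα hL1; positivity)
  set K0 : ℝ := 2 * D * (α + 1) + 5 + α * C with hK0
  have hK00 : 0 ≤ K0 := by (clear * - hD0 hα hC0; positivity)
  obtain ⟨N₁, hN₁⟩ := ssl_large_N α L ((|p| + 3 + K0) / ε *
    ∑ q : Fin P, 2 ^ ((q : ℕ) + 1) * (15 + 3 * √(6 + A₀))) ε hε P
  obtain ⟨N, M, hN, hM1, hM2, hsel⟩ := hL N₁
  obtain ⟨g1, g2, g3, g4⟩ := hN₁ N hN
  have hN0 : (0 : ℝ) ≤ N := Nat.cast_nonneg N
  have hMr0 : (0 : ℝ) ≤ M := Nat.cast_nonneg M
  have hMsq : M ≤ (N + 3) ^ 2 := by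
    have h : (M : ℝ) ≤ ((N : ℝ) + 3) ^ 2 := by nlinarith only [hL1, hM2, g3]
    exact_mod_cast h
  have hcast : (((N + 1 : ℕ) : ℝ) + 1) = (N : ℝ) + 2 := by push_cast; ring
  have hr : ((M : ℝ) + sN (N + 1) ^ 2) / (((N + 1 : ℕ) : ℝ) + 1) ≤ α + 1 := by
    have h1 : (M : ℝ) / (((N + 1 : ℕ) : ℝ) + 1) ≤ α + L / (((N + 1 : ℕ) : ℝ) + 1) := by
      rw [hcast]
      have h2 : (0 : ℝ) < (N : ℝ) + 2 := by linarith only []
      rw [div_le_iff₀ h2, add_mul, div_mul_cancel₀ _ h2.ne']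
      linarith only [hα, hM2]
    rw [add_div]
    linarith only [g2, h1]
  have hM : (M : ℝ) * (2 * C) ^ 2 ≤ A₀ * (((N + 1 : ℕ) : ℝ) + 1) := by
    have h1 : (M : ℝ) ≤ (α + L) * (((N + 1 : ℕ) : ℝ) + 1) := by
      rw [hcast]
      nlinarith only [hα, hL1, hM2]
    rw [hA₀]
    have := mul_le_mul_of_nonneg_right h1 (sq_nonneg (2 * C))
    linarith only [this]
  have hs1 := sN_ge (N + 1)
  obtain ⟨u, hu, hd, hX⟩ := ssl_select (P := P)
    (X := sslX P (sslB A f hfm C hf.b0 N M) (sslB A f hfm C hf.b0 (N + 1) M)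
        (sslB A f hfm C hf.b0 (N + 1) (M + 1)) α (sN (N + 1)))
    (Dv := fun q u => (sslB A f hfm C hf.b0 (N + 1) M).dev P (sN (N + 1)) u q
        ((sslB A f hfm C hf.b0 (N + 1) M).mh P (sN (N + 1)) u q))
    (p := p) (ε := ε) (K0 := K0) (s := sN (N + 1))
    (R := fun q => 2 ^ ((q : ℕ) + 1) * (15 + 3 * √(6 + A₀)) * √(√(((N + 1 : ℕ) : ℝ) + 1)))
    (ssl_int_X _ _ _ _ _ _)
    (fun q => int_nuP ((sslB A f hfm C hf.b0 (N + 1) M).cont_dev (sN (N + 1)) q))
    (fun q u => (sslB A f hfm C hf.b0 (N + 1) M).dev_nonneg (sN (N + 1)) u q _)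
    hε hε1 (by linarith only [hs1]) hK00 (fun q => ssl_dev_le hfm hf.b0 q hA₀0 hM)
    (by
      rw [← Finset.sum_mul]
      refine le_trans (le_of_eq ?_) g1
      ring)
    (by rw [ssl_integral_X]; exact hsel)
    (fun u hu => ssl_low hfm hf.b0 hD0 hα (hD N M P u hMsq (by (clear * - g4; omega))
      fun q => ⟨by linarith only [(hu q).1], (hu q).2⟩) hr)
  exact ⟨N, M, u, g4, hMsq, hr, hu, hd, hX⟩

end Net

end Vale.Agent.P157.Sph
end

section

/-! Selection of the parameters, on the sphere. -/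

open MeasureTheory ProbabilityTheory Filter Topology
open scoped RealInnerProductSpace

namespace Vale.Agent.P157.Sph

open Par

open Vale.Agent.P367.GT (gM)

set_option linter.unusedSectionVars false

/-- The window is Lipschitz and bounded. -/
lemma ssl_win_lip {a τ : ℝ} (ha : 0 < a) (ha1 : a ≤ 1) (hτ : 0 < τ) :
    ∃ L : ℝ, 0 ≤ L ∧ (∀ x y, |win a τ x - win a τ y| ≤ L * |x - y|) ∧
      ∀ x, a ≤ win a τ x ∧ win a τ x ≤ 1 := by
  obtain ⟨⟨W', W'', hW⟩, h1, h2⟩ := win_cb2 ha ha1 hτ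
  have hpos : ∀ x, 0 < win a τ x := fun x => by
    unfold win
    have : 0 ≤ (1 - a) * Real.exp (-(x ^ 2 / (2 * τ ^ 2))) :=
      mul_nonneg (by linarith only [ha1]) (Real.exp_pos _).le
    linarith only [ha, this]
  have e : ∀ x, Real.exp (Real.log (win a τ x)) / 1 = win a τ x := fun x => by
    rw [div_one, Real.exp_log (hpos x)]
  simp only [e] at hW h1 h2
  obtain ⟨L, hL⟩ := hW.b1
  refine ⟨L, (abs_nonneg _).trans (hL 0), fun x y => ?_, fun x => ⟨h1 x, h2 x⟩⟩
  have h := Convex.norm_image_sub_le_of_norm_hasDerivWithin_le (f := fun x => win a τ x)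
    (f' := W') (s := Set.univ) (x := y) (y := x) (C := L)
    (fun z _ => (hW.d1 z).hasDerivWithinAt) (fun z _ => hL z) convex_univ (Set.mem_univ _)
    (Set.mem_univ _)
  simpa only [ge_iff_le, Real.norm_eq_abs] using h

/-- The mean of the window with respect to the law of the rescaled height. -/
noncomputable def sslI (a τ : ℝ) (N : ℕ) : ℝ :=
  ∫ t, win a τ (√(((N + 1 : ℕ) : ℝ) + 1) * t) ∂(ht (N + 1))

lemma sslI_tendsto {a τ : ℝ} (ha : 0 < a) (ha1 : a ≤ 1) (hτ : 0 < τ) :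
    Tendsto (sslI a τ) atTop (𝓝 (∫ x, win a τ x ∂(gaussianReal 0 1))) := by
  obtain ⟨L, hL0, hL, hb⟩ := ssl_win_lip ha ha1 hτ
  rw [tendsto_iff_norm_sub_tendsto_zero]
  have h0 : Tendsto (fun N : ℕ => 2 * L / √(((N + 1 : ℕ) : ℝ) + 1)) atTop (𝓝 0) := by
    have h1 : Tendsto (fun N : ℕ => 1 / ((N : ℝ) + 1)) atTop (𝓝 0) :=
      tendsto_one_div_add_atTop_nhds_zero_nat
    have h3 := ((h1.comp (tendsto_add_atTop_nat 1)).sqrt).const_mul (2 * L)
    rw [Real.sqrt_zero, mul_zero] at h3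
    refine h3.congr fun N => ?_
    simp only [Function.comp_apply]
    rw [Real.sqrt_div zero_le_one, Real.sqrt_one, mul_one_div]
  refine squeeze_zero (fun _ => norm_nonneg _) (fun N => ?_) h0
  rw [Real.norm_eq_abs]
  exact ht_window (N + 1) hL0 hL ⟨1, fun x => by
    rw [abs_of_nonneg (ha.le.trans (hb x).1)]
    exact (hb x).2⟩

lemma sslI_pos {a τ : ℝ} (ha : 0 < a) (ha1 : a ≤ 1) (hτ : 0 < τ) (N : ℕ) : 0 < sslI a τ N := by
  obtain ⟨L, hL0, hL, hb⟩ := ssl_win_lip ha ha1 hτ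
  have hc : Continuous fun t : ℝ => win a τ (√(((N + 1 : ℕ) : ℝ) + 1) * t) := by
    unfold win
    fun_prop
  have hi : Integrable (fun t => win a τ (√(((N + 1 : ℕ) : ℝ) + 1) * t)) (ht (N + 1)) := by
    refine Integrable.of_bound hc.aestronglyMeasurable 1 (ae_of_all _ fun t => ?_)
    rw [Real.norm_eq_abs, abs_of_nonneg (ha.le.trans (hb _).1)]
    exact (hb _).2
  have h : ∫ _, a ∂(ht (N + 1)) ≤ sslI a τ N :=
    integral_mono (integrable_const _) hi fun t => (hb _).1
  simp only [integral_const, probReal_univ, smul_eq_mul, one_mul] at h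
  linarith only [ha, h]

lemma sslI_lim_pos {a τ : ℝ} (ha : 0 < a) (ha1 : a ≤ 1) (hτ : 0 < τ) :
    0 < ∫ x, win a τ x ∂(gaussianReal 0 1) :=
  lt_of_lt_of_le (by positivity) (integral_win_ge ha ha1 hτ)

/-- **Selection.** The systems, the Ghirlanda-Guerra identities, and the inequality between the
two increments. -/
theorem exists_sel {C : ℝ} {f f1 f2 f3 : ℝ → ℝ} (hf : CB3 C f f1 f2 f3) (hfm : Measurable f) :
    ∃ D : ℝ, 0 ≤ D ∧ ∀ {α p : ℝ}, 0 < α →
      (∀ ε > 0, ∃ᶠ N in atTop, meanPressure sphere α f N < p + ε) →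
      ∃ S : ℕ → Sys, (∀ r : ℕ, AsympGG (hyperfilter ℕ) S (fun x => x ^ r)) ∧
        ∀ a τ : ℝ, 0 < a → a ≤ 1 → 0 < τ → τ ≤ 1 → ∀ ε > 0, ∀ᶠ j in atTop,
          Real.log (∫ x, win a τ x ∂(gaussianReal 0 1)) -
            D * (α + 1) * ((a + τ ^ 2) / ∫ x, win a τ x ∂(gaussianReal 0 1)) -
            (S j).dM (fun x => Real.log (win a τ x)) + α * (S j).dM f ≤ p + ε := by
  obtain ⟨D, hD0, hD⟩ := ssl_increment hf hfm
  refine ⟨D, hD0, fun {α p} hα hp => ?_⟩
  obtain ⟨A, hA⟩ := exists_nets ((abs_nonneg _).trans (hf.b0 0) : (0 : ℝ) ≤ C)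
  have key := fun j : ℕ => ssl_step (A := A) hf hfm hA hD0
    (fun N M P u hM hP hu => hD A hA N M P u hM hP hu 1 1 one_pos le_rfl one_pos le_rfl)
    hα hp (ε := 1 / ((j : ℝ) + 1)) (by positivity)
    (by rw [div_le_one (by (clear * -; positivity))]; linarith [(Nat.cast_nonneg j : (0 : ℝ) ≤ j)]) j
  choose N M u hN hM hr hu hd hX using key
  have h0 : Tendsto (fun j : ℕ => 1 / ((j : ℝ) + 1)) atTop (𝓝 0) :=
    tendsto_one_div_add_atTop_nhds_zero_nat
  have hU : (hyperfilter ℕ : Filter ℕ) ≤ atTop := by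
    rw [← Nat.cofinite_eq_atTop]
    exact hyperfilter_le_cofinite
  have hsmall : ∀ ε > 0, ∀ᶠ j : ℕ in (hyperfilter ℕ : Filter ℕ), 1 / ((j : ℝ) + 1) ≤ ε :=
    fun ε hε => (h0.eventually (ge_mem_nhds hε)).filter_mono hU
  have hNt : Tendsto N atTop atTop := tendsto_atTop_mono hN tendsto_id
  refine ⟨fun j => (sslB A f hfm C hf.b0 (N j + 1) (M j)).sys j (sN (N j + 1)) (u j),
    fun r => ?_, fun a τ ha ha1 hτ hτ1 ε hε => ?_⟩
  · refine asympGG_of_dev (fun j => sslB A f hfm C hf.b0 (N j + 1) (M j)) (fun j => j)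
      (fun j => sN (N j + 1)) u
      (Filter.Eventually.of_forall fun j => by linarith only [sN_ge (N j + 1)])
      (Filter.Eventually.of_forall fun j q => (hu j q).1)
      (fun j q => (sslB A f hfm C hf.b0 (N j + 1) (M j)).mh j (sN (N j + 1)) (u j) q)
      (fun r => (eventually_gt_atTop r).filter_mono hU) (fun r ε hε => ?_) r
    filter_upwards [hsmall ε hε] with j hj h
    exact (hd j ⟨r, h⟩).trans
      (mul_le_mul_of_nonneg_right hj (by linarith only [sN_ge (N j + 1)]))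
  · set I := ∫ x, win a τ x ∂(gaussianReal 0 1) with hI
    have hIpos : 0 < I := sslI_lim_pos ha ha1 hτ
    have t1 : Tendsto (fun j => sslI a τ (N j)) atTop (𝓝 I) :=
      (sslI_tendsto ha ha1 hτ).comp hNt
    have t2 : Tendsto (fun j => Real.log (sslI a τ (N j)) -
        D * (α + 1) * ((a + τ ^ 2) / sslI a τ (N j)) - sslE a τ (N j) -
        3 * (1 / ((j : ℝ) + 1))) atTop
        (𝓝 (Real.log I - D * (α + 1) * ((a + τ ^ 2) / I) - 0 - 3 * 0)) := by
      refine (((t1.log hIpos.ne').sub ?_).sub ((sslE_tendsto a τ).comp hNt)).sub (h0.const_mul 3)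
      exact (tendsto_const_nhds.div t1 hIpos.ne').const_mul _
    have t3 := t2.eventually (eventually_gt_nhds
      (show Real.log I - D * (α + 1) * ((a + τ ^ 2) / I) - ε <
        Real.log I - D * (α + 1) * ((a + τ ^ 2) / I) - 0 - 3 * 0 by linarith))
    filter_upwards [t3] with j hj
    have h1 := hD A hA (N j) (M j) j (u j) (hM j) (by have := hN j; omega)
      (fun q => ⟨by linarith only [(hu j q).1], (hu j q).2⟩) a τ ha ha1 hτ hτ1
    have h2 := hX j
    unfold sslX at h2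
    rw [sslB_pattern] at h2
    have hIj := sslI_pos ha ha1 hτ (N j)
    change Real.log (sslI a τ (N j)) - D * (((M j : ℝ) + sN (N j + 1) ^ 2) /
      (((N j + 1 : ℕ) : ℝ) + 1)) * ((a + τ ^ 2) / sslI a τ (N j)) - sslE a τ (N j) ≤ _ at h1
    have h3 : D * (((M j : ℝ) + sN (N j + 1) ^ 2) / (((N j + 1 : ℕ) : ℝ) + 1)) *
        ((a + τ ^ 2) / sslI a τ (N j)) ≤ D * (α + 1) * ((a + τ ^ 2) / sslI a τ (N j)) := by
      refine mul_le_mul_of_nonneg_right (mul_le_mul_of_nonneg_left (hr j) hD0) ?_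
      (clear * - ha hτ hIj; positivity)
    linarith

end Vale.Agent.P157.Sph
end

section

/-! The value of the Gaussian window is the Crisanti-Sommers functional. -/

open MeasureTheory ProbabilityTheory Filter Topology
open scoped RealInnerProductSpace

namespace Vale.Agent.P157.Sph

open Par

open Vale.Agent.P367.GT (gM)

set_option linter.unusedSectionVars false

/-- A Gaussian integral. -/
lemma gausswin_int {b : ℝ} (hb : 0 ≤ b) (s x : ℝ) :
    ∫ z, Real.exp (-(b * (x + s * z) ^ 2)) ∂(gaussianReal 0 1) =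
      Real.exp (-(b / (1 + 2 * b * s ^ 2) * x ^ 2)) * (√(1 + 2 * b * s ^ 2))⁻¹ := by
  have hc : (0 : ℝ) < b * s ^ 2 + 1 / 2 := by positivity
  have hd : (0 : ℝ) < 1 + 2 * b * s ^ 2 := by (clear * - hb; positivity)
  rw [integral_gaussianReal_eq_integral_smul (by norm_num)]
  have h1 : ∀ z : ℝ, gaussianPDFReal 0 1 z • Real.exp (-(b * (x + s * z) ^ 2)) =
      ((√(2 * Real.pi))⁻¹ * Real.exp (-(b / (1 + 2 * b * s ^ 2) * x ^ 2))) *
        Real.exp (-(b * s ^ 2 + 1 / 2) * (z + b * s * x / (b * s ^ 2 + 1 / 2)) ^ 2) := by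
    intro z
    unfold gaussianPDFReal
    simp only [NNReal.coe_one, mul_one, sub_zero, smul_eq_mul]
    rw [mul_assoc, mul_assoc, ← Real.exp_add, ← Real.exp_add]
    congr 2
    field_simp
    ring
  simp_rw [h1]
  rw [integral_const_mul, integral_add_right_eq_self
    (fun z : ℝ => Real.exp (-(b * s ^ 2 + 1 / 2) * z ^ 2)), integral_gaussian]
  have h2 : √(Real.pi / (b * s ^ 2 + 1 / 2)) = √(2 * Real.pi) * (√(1 + 2 * b * s ^ 2))⁻¹ := by
    rw [← Real.sqrt_inv, ← Real.sqrt_mul (by positivity)]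
    congr 1
    field_simp
    ring
  rw [h2]
  have h3 : √(2 * Real.pi) ≠ 0 := by positivity
  (clear * - h3 hb; field_simp)

/-- One step of the cascade on a quadratic function. -/
lemma gausswin_step {m v D c : ℝ} (hm : 0 < m) (hv : 0 ≤ v) (hD : 0 < D) :
    gstep m v (fun x => -(x ^ 2 / (2 * D)) + c) =
      fun x => -(x ^ 2 / (2 * (D + m * v))) + (c - 1 / 2 * (1 / m * Real.log ((D + m * v) / D))) := by
  funext x
  unfold gstep
  have hb : 0 ≤ m / (2 * D) := by (clear * - hm hD; positivity)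
  have hE : 0 < D + m * v := by positivity
  have h1 : ∀ z : ℝ, Real.exp (m * (-((x + √v * z) ^ 2 / (2 * D)) + c)) =
      Real.exp (m * c) * Real.exp (-(m / (2 * D) * (x + √v * z) ^ 2)) := by
    intro z
    rw [← Real.exp_add]
    congr 1
    field_simp
    ring
  simp_rw [h1]
  rw [integral_const_mul, gausswin_int hb, Real.sq_sqrt hv]
  have h2 : 1 + 2 * (m / (2 * D)) * v = (D + m * v) / D := by field_simp
  rw [h2, Real.log_mul (Real.exp_ne_zero _) (by positivity),
    Real.log_mul (Real.exp_ne_zero _) (by positivity), Real.log_exp, Real.log_exp, Real.log_inv,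
    Real.log_sqrt (by positivity)]
  field_simp
  ring

/-- The cascade on a quadratic function. -/
lemma gausswin_cascade {k : ℕ} {m q : ℕ → ℝ} (hm : Exponents k m) (hq : Path k q) :
    ∀ j ≤ k, ∀ D c : ℝ, 0 < D →
      cascade m q j (fun x => -(x ^ 2 / (2 * D)) + c) =
        fun x => -(x ^ 2 / (2 * (D + ∑ i ∈ Finset.range j, m (i + 1) * (q (i + 1) - q i)))) +
          (c - 1 / 2 * ∑ l ∈ Finset.range j, 1 / m (l + 1) *
            Real.log ((D + ∑ i ∈ Finset.Ico l j, m (i + 1) * (q (i + 1) - q i)) /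
              (D + ∑ i ∈ Finset.Ico (l + 1) j, m (i + 1) * (q (i + 1) - q i)))) := by
  have hpos : ∀ l, l < k → 0 < m (l + 1) := by
    intro l
    induction l with
    | zero =>
      intro h
      have := hm.2.2 0 (Nat.zero_le _)
      rw [hm.1] at this
      exact this
    | succ l ih =>
      intro h
      exact (ih (by omega)).trans (hm.2.2 (l + 1) (by omega))
  intro j
  induction j with
  | zero =>
    intro _ D c hD
    simp only [cascade, Finset.range_zero, Finset.sum_empty, add_zero, one_div, zero_le, Finset.Ico_eq_empty_of_le, le_add_iff_nonneg_left, Real.log_div_self, mul_zero, Finset.sum_const_zero, sub_zero]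
  | succ j ih =>
    intro hj D c hD
    have hmj := hpos j (by omega)
    have hv : 0 ≤ q (j + 1) - q j := sub_nonneg.2 (hq.2 j (by omega))
    rw [cascade_succ_def, gausswin_step hmj hv hD, ih (by omega) _ _ (by (clear * - hD hmj hv; positivity))]
    funext x
    rw [Finset.sum_range_succ (fun l => 1 / m (l + 1) * _), Finset.sum_range_succ]
    have e1 : D + m (j + 1) * (q (j + 1) - q j) +
        ∑ i ∈ Finset.range j, m (i + 1) * (q (i + 1) - q i) =
        D + (∑ i ∈ Finset.range j, m (i + 1) * (q (i + 1) - q i) +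
          m (j + 1) * (q (j + 1) - q j)) := by ring
    rw [e1]
    have e2 : ∀ l ≤ j, D + ∑ i ∈ Finset.Ico l (j + 1), m (i + 1) * (q (i + 1) - q i) =
        D + m (j + 1) * (q (j + 1) - q j) + ∑ i ∈ Finset.Ico l j, m (i + 1) * (q (i + 1) - q i) := by
      intro l hl
      rw [Finset.sum_Ico_succ_top hl]
      ring
    have e3 : ∑ l ∈ Finset.range j, 1 / m (l + 1) *
            Real.log ((D + ∑ i ∈ Finset.Ico l (j + 1), m (i + 1) * (q (i + 1) - q i)) /
              (D + ∑ i ∈ Finset.Ico (l + 1) (j + 1), m (i + 1) * (q (i + 1) - q i))) =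
        ∑ l ∈ Finset.range j, 1 / m (l + 1) *
            Real.log ((D + m (j + 1) * (q (j + 1) - q j) +
                ∑ i ∈ Finset.Ico l j, m (i + 1) * (q (i + 1) - q i)) /
              (D + m (j + 1) * (q (j + 1) - q j) +
                ∑ i ∈ Finset.Ico (l + 1) j, m (i + 1) * (q (i + 1) - q i))) := by
      refine Finset.sum_congr rfl fun l hl => ?_
      have hl' := Finset.mem_range.1 hl
      rw [e2 l hl'.le, e2 (l + 1) hl']
    rw [e3]
    have e4 : Finset.Ico (j + 1) (j + 1) = ∅ := by simp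
    rw [e4, Finset.sum_empty, e2 j le_rfl, Finset.Ico_self, Finset.sum_empty]
    ring_nf

/-- The value of the Gaussian window. -/
theorem patternPart_gauss {k : ℕ} {m q : ℕ → ℝ} (hm : Exponents k m) (hq : Path k q)
    (hq1 : q k ≤ 1) {τ : ℝ} (hτ : 0 < τ) :
    patternPart (fun x => -(x ^ 2 / (2 * τ ^ 2))) k m q =
      Real.log τ - 1 / 2 * Real.log (1 + τ ^ 2) - csPart k m fun l => q l / (1 + τ ^ 2) := by
  have hpos : ∀ l, l < k → 0 < m (l + 1) := by
    intro l
    induction l with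
    | zero =>
      intro h
      have := hm.2.2 0 (Nat.zero_le _)
      rw [hm.1] at this
      exact this
    | succ l ih =>
      intro h
      exact (ih (by omega)).trans (hm.2.2 (l + 1) (by omega))
  set D : ℝ := τ ^ 2 + (1 - q k) with hDdef
  have hD : 0 < D := by
    have : 0 < τ ^ 2 := by positivity
    linarith
  have hT : 0 < 1 + τ ^ 2 := by positivity
  set A : ℕ → ℝ := fun l => D + ∑ i ∈ Finset.Ico l k, m (i + 1) * (q (i + 1) - q i) with hA
  have hAp : ∀ l, 0 < A l := by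
    intro l
    have : 0 ≤ ∑ i ∈ Finset.Ico l k, m (i + 1) * (q (i + 1) - q i) := by
      refine Finset.sum_nonneg fun i hi => ?_
      have hi' := (Finset.mem_Ico.1 hi).2
      exact mul_nonneg (hpos i hi').le (sub_nonneg.2 (hq.2 i hi'))
    simp only [hA]
    linarith only [hD, this]
  have hAcs : ∀ l, csA k m (fun l => q l / (1 + τ ^ 2)) l = A l / (1 + τ ^ 2) := by
    intro l
    simp only [csA, hA, hDdef]
    rw [eq_div_iff hT.ne', add_mul, sub_mul, div_mul_cancel₀ _ hT.ne', Finset.sum_mul]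
    have : ∀ i, m (i + 1) * (q (i + 1) / (1 + τ ^ 2) - q i / (1 + τ ^ 2)) * (1 + τ ^ 2) =
        m (i + 1) * (q (i + 1) - q i) := by
      intro i
      field_simp
    simp_rw [this]
    ring
  have hF : (fun x => Real.log (∫ y, Real.exp (-((x + √(1 - q k) * y) ^ 2 / (2 * τ ^ 2)))
      ∂(gaussianReal 0 1))) = fun x => -(x ^ 2 / (2 * D)) +
        (-(1 / 2 * Real.log (D / τ ^ 2))) := by
    funext x
    have h1 : ∀ y : ℝ, Real.exp (-((x + √(1 - q k) * y) ^ 2 / (2 * τ ^ 2))) =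
        Real.exp (-(1 / (2 * τ ^ 2) * (x + √(1 - q k) * y) ^ 2)) := by
      intro y
      congr 1
      ring
    simp_rw [h1]
    rw [gausswin_int (by positivity), Real.sq_sqrt (by linarith only [hq1])]
    have h2 : 1 + 2 * (1 / (2 * τ ^ 2)) * (1 - q k) = D / τ ^ 2 := by
      rw [hDdef]
      (clear * - hτ; field_simp)
    rw [h2, Real.log_mul (Real.exp_ne_zero _) (by (clear * - hτ hq1; positivity)), Real.log_exp, Real.log_inv,
      Real.log_sqrt (by (clear * - hτ hq1; positivity))]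
    field_simp
  unfold patternPart
  rw [hF, gausswin_cascade hm hq k le_rfl D _ hD]
  have hsum : D + ∑ i ∈ Finset.range k, m (i + 1) * (q (i + 1) - q i) = A 0 := by
    simp only [hA, Nat.Ico_zero_eq_range]
  rw [hsum]
  have hint : ∀ C : ℝ, ∫ z, (-((√(q 0) * z) ^ 2 / (2 * A 0)) + C) ∂(gaussianReal 0 1) =
      -(q 0 / (2 * A 0)) + C := by
    intro C
    have h2 : ∀ z : ℝ, -((√(q 0) * z) ^ 2 / (2 * A 0)) = -(q 0 / (2 * A 0)) * z ^ 2 := by
      intro z
      rw [mul_pow, Real.sq_sqrt hq.1]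
      ring
    have hi : Integrable (fun z : ℝ => z ^ 2) (gaussianReal 0 1) := by
      have := (memLp_id_gaussianReal (μ := 0) (v := 1) 2).integrable_sq
      simpa only [id_eq] using this
    simp_rw [h2]
    rw [integral_add (hi.const_mul _) (integrable_const _), integral_const_mul]
    have h3 : ∫ z : ℝ, z ^ 2 ∂(gaussianReal 0 1) = 1 := by
      have h4 := variance_id_gaussianReal (μ := 0) (v := 1)
      rw [variance_eq_integral measurable_id.aemeasurable] at h4
      simpa using h4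
    rw [h3]
    simp
  rw [hint]
  unfold csPart
  simp only [hAcs]
  have hlog : ∀ l, Real.log (A l / (1 + τ ^ 2) / (A (l + 1) / (1 + τ ^ 2))) =
      Real.log (A l / A (l + 1)) := by
    intro l
    congr 1
    have := (hAp (l + 1)).ne'
    (clear * - hτ this; field_simp)
  simp_rw [hlog]
  have h5 : 1 - q k / (1 + τ ^ 2) = D / (1 + τ ^ 2) := by
    rw [hDdef]
    field_simp
    ring
  have h6 : q 0 / (1 + τ ^ 2) / (A 0 / (1 + τ ^ 2)) = q 0 / A 0 := by
    have := (hAp 0).ne'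
    (clear * - hτ this; field_simp)
  rw [h5, h6, Real.log_div hD.ne' hT.ne', Real.log_div hD.ne' (by positivity), Real.log_pow]
  have h7 : ∀ l, D + ∑ i ∈ Finset.Ico l k, m (i + 1) * (q (i + 1) - q i) = A l := fun _ => rfl
  simp only [h7]
  generalize ∑ l ∈ Finset.range k, 1 / m (l + 1) * Real.log (A l / A (l + 1)) = S
  generalize A 0 = a
  push_cast
  ring

end Vale.Agent.P157.Sph
end

section

/-! The lower bound on the sphere. -/

open MeasureTheory ProbabilityTheory Filter Topology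

namespace Vale.Agent.P157.Sph

open Par

set_option linter.unusedSectionVars false

lemma low_cb2 {C : ℝ} {f f1 f2 f3 : ℝ → ℝ} (hf : CB3 C f f1 f2 f3) :
    ∃ W' W'', CB2 (fun x => Real.exp (f x) / Real.exp C) W' W'' := by
  have hC : 0 ≤ C := (abs_nonneg _).trans (hf.b0 0)
  have he : ∀ x, Real.exp (f x) / Real.exp C ≤ 1 := fun x => by
    rw [div_le_one (Real.exp_pos _)]
    exact Real.exp_le_exp.2 ((le_abs_self _).trans (hf.b0 x))
  have he0 : ∀ x, 0 ≤ Real.exp (f x) / Real.exp C := fun x => by positivity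
  have c0 : Continuous f := continuous_iff_continuousAt.2 fun x => (hf.d1 x).continuousAt
  have c1 : Continuous f1 := continuous_iff_continuousAt.2 fun x => (hf.d2 x).continuousAt
  have c2 : Continuous f2 := continuous_iff_continuousAt.2 fun x => (hf.d3 x).continuousAt
  refine ⟨fun x => Real.exp (f x) / Real.exp C * f1 x,
    fun x => Real.exp (f x) / Real.exp C * f1 x * f1 x + Real.exp (f x) / Real.exp C * f2 x,
    ⟨fun x => ?_, fun x => ?_, by (clear * - c0 c1 c2; fun_prop), ⟨1, fun x => ?_⟩, ⟨C, fun x => ?_⟩,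
      ⟨C * C + C, fun x => ?_⟩⟩⟩
  · have h := (hf.d1 x).exp.div_const (Real.exp C)
    refine h.congr_deriv ?_
    ring
  · have h := (hf.d1 x).exp.div_const (Real.exp C)
    have h2 := h.mul (hf.d2 x)
    refine h2.congr_deriv ?_
    ring
  · rw [abs_of_nonneg (he0 x)]
    exact he x
  · rw [abs_mul, abs_of_nonneg (he0 x)]
    calc _ ≤ 1 * C := mul_le_mul (he x) (hf.b1 x) (abs_nonneg _) zero_le_one
      _ = C := one_mul C
  · refine (abs_add_le _ _).trans (add_le_add ?_ ?_)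
    · rw [abs_mul, abs_mul, abs_of_nonneg (he0 x)]
      refine mul_le_mul ?_ (hf.b1 x) (abs_nonneg _) hC
      calc _ ≤ 1 * C := mul_le_mul (he x) (hf.b1 x) (abs_nonneg _) zero_le_one
        _ = C := one_mul C
    · rw [abs_mul, abs_of_nonneg (he0 x)]
      calc _ ≤ 1 * C := mul_le_mul (he x) (hf.b2 x) (abs_nonneg _) zero_le_one
        _ = C := one_mul C

/-- Schur comparison of `q` and `q / (1 + τ²)`. -/
lemma low_schur {C : ℝ} {f f1 f2 f3 : ℝ → ℝ} (hf : CB3 C f f1 f2 f3) {k : ℕ} {m q : ℕ → ℝ}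
    (hm : Exponents k m) (hq : Path k q) (hq1 : q k ≤ 1) (τ : ℝ) :
    patternPart f k m (fun l => q l / (1 + τ ^ 2)) ≤ patternPart f k m q +
      1 / 2 * C ^ 2 * τ ^ 2 := by
  have hτ : 0 < 1 + τ ^ 2 := by (clear * -; positivity)
  have hql : ∀ l ≤ k, q l ≤ 1 := by
    intro l hl
    have h : ∀ n, l + n = k → q l ≤ q k := by
      intro n
      induction n generalizing l with
      | zero => intro h; rw [← h, add_zero]
      | succ n ih =>
        intro h
        exact (hq.2 l (by omega)).trans (ih (l + 1) (by omega) (by omega))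
    exact (h (k - l) (by omega)).trans hq1
  have hq0 : ∀ l ≤ k, 0 ≤ q l := by
    intro l hl
    induction l with
    | zero => exact hq.1
    | succ l ih => exact (ih (by omega)).trans (hq.2 l (by omega))
  refine Lv.pattern_schur hm hq hq1 ⟨div_nonneg hq.1 hτ.le, fun l hl =>
    div_le_div_of_nonneg_right (hq.2 l hl) hτ.le⟩ ?_ ⟨hf.d1, hf.d2, hf.b1, hf.b2⟩ (sq_nonneg τ) ?_
  · rw [div_le_one hτ]
    linarith only [hq1, sq_nonneg τ]
  · intro j hj
    have h1 : ∀ l ∈ Finset.Ico j (k + 1), (m (l + 1) - m l) * (-τ ^ 2) ≤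
        (m (l + 1) - m l) * (q l / (1 + τ ^ 2) - q l) := by
      intro l hl
      have hl' : l ≤ k := by
        have := (Finset.mem_Ico.1 hl).2
        omega
      refine mul_le_mul_of_nonneg_left ?_ (sub_nonneg.2 (hm.2.2 l hl').le)
      have h2 : q l / (1 + τ ^ 2) - q l = -(q l * τ ^ 2 / (1 + τ ^ 2)) := by
        field_simp
        ring
      rw [h2, neg_le_neg_iff, div_le_iff₀ hτ]
      nlinarith only [hql l hl']
    refine le_trans ?_ (Finset.sum_le_sum h1)
    rw [← Finset.sum_mul, Finset.sum_Ico_eq_sub _ (show j ≤ k + 1 by omega),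
      Finset.sum_range_sub, Finset.sum_range_sub, hm.2.1, hm.1]
    have h3 : 0 ≤ m j := by
      have h4 : ∀ i ≤ k + 1, 0 ≤ m i := by
        intro i hi
        induction i with
        | zero => exact hm.1.ge
        | succ i ih => exact (ih (by omega)).trans (hm.2.2 i (by omega)).le
      exact h4 j (by omega)
    linarith only [mul_nonneg (sq_nonneg τ) h3]

/-- **The lower bound on the sphere, for smooth bounded potentials.** -/
theorem lower_smooth {C : ℝ} {f f1 f2 f3 : ℝ → ℝ} (hf : CB3 C f f1 f2 f3) {α p : ℝ}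
    (hα : 0 < α) (hp : ∀ ε > 0, ∃ᶠ N in atTop, meanPressure sphere α f N < p + ε) :
    ∀ ε > 0, ∃ (k : ℕ) (m q : ℕ → ℝ), Exponents k m ∧ Path k q ∧ q k < 1 ∧
      α * patternPart f k m q + csPart k m q ≤ p + ε := by
  intro ε hε
  have hC : 0 ≤ C := (abs_nonneg _).trans (hf.b0 0)
  have hfm : Measurable f :=
    (continuous_iff_continuousAt.2 fun x => (hf.d1 x).continuousAt).measurable
  obtain ⟨D, hD0, hD⟩ := exists_sel hf hfm
  obtain ⟨S, hGG, hS⟩ := hD hα hp
  -- the window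
  obtain ⟨τ, hτ0, hτ1, hτ2⟩ : ∃ τ : ℝ, 0 < τ ∧ τ ≤ 1 ∧
      (3 * D * (α + 1) + α * C ^ 2) * τ ≤ ε / 6 := by
    have hK : 0 < 3 * D * (α + 1) + α * C ^ 2 + 1 := by (clear * - hD0 hα; positivity)
    refine ⟨min 1 (ε / 6 / (3 * D * (α + 1) + α * C ^ 2 + 1)),
      lt_min one_pos (by (clear * - hε hD0 hα; positivity)), min_le_left _ _, ?_⟩
    have h1 := min_le_right 1 (ε / 6 / (3 * D * (α + 1) + α * C ^ 2 + 1))
    have h2 : (3 * D * (α + 1) + α * C ^ 2) * min 1 (ε / 6 / (3 * D * (α + 1) + α * C ^ 2 + 1)) ≤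
        (3 * D * (α + 1) + α * C ^ 2 + 1) * (ε / 6 / (3 * D * (α + 1) + α * C ^ 2 + 1)) := by
      refine mul_le_mul (by linarith only []) h1 (le_min zero_le_one (by (clear * - hε hD0 hα; positivity))) hK.le
    rw [mul_div_cancel₀ _ hK.ne'] at h2
    exact h2
  obtain ⟨a₀, ha₀, hwin⟩ := patternPart_win_le hτ0 (show 0 < ε / 6 by positivity)
  obtain ⟨a, ha, haa, ha1, haτ⟩ : ∃ a : ℝ, 0 < a ∧ a ≤ a₀ ∧ a ≤ 1 ∧ a ≤ τ ^ 2 :=
    ⟨min a₀ (τ ^ 2), lt_min ha₀ (by positivity), min_le_left _ _,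
      (min_le_right _ _).trans (by nlinarith only [hτ1, hτ0]), min_le_right _ _⟩
  -- the evaluation of the increments
  have hexpC := Real.exp_pos C
  obtain ⟨Df, hDf0, hDf⟩ := dM_lim hfm hexpC (Real.exp_pos (-(2 * C))) (low_cb2 hf)
    (fun x => by
      rw [le_div_iff₀ hexpC, ← Real.exp_add]
      exact Real.exp_le_exp.2 (by linarith only [(abs_le.1 (hf.b0 x)).1]))
    (fun x => by
      rw [div_le_one hexpC]
      exact Real.exp_le_exp.2 ((le_abs_self _).trans (hf.b0 x)))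
  obtain ⟨hw1, hw2, hw3⟩ := win_cb2 ha ha1 hτ0
  have hwm : Measurable fun x => Real.log (win a τ x) := by
    unfold win
    fun_prop
  obtain ⟨Dw, hDw0, hDw⟩ := dM_lim hwm one_pos ha hw1 hw2 hw3
  -- the mesh
  obtain ⟨δ, hδ, hδ1⟩ : ∃ δ : ℝ, 0 < δ ∧ (α * Df + Dw) * δ ≤ ε / 6 := by
    have hK : 0 < α * Df + Dw + 1 := by (clear * - hα hDf0 hDw0; positivity)
    refine ⟨ε / 6 / (α * Df + Dw + 1), by (clear * - hε hα hDf0 hDw0; positivity), ?_⟩
    rw [mul_div_assoc', div_le_iff₀ hK]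
    linarith only [hε]
  obtain ⟨k, b, w, q, hmesh⟩ := exists_mesh' hGG hδ
  have hm : Exponents k (mOf w) := exponents_mOf hmesh.lim.wpos hmesh.lim.wsum
  have hτ' : 0 < 1 + τ ^ 2 := by positivity
  refine ⟨k, mOf w, fun l => q l / (1 + τ ^ 2), hm,
    ⟨div_nonneg hmesh.path.1 hτ'.le, fun l hl =>
      div_le_div_of_nonneg_right (hmesh.path.2 l hl) hτ'.le⟩, ?_, ?_⟩
  · change q k / (1 + τ ^ 2) < 1
    rw [div_lt_one hτ']
    have := hmesh.le1
    linarith only [this, sq_pos_of_pos hτ0]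
  -- the constant `η`
  have hη : 0 < ε / (12 * (α + 1)) := by positivity
  have e1 := hDf (hyperfilter ℕ) S k b w q δ hmesh _ hη
  have e2 := hDw (hyperfilter ℕ) S k b w q δ hmesh _ hη
  have e3 := (hS a τ ha ha1 hτ0 hτ1 (ε / 12) (by positivity)).filter_mono
    (show (↑(hyperfilter ℕ) : Filter ℕ) ≤ atTop from Nat.hyperfilter_le_atTop)
  obtain ⟨j, h1, h2, h3⟩ := (e1.and (e2.and e3)).exists
  have hη2 : (α + 1) * (ε / (12 * (α + 1))) = ε / 12 := by
    (clear * - hα hε; field_simp)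
  -- the value of the window
  have h4 := hwin a ha haa ha1 k (mOf w) q hm hmesh.path hmesh.le1
  rw [patternPart_gauss hm hmesh.path hmesh.le1 hτ0] at h4
  have h5 := integral_win_ge ha ha1 hτ0
  have h6 : 0 < τ / √(1 + τ ^ 2) := by (clear * - hτ0; positivity)
  have h7 : Real.log τ - 1 / 2 * Real.log (1 + τ ^ 2) ≤
      Real.log (∫ x, win a τ x ∂(gaussianReal 0 1)) := by
    refine le_trans (le_of_eq ?_) (Real.log_le_log h6 h5)
    rw [Real.log_div hτ0.ne' (by (clear * - hτ0; positivity)), Real.log_sqrt hτ'.le]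
    ring
  have h8 : D * (α + 1) * ((a + τ ^ 2) / ∫ x, win a τ x ∂(gaussianReal 0 1)) ≤
      3 * D * (α + 1) * τ := by
    have h9 : (a + τ ^ 2) / ∫ x, win a τ x ∂(gaussianReal 0 1) ≤ 3 * τ := by
      have h10 : (a + τ ^ 2) / ∫ x, win a τ x ∂(gaussianReal 0 1) ≤
          (a + τ ^ 2) / (τ / √(1 + τ ^ 2)) :=
        div_le_div_of_nonneg_left (by (clear * - ha hτ0; positivity)) h6 h5
      refine h10.trans ?_
      rw [div_div_eq_mul_div, div_le_iff₀ hτ0]
      have h11 : √(1 + τ ^ 2) ≤ 3 / 2 := by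
        rw [Real.sqrt_le_left (by norm_num)]
        nlinarith only [hτ1, hτ0]
      have h12 : a + τ ^ 2 ≤ 2 * τ ^ 2 := by linarith only [haτ]
      calc (a + τ ^ 2) * √(1 + τ ^ 2) ≤ 2 * τ ^ 2 * (3 / 2) :=
            mul_le_mul h12 h11 (Real.sqrt_nonneg _) (by positivity)
        _ = 3 * τ * τ := by ring
    calc D * (α + 1) * ((a + τ ^ 2) / ∫ x, win a τ x ∂(gaussianReal 0 1)) ≤
          D * (α + 1) * (3 * τ) := mul_le_mul_of_nonneg_left h9 (by (clear * - hD0 hα; positivity))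
      _ = 3 * D * (α + 1) * τ := by ring
  -- Schur comparison
  have h13 := low_schur hf hm hmesh.path hmesh.le1 τ
  have h14 : α * patternPart f k (mOf w) (fun l => q l / (1 + τ ^ 2)) ≤
      α * patternPart f k (mOf w) q + α * C ^ 2 * τ := by
    have h15 : 1 / 2 * C ^ 2 * τ ^ 2 ≤ C ^ 2 * τ := by
      have h16 : τ ^ 2 ≤ τ := by nlinarith only [hτ0, hτ1]
      linarith only [sq_nonneg C, mul_le_mul_of_nonneg_left h16 (sq_nonneg C),
        mul_nonneg (sq_nonneg C) hτ0.le]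
    have h17 := mul_le_mul_of_nonneg_left (h13.trans (add_le_add_right h15 _)) hα.le
    linarith only [h17]
  have h18 := (abs_le.1 h1).1
  have h19 := (abs_le.1 h2).2
  have h20 : α * patternPart f k (mOf w) q ≤
      α * (S j).dM f + α * (Df * δ + ε / (12 * (α + 1))) := by
    rw [← mul_add]
    exact mul_le_mul_of_nonneg_left (by linarith only [h18]) hα.le
  have h21 : α * (Df * δ + ε / (12 * (α + 1))) + (Dw * δ + ε / (12 * (α + 1))) =
      (α * Df + Dw) * δ + (α + 1) * (ε / (12 * (α + 1))) := by ring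
  have h22 : (3 * D * (α + 1) + α * C ^ 2) * τ = 3 * D * (α + 1) * τ + α * C ^ 2 * τ := by ring
  rw [h22] at hτ2
  rw [hη2] at h21
  linarith only [hε, hτ2, hδ1, h3, hη2, h4, h7, h8, h14, h19, h20]

end Vale.Agent.P157.Sph
end

section

/-! The Parisi (Crisanti-Sommers) formula for the spherical perceptron, bounded measurable
potentials. -/

open MeasureTheory ProbabilityTheory Filter Topology

namespace Vale.Agent.P157.Sph

open Par

set_option linter.unusedSectionVars false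

lemma thm_sphere_sq (N : ℕ) [NeZero N] : ∀ᵐ x ∂(sphere N), ∑ i, x i ^ 2 = (N : ℝ) := by
  rw [sphere_eq_usp, ae_map_iff (by (clear * -; fun_prop))
    (measurableSet_eq_fun (by fun_prop) measurable_const)]
  filter_upwards [norm_usp N] with y hy
  have h1 : ∑ i, y i ^ 2 = 1 := by
    rw [← EuclideanSpace.real_norm_sq_eq, hy, one_pow]
  simp_rw [mul_pow]
  rw [← Finset.mul_sum, h1, mul_one, Real.sq_sqrt (Nat.cast_nonneg N)]

/-- Smooth approximation. -/
lemma thm_approx {f : ℝ → ℝ} (hf : Measurable f) {B : ℝ} (hB : ∀ x, |f x| ≤ B) {ε : ℝ}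
    (hε : 0 < ε) : ∃ (g g1 g2 g3 : ℝ → ℝ) (C : ℝ), CB3 C g g1 g2 g3 ∧ (∀ x, |g x| ≤ B) ∧
      Lv.dL f g ≤ ε := by
  obtain ⟨g, hg, ⟨C, hC⟩, hgB, hd⟩ := exists_smooth_L1 hf hB hε
  refine ⟨g, iteratedDeriv 1 g, iteratedDeriv 2 g, iteratedDeriv 3 g, C, ?_, hgB, hd⟩
  have h0 : iteratedDeriv 0 g = g := iteratedDeriv_zero
  refine ⟨fun x => ?_, fun x => hasDerivAt_iteratedDeriv hg 1 x,
    fun x => hasDerivAt_iteratedDeriv hg 2 x, fun x => ?_, hC 1 (by norm_num),
    hC 2 (by norm_num), hC 3 (by norm_num)⟩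
  · have h := hasDerivAt_iteratedDeriv hg 0 x
    rw [h0] at h
    exact h
  · have h := hC 0 (by norm_num) x
    rw [h0] at h
    exact h

section

variable {f : ℝ → ℝ} {B α : ℝ}

/-- The values of the Crisanti-Sommers functional. -/
def csVals (α : ℝ) (f : ℝ → ℝ) : Set ℝ :=
  {y | ∃ (k : ℕ) (m q : ℕ → ℝ), Exponents k m ∧ Path k q ∧ q k < 1 ∧
    y = α * patternPart f k m q + csPart k m q}

lemma thm_lip (hf : Measurable f) (hB : ∀ x, |f x| ≤ B) {g : ℝ → ℝ} (hg : Measurable g)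
    (hgB : ∀ x, |g x| ≤ B) (hα : 0 ≤ α) {N : ℕ} (hN : 0 < N) :
    |meanPressure sphere α f N - meanPressure sphere α g N| ≤
      α * Real.exp (2 * B) * Lv.dL f g := by
  have : NeZero N := ⟨hN.ne'⟩
  exact Lv.meanPressure_lipL sphere hN (thm_sphere_sq N) hf hg hB hgB hα

/-- The upper bound. -/
theorem thm_upper (hf : Measurable f) (hB : ∀ x, |f x| ≤ B) (hα : 0 < α) {y : ℝ}
    (hy : y ∈ csVals α f) {ε : ℝ} (hε : 0 < ε) :
    ∀ᶠ N in atTop, meanPressure sphere α f N ≤ y + ε := by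
  obtain ⟨k, m, q, hm, hq, hq1, rfl⟩ := hy
  have hE : 0 < α * Real.exp (2 * B) := by positivity
  obtain ⟨g, g1, g2, g3, C, hg, hgB, hd⟩ := thm_approx hf hB
    (show 0 < ε / 3 / (α * Real.exp (2 * B)) by positivity)
  have hgm : Measurable g := (Lin.continuous_f hg).measurable
  have hd' : α * Real.exp (2 * B) * Lv.dL f g ≤ ε / 3 := by
    have h := mul_le_mul_of_nonneg_left hd hE.le
    rwa [mul_div_cancel₀ _ hE.ne'] at h
  have h1 := (abs_le.1 (Lv.patternPart_lipL hm hq hq1.le hf hgm hB hgB)).1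
  have h2 : α * patternPart g k m q ≤ α * patternPart f k m q + ε / 3 := by
    have h3 : α * (patternPart g k m q - patternPart f k m q) ≤
        α * (Real.exp (2 * B) * Lv.dL f g) := mul_le_mul_of_nonneg_left (by linarith only [h1]) hα.le
    linarith only [hd', h3]
  filter_upwards [upper_smooth ⟨hg.d1, hg.d2, hg.b1, hg.b2⟩ hgB hα.le hm hq hq1
    (show 0 < ε / 3 by positivity), eventually_gt_atTop 0] with N hN hN0
  have h3 := (abs_le.1 (thm_lip hf hB hgm hgB hα.le hN0)).2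
  linarith only [hd', h2, hN, h3]

/-- The lower bound. -/
theorem thm_lower (hf : Measurable f) (hB : ∀ x, |f x| ≤ B) (hα : 0 < α) {p : ℝ}
    (hp : ∀ ε > 0, ∃ᶠ N in atTop, meanPressure sphere α f N < p + ε) {ε : ℝ} (hε : 0 < ε) :
    ∃ y ∈ csVals α f, y ≤ p + ε := by
  have hE : 0 < α * Real.exp (2 * B) := by positivity
  obtain ⟨g, g1, g2, g3, C, hg, hgB, hd⟩ := thm_approx hf hB
    (show 0 < ε / 3 / (α * Real.exp (2 * B)) by (clear * - hε hα; positivity))
  have hgm : Measurable g := (Lin.continuous_f hg).measurable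
  have hd' : α * Real.exp (2 * B) * Lv.dL f g ≤ ε / 3 := by
    have h := mul_le_mul_of_nonneg_left hd hE.le
    rwa [mul_div_cancel₀ _ hE.ne'] at h
  have hp' : ∀ η > 0, ∃ᶠ N in atTop, meanPressure sphere α g N < (p + ε / 3) + η := by
    intro η hη
    refine ((hp η hη).and_eventually (eventually_gt_atTop 0)).mono ?_
    rintro N ⟨h1, h2⟩
    have h3 := (abs_le.1 (thm_lip hf hB hgm hgB hα.le h2)).1
    linarith
  obtain ⟨k, m, q, hm, hq, hq1, h⟩ := lower_smooth hg hα hp' (ε / 3) (by positivity)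
  refine ⟨_, ⟨k, m, q, hm, hq, hq1, rfl⟩, ?_⟩
  have h1 := (abs_le.1 (Lv.patternPart_lipL hm hq hq1.le hf hgm hB hgB)).2
  have h2 : α * patternPart f k m q ≤ α * patternPart g k m q + ε / 3 := by
    have h3 : α * (patternPart f k m q - patternPart g k m q) ≤
        α * (Real.exp (2 * B) * Lv.dL f g) := mul_le_mul_of_nonneg_left (by linarith only [h1]) hα.le
    linarith only [hd', h3]
  linarith only [h, h2]

/-- **The Parisi formula for the spherical perceptron**, for every bounded measurable potential: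
the limit of the mean pressure exists and is the infimum of the Crisanti-Sommers functional. -/
theorem sphere_formula (hf : Measurable f) (hB : ∀ x, |f x| ≤ B) (hα : 0 < α) :
    ∃ L : ℝ, Tendsto (fun N => meanPressure sphere α f N) atTop (𝓝 L) ∧
      IsGLB (csVals α f) L := by
  have hB0 : 0 ≤ B := (abs_nonneg _).trans (hB 0)
  have hne : (csVals α f).Nonempty := by
    have hm : Exponents 0 (fun n => (n : ℝ)) := by
      refine ⟨by simp, by simp only [zero_add, Nat.cast_one], fun l hl => ?_⟩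
      obtain rfl : l = 0 := by omega
      simp only [CharP.cast_eq_zero, zero_add, Nat.cast_one, zero_lt_one]
    exact ⟨_, 0, _, fun _ => (0 : ℝ), hm, ⟨le_rfl, fun _ _ => le_rfl⟩, zero_lt_one, rfl⟩
  have hlb : ∀ N : ℕ, 0 < N →
      -(α * Real.exp (2 * B) * Lv.dL f (fun _ => 0)) ≤ meanPressure sphere α f N := by
    intro N hN
    have : NeZero N := ⟨hN.ne'⟩
    have h1 := thm_lip (g := fun _ => 0) hf hB measurable_const
      (fun x => by simpa only [abs_zero] using hB0) hα.le hN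
    have h2 : meanPressure sphere α (fun _ => 0) N = 0 := by
      unfold meanPressure pressure
      simp only [one_div, Finset.sum_const_zero, Real.exp_zero, integral_const, probReal_univ, smul_eq_mul, mul_one, Real.log_one, mul_zero, integral_zero]
    rw [h2, sub_zero] at h1
    exact (abs_le.1 h1).1
  have hbdd : BddBelow (csVals α f) := by
    refine ⟨-(α * Real.exp (2 * B) * Lv.dL f (fun _ => 0)), fun y hy => ?_⟩
    refine le_of_forall_pos_le_add fun ε hε => ?_
    obtain ⟨N, h1, h2⟩ := ((thm_upper hf hB hα hy hε).and (eventually_gt_atTop 0)).exists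
    exact (hlb N h2).trans h1
  have hglb : IsGLB (csVals α f) (sInf (csVals α f)) := isGLB_csInf hne hbdd
  refine ⟨sInf (csVals α f), ?_, hglb⟩
  rw [tendsto_order]
  constructor
  · intro a ha
    by_contra hcon
    have hfreq : ∀ ε > 0, ∃ᶠ N in atTop, meanPressure sphere α f N < a + ε := by
      intro ε hε
      refine (Filter.not_eventually.1 hcon).mono fun N hN => ?_
      linarith only [hε, hN]
    obtain ⟨y, hy, hya⟩ := thm_lower hf hB hα hfreq
      (ε := (sInf (csVals α f) - a) / 2) (by linarith only [ha])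
    have h2 := hglb.1 hy
    linarith only [ha, hya, h2]
  · intro a ha
    obtain ⟨y, hy, hya⟩ := (csInf_lt_iff hbdd hne).1 ha
    have h1 : 0 < (a - y) / 2 := by linarith only [hya]
    filter_upwards [thm_upper hf hB hα hy h1] with N hN
    linarith only [hya, hN]

end

end Vale.Agent.P157.Sph
end

section

/-! The spherical formula for the Gaussian form of the uniform measure of the sphere. -/

open MeasureTheory ProbabilityTheory Filter Topology

namespace Vale.Agent.P157.Sph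

open Par

/-- The formula for `usphere`. -/
theorem usphere_formula {f : ℝ → ℝ} {B α : ℝ} (hf : Measurable f) (hB : ∀ x, |f x| ≤ B)
    (hα : 0 < α) :
    ∃ L : ℝ, Tendsto (meanPressure usphere α f) atTop (𝓝 L) ∧
      IsGLB {y | ∃ (k : ℕ) (m q : ℕ → ℝ), Exponents k m ∧ Path k q ∧ q k < 1 ∧
        y = α * patternPart f k m q + csPart k m q} L := by
  obtain ⟨L, h1, h2⟩ := sphere_formula hf hB hα
  refine ⟨L, h1.congr' ?_, h2⟩
  filter_upwards [eventually_gt_atTop 0] with n hn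
  have : NeZero n := ⟨hn.ne'⟩
  unfold meanPressure
  rw [usphere_eq]

end Vale.Agent.P157.Sph
end
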