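import Vale.Agent.P157.Bdl.B13
import Vale.Agent.P157.Bdl.B10
import Vale.Agent.P157.Bdl.B8
import Vale.Agent.P157.Bdl.B15
import Vale.Agent.P157.Bdl.B9
import Vale.Agent.P157.Bdl.B14
import Vale.Agent.P157.Bdl.B4
attribute [-instance] ProperSMul.toContinuousSMul IsTopologicalTorsor.toContinuousSMul IdemSemiring.toCanonicallyOrderedAdd IdemSemiring.toMulLeftMono IdemSemiring.toMulRightMono AddQuantale.instAddLeftMono AddQuantale.instAddRightMono Quantale.instMulLeftMono Quantale.instMulRightMono FiniteDimensional.rclike_to_real IsScalarTower.complexToReal FiniteDimensional.complexToReal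

set_option linter.all false

section

open MeasureTheory ProbabilityTheory Filter Topology Finset

namespace Vale.Agent.P157.Par

set_option linter.unusedSectionVars false

open Vale.Agent.P367.GT (gM)
open Vale.Agent.P157.Par.Cube (ini las)

/-! ### Functions of the overlap on a fine mesh -/

lemma Sys.tav_sum_fin (S : Sys) {n : ℕ} {ι : Type} (s : Finset ι)
    (F : ι → S.T → (Fin n → S.X) → ℝ) {C : ι → ℝ} (hF : ∀ i, Sys.Bdd S (F i) (C i)) :
    (∃ D, Sys.Bdd S (fun t x => ∑ i ∈ s, F i t x) D) ∧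
    S.tav (fun t x => ∑ i ∈ s, F i t x) = ∑ i ∈ s, S.tav (F i) := by
  classical
  induction s using Finset.induction_on with
  | empty =>
    refine ⟨⟨0, fun x => by simp, fun t x => by simp⟩, ?_⟩
    simp only [Finset.sum_empty]
    exact Sys.tav_const 0
  | insert i s hi ih =>
    obtain ⟨⟨D, hD⟩, h2⟩ := ih
    have h3 : (fun t x => ∑ i ∈ insert i s, F i t x) = fun t x => F i t x + ∑ i ∈ s, F i t x := by
      funext t x
      rw [Finset.sum_insert hi]
    rw [h3]
    refine ⟨⟨C i + D, fun x => ((hF i).meas x).add (hD.meas x), fun t x =>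
      (abs_add_le _ _).trans (add_le_add ((hF i).bdd t x) (hD.bdd t x))⟩, ?_⟩
    rw [Sys.tav_add (hF i) hD, h2, Finset.sum_insert hi]

theorem Mesh.fun_lim {U : Ultrafilter ℕ} {S : ℕ → Sys} {k : ℕ} {b : Fin k → ℝ}
    {w : Fin (k + 1) → ℝ} {q : ℕ → ℝ} {e : ℝ} (hm : Mesh U S b w q e) {G : ℝ → ℝ} {L B : ℝ}
    (hL : 0 ≤ L) (hG : ∀ x y, |x| ≤ 1 → |y| ≤ 1 → |G x - G y| ≤ L * |x - y|)
    (hB : ∀ x, |x| ≤ 1 → |G x| ≤ B) :
    ∀ η > 0, ∀ᶠ j in (U : Filter ℕ), |(S j).tav (n := 2) (fun _ x => G ((S j).R (x 0) (x 1))) -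
      ∑ l : Fin (k + 1), w l * G (q l)| ≤ L * e + η := by
  intro η hη
  have hq0 : ∀ l : Fin (k + 1), |q l| ≤ 1 := by
    intro l
    have h1 := path_mono hm.path.2 0 l (Nat.zero_le _) (by omega)
    have h2 := path_mono hm.path.2 l k (by omega) le_rfl
    rw [abs_of_nonneg (hm.path.1.trans h1)]
    exact h2.trans hm.le1
  have hR : ∀ j x y, |(S j).R x y| ≤ 1 := fun j x y => by
    have := Sys.R_mem (S := S j) x y
    rw [abs_le]; exact this
  have h2 : Tendsto (fun j => ∑ l : Fin (k + 1), G (q l) * (S j).pr (fun x : Fin 2 → (S j).X =>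
      lev b ((S j).R (x 0) (x 1)) = l)) U (𝓝 (∑ l : Fin (k + 1), G (q l) * w l)) :=
    tendsto_finsetSum _ fun l _ => (hm.lim.lim l).const_mul _
  have h3 : ∀ j, (S j).tav (n := 2) (fun _ x => G (q (lev b ((S j).R (x 0) (x 1))))) =
      ∑ l : Fin (k + 1), G (q l) * (S j).pr (fun x : Fin 2 → (S j).X =>
      lev b ((S j).R (x 0) (x 1)) = l) := by
    intro j
    have e1 : ∀ l : Fin (k + 1), G (q l) * (S j).pr (fun x : Fin 2 → (S j).X =>
      lev b ((S j).R (x 0) (x 1)) = l) = (S j).tav (n := 2) (fun _ x => G (q l) *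
        ind (lev b ((S j).R (x 0) (x 1)) = l)) := fun l => by
      unfold Sys.pr
      exact (Sys.tav_smul _ _).symm
    simp_rw [e1]
    have e2 := ((S j).tav_sum_fin (n := 2) Finset.univ (fun (l : Fin (k + 1)) _ x => G (q l) *
        ind (lev b ((S j).R (x 0) (x 1)) = l)) (C := fun l => |G (q l)|) (fun l =>
        ⟨fun x => measurable_const, fun t x => by
          rw [abs_mul]
          exact mul_le_of_le_one_right (abs_nonneg _) (abs_ind_le_one _)⟩)).2
    rw [← e2]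
    refine Sys.tav_congr fun t x => ?_
    rw [Finset.sum_eq_single (lev b ((S j).R (x 0) (x 1)))]
    · unfold ind
      rw [if_pos rfl, mul_one]
    · intro l _ hl
      unfold ind
      rw [if_neg (Ne.symm hl), mul_zero]
    · intro h
      exact absurd (Finset.mem_univ _) h
  filter_upwards [hm.off, (Metric.tendsto_nhds.1 h2) η hη] with j h4 h5
  rw [Real.dist_eq, ← h3 j] at h5
  have e3 : ∑ l : Fin (k + 1), G (q l) * w l = ∑ l : Fin (k + 1), w l * G (q l) :=
    Finset.sum_congr rfl fun l _ => mul_comm _ _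
  rw [e3] at h5
  have hb1 : Sys.Bdd (S j) (n := 2) (fun _ x => G ((S j).R (x 0) (x 1))) B :=
    ⟨fun x => measurable_const, fun t x => hB _ (hR j _ _)⟩
  have hb2 : Sys.Bdd (S j) (n := 2) (fun _ x => G (q (lev b ((S j).R (x 0) (x 1))))) B :=
    ⟨fun x => measurable_const, fun t x => hB _ (hq0 _)⟩
  have hb3 : Sys.Bdd (S j) (n := 2) (fun _ x => L *
      |(S j).R (x 0) (x 1) - q (lev b ((S j).R (x 0) (x 1)))|) (L * 2) :=
    ⟨fun x => measurable_const, fun t x => by
      rw [abs_mul, abs_abs, abs_of_nonneg hL]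
      refine mul_le_mul_of_nonneg_left ((abs_sub _ _).trans ?_) hL
      have := hR j (x 0) (x 1)
      have h7 := hq0 (lev b ((S j).R (x 0) (x 1)))
      linarith only [this, h7]⟩
  have hb4 : Sys.Bdd (S j) (n := 2) (fun _ x => G ((S j).R (x 0) (x 1)) -
      G (q (lev b ((S j).R (x 0) (x 1))))) (B + B) :=
    ⟨fun x => measurable_const, fun t x => (abs_sub _ _).trans
      (add_le_add (hb1.bdd t x) (hb2.bdd t x))⟩
  have h6 := Sys.tav_abs_le hb4 hb3 (fun t x => hG _ _ (hR j _ _) (hq0 _))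
  rw [Sys.tav_sub hb1 hb2, Sys.tav_smul] at h6
  have h7 := mul_le_mul_of_nonneg_left h4 hL
  have h8 := abs_sub_le ((S j).tav (n := 2) (fun _ x => G ((S j).R (x 0) (x 1))))
    ((S j).tav (n := 2) (fun _ x => G (q (lev b ((S j).R (x 0) (x 1)))))) (∑ l : Fin (k + 1), w l * G (q l))
  linarith only [h5, h6, h7, h8]

/-- A mesh with a strictly increasing path. -/
theorem exists_mesh_strict {U : Ultrafilter ℕ} {S : ℕ → Sys}
    (hGG : ∀ p : ℕ, AsympGG U S (fun x => x ^ p)) {ε : ℝ} (hε : 0 < ε) :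
    ∃ (k : ℕ) (b : Fin k → ℝ) (w : Fin (k + 1) → ℝ) (q : ℕ → ℝ), Mesh U S b w q ε ∧
      0 < q 0 ∧ (∀ l < k, q l < q (l + 1)) ∧ q k < 1 := by
  obtain ⟨k, b, w, q, hm⟩ := exists_mesh' hGG (ε := ε / 2) (by positivity)
  set κ := min (ε / 2) (1 / 2) with hκ
  have hκ0 : 0 < κ := lt_min (by positivity) (by (clear * -; norm_num))
  have hκ1 : κ ≤ 1 / 2 := min_le_right _ _
  have hκε : κ ≤ ε / 2 := min_le_left _ _
  have hk2 : (0 : ℝ) < (k : ℝ) + 2 := by (clear * -; positivity)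
  set q' : ℕ → ℝ := fun l => (1 - κ) * q l + κ * (((l : ℝ) + 1) / ((k : ℝ) + 2)) with hq'
  have hstep : ∀ l < k, q' l < q' (l + 1) := by
    intro l hl
    have h1 := hm.path.2 l hl
    have h2 : ((l : ℝ) + 1) / ((k : ℝ) + 2) < (((l + 1 : ℕ) : ℝ) + 1) / ((k : ℝ) + 2) := by
      apply div_lt_div_of_pos_right _ hk2
      push_cast
      linarith only []
    have h3 := mul_lt_mul_of_pos_left h2 hκ0
    have h4 := mul_le_mul_of_nonneg_left h1 (show 0 ≤ 1 - κ by linarith only [hκ1])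
    simp only [hq']
    linarith only [h3, h4]
  have h0 : 0 < q' 0 := by
    have h1 := mul_nonneg (show 0 ≤ 1 - κ by linarith only [hκ1]) hm.path.1
    have h2 : 0 < κ * ((((0 : ℕ) : ℝ) + 1) / ((k : ℝ) + 2)) := by (clear * - hε; positivity)
    simp only [hq']
    linarith only [h1, h2]
  have h1 : q' k < 1 := by
    have h2 : ((k : ℝ) + 1) / ((k : ℝ) + 2) < 1 := by
      rw [div_lt_one hk2]; linarith only []
    have h3 := mul_lt_mul_of_pos_left h2 hκ0
    have h4 := mul_le_mul_of_nonneg_left hm.le1 (show 0 ≤ 1 - κ by linarith only [hκ0, hκ1])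
    simp only [hq']
    linarith only [h3, h4]
  refine ⟨k, b, w, q', ⟨hm.lim, ⟨h0.le, fun l hl => (hstep l hl).le⟩, h1.le, hε.le, ?_⟩, h0,
    hstep, h1⟩
  have hclose : ∀ l : Fin (k + 1), |q l - q' l| ≤ κ := by
    intro l
    have e1 : q l - q' l = κ * (q l - ((l : ℝ) + 1) / ((k : ℝ) + 2)) := by
      simp only [hq']; ring
    have h2 := path_mono hm.path.2 0 l (Nat.zero_le _) (by omega)
    have h3 := path_mono hm.path.2 l k (by omega) le_rfl
    have h4 := hm.path.1
    have h5 := hm.le1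
    have h6 : 0 ≤ ((l : ℝ) + 1) / ((k : ℝ) + 2) := by (clear * -; positivity)
    have h7 : ((l : ℝ) + 1) / ((k : ℝ) + 2) ≤ 1 := by
      rw [div_le_one hk2]
      have : ((l : ℕ) : ℝ) ≤ (k : ℝ) := by exact_mod_cast (by omega : (l : ℕ) ≤ k)
      linarith only [this]
    rw [e1, abs_mul, abs_of_pos hκ0]
    apply mul_le_of_le_one_right hκ0.le
    rw [abs_le]
    constructor <;> linarith only [h2, h4, h7, h3, h5, h6]
  filter_upwards [hm.off] with j hj
  have hb1 : Sys.Bdd (S j) (n := 2) (fun _ x =>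
      |(S j).R (x 0) (x 1) - q' (lev b ((S j).R (x 0) (x 1)))|)
      (∑ x : Fin 2 → (S j).X, |(S j).R (x 0) (x 1) - q' (lev b ((S j).R (x 0) (x 1)))|) :=
    ⟨fun x => measurable_const, fun t x => by
      rw [abs_abs]
      exact Finset.single_le_sum (f := fun x : Fin 2 → (S j).X =>
        |(S j).R (x 0) (x 1) - q' (lev b ((S j).R (x 0) (x 1)))|) (fun _ _ => abs_nonneg _)
        (Finset.mem_univ x)⟩
  have hb2 : Sys.Bdd (S j) (n := 2) (fun _ x =>
      |(S j).R (x 0) (x 1) - q (lev b ((S j).R (x 0) (x 1)))|)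
      (∑ x : Fin 2 → (S j).X, |(S j).R (x 0) (x 1) - q (lev b ((S j).R (x 0) (x 1)))|) :=
    ⟨fun x => measurable_const, fun t x => by
      rw [abs_abs]
      exact Finset.single_le_sum (f := fun x : Fin 2 → (S j).X =>
        |(S j).R (x 0) (x 1) - q (lev b ((S j).R (x 0) (x 1)))|) (fun _ _ => abs_nonneg _)
        (Finset.mem_univ x)⟩
  have hb3 : Sys.Bdd (S j) (n := 2) (fun _ _ => κ) κ :=
    ⟨fun x => measurable_const, fun t x => (abs_of_pos hκ0).le⟩
  have hb4 : Sys.Bdd (S j) (n := 2) (fun _ x =>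
      |(S j).R (x 0) (x 1) - q (lev b ((S j).R (x 0) (x 1)))| + κ)
      ((∑ x : Fin 2 → (S j).X, |(S j).R (x 0) (x 1) - q (lev b ((S j).R (x 0) (x 1)))|) + κ) :=
    ⟨fun x => measurable_const, fun t x => (abs_add_le _ _).trans
      (add_le_add (hb2.bdd t x) (hb3.bdd t x))⟩
  have h2 := Sys.tav_mono hb1 hb4 (fun t x => by
    have h3 := hclose (lev b ((S j).R (x 0) (x 1)))
    have h4 := abs_sub_le ((S j).R (x 0) (x 1)) (q (lev b ((S j).R (x 0) (x 1))))
      (q' (lev b ((S j).R (x 0) (x 1))))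
    linarith only [h3, h4])
  rw [Sys.tav_add hb2 hb3, Sys.tav_const] at h2
  linarith only [hκε, hj, h2]

/-! ### Polynomials -/

lemma pow_sub_le {x y : ℝ} (hx : |x| ≤ 1) (hy : |y| ≤ 1) (p : ℕ) :
    |x ^ p - y ^ p| ≤ p * |x - y| := by
  induction p with
  | zero => simp only [pow_zero, sub_self, abs_zero, CharP.cast_eq_zero, zero_mul, Std.le_refl]
  | succ p ih =>
    have e : x ^ (p + 1) - y ^ (p + 1) = x * (x ^ p - y ^ p) + (x - y) * y ^ p := by ring
    rw [e]
    refine (abs_add_le _ _).trans ?_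
    rw [abs_mul, abs_mul, abs_pow]
    have h1 : |x| * |x ^ p - y ^ p| ≤ 1 * (p * |x - y|) :=
      mul_le_mul hx ih (abs_nonneg _) zero_le_one
    have h2 : |x - y| * |y| ^ p ≤ |x - y| * 1 :=
      mul_le_mul_of_nonneg_left (pow_le_one₀ (abs_nonneg _) hy) (abs_nonneg _)
    push_cast
    linarith only [h1, h2]

lemma xi_nonneg {c : ℕ → ℝ} (hc : ∀ p, 0 ≤ c p) (n : ℕ) {x : ℝ} (hx : 0 ≤ x) :
    0 ≤ xi c n x := Finset.sum_nonneg fun p _ => mul_nonneg (hc p) (pow_nonneg hx p)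

lemma xi_one (c : ℕ → ℝ) (n : ℕ) : xi c n 1 = ∑ p ∈ Finset.range (n + 1), c p := by
  unfold xi
  exact Finset.sum_congr rfl fun p _ => by rw [one_pow, mul_one]

lemma xi_one_nonneg {c : ℕ → ℝ} (hc : ∀ p, 0 ≤ c p) (n : ℕ) : 0 ≤ xi c n 1 :=
  xi_nonneg hc n zero_le_one

lemma xmul_xi_sub_le {c : ℕ → ℝ} (hc : ∀ p, 0 ≤ c p) (n : ℕ) {x y : ℝ} (hx : |x| ≤ 1)
    (hy : |y| ≤ 1) : |x * xi c n x - y * xi c n y| ≤ ((n : ℝ) + 1) * xi c n 1 * |x - y| := by
  have e : x * xi c n x - y * xi c n y =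
      ∑ p ∈ Finset.range (n + 1), c p * (x ^ (p + 1) - y ^ (p + 1)) := by
    unfold xi
    rw [Finset.mul_sum, Finset.mul_sum, ← Finset.sum_sub_distrib]
    exact Finset.sum_congr rfl fun p _ => by ring
  rw [e, xi_one, mul_assoc, Finset.sum_mul, Finset.mul_sum]
  refine (Finset.abs_sum_le_sum_abs _ _).trans (Finset.sum_le_sum fun p hp => ?_)
  rw [abs_mul, abs_of_nonneg (hc p)]
  have h1 := pow_sub_le hx hy (p + 1)
  have h2 : ((p + 1 : ℕ) : ℝ) ≤ (n : ℝ) + 1 := by
    have : p < n + 1 := Finset.mem_range.1 hp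
    have h3 : p + 1 ≤ n + 1 := this
    exact_mod_cast h3
  have h3 : |x ^ (p + 1) - y ^ (p + 1)| ≤ ((n : ℝ) + 1) * |x - y| :=
    h1.trans (mul_le_mul_of_nonneg_right h2 (abs_nonneg _))
  have h4 := mul_le_mul_of_nonneg_left h3 (hc p)
  linarith only [h4]

lemma abs_xi_le {c : ℕ → ℝ} (hc : ∀ p, 0 ≤ c p) (n : ℕ) {x : ℝ} (hx : |x| ≤ 1) :
    |xi c n x| ≤ xi c n 1 := by
  unfold xi
  refine (Finset.abs_sum_le_sum_abs _ _).trans (Finset.sum_le_sum fun p _ => ?_)
  rw [abs_mul, abs_of_nonneg (hc p), abs_pow, one_pow]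
  exact mul_le_mul_of_nonneg_left (pow_le_one₀ (abs_nonneg _) hx) (hc p)

end Vale.Agent.P157.Par
end

section

/-! The first order effect of a small Gaussian field. -/

open MeasureTheory ProbabilityTheory Filter Topology

namespace Vale.Agent.P157.Par

open Vale.Agent.P367.GT (gM)
open Vale.Agent.P157.Par.Cube (ini las)

lemma tder_exp1 (z : ℝ) : |Real.exp z - 1 - z| ≤ |z| ^ 2 * Real.exp |z| := by
  have h := Complex.norm_exp_sub_sum_le_norm_mul_exp (z : ℂ) 2
  rw [Finset.sum_range_succ, Finset.sum_range_succ, Finset.sum_range_zero] at h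
  simp only [pow_zero, Nat.factorial, Nat.cast_one, div_one, zero_add, pow_one, mul_one] at h
  have e : Complex.exp (z : ℂ) - (1 + (z : ℂ)) = ((Real.exp z - 1 - z : ℝ) : ℂ) := by
    push_cast
    ring
  rw [e, Complex.norm_real, Complex.norm_real, Real.norm_eq_abs, Real.norm_eq_abs] at h
  exact h

lemma tder_exp2 (z : ℝ) : |Real.exp z - 1 - z - z ^ 2 / 2| ≤ |z| ^ 3 * Real.exp |z| := by
  have h := Complex.norm_exp_sub_sum_le_norm_mul_exp (z : ℂ) 3
  rw [Finset.sum_range_succ, Finset.sum_range_succ, Finset.sum_range_succ,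
    Finset.sum_range_zero] at h
  simp only [pow_zero, Nat.factorial, Nat.cast_one, div_one, zero_add, pow_one, mul_one] at h
  have e : Complex.exp (z : ℂ) - (1 + (z : ℂ) + (z : ℂ) ^ 2 / ((Nat.succ 1 : ℕ) : ℂ))
      = ((Real.exp z - 1 - z - z ^ 2 / 2 : ℝ) : ℂ) := by
    push_cast
    ring
  rw [e, Complex.norm_real, Complex.norm_real, Real.norm_eq_abs, Real.norm_eq_abs] at h
  exact h

lemma tder_log {u : ℝ} (hu : 0 ≤ u) : |Real.log (1 + u) - u| ≤ u ^ 2 / 2 := by
  have h1 : Real.log (1 + u) ≤ u := by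
    have := Real.log_le_sub_one_of_pos (show 0 < 1 + u by linarith only [hu])
    linarith only [this]
  have h2 : u - u ^ 2 / 2 ≤ Real.log (1 + u) := by
    by_cases h3 : u ≤ 1
    · have h4 := Real.le_log_one_add_of_nonneg hu
      refine le_trans ?_ h4
      rw [le_div_iff₀ (by linarith only [hu])]
      linarith only [mul_nonneg (mul_nonneg hu hu) hu]
    · push Not at h3
      by_cases h5 : u ≤ 2
      · have h4 := Real.le_log_one_add_of_nonneg hu
        refine le_trans ?_ h4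
        rw [le_div_iff₀ (by linarith only [h3])]
        linarith only [mul_nonneg (mul_nonneg hu hu) hu]
      · push Not at h5
        have : u - u ^ 2 / 2 ≤ 0 := by nlinarith only [h5]
        exact this.trans (Real.log_nonneg (by linarith only [h5]))
  rw [abs_le]
  constructor <;> linarith

section det

variable {Y : Type} [Fintype Y]

lemma tder_det {p : Y → ℝ} (hp : ∀ y, 0 ≤ p y) (hp1 : ∑ y, p y = 1) (X : Y → ℝ) :
    |Real.log (∑ y, p y * Real.exp (X y)) - ∑ y, p y * X y -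
      1 / 2 * ∑ y, p y * (X y - ∑ y', p y' * X y') ^ 2| ≤
      2 * ∑ y, p y * (|X y - ∑ y', p y' * X y'| ^ 3 *
        Real.exp (3 * |X y - ∑ y', p y' * X y'|)) := by
  set m := ∑ y', p y' * X y' with hm
  set Z : Y → ℝ := fun y => X y - m with hZ
  have hZ0 : ∑ y, p y * Z y = 0 := by
    simp only [hZ, mul_sub, Finset.sum_sub_distrib]
    rw [← Finset.sum_mul, hp1, one_mul, ← hm, sub_self]
  have hfac : ∑ y, p y * Real.exp (X y) = Real.exp m * ∑ y, p y * Real.exp (Z y) := by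
    rw [Finset.mul_sum]
    refine Finset.sum_congr rfl fun y _ => ?_
    have : X y = m + Z y := by simp [hZ]
    rw [this, Real.exp_add]
    ring
  set u := ∑ y, p y * (Real.exp (Z y) - 1 - Z y) with hu
  have hu1 : ∑ y, p y * Real.exp (Z y) = 1 + u := by
    simp only [hu, mul_sub, mul_one, Finset.sum_sub_distrib]
    rw [hp1, hZ0]
    ring
  have hu0 : 0 ≤ u := Finset.sum_nonneg fun y _ => mul_nonneg (hp y) (by
    have := Real.add_one_le_exp (Z y)
    linarith only [this])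
  have hlog : Real.log (∑ y, p y * Real.exp (X y)) = m + Real.log (1 + u) := by
    rw [hfac, hu1, Real.log_mul (Real.exp_pos _).ne' (by linarith only [hu0]), Real.log_exp]
  have hu2 : |u - 1 / 2 * ∑ y, p y * Z y ^ 2| ≤ ∑ y, p y * (|Z y| ^ 3 * Real.exp (3 * |Z y|)) := by
    have e : u - 1 / 2 * ∑ y, p y * Z y ^ 2
        = ∑ y, p y * (Real.exp (Z y) - 1 - Z y - Z y ^ 2 / 2) := by
      rw [hu, Finset.mul_sum, ← Finset.sum_sub_distrib]
      refine Finset.sum_congr rfl fun y _ => by ring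
    rw [e]
    refine (Finset.abs_sum_le_sum_abs _ _).trans (Finset.sum_le_sum fun y _ => ?_)
    rw [abs_mul, abs_of_nonneg (hp y)]
    refine mul_le_mul_of_nonneg_left ((tder_exp2 _).trans ?_) (hp y)
    refine mul_le_mul_of_nonneg_left (Real.exp_le_exp.2 ?_) (by (clear * -; positivity))
    linarith only [abs_nonneg (Z y)]
  have hu3 : u ^ 2 ≤ ∑ y, p y * (|Z y| ^ 3 * Real.exp (3 * |Z y|)) := by
    have h1 : u ≤ ∑ y, p y * (|Z y| ^ 2 * Real.exp |Z y|) := by
      refine Finset.sum_le_sum fun y _ => mul_le_mul_of_nonneg_left ?_ (hp y)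
      exact (le_abs_self _).trans (tder_exp1 _)
    have h2 : u ^ 2 ≤ (∑ y, p y * (|Z y| ^ 2 * Real.exp |Z y|)) ^ 2 :=
      pow_le_pow_left₀ hu0 h1 2
    have h3 : (∑ y, p y * (|Z y| ^ 2 * Real.exp |Z y|)) ^ 2
        ≤ ∑ y, p y * (|Z y| ^ 2 * Real.exp |Z y|) ^ 2 := by
      have h5 : 0 ≤ ∑ y, p y * (|Z y| ^ 2 * Real.exp |Z y| -
          ∑ y', p y' * (|Z y'| ^ 2 * Real.exp |Z y'|)) ^ 2 :=
        Finset.sum_nonneg fun y _ => mul_nonneg (hp y) (sq_nonneg _)
      set q := ∑ y', p y' * (|Z y'| ^ 2 * Real.exp |Z y'|) with hq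
      have h6 : ∑ y, p y * (|Z y| ^ 2 * Real.exp |Z y| - q) ^ 2
          = ∑ y, p y * (|Z y| ^ 2 * Real.exp |Z y|) ^ 2 - q ^ 2 := by
        have : ∀ y, p y * (|Z y| ^ 2 * Real.exp |Z y| - q) ^ 2
            = p y * (|Z y| ^ 2 * Real.exp |Z y|) ^ 2
              - 2 * q * (p y * (|Z y| ^ 2 * Real.exp |Z y|)) + q ^ 2 * p y := fun y => by ring
        simp only [this, Finset.sum_add_distrib, Finset.sum_sub_distrib]
        rw [← Finset.mul_sum, ← Finset.mul_sum, hp1, ← hq]
        ring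
      linarith only [h5, h6]
    refine h2.trans (h3.trans (Finset.sum_le_sum fun y _ => ?_))
    refine mul_le_mul_of_nonneg_left ?_ (hp y)
    have h7 : |Z y| ≤ Real.exp |Z y| := by
      have := Real.add_one_le_exp |Z y|
      linarith only [this]
    have h8 : Real.exp (3 * |Z y|) = Real.exp |Z y| * Real.exp |Z y| ^ 2 := by
      rw [← Real.exp_nat_mul, ← Real.exp_add]
      congr 1
      push_cast
      ring
    rw [h8]
    have h9 : (|Z y| ^ 2 * Real.exp |Z y|) ^ 2 = |Z y| ^ 3 * (|Z y| * Real.exp |Z y| ^ 2) := by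
      ring
    rw [h9]
    refine mul_le_mul_of_nonneg_left ?_ (by (clear * -; positivity))
    exact mul_le_mul_of_nonneg_right h7 (by positivity)
  have hfin := tder_log hu0
  rw [hlog]
  have e : m + Real.log (1 + u) - m - 1 / 2 * ∑ y, p y * Z y ^ 2
      = (Real.log (1 + u) - u) + (u - 1 / 2 * ∑ y, p y * Z y ^ 2) := by ring
  rw [e]
  have := abs_add_le (Real.log (1 + u) - u) (u - 1 / 2 * ∑ y, p y * Z y ^ 2)
  have h10 : 0 ≤ ∑ y, p y * (|Z y| ^ 3 * Real.exp (3 * |Z y|)) :=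
    Finset.sum_nonneg fun y _ => mul_nonneg (hp y) (by (clear * -; positivity))
  linarith only [hu2, hu3, hfin, this, h10]

end det

section law

variable {K : Type} [Fintype K] [DecidableEq K]

/-- The law of a linear form. -/
lemma tder_law (V : K → ℝ) : (gM K).map (fun ξ => ∑ c, V c * ξ c) =
    (gaussianReal 0 1).map (fun x => √(∑ c, V c ^ 2) * x) := by
  have hs0 : 0 ≤ ∑ c, V c ^ 2 := Finset.sum_nonneg fun c _ => sq_nonneg _
  by_cases hs : ∑ c, V c ^ 2 = 0
  · have hV : ∀ c, V c = 0 := fun c => by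
      have := (Finset.sum_eq_zero_iff_of_nonneg fun c _ => sq_nonneg (V c)).1 hs c
        (Finset.mem_univ c)
      exact pow_eq_zero_iff (two_ne_zero) |>.1 this
    simp only [hV, zero_mul, Finset.sum_const_zero, ne_eq, OfNat.ofNat_ne_zero, not_false_eq_true, zero_pow, Real.sqrt_zero]
    rw [Measure.map_const, Measure.map_const]
    simp only [measure_univ, one_smul]
  · have hs1 : 0 < ∑ c, V c ^ 2 := lt_of_le_of_ne hs0 (Ne.symm hs)
    have hσ : 0 < √(∑ c, V c ^ 2) := Real.sqrt_pos.2 hs1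
    set σ := √(∑ c, V c ^ 2) with hσd
    have h1 : ∑ c, (fun _ : Unit => fun c => V c / σ) () c ^ 2 = 1 := by
      simp only [div_pow]
      rw [← Finset.sum_div, hσd, Real.sq_sqrt hs0, div_self hs]
    have h2 := Lin.law_lin (J := Unit) (fun _ : Unit => fun c => V c / σ) () h1
    rw [← h2, Measure.map_map (by fun_prop) (by unfold lin; fun_prop)]
    congr 1
    funext ξ
    simp only [Function.comp, lin]
    rw [Finset.mul_sum]
    refine Finset.sum_congr rfl fun c _ => ?_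
    (clear * - hσ; field_simp)

omit [DecidableEq K] in
lemma tder_meas (V : K → ℝ) : Measurable fun ξ : K → ℝ => ∑ c, V c * ξ c := by fun_prop

lemma tder_int (V : K → ℝ) {h : ℝ → ℝ} (hm : Measurable h) :
    ∫ ξ, h (∑ c, V c * ξ c) ∂(gM K) = ∫ x, h (√(∑ c, V c ^ 2) * x) ∂(gaussianReal 0 1) := by
  rw [← integral_map (tder_meas V).aemeasurable hm.aestronglyMeasurable, tder_law,
    integral_map (by fun_prop) hm.aestronglyMeasurable]

lemma tder_intble (V : K → ℝ) {h : ℝ → ℝ} (hm : Measurable h)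
    (hi : Integrable (fun x => h (√(∑ c, V c ^ 2) * x)) (gaussianReal 0 1)) :
    Integrable (fun ξ => h (∑ c, V c * ξ c)) (gM K) := by
  refine (integrable_map_measure hm.aestronglyMeasurable (tder_meas V).aemeasurable).1 ?_
  rw [tder_law]
  exact (integrable_map_measure hm.aestronglyMeasurable (by fun_prop)).2 hi

lemma tder_i1 : Integrable (fun x : ℝ => x) (gaussianReal 0 1) :=
  (memLp_id_gaussianReal (μ := 0) (v := 1) 1).integrable le_rfl

lemma tder_i2 : Integrable (fun x : ℝ => x ^ 2) (gaussianReal 0 1) :=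
  (memLp_id_gaussianReal (μ := 0) (v := 1) 2).integrable_sq

lemma tder_m2 : ∫ x : ℝ, x ^ 2 ∂(gaussianReal 0 1) = 1 := by
  have h := Lin.integral_sq_sub_one
  rw [integral_sub tder_i2 (integrable_const _)] at h
  simp only [integral_const, smul_eq_mul, mul_one, probReal_univ] at h
  linarith only [h]

/-- The constant. -/
noncomputable def tderK : ℝ := ∫ x : ℝ, |x| ^ 3 * Real.exp (6 * |x|) ∂(gaussianReal 0 1)

lemma tder_K0 : 0 ≤ tderK := integral_nonneg fun x => by positivity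

lemma tder_i3 : Integrable (fun x : ℝ => |x| ^ 3 * Real.exp (6 * |x|)) (gaussianReal 0 1) := by
  refine Integrable.mono' (Lin.integrable_exp_abs 9)
    (Measurable.aestronglyMeasurable (by fun_prop)) (Filter.Eventually.of_forall fun x => ?_)
  rw [Real.norm_eq_abs, abs_of_nonneg (by positivity)]
  have h1 : |x| ≤ Real.exp |x| := by
    have := Real.add_one_le_exp |x|
    linarith only [this]
  have h2 : |x| ^ 3 ≤ Real.exp |x| ^ 3 := pow_le_pow_left₀ (abs_nonneg _) h1 3
  calc |x| ^ 3 * Real.exp (6 * |x|) ≤ Real.exp |x| ^ 3 * Real.exp (6 * |x|) :=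
        mul_le_mul_of_nonneg_right h2 (Real.exp_pos _).le
    _ = Real.exp (9 * |x|) := by
        rw [← Real.exp_nat_mul, ← Real.exp_add]
        congr 1
        push_cast
        ring

/-- pointwise bound for the third moment -/
lemma tder_pt {σ A x : ℝ} (hσ : 0 ≤ σ) (hA : 0 ≤ A) (hA1 : A ≤ 1) (h : σ ^ 2 ≤ 4 * A) :
    |σ * x| ^ 3 * Real.exp (3 * |σ * x|) ≤ 8 * (A * √A) * (|x| ^ 3 * Real.exp (6 * |x|)) := by
  have h1 : σ ≤ 2 * √A := by
    apply le_of_sq_le_sq _ (by (clear * -; positivity))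
    rw [mul_pow, Real.sq_sqrt hA]
    linarith
  have h2 : √A ≤ 1 := Real.sqrt_le_iff.2 ⟨zero_le_one, by linarith only [hA1]⟩
  have h3 : σ ≤ 2 := by linarith only [h1, h2]
  rw [abs_mul, abs_of_nonneg hσ, mul_pow]
  have h4 : σ ^ 3 ≤ 8 * (A * √A) := by
    calc σ ^ 3 ≤ (2 * √A) ^ 3 := pow_le_pow_left₀ hσ h1 3
      _ = 8 * (√A ^ 2 * √A) := by ring
      _ = _ := by rw [Real.sq_sqrt hA]
  have h5 : Real.exp (3 * (σ * |x|)) ≤ Real.exp (6 * |x|) := by
    apply Real.exp_le_exp.2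
    nlinarith only [hσ, hA1, h, abs_nonneg x]
  calc σ ^ 3 * |x| ^ 3 * Real.exp (3 * (σ * |x|))
      ≤ 8 * (A * √A) * |x| ^ 3 * Real.exp (6 * |x|) := by
        apply mul_le_mul (mul_le_mul_of_nonneg_right h4 (by (clear * -; positivity))) h5
          (Real.exp_pos _).le (by (clear * - hA; positivity))
    _ = _ := by ring

lemma tder_mom (V : K → ℝ) {A : ℝ} (hA : 0 ≤ A) (hA1 : A ≤ 1) (h : ∑ c, V c ^ 2 ≤ 4 * A) :
    Integrable (fun ξ => |∑ c, V c * ξ c| ^ 3 * Real.exp (3 * |∑ c, V c * ξ c|)) (gM K) ∧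
    ∫ ξ, |∑ c, V c * ξ c| ^ 3 * Real.exp (3 * |∑ c, V c * ξ c|) ∂(gM K) ≤
      8 * (A * √A) * tderK := by
  have hs0 : 0 ≤ ∑ c, V c ^ 2 := Finset.sum_nonneg fun c _ => sq_nonneg _
  have hsq : √(∑ c, V c ^ 2) ^ 2 ≤ 4 * A := by rwa [Real.sq_sqrt hs0]
  have hi : Integrable (fun x => |√(∑ c, V c ^ 2) * x| ^ 3 *
      Real.exp (3 * |√(∑ c, V c ^ 2) * x|)) (gaussianReal 0 1) := by
    refine Integrable.mono' (tder_i3.const_mul (8 * (A * √A)))
      (Measurable.aestronglyMeasurable (by (clear * -; fun_prop))) (Filter.Eventually.of_forall fun x => ?_)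
    rw [Real.norm_eq_abs, abs_of_nonneg (by (clear * -; positivity))]
    exact tder_pt (Real.sqrt_nonneg _) hA hA1 hsq
  constructor
  · exact tder_intble V (h := fun t => |t| ^ 3 * Real.exp (3 * |t|)) (by fun_prop) hi
  · rw [tder_int V (h := fun t => |t| ^ 3 * Real.exp (3 * |t|)) (by fun_prop), tderK,
      ← integral_const_mul]
    exact integral_mono hi (tder_i3.const_mul _) fun x =>
      tder_pt (Real.sqrt_nonneg _) hA hA1 hsq

lemma tder_mean (V : K → ℝ) : Integrable (fun ξ => ∑ c, V c * ξ c) (gM K) ∧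
    ∫ ξ, ∑ c, V c * ξ c ∂(gM K) = 0 := by
  constructor
  · exact tder_intble V (h := fun t => t) measurable_id (tder_i1.const_mul _)
  · rw [tder_int V (h := fun t => t) measurable_id, integral_const_mul]
    have : ∫ x : ℝ, x ∂(gaussianReal 0 1) = 0 := integral_id_gaussianReal (μ := 0) (v := 1)
    rw [this, mul_zero]

lemma tder_var (V : K → ℝ) : Integrable (fun ξ => (∑ c, V c * ξ c) ^ 2) (gM K) ∧
    ∫ ξ, (∑ c, V c * ξ c) ^ 2 ∂(gM K) = ∑ c, V c ^ 2 := by
  have hs0 : 0 ≤ ∑ c, V c ^ 2 := Finset.sum_nonneg fun c _ => sq_nonneg _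
  have e : ∀ x : ℝ, (√(∑ c, V c ^ 2) * x) ^ 2 = (∑ c, V c ^ 2) * x ^ 2 := fun x => by
    rw [mul_pow, Real.sq_sqrt hs0]
  constructor
  · refine tder_intble V (h := fun t => t ^ 2) (by fun_prop) ?_
    simp only [e]
    exact tder_i2.const_mul _
  · rw [tder_int V (h := fun t => t ^ 2) (by fun_prop)]
    simp only [e]
    rw [integral_const_mul, tder_m2, mul_one]

variable {Y : Type} [Fintype Y]

/-- One small Gaussian field, for fixed weights. -/
lemma tder_main {p : Y → ℝ} (hp : ∀ y, 0 ≤ p y) (hp1 : ∑ y, p y = 1) (U : Y → K → ℝ) {A : ℝ}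
    (hA : 0 ≤ A) (hA1 : A ≤ 1) (hU : ∀ y, ∑ c, U y c ^ 2 = A) :
    |∫ ξ, Real.log (∑ y, p y * Real.exp (lin U ξ y)) ∂(gM K) -
      1 / 2 * (A - ∑ y, ∑ y', p y * p y' * gram U U y y')| ≤ 16 * tderK * (A * √A) := by
  set mc : K → ℝ := fun c => ∑ y, p y * U y c with hmc
  set V : Y → K → ℝ := fun y c => U y c - mc c with hV
  have hm : ∀ ξ : K → ℝ, ∑ y, p y * lin U ξ y = ∑ c, mc c * ξ c := by
    intro ξ
    simp only [lin, hmc, Finset.mul_sum, Finset.sum_mul]
    rw [Finset.sum_comm]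
    refine Finset.sum_congr rfl fun c _ => Finset.sum_congr rfl fun y _ => by ring
  have hZ : ∀ (ξ : K → ℝ) (y : Y), lin U ξ y - ∑ y', p y' * lin U ξ y' = ∑ c, V y c * ξ c := by
    intro ξ y
    rw [hm]
    simp only [lin, hV, sub_mul, Finset.sum_sub_distrib]
  -- the variances
  have hmc2 : ∑ c, mc c ^ 2 = ∑ y, ∑ y', p y * p y' * gram U U y y' := by
    have e0 : ∀ c, mc c ^ 2 = ∑ y, ∑ y', p y * p y' * (U y c * U y' c) := by
      intro c
      rw [sq, hmc, Finset.sum_mul_sum]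
      refine Finset.sum_congr rfl fun y _ => Finset.sum_congr rfl fun y' _ => by ring
    simp only [e0, gram, Finset.mul_sum]
    rw [Finset.sum_comm]
    refine Finset.sum_congr rfl fun y _ => ?_
    rw [Finset.sum_comm]
  have hvar : ∑ y, p y * ∑ c, V y c ^ 2 = A - ∑ c, mc c ^ 2 := by
    have e1 : ∀ y, p y * ∑ c, V y c ^ 2 = p y * ∑ c, U y c ^ 2
        - 2 * ∑ c, mc c * (p y * U y c) + p y * ∑ c, mc c ^ 2 := by
      intro y
      simp only [hV, Finset.mul_sum]
      rw [← Finset.sum_sub_distrib, ← Finset.sum_add_distrib]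
      refine Finset.sum_congr rfl fun c _ => by ring
    simp only [e1, Finset.sum_add_distrib, Finset.sum_sub_distrib]
    have e2 : ∑ y, p y * ∑ c, U y c ^ 2 = A := by
      simp only [hU]
      rw [← Finset.sum_mul, hp1, one_mul]
    have e3 : ∑ y, 2 * ∑ c, mc c * (p y * U y c) = 2 * ∑ c, mc c ^ 2 := by
      rw [← Finset.mul_sum, Finset.sum_comm]
      congr 1
      refine Finset.sum_congr rfl fun c _ => ?_
      rw [← Finset.mul_sum, sq]
    have e4 : ∑ y, p y * ∑ c, mc c ^ 2 = ∑ c, mc c ^ 2 := by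
      rw [← Finset.sum_mul, hp1, one_mul]
    rw [e2, e3, e4]
    ring
  have hmcA : ∑ c, mc c ^ 2 ≤ A := by
    have : 0 ≤ ∑ y, p y * ∑ c, V y c ^ 2 :=
      Finset.sum_nonneg fun y _ => mul_nonneg (hp y) (Finset.sum_nonneg fun c _ => sq_nonneg _)
    linarith
  have hV4 : ∀ y, ∑ c, V y c ^ 2 ≤ 4 * A := by
    intro y
    have : ∑ c, V y c ^ 2 ≤ ∑ c, (2 * U y c ^ 2 + 2 * mc c ^ 2) := by
      refine Finset.sum_le_sum fun c _ => ?_
      simp only [hV]
      linarith only [sq_nonneg (U y c + mc c)]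
    rw [Finset.sum_add_distrib, ← Finset.mul_sum, ← Finset.mul_sum, hU] at this
    (clear * - hmcA this; linarith)
  -- the remainder
  set F : (K → ℝ) → ℝ := fun ξ => Real.log (∑ y, p y * Real.exp (lin U ξ y)) -
    ∑ y, p y * lin U ξ y - 1 / 2 * ∑ y, p y * (lin U ξ y - ∑ y', p y' * lin U ξ y') ^ 2 with hF
  set R : (K → ℝ) → ℝ := fun ξ => 2 * ∑ y, p y * (|∑ c, V y c * ξ c| ^ 3 *
    Real.exp (3 * |∑ c, V y c * ξ c|)) with hR
  have hFR : ∀ ξ, |F ξ| ≤ R ξ := by
    intro ξ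
    have h := tder_det hp hp1 (lin U ξ)
    simp only [hF, hR, ← hZ]
    exact h
  have hRi : Integrable R (gM K) :=
    (integrable_finsetSum _ fun y _ => ((tder_mom (V y) hA hA1 (hV4 y)).1.const_mul _)).const_mul _
  have hlm : Measurable fun ξ : K → ℝ => Real.log (∑ y, p y * Real.exp (lin U ξ y)) := by
    unfold lin; fun_prop
  have hFm : Measurable F := by
    simp only [hF]
    unfold lin
    fun_prop
  have hFi : Integrable F (gM K) := Integrable.mono' hRi hFm.aestronglyMeasurable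
    (Filter.Eventually.of_forall fun ξ => by rw [Real.norm_eq_abs]; exact hFR ξ)
  have hmi : Integrable (fun ξ : K → ℝ => ∑ c, mc c * ξ c) (gM K) := (tder_mean mc).1
  have hqi : Integrable (fun ξ : K → ℝ => 1 / 2 * ∑ y, p y * (∑ c, V y c * ξ c) ^ 2) (gM K) :=
    (integrable_finsetSum _ fun y _ => ((tder_var (V y)).1.const_mul _)).const_mul _
  have hdec : ∀ ξ, Real.log (∑ y, p y * Real.exp (lin U ξ y)) =
      F ξ + (∑ c, mc c * ξ c + 1 / 2 * ∑ y, p y * (∑ c, V y c * ξ c) ^ 2) := by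
    intro ξ
    have e6 : ∑ y, p y * (lin U ξ y - ∑ y', p y' * lin U ξ y') ^ 2 =
        ∑ y, p y * (∑ c, V y c * ξ c) ^ 2 := by
      refine Finset.sum_congr rfl fun y _ => ?_
      rw [hZ]
    simp only [hF]
    rw [e6, hm]
    ring
  have hint : ∫ ξ, Real.log (∑ y, p y * Real.exp (lin U ξ y)) ∂(gM K) =
      ∫ ξ, F ξ ∂(gM K) + 1 / 2 * (A - ∑ c, mc c ^ 2) := by
    simp only [hdec]
    rw [integral_add hFi (show Integrable (fun ξ : K → ℝ => ∑ c, mc c * ξ c +
      1 / 2 * ∑ y, p y * (∑ c, V y c * ξ c) ^ 2) (gM K) from hmi.add hqi),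
      integral_add hmi hqi, (tder_mean mc).2,
      integral_const_mul, integral_finsetSum _ fun y _ => ((tder_var (V y)).1.const_mul _)]
    simp only [integral_const_mul, (tder_var _).2]
    rw [hvar, zero_add]
  rw [hint, hmc2]
  have e5 : ∫ ξ, F ξ ∂(gM K) + 1 / 2 * (A - ∑ y, ∑ y', p y * p y' * gram U U y y') -
      1 / 2 * (A - ∑ y, ∑ y', p y * p y' * gram U U y y') = ∫ ξ, F ξ ∂(gM K) := by ring
  rw [e5]
  calc |∫ ξ, F ξ ∂(gM K)| ≤ ∫ ξ, R ξ ∂(gM K) := by
        rw [← Real.norm_eq_abs]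
        exact norm_integral_le_of_norm_le hRi (Filter.Eventually.of_forall fun ξ => by
          rw [Real.norm_eq_abs]; exact hFR ξ)
    _ = 2 * ∑ y, p y * ∫ ξ, |∑ c, V y c * ξ c| ^ 3 *
          Real.exp (3 * |∑ c, V y c * ξ c|) ∂(gM K) := by
        simp only [hR]
        rw [integral_const_mul, integral_finsetSum _ fun y _ =>
          ((tder_mom (V y) hA hA1 (hV4 y)).1.const_mul _)]
        simp only [integral_const_mul]
    _ ≤ 2 * ∑ y, p y * (8 * (A * √A) * tderK) := by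
        refine mul_le_mul_of_nonneg_left (Finset.sum_le_sum fun y _ =>
          mul_le_mul_of_nonneg_left (tder_mom (V y) hA hA1 (hV4 y)).2 (hp y)) (by norm_num)
    _ = 16 * tderK * (A * √A) := by
        rw [← Finset.sum_mul, hp1]
        ring

end law

section app

lemma tder_xi_eq (c : ℕ → ℝ) (n : ℕ) (x : ℝ) :
    xi c n x = c 0 + ∑ p : Fin n, c ((p : ℕ) + 1) * x ^ ((p : ℕ) + 1) := by
  unfold xi
  rw [Finset.sum_range_succ', Fin.sum_univ_eq_sum_range (fun p => c (p + 1) * x ^ (p + 1)) n]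
  simp only [pow_zero, mul_one]
  ring

/-- The covariance of the extra field. -/
lemma tder_gram_kx (N : ℕ) {n : ℕ} {c : ℕ → ℝ} (hc : ∀ p, 0 ≤ c p) (x y : Fin (N + 1) → Bool) :
    gram (kx (n := n) N c) (kx N c) x y = xi c n (cR N x y) := by
  rw [tder_xi_eq]
  unfold gram kx cR
  rw [Fintype.sum_sum_type]
  simp only [Sum.elim_inl, Sum.elim_inr, Finset.univ_unique, Finset.sum_singleton]
  rw [Real.mul_self_sqrt (hc 0)]
  congr 1
  rw [Fintype.sum_sigma]
  refine Finset.sum_congr rfl fun p _ => ?_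
  rw [Fintype.sum_pow, Finset.mul_sum]
  refine Finset.sum_congr rfl fun k _ => ?_
  rw [Finset.prod_mul_distrib]
  simp only
  have := Real.mul_self_sqrt (hc ((p : ℕ) + 1))
  calc √(c ((p : ℕ) + 1)) * (∏ i, cubeφ N x (k i)) * (√(c ((p : ℕ) + 1)) * ∏ i, cubeφ N y (k i))
      = (√(c ((p : ℕ) + 1)) * √(c ((p : ℕ) + 1))) *
        ((∏ i, cubeφ N x (k i)) * ∏ i, cubeφ N y (k i)) := by ring
    _ = _ := by rw [this]

lemma tder_gram_ky (N : ℕ) {n : ℕ} {c : ℕ → ℝ} (hc : ∀ p, 0 ≤ c p) (x y : Fin (N + 2) → Bool) :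
    gram (ky (n := n) N c) (ky N c) x y =
      sgn (las x) * sgn (las y) * xi c n (cR N (ini x) (ini y)) := by
  rw [← tder_gram_kx N hc]
  unfold gram ky
  rw [Finset.mul_sum]
  refine Finset.sum_congr rfl fun e _ => by ring

lemma tder_ky_sq (N : ℕ) {n : ℕ} {c : ℕ → ℝ} (hc : ∀ p, 0 ≤ c p) (y : Fin (N + 2) → Bool) :
    ∑ e, ky (n := n) N c y e ^ 2 = xi c n 1 := by
  have h := tder_gram_ky (n := n) N hc y y
  have h1 : cR N (ini y) (ini y) = 1 := by
    unfold cR
    simp_rw [← sq]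
    exact Cube.sum_cubeφ_sq N (ini y)
  rw [h1, ← sq, sgn_sq, one_mul] at h
  rw [← h]
  unfold gram
  refine Finset.sum_congr rfl fun e _ => by ring

/-- A sum over two replicas. -/
lemma tder_two {X : Type} [Fintype X] (w : X → ℝ) (G : X → X → ℝ) :
    ∑ x : Fin 2 → X, (∏ i, w (x i)) * G (x 0) (x 1) = ∑ y, ∑ y', w y * w y' * G y y' := by
  rw [← (finTwoArrowEquiv X).symm.sum_comp, Fintype.sum_prod_type]
  refine Finset.sum_congr rfl fun y _ => Finset.sum_congr rfl fun y' _ => ?_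
  simp [finTwoArrowEquiv, Fin.prod_univ_two]

lemma tder_logb {Y : Type} [Fintype Y] {p : Y → ℝ} (hp : ∀ y, 0 ≤ p y) (hp1 : ∑ y, p y = 1)
    (E : Y → ℝ) : |Real.log (∑ y, p y * Real.exp (E y))| ≤ ∑ y, |E y| := by
  set M := ∑ y, |E y| with hM
  have hEy : ∀ y, |E y| ≤ M := fun y => Finset.single_le_sum (f := fun y => |E y|)
    (fun y _ => abs_nonneg _) (Finset.mem_univ y)
  have h1 : Real.exp (-M) ≤ ∑ y, p y * Real.exp (E y) := by
    calc Real.exp (-M) = ∑ y, p y * Real.exp (-M) := by rw [← Finset.sum_mul, hp1, one_mul]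
      _ ≤ _ := Finset.sum_le_sum fun y _ => mul_le_mul_of_nonneg_left (Real.exp_le_exp.2 (by
          linarith only [neg_abs_le (E y), hEy y])) (hp y)
  have h2 : ∑ y, p y * Real.exp (E y) ≤ Real.exp M := by
    calc ∑ y, p y * Real.exp (E y) ≤ ∑ y, p y * Real.exp M :=
        Finset.sum_le_sum fun y _ => mul_le_mul_of_nonneg_left (Real.exp_le_exp.2 (by
          linarith only [le_abs_self (E y), hEy y])) (hp y)
      _ = Real.exp M := by rw [← Finset.sum_mul, hp1, one_mul]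
  have l1 := Real.log_le_log (Real.exp_pos _) h1
  have l2 := Real.log_le_log (lt_of_lt_of_le (Real.exp_pos _) h1) h2
  rw [Real.log_exp] at l1 l2
  rw [abs_le]
  constructor <;> linarith only [l1, l2]

/-- The free energy increment due to the extra field, to the first order. -/
theorem extra_deriv : ∃ K : ℝ, 0 ≤ K ∧ ∀ (f : ℝ → ℝ) (hf : Measurable f) (C : ℝ)
    (hC : ∀ x, |f x| ≤ C) (N M P : ℕ) (s : ℝ) (u : Fin P → ℝ) (n : ℕ) (c : ℕ → ℝ),
    (∀ p, 0 ≤ c p) → xi c n 1 ≤ 1 →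
    |exN f hf C hC N M P s u n c - 1 / 2 * (xi c n 1 -
      (pS f hf C hC (N + 1) M P s u).tav (n := 2) (fun _ x =>
        sgn (las (x 0)) * sgn (las (x 1)) * xi c n (cR N (ini (x 0)) (ini (x 1)))))| ≤
      K * (xi c n 1 * √(xi c n 1)) := by
  refine ⟨16 * tderK, mul_nonneg (by norm_num) tder_K0, ?_⟩
  intro f hf C hC N M P s u n c hc hc1
  have hA0 : 0 ≤ xi c n 1 := by
    unfold xi
    exact Finset.sum_nonneg fun p _ => mul_nonneg (hc p) (by positivity)
  set S := pS f hf C hC (N + 1) M P s u with hS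
  have hP : IsProbabilityMeasure S.P := S.hP
  -- weights
  have hw0 : ∀ (ω : S.Ω) (y : Fin (N + 2) → Bool), 0 ≤ S.w ω y := S.w0
  have hw1 : ∀ ω : S.Ω, ∑ y : Fin (N + 2) → Bool, S.w ω y = 1 := S.w1
  have hwm : ∀ y : Fin (N + 2) → Bool, Measurable fun ω : S.Ω => S.w ω y := S.hw
  let L : S.Ω × (KX n N → ℝ) → ℝ := fun z =>
    Real.log (∑ y : Fin (N + 2) → Bool, S.w z.1 y * Real.exp (lin (ky N c) z.2 y))
  have hex : exN f hf C hC N M P s u n c = ∫ z, L z ∂(S.P.prod (gM (KX n N))) := rfl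
  let G : (Fin (N + 2) → Bool) → (Fin (N + 2) → Bool) → ℝ := fun y y' =>
    sgn (las y) * sgn (las y') * xi c n (cR N (ini y) (ini y'))
  have htav : S.tav (n := 2) (fun _ x =>
        sgn (las (x 0)) * sgn (las (x 1)) * xi c n (cR N (ini (x 0)) (ini (x 1)))) =
      ∫ ω, ∑ y : Fin (N + 2) → Bool, ∑ y' : Fin (N + 2) → Bool,
        S.w ω y * S.w ω y' * G y y' ∂S.P := by
    have h1 : S.tav (n := 2) (fun _ x =>
        sgn (las (x 0)) * sgn (las (x 1)) * xi c n (cR N (ini (x 0)) (ini (x 1)))) =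
        ∫ ω, ∑ x : Fin 2 → (Fin (N + 2) → Bool), (∏ i, S.w ω (x i)) * G (x 0) (x 1) ∂S.P := rfl
    rw [h1]
    refine integral_congr_ae (Filter.Eventually.of_forall fun ω => ?_)
    exact tder_two (fun y => S.w ω y) G
  have hLm : Measurable L := by
    refine Real.measurable_log.comp (Finset.measurable_sum _ fun y _ => ?_)
    refine ((hwm y).comp measurable_fst).mul (Real.measurable_exp.comp ?_)
    unfold lin
    (clear * -; fun_prop)
  have hLi : Integrable L (S.P.prod (gM (KX n N))) := by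
    have h1 : Integrable (fun z : KX n N → ℝ => ∑ y : Fin (N + 2) → Bool, |lin (ky N c) z y|)
        (gM (KX n N)) := integrable_finsetSum _ fun y _ => ((tder_mean (ky N c y)).1).abs
    refine Integrable.mono' (h1.comp_snd S.P) hLm.aestronglyMeasurable
      (Filter.Eventually.of_forall fun z => ?_)
    rw [Real.norm_eq_abs]
    exact tder_logb (hw0 z.1) (hw1 z.1) _
  have hGi : Integrable (fun ω => ∑ y : Fin (N + 2) → Bool, ∑ y' : Fin (N + 2) → Bool,
        S.w ω y * S.w ω y' * G y y') S.P := by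
    refine integrable_finsetSum _ fun y _ => integrable_finsetSum _ fun y' _ => ?_
    refine Integrable.mul_const ?_ _
    refine Integrable.mono' (integrable_const (1 : ℝ)) ((hwm y).mul (hwm y')).aestronglyMeasurable
      (Filter.Eventually.of_forall fun ω => ?_)
    have h1 : ∀ y, S.w ω y ≤ 1 := fun y => by
      rw [← hw1 ω]
      exact Finset.single_le_sum (f := fun y => S.w ω y) (fun y _ => hw0 ω y) (Finset.mem_univ y)
    rw [Real.norm_eq_abs, abs_of_nonneg (mul_nonneg (hw0 ω y) (hw0 ω y'))]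
    exact mul_le_one₀ (h1 y) (hw0 ω y') (h1 y')
  have hIi : Integrable (fun ω => ∫ z, L (ω, z) ∂(gM (KX n N))) S.P := hLi.integral_prod_left
  have hdiff : exN f hf C hC N M P s u n c - 1 / 2 * (xi c n 1 -
      S.tav (n := 2) (fun _ x =>
        sgn (las (x 0)) * sgn (las (x 1)) * xi c n (cR N (ini (x 0)) (ini (x 1))))) =
      ∫ ω, (∫ z, L (ω, z) ∂(gM (KX n N)) - 1 / 2 * (xi c n 1 -
        ∑ y : Fin (N + 2) → Bool, ∑ y' : Fin (N + 2) → Bool, S.w ω y * S.w ω y' * G y y'))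
        ∂S.P := by
    rw [hex, htav, integral_prod L hLi]
    obtain ⟨Gs, hGs⟩ : ∃ Gs : S.Ω → ℝ, Gs = fun ω => ∑ y : Fin (N + 2) → Bool,
      ∑ y' : Fin (N + 2) → Bool, S.w ω y * S.w ω y' * G y y' := ⟨_, rfl⟩
    rw [← hGs] at hGi
    have e0 : ∀ ω, ∑ y : Fin (N + 2) → Bool, ∑ y' : Fin (N + 2) → Bool,
      S.w ω y * S.w ω y' * G y y' = Gs ω := fun ω => by rw [hGs]
    have e1 : ∫ ω, (∫ z, L (ω, z) ∂(gM (KX n N)) - 1 / 2 * (xi c n 1 - Gs ω)) ∂S.P =
        ∫ ω, ∫ z, L (ω, z) ∂(gM (KX n N)) ∂S.P - 1 / 2 * (xi c n 1 - ∫ ω, Gs ω ∂S.P) := by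
      have hg2 : Integrable (fun ω => 1 / 2 * (xi c n 1 - Gs ω)) S.P :=
        ((integrable_const _).sub hGi).const_mul _
      refine (integral_sub hIi hg2).trans ?_
      congr 1
      have e2 : ∫ ω, (xi c n 1 - Gs ω) ∂S.P = xi c n 1 - ∫ ω, Gs ω ∂S.P := by
        rw [integral_sub (integrable_const _) hGi]
        simp
      rw [← e2]
      exact integral_const_mul _ _
    simp only [e0]
    exact e1.symm
  rw [hdiff]
  have hpt : ∀ ω, |∫ z, L (ω, z) ∂(gM (KX n N)) - 1 / 2 * (xi c n 1 -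
        ∑ y : Fin (N + 2) → Bool, ∑ y' : Fin (N + 2) → Bool, S.w ω y * S.w ω y' * G y y')| ≤
      16 * tderK * (xi c n 1 * √(xi c n 1)) := by
    intro ω
    have h := tder_main (K := KX n N) (hw0 ω) (hw1 ω) (ky N c) hA0 hc1 (tder_ky_sq N hc)
    simp only [tder_gram_ky N hc] at h
    exact h
  calc |∫ ω, (∫ z, L (ω, z) ∂(gM (KX n N)) - 1 / 2 * (xi c n 1 -
        ∑ y : Fin (N + 2) → Bool, ∑ y' : Fin (N + 2) → Bool, S.w ω y * S.w ω y' * G y y'))
        ∂S.P| ≤ ∫ ω, 16 * tderK * (xi c n 1 * √(xi c n 1)) ∂S.P := by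
        rw [← Real.norm_eq_abs]
        exact norm_integral_le_of_norm_le (integrable_const _)
          (Filter.Eventually.of_forall fun ω => by rw [Real.norm_eq_abs]; exact hpt ω)
    _ = 16 * tderK * (xi c n 1 * √(xi c n 1)) := by simp only [integral_const, probReal_univ, smul_eq_mul, one_mul]

end app

end Vale.Agent.P157.Par
end

section

/-! Truncation of the cavity term with the extra field. -/

open MeasureTheory ProbabilityTheory Filter Topology

namespace Vale.Agent.P157.Par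

open Vale.Agent.P367.GT (gM)
open Vale.Agent.P157.Par.Cube

set_option linter.unusedSectionVars false

lemma valx_trn_neg (T x : ℝ) : trn T (-x) = -trn T x := by
  unfold trn
  rw [neg_div, Real.tanh_neg]
  ring

lemma valx_lin_sgn {X K : Type} [Fintype K] (κ : X → K → ℝ) (z : K → ℝ) (p : X × Bool) :
    lin (fun (p : X × Bool) c => sgn p.2 * κ p.1 c) z p = sgn p.2 * lin κ z p.1 := by
  unfold lin
  rw [Finset.mul_sum]
  exact Finset.sum_congr rfl fun c _ => by ring

lemma valx_exp_log_cosh (y : ℝ) : Real.exp (Real.log (Real.cosh y)) = Real.cosh y :=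
  Real.exp_log (Real.cosh_pos y)

/-- The deterministic upper bound. -/
lemma valx_upper_det {A D : ℝ} (hD : ∀ (X K : Type) [Fintype X] [Fintype K] [DecidableEq K]
      (w : X → ℝ) (_hw0 : ∀ x, 0 ≤ w x) (_hw1 : ∑ x, w x = 1) (B : X → ℝ)
      (κ : X → K → ℝ) (_hκ : ∀ x, ∑ c, κ x c ^ 2 ≤ A) (b T : ℝ) (_hT : 1 ≤ T),
      ∫ z, Real.log (∑ x, w x * Real.exp (B x + lin κ z x)) ∂(gM K) ≤
        b + ∫ z, Real.log (∑ x, w x * Real.exp (trn T (lin κ z x))) ∂(gM K) +
          D * (∑ x, w x * |Real.exp (B x - b) - 1| + 1 / T ^ 2))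
    {X K : Type} [Fintype X] [Fintype K] [DecidableEq K] {w : X → ℝ} (hw0 : ∀ x, 0 ≤ w x)
    (hw1 : ∑ x, w x = 1) (B : X → ℝ) {κ : X → K → ℝ} (hκ : ∀ x, ∑ c, κ x c ^ 2 ≤ A) (b : ℝ)
    {T : ℝ} (hT : 1 ≤ T) :
    ∫ z, Real.log (∑ x, w x * (Real.exp (B x) * Real.cosh (lin κ z x))) ∂(gM K) ≤
      b + ∫ z, Real.log (∑ x, w x * Real.exp (Real.log (Real.cosh (trn T (lin κ z x)))))
        ∂(gM K) + D * (∑ x, w x * |Real.exp (B x - b) - 1| + 1 / T ^ 2) := by
  have hsq : ∀ p : X × Bool, ∑ c, (sgn p.2 * κ p.1 c) ^ 2 ≤ A := by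
    intro p
    refine le_trans (le_of_eq ?_) (hκ p.1)
    refine Finset.sum_congr rfl fun c _ => ?_
    rw [mul_pow, sgn_sq, one_mul]
  have hone : ∑ p : X × Bool, w p.1 / 2 = 1 := by
    rw [Fintype.sum_prod_type]
    simp only [Fintype.sum_bool]
    rw [← hw1]
    exact Finset.sum_congr rfl fun x _ => by ring
  have h := hD (X × Bool) K (fun p => w p.1 / 2)
    (fun p => by have := hw0 p.1; linarith only [this]) hone (fun p => B p.1)
    (fun p c => sgn p.2 * κ p.1 c) hsq b T hT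
  have e1 : ∀ z : K → ℝ, ∑ p : X × Bool, w p.1 / 2 * Real.exp (B p.1 +
      lin (fun (p : X × Bool) c => sgn p.2 * κ p.1 c) z p) =
      ∑ x, w x * (Real.exp (B x) * Real.cosh (lin κ z x)) := by
    intro z
    simp only [valx_lin_sgn]
    rw [Fintype.sum_prod_type]
    refine Finset.sum_congr rfl fun x _ => ?_
    simp only [sgn, Fintype.sum_bool, if_true, Bool.false_eq_true, if_false]
    rw [Real.cosh_eq, one_mul, neg_one_mul, Real.exp_add, Real.exp_add]
    ring
  have e2 : ∀ z : K → ℝ, ∑ p : X × Bool, w p.1 / 2 * Real.exp (trn T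
      (lin (fun (p : X × Bool) c => sgn p.2 * κ p.1 c) z p)) =
      ∑ x, w x * Real.exp (Real.log (Real.cosh (trn T (lin κ z x)))) := by
    intro z
    simp only [valx_lin_sgn, valx_exp_log_cosh]
    rw [Fintype.sum_prod_type]
    refine Finset.sum_congr rfl fun x _ => ?_
    simp only [Fintype.sum_bool, sgn, if_true, Bool.false_eq_true, if_false]
    rw [Real.cosh_eq, one_mul, neg_one_mul, valx_trn_neg]
    ring
  have e3 : ∑ p : X × Bool, w p.1 / 2 * |Real.exp (B p.1 - b) - 1| =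
      ∑ x, w x * |Real.exp (B x - b) - 1| := by
    rw [Fintype.sum_prod_type]
    refine Finset.sum_congr rfl fun x _ => ?_
    simp only [Fintype.sum_bool]
    ring
  simp only [e1, e2, e3] at h
  exact h

/-- The averaged upper bound. -/
lemma valx_upper_int {Ω X K : Type} [MeasurableSpace Ω] [Fintype X] [Fintype K] [DecidableEq K]
    {Q : Measure Ω} [IsProbabilityMeasure Q] {w B : Ω → X → ℝ} {κ : Ω → X → K → ℝ} {A b T D : ℝ}
    (hD : ∀ (X K : Type) [Fintype X] [Fintype K] [DecidableEq K]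
      (w : X → ℝ) (_hw0 : ∀ x, 0 ≤ w x) (_hw1 : ∑ x, w x = 1) (B : X → ℝ)
      (κ : X → K → ℝ) (_hκ : ∀ x, ∑ c, κ x c ^ 2 ≤ A) (b T : ℝ) (_hT : 1 ≤ T),
      ∫ z, Real.log (∑ x, w x * Real.exp (B x + lin κ z x)) ∂(gM K) ≤
        b + ∫ z, Real.log (∑ x, w x * Real.exp (trn T (lin κ z x))) ∂(gM K) +
          D * (∑ x, w x * |Real.exp (B x - b) - 1| + 1 / T ^ 2))
    (hw0 : ∀ ω x, 0 ≤ w ω x) (hw1 : ∀ ω, ∑ x, w ω x = 1)
    (hwm : ∀ x, Measurable fun ω => w ω x) (hκm : ∀ x c, Measurable fun ω => κ ω x c)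
    (hκ : ∀ ω x, ∑ c, κ ω x c ^ 2 ≤ A) (hT : 1 ≤ T)
    (hB : Integrable (fun ω => ∑ x, w ω x * |Real.exp (B ω x - b) - 1|) Q)
    (hF : Integrable (fun z : Ω × (K → ℝ) => Real.log (∑ x, w z.1 x *
      (Real.exp (B z.1 x) * Real.cosh (lin (κ z.1) z.2 x)))) (Q.prod (gM K))) :
    ∫ z : Ω × (K → ℝ), Real.log (∑ x, w z.1 x *
        (Real.exp (B z.1 x) * Real.cosh (lin (κ z.1) z.2 x))) ∂(Q.prod (gM K)) ≤
      b + (∫ z : Ω × (K → ℝ), Real.log (∑ x, w z.1 x *
        Real.exp (Real.log (Real.cosh (trn T (lin (κ z.1) z.2 x))))) ∂(Q.prod (gM K))) +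
        D * ((∫ ω, ∑ x, w ω x * |Real.exp (B ω x - b) - 1| ∂Q) + 1 / T ^ 2) := by
  have hT0 : 0 < T := lt_of_lt_of_le one_pos hT
  have hI : Integrable (fun z : Ω × (K → ℝ) =>
      Real.log (∑ x, w z.1 x * Real.exp (Real.log (Real.cosh (trn T (lin (κ z.1) z.2 x))))))
      (Q.prod (gM K)) :=
    Dnl.integrable_bdd_lse (T := T) (h := fun y => Real.log (Real.cosh (trn T y))) hw0 hw1 hwm hκm
      (Real.measurable_log.comp (Real.measurable_cosh.comp (Dnl.measurable_trn T)))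
      fun y => Dnl.abs_logcosh_trn_le hT0 y
  rw [integral_prod _ hI, integral_prod _ hF]
  have e2 : D * ((∫ ω, ∑ x, w ω x * |Real.exp (B ω x - b) - 1| ∂Q) + 1 / T ^ 2) =
      ∫ ω, D * ((∑ x, w ω x * |Real.exp (B ω x - b) - 1|) + 1 / T ^ 2) ∂Q := by
    rw [integral_const_mul, integral_add hB (integrable_const _)]
    simp only [one_div, integral_const, probReal_univ, smul_eq_mul, one_mul]
  have e1 : b + (∫ ω : Ω, ∫ z : K → ℝ, Real.log (∑ x, w ω x *
        Real.exp (Real.log (Real.cosh (trn T (lin (κ ω) z x))))) ∂(gM K) ∂Q) =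
      ∫ ω : Ω, (b + ∫ z : K → ℝ, Real.log (∑ x, w ω x *
        Real.exp (Real.log (Real.cosh (trn T (lin (κ ω) z x))))) ∂(gM K)) ∂Q := by
    rw [integral_add (integrable_const _) hI.integral_prod_left]
    simp only [integral_const, probReal_univ, smul_eq_mul, one_mul]
  have i1 : Integrable (fun ω : Ω => b + ∫ z : K → ℝ, Real.log (∑ x, w ω x *
      Real.exp (Real.log (Real.cosh (trn T (lin (κ ω) z x))))) ∂(gM K)) Q :=
    (integrable_const b).add hI.integral_prod_left
  have i2 : Integrable (fun ω : Ω => D * ((∑ x, w ω x * |Real.exp (B ω x - b) - 1|) +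
      1 / T ^ 2)) Q :=
    (hB.add (integrable_const (1 / T ^ 2))).const_mul D
  rw [e1, e2, ← integral_add i1 i2]
  refine integral_mono hF.integral_prod_left (i1.add i2) fun ω => ?_
  exact valx_upper_det hD (hw0 ω) (hw1 ω) (B ω) (hκ ω) b hT

/-! ### The kernel of the extra field -/

lemma valx_xi_eq (c : ℕ → ℝ) (n : ℕ) (x : ℝ) :
    xi c n x = c 0 + ∑ p : Fin n, c ((p : ℕ) + 1) * x ^ ((p : ℕ) + 1) := by
  unfold xi
  rw [Finset.sum_range_succ', Fin.sum_univ_eq_sum_range (fun p => c (p + 1) * x ^ (p + 1)),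
    pow_zero, mul_one, add_comm]

lemma valx_sum_kx (N : ℕ) {n : ℕ} {c : ℕ → ℝ} (hc : ∀ p, 0 ≤ c p) (x y : Fin (N + 1) → Bool) :
    ∑ e, kx N (n := n) c x e * kx N (n := n) c y e = xi c n (cR N x y) := by
  rw [valx_xi_eq, Fintype.sum_sum_type]
  unfold kx
  simp only [Finset.univ_unique, Sum.elim_inl, Finset.sum_singleton, Sum.elim_inr]
  congr 1
  · exact Real.mul_self_sqrt (hc 0)
  · rw [Fintype.sum_sigma]
    refine Finset.sum_congr rfl fun p _ => ?_
    unfold cR
    rw [Fintype.sum_pow, Finset.mul_sum]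
    refine Finset.sum_congr rfl fun k _ => ?_
    rw [Finset.prod_mul_distrib]
    have h := Real.mul_self_sqrt (hc ((p : ℕ) + 1))
    simp only
    calc √(c ((p : ℕ) + 1)) * (∏ i, cubeφ N x (k i)) *
        (√(c ((p : ℕ) + 1)) * ∏ i, cubeφ N y (k i)) =
        (√(c ((p : ℕ) + 1)) * √(c ((p : ℕ) + 1))) *
        ((∏ i, cubeφ N x (k i)) * ∏ i, cubeφ N y (k i)) := by ring
      _ = _ := by rw [h]

lemma valx_cR_self (N : ℕ) (x : Fin (N + 1) → Bool) : cR N x x = 1 := by
  unfold cR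
  have h := Cube.sum_cubeφ_sq N x
  rw [← h]
  exact Finset.sum_congr rfl fun i _ => by rw [pow_two]

lemma valx_gram_kerX {M N n : ℕ} (δ : ℝ) (f1 : ℝ → ℝ) {c : ℕ → ℝ} (hc : ∀ p, 0 ≤ c p)
    (t : Fin M → Fin (N + 1) → ℝ) (x y : Fin (N + 1) → Bool) :
    gram (kerX (n := n) δ f1 c t) (kerX (n := n) δ f1 c t) x y =
      gram (ker1 δ f1 t) (ker1 δ f1 t) x y + xi c n (cR N x y) := by
  rw [← valx_sum_kx N hc]
  unfold gram kerX
  rw [Fintype.sum_sum_type]
  simp only [Sum.elim_inl, Sum.elim_inr]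

lemma valx_sum_kerX_sq {M N n : ℕ} {δ : ℝ} (hδ : 0 ≤ δ) {f1 : ℝ → ℝ} {C : ℝ}
    (hC : ∀ x, |f1 x| ≤ C) {c : ℕ → ℝ} (hc : ∀ p, 0 ≤ c p)
    (t : Fin M → Fin (N + 1) → ℝ) (x : Fin (N + 1) → Bool) :
    ∑ i, kerX (n := n) δ f1 c t x i ^ 2 ≤ δ * M * C ^ 2 + xi c n 1 := by
  have h := valx_gram_kerX (n := n) δ f1 hc t x x
  have h1 : ∑ i, kerX (n := n) δ f1 c t x i ^ 2 =
      gram (kerX (n := n) δ f1 c t) (kerX (n := n) δ f1 c t) x x := by
    unfold gram
    exact Finset.sum_congr rfl fun i _ => by ring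
  have h2 : ∑ i, ker1 δ f1 t x i ^ 2 = gram (ker1 δ f1 t) (ker1 δ f1 t) x x := by
    unfold gram
    exact Finset.sum_congr rfl fun i _ => by ring
  rw [h1, h, ← h2, valx_cR_self]
  exact add_le_add (sum_ker1_sq hδ hC t x) le_rfl

section

variable {f f1 f2 f3 : ℝ → ℝ} {C : ℝ}

lemma valx_integrable_lin (hf : CB3 C f f1 f2 f3) (δ : ℝ) (M N P n : ℕ) (c : ℕ → ℝ)
    (x : Fin (N + 1) → Bool) :
    Integrable (fun z : ((Fin M → Fin (N + 1) → ℝ) × (GI P (N + 1) → ℝ)) ×
        (Fin M ⊕ KX n N → ℝ) => lin (kerX (n := n) δ f1 c z.1.1) z.2 x)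
      (((pm M N).prod (gM (GI P (N + 1)))).prod (gM (Fin M ⊕ KX n N))) := by
  have h := integrable_cavY hf δ (N := N) (gM (GI P (N + 1))) (μ := gM (Fin M ⊕ KX n N))
    (h := fun η a => η (Sum.inl a)) (fun a => integrable_coord_gM (Sum.inl a)) x
  have h2 : Integrable (fun z : ((Fin M → Fin (N + 1) → ℝ) × (GI P (N + 1) → ℝ)) ×
        (Fin M ⊕ KX n N → ℝ) => ∑ e : KX n N, kx N c x e * z.2 (Sum.inr e))
      (((pm M N).prod (gM (GI P (N + 1)))).prod (gM (Fin M ⊕ KX n N))) := by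
    refine integrable_finsetSum _ fun e _ => Integrable.const_mul ?_ _
    have h3 : Integrable (fun η : Fin M ⊕ KX n N → ℝ => η (Sum.inr e)) (gM (Fin M ⊕ KX n N)) :=
      integrable_coord_gM (Sum.inr e)
    exact h3.comp_snd _
  refine (h.add h2).congr (Filter.Eventually.of_forall fun z => ?_)
  simp only [Pi.add_apply]
  unfold lin kerX cavY
  rw [Fintype.sum_sum_type (f := fun c_1 : Fin M ⊕ KX n N =>
    Sum.elim (ker1 δ f1 z.1.1 x) (kx N c x) c_1 * z.2 c_1)]
  simp only [Sum.elim_inl, Sum.elim_inr]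
  rfl

lemma valx_integrable (hf : CB3 C f f1 f2 f3) (hfm : Measurable f) (δ : ℝ) (M N : ℕ) {P : ℕ}
    (s : ℝ) (u : Fin P → ℝ) (n : ℕ) (c : ℕ → ℝ) :
    Integrable (fun z : ((Fin M → Fin (N + 1) → ℝ) × (GI P (N + 1) → ℝ)) ×
        (Fin M ⊕ KX n N → ℝ) =>
      Real.log (∑ x, Real.exp (EE f s u z.1.1 z.1.2 x) *
        (Real.exp (cavB δ f1 f2 fun a => cubeS (z.1.1 a) x) *
          Real.cosh (lin (kerX (n := n) δ f1 c z.1.1) z.2 x))))
      (((pm M N).prod (gM (GI P (N + 1)))).prod (gM (Fin M ⊕ KX n N))) := by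
  have e : ∀ z : ((Fin M → Fin (N + 1) → ℝ) × (GI P (N + 1) → ℝ)) × (Fin M ⊕ KX n N → ℝ),
      Real.log (∑ x, Real.exp (EE f s u z.1.1 z.1.2 x) *
        (Real.exp (cavB δ f1 f2 fun a => cubeS (z.1.1 a) x) *
          Real.cosh (lin (kerX (n := n) δ f1 c z.1.1) z.2 x))) =
      Real.log (∑ x, Real.exp (EE f s u z.1.1 z.1.2 x +
        (cavB δ f1 f2 (fun a => cubeS (z.1.1 a) x) +
          Real.log (Real.cosh (lin (kerX (n := n) δ f1 c z.1.1) z.2 x))))) := by
    intro z
    congr 1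
    refine Finset.sum_congr rfl fun x _ => ?_
    rw [Real.exp_add, Real.exp_add, Real.exp_log (Real.cosh_pos _)]
  simp_rw [e]
  refine integrable_lse fun x => ?_
  refine ((integrable_EE hfm C hf.b0 N M s u x).comp_fst _).add ?_
  refine (((integrable_cavB hf δ M N x).comp_fst _).comp_fst _).add ?_
  have h := valx_integrable_lin hf δ M N P n c x
  refine Integrable.mono' h.abs ?_ (Filter.Eventually.of_forall fun z => ?_)
  · have : Measurable fun t : ℝ => Real.log (Real.cosh t) :=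
      Real.measurable_log.comp Real.measurable_cosh
    exact (this.comp_aemeasurable h.aestronglyMeasurable.aemeasurable).aestronglyMeasurable
  · rw [Real.norm_eq_abs, abs_of_nonneg (log_cosh_nonneg _)]
    exact log_cosh_le _

end

lemma valx_kerX_meas {f f1 f2 f3 : ℝ → ℝ} {C : ℝ} (hf : CB3 C f f1 f2 f3) (δ : ℝ) (M N n : ℕ)
    (c : ℕ → ℝ) (x : Fin (N + 1) → Bool) (i : Fin M ⊕ KX n N) :
    Measurable fun t : Fin M → Fin (N + 1) → ℝ => kerX (n := n) δ f1 c t x i := by
  have m1 := (Lin.continuous_f1 hf).measurable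
  rcases i with i | i
  · have : (fun t : Fin M → Fin (N + 1) → ℝ => kerX (n := n) δ f1 c t x (Sum.inl i)) =
        fun t => √δ * f1 (cubeS (t i) x) := rfl
    rw [this]
    exact (m1.comp (Cube.measurable_cubeS (g := fun t : Fin M → Fin (N + 1) → ℝ => t i)
      (by fun_prop) x)).const_mul _
  · exact measurable_const

/-- Two sided truncation. -/
theorem valx_trunc (A : ℝ) : ∃ D : ℝ, 0 ≤ D ∧ ∀ (f f1 f2 f3 : ℝ → ℝ) (C : ℝ)
    (hf : CB3 C f f1 f2 f3) (hfm : Measurable f) (N M P : ℕ) (s : ℝ) (u : Fin P → ℝ) (n : ℕ)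
    (c : ℕ → ℝ), (∀ p, 0 ≤ c p) → 1 / ((N : ℝ) + 2) * M * C ^ 2 + xi c n 1 ≤ A →
    ∀ b T : ℝ, 1 ≤ T →
    |T1x f f1 f2 hfm C hf.b0 N M P s u n c -
      (b + ∫ z : ((Fin M → Fin (N + 1) → ℝ) × (GI P (N + 1) → ℝ)) × (Fin M ⊕ KX n N → ℝ),
      Real.log (∑ x, (pS f hfm C hf.b0 N M P s u).w z.1 x *
        Real.exp (Real.log (Real.cosh
          (trn T (lin (kerX (n := n) (1 / ((N : ℝ) + 2)) f1 c z.1.1) z.2 x)))))
      ∂((pS f hfm C hf.b0 N M P s u).P.prod (gM (Fin M ⊕ KX n N))))| ≤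
    D * ((pS f hfm C hf.b0 N M P s u).tav (n := 1) (fun t x =>
        |cavB (1 / ((N : ℝ) + 2)) f1 f2 (fun a => cubeS (t a) (x 0)) - b|) +
      (pS f hfm C hf.b0 N M P s u).tav (n := 1) (fun t x =>
        |Real.exp (cavB (1 / ((N : ℝ) + 2)) f1 f2 (fun a => cubeS (t a) (x 0)) - b) - 1|) +
      1 / T ^ 2) := by
  obtain ⟨D0, hD0⟩ := trunc_id A
  refine ⟨Real.exp (A / 2) + |D0|, by positivity, ?_⟩
  intro f f1 f2 f3 C hf hfm N M P s u n c hc hA b T hT
  have hT0 : 0 < T := lt_of_lt_of_le one_pos hT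
  have hD : ∀ (X K : Type) [Fintype X] [Fintype K] [DecidableEq K]
      (w : X → ℝ) (_hw0 : ∀ x, 0 ≤ w x) (_hw1 : ∑ x, w x = 1) (B : X → ℝ)
      (κ : X → K → ℝ) (_hκ : ∀ x, ∑ c, κ x c ^ 2 ≤ A) (b T : ℝ) (_hT : 1 ≤ T),
      ∫ z, Real.log (∑ x, w x * Real.exp (B x + lin κ z x)) ∂(gM K) ≤
        b + ∫ z, Real.log (∑ x, w x * Real.exp (trn T (lin κ z x))) ∂(gM K) +
          |D0| * (∑ x, w x * |Real.exp (B x - b) - 1| + 1 / T ^ 2) := by
    intro X K _ _ _ w hw0 hw1 B κ hκ b T hT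
    refine (hD0 X K w hw0 hw1 B κ hκ b T hT).trans ?_
    have h1 : 0 ≤ ∑ x, w x * |Real.exp (B x - b) - 1| + 1 / T ^ 2 := by
      have : 0 ≤ ∑ x, w x * |Real.exp (B x - b) - 1| :=
        Finset.sum_nonneg fun x _ => mul_nonneg (hw0 x) (abs_nonneg _)
      (clear * - this hT; positivity)
    have h2 := mul_le_mul_of_nonneg_right (le_abs_self D0) h1
    linarith only [h2]
  set δ : ℝ := 1 / ((N : ℝ) + 2) with hδ
  have hδ0 : 0 ≤ δ := by (clear * -; positivity)
  set S := pS f hfm C hf.b0 N M P s u with hS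
  have m1 := (Lin.continuous_f1 hf).measurable
  -- averages
  have iB : Integrable (fun ω : S.Ω => ∑ x : Fin (N + 1) → Bool, S.w ω x *
      |cavB δ f1 f2 (fun a => cubeS (S.π ω a) x) - b|) S.P := by
    refine Dnl.integrable_sum_w S
      (G := fun ω x => |cavB δ f1 f2 (fun a => cubeS (S.π ω a) x) - b|) fun x => ?_
    have h := (((integrable_cavB hf δ M N x).sub (integrable_const b)).abs).comp_fst
      (gM (GI P (N + 1)))
    exact h
  have iE : Integrable (fun ω : S.Ω => ∑ x : Fin (N + 1) → Bool, S.w ω x *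
      |Real.exp (cavB δ f1 f2 (fun a => cubeS (S.π ω a) x) - b) - 1|) S.P := by
    refine Dnl.integrable_sum_w S
      (G := fun ω x => |Real.exp (cavB δ f1 f2 (fun a => cubeS (S.π ω a) x) - b) - 1|)
      fun x => ?_
    have h0 : Integrable (fun ω : Fin M → Fin (N + 1) → ℝ =>
        |Real.exp (cavB δ f1 f2 (fun a => cubeS (ω a) x) - b) - 1|) (pm M N) := by
      have h1 := (Dnl.int_exp_cavB hf hδ0 M N x).mul_const (Real.exp (-b))
      refine Integrable.abs (Integrable.sub (h1.congr (Filter.Eventually.of_forall fun ω => ?_))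
        (integrable_const 1))
      simp only
      rw [← Real.exp_add, ← sub_eq_add_neg]
    exact h0.comp_fst (gM (GI P (N + 1)))
  have mk1 : ∀ (x : Fin (N + 1) → Bool) (i : Fin M ⊕ KX n N), Measurable
      fun ω : (Fin M → Fin (N + 1) → ℝ) × (GI P (N + 1) → ℝ) =>
        kerX (n := n) δ f1 c ω.1 x i := by
    intro x i
    exact (valx_kerX_meas hf δ M N n c x i).comp measurable_fst
  have i1 := Dnl.integrable_w hfm hf.b0 M N s u
    (A := fun ω η x => Real.exp (cavB δ f1 f2 fun a => cubeS (ω a) x) *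
      Real.cosh (lin (kerX (n := n) δ f1 c ω) η x))
    (fun ω η x => mul_pos (Real.exp_pos _) (Real.cosh_pos _)) (valx_integrable hf hfm δ M N s u n c)
  have hsq : ∀ (ω : S.Ω) (x : Fin (N + 1) → Bool),
      ∑ i, kerX (n := n) δ f1 c (S.π ω) x i ^ 2 ≤ A := fun ω x =>
    (valx_sum_kerX_sq hδ0 hf.b1 hc _ x).trans hA
  have t1 := Dnl.lower_cosh (Q := S.P) (w := fun ω (x : Fin (N + 1) → Bool) => S.w ω x)
    (κ := fun ω => kerX (n := n) δ f1 c (S.π ω))
    (B := fun ω x => cavB δ f1 f2 fun a => cubeS (S.π ω a) x) (A := A) (b := b) (T := T)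
    (fun ω x => S.w0 ω x) (fun ω => S.w1 ω) (fun x => S.hw x) mk1 hsq hT0 iB i1
  have t2 := valx_upper_int (Q := S.P) (D := |D0|) hD
    (w := fun ω (x : Fin (N + 1) → Bool) => S.w ω x)
    (κ := fun ω => kerX (n := n) δ f1 c (S.π ω))
    (B := fun ω x => cavB δ f1 f2 fun a => cubeS (S.π ω a) x) (b := b) (T := T)
    (fun ω x => S.w0 ω x) (fun ω => S.w1 ω) (fun x => S.hw x) mk1 hsq hT iE i1
  have e4 : S.tav (n := 1) (fun t x => |cavB δ f1 f2 (fun a => cubeS (t a) (x 0)) - b|) =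
      ∫ ω : S.Ω, ∑ x : Fin (N + 1) → Bool, S.w ω x *
        |cavB δ f1 f2 (fun a => cubeS (S.π ω a) x) - b| ∂S.P :=
    Dnl.tav_one S fun t x => |cavB δ f1 f2 (fun a => cubeS (t a) x) - b|
  have e5 : S.tav (n := 1)
      (fun t x => |Real.exp (cavB δ f1 f2 (fun a => cubeS (t a) (x 0)) - b) - 1|) =
      ∫ ω : S.Ω, ∑ x : Fin (N + 1) → Bool, S.w ω x *
        |Real.exp (cavB δ f1 f2 (fun a => cubeS (S.π ω a) x) - b) - 1| ∂S.P :=
    Dnl.tav_one S fun t x => |Real.exp (cavB δ f1 f2 (fun a => cubeS (t a) x) - b) - 1|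
  have n4 : 0 ≤ ∫ ω : S.Ω, ∑ x : Fin (N + 1) → Bool, S.w ω x *
        |cavB δ f1 f2 (fun a => cubeS (S.π ω a) x) - b| ∂S.P :=
    integral_nonneg fun ω => Finset.sum_nonneg fun x _ => mul_nonneg (S.w0 ω x) (abs_nonneg _)
  have n5 : 0 ≤ ∫ ω : S.Ω, ∑ x : Fin (N + 1) → Bool, S.w ω x *
        |Real.exp (cavB δ f1 f2 (fun a => cubeS (S.π ω a) x) - b) - 1| ∂S.P :=
    integral_nonneg fun ω => Finset.sum_nonneg fun x _ => mul_nonneg (S.w0 ω x) (abs_nonneg _)
  rw [e4, e5]
  have n6 : (0 : ℝ) ≤ 1 / T ^ 2 := by positivity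
  have n7 : 0 ≤ Real.exp (A / 2) := (Real.exp_pos _).le
  have n8 : 0 ≤ |D0| := abs_nonneg _
  set IB := ∫ ω : S.Ω, ∑ x : Fin (N + 1) → Bool, S.w ω x *
        |cavB δ f1 f2 (fun a => cubeS (S.π ω a) x) - b| ∂S.P with hIB
  set IE := ∫ ω : S.Ω, ∑ x : Fin (N + 1) → Bool, S.w ω x *
        |Real.exp (cavB δ f1 f2 (fun a => cubeS (S.π ω a) x) - b) - 1| ∂S.P with hIE
  have t1' : b + (∫ z : ((Fin M → Fin (N + 1) → ℝ) × (GI P (N + 1) → ℝ)) ×
      (Fin M ⊕ KX n N → ℝ),
      Real.log (∑ x, (pS f hfm C hf.b0 N M P s u).w z.1 x *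
        Real.exp (Real.log (Real.cosh
          (trn T (lin (kerX (n := n) (1 / ((N : ℝ) + 2)) f1 c z.1.1) z.2 x)))))
      ∂((pS f hfm C hf.b0 N M P s u).P.prod (gM (Fin M ⊕ KX n N)))) -
      Real.exp (A / 2) * IB ≤ T1x f f1 f2 hfm C hf.b0 N M P s u n c := t1
  have t2' : T1x f f1 f2 hfm C hf.b0 N M P s u n c ≤
      b + (∫ z : ((Fin M → Fin (N + 1) → ℝ) × (GI P (N + 1) → ℝ)) ×
      (Fin M ⊕ KX n N → ℝ),
      Real.log (∑ x, (pS f hfm C hf.b0 N M P s u).w z.1 x *
        Real.exp (Real.log (Real.cosh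
          (trn T (lin (kerX (n := n) (1 / ((N : ℝ) + 2)) f1 c z.1.1) z.2 x)))))
      ∂((pS f hfm C hf.b0 N M P s u).P.prod (gM (Fin M ⊕ KX n N)))) +
      |D0| * (IE + 1 / T ^ 2) := t2
  rw [abs_le]
  constructor
  · linarith only [hfm, hf, t1', mul_nonneg n7 n5, mul_nonneg n7 n6, mul_nonneg n8 n4, mul_nonneg n8 n5,
      mul_nonneg n8 n6]
  · linarith only [hfm, hf, t2', mul_nonneg n7 n5, mul_nonneg n7 n6, mul_nonneg n7 n4, mul_nonneg n8 n4]

end Vale.Agent.P157.Par
end

section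

/-! The limit of the cavity term with the extra field. -/

open MeasureTheory ProbabilityTheory Filter Topology

namespace Vale.Agent.P157.Par

open Vale.Agent.P367.GT (gM)
open Vale.Agent.P157.Par.Cube

set_option linter.unusedSectionVars false

/-- Evaluation of the cavity term, two sided. -/
theorem valx_val (R : ℝ) : ∀ ε > 0, ∃ T₀ : ℝ, ∀ T ≥ T₀, ∀ (k : ℕ) (m r : ℕ → ℝ) (τ : ℝ),
    (∀ l, 1 ≤ l → l ≤ k → 0 < m l ∧ m l ≤ 1) → 0 ≤ r 0 → (∀ l < k, r l ≤ r (l + 1)) → 0 ≤ τ →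
    r k + τ ≤ R →
    |(T + ∫ z, Real.log (lvW m (incr r) k
        (topW τ fun x => Real.exp (Real.log (Real.cosh (trn T x))) / Real.exp T) 0
          (√(incr r 0) * z)) ∂(gaussianReal 0 1)) -
      (∫ z, cascade m r k (fun x => Real.log (Real.cosh x)) (√(r 0) * z) ∂(gaussianReal 0 1) +
        τ / 2)| ≤ ε := by
  intro ε hε
  obtain ⟨C, hC⟩ := spv_int_close
  obtain ⟨T₀, hT₀⟩ := spv_choose (C R) hε
  refine ⟨T₀, fun T hT k m r τ hm hr0 hr hτ hR => ?_⟩
  obtain ⟨hT0, hT1⟩ := hT₀ T hT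
  have h1 := hC R _ T k m r τ spv_logcosh hT0 hm hr0 hr hτ hR
  have hm' : ∀ l, 1 ≤ l → l ≤ k → 0 < m l := fun l h1 h2 => (hm l h1 h2).1
  have e1 : gstep 1 τ (fun x => Real.log (Real.cosh x)) =
      fun x => Real.log (Real.cosh x) + τ / 2 := funext (gstep_one_logcosh hτ)
  have hlip : ∀ (j : ℕ) (F : ℝ → ℝ), j ≤ k → LipschitzWith 1 F →
      LipschitzWith 1 (cascade m r j F) := by
    intro j
    induction j with
    | zero => intro F _ hF; exact hF
    | succ j ih =>
      intro F hj hF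
      obtain ⟨hm0, hm1⟩ := hm (j + 1) (by omega) hj
      rw [cascade_succ_def]
      exact ih _ (by omega) (clo_gstep_lip hF hm0 hm1 _)
  have hK := hlip k _ le_rfl spv_logcosh.lip
  have hint : Integrable (fun z => cascade m r k (fun x => Real.log (Real.cosh x))
      (√(r 0) * z)) (gaussianReal 0 1) := by
    refine Integrable.mono' ((integrable_const
      (|cascade m r k (fun x => Real.log (Real.cosh x)) 0|)).add
      ((clo_integrable_exp_abs 1).const_mul √(r 0))) ?_ (Filter.Eventually.of_forall fun z => ?_)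
    · exact (hK.continuous.measurable.comp (by fun_prop)).aestronglyMeasurable
    · rw [Real.norm_eq_abs]
      have h2 := clo_lip hK 0 (√(r 0) * z)
      rw [zero_add, clo_abs_sqrt_mul] at h2
      have h3 : |z| ≤ Real.exp (1 * |z|) := by
        rw [one_mul]
        linarith only [Real.add_one_le_exp |z|]
      have h4 : √(r 0) * |z| ≤ √(r 0) * Real.exp (1 * |z|) := by (clear * - h3; gcongr)
      have h5 := abs_sub_abs_le_abs_sub
        (cascade m r k (fun x => Real.log (Real.cosh x)) (√(r 0) * z))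
        (cascade m r k (fun x => Real.log (Real.cosh x)) 0)
      simp only [Pi.add_apply]
      linarith only [h2, h4, h5]
  have e2 : ∫ z, cascade m r k (gstep 1 τ fun x => Real.log (Real.cosh x)) (√(r 0) * z)
      ∂(gaussianReal 0 1) = ∫ z, cascade m r k (fun x => Real.log (Real.cosh x)) (√(r 0) * z)
      ∂(gaussianReal 0 1) + τ / 2 := by
    rw [e1]
    have e3 : ∀ z, cascade m r k (fun x => Real.log (Real.cosh x) + τ / 2) (√(r 0) * z) =
        cascade m r k (fun x => Real.log (Real.cosh x)) (√(r 0) * z) + τ / 2 :=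
      fun z => cascade_add_const hm' spv_logcosh.lip _ _
    simp only [e3]
    rw [integral_add hint (integrable_const _), integral_const]
    simp only [probReal_univ, one_smul]
  rw [e2] at h1
  exact h1.trans hT1

/-! ### The polynomial -/

lemma valx_xi_nonneg {c : ℕ → ℝ} (hc : ∀ p, 0 ≤ c p) (n : ℕ) {x : ℝ} (hx : 0 ≤ x) :
    0 ≤ xi c n x :=
  Finset.sum_nonneg fun p _ => mul_nonneg (hc p) (pow_nonneg hx p)

lemma valx_xi_mono {c : ℕ → ℝ} (hc : ∀ p, 0 ≤ c p) (n : ℕ) {x y : ℝ} (hx : 0 ≤ x)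
    (hxy : x ≤ y) : xi c n x ≤ xi c n y :=
  Finset.sum_le_sum fun p _ => mul_le_mul_of_nonneg_left (pow_le_pow_left₀ hx hxy p) (hc p)

lemma valx_xi_abs_le {c : ℕ → ℝ} (hc : ∀ p, 0 ≤ c p) (n : ℕ) {x : ℝ} (hx : |x| ≤ 1) :
    |xi c n x| ≤ xi c n 1 := by
  unfold xi
  refine (Finset.abs_sum_le_sum_abs _ _).trans (Finset.sum_le_sum fun p _ => ?_)
  rw [abs_mul, abs_of_nonneg (hc p), one_pow, abs_pow]
  exact mul_le_mul_of_nonneg_left (pow_le_one₀ (abs_nonneg _) hx) (hc p)

lemma valx_pow_sub {x y : ℝ} (hx : |x| ≤ 1) (hy : |y| ≤ 1) (p : ℕ) :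
    |x ^ p - y ^ p| ≤ p * |x - y| := by
  induction p with
  | zero => simp
  | succ p ih =>
    have e : x ^ (p + 1) - y ^ (p + 1) = x ^ p * (x - y) + (x ^ p - y ^ p) * y := by ring
    rw [e]
    refine (abs_add_le _ _).trans ?_
    rw [abs_mul, abs_mul, abs_pow]
    have h1 : |x| ^ p * |x - y| ≤ 1 * |x - y| :=
      mul_le_mul_of_nonneg_right (pow_le_one₀ (abs_nonneg _) hx) (abs_nonneg _)
    have h2 : |x ^ p - y ^ p| * |y| ≤ p * |x - y| * 1 :=
      mul_le_mul ih hy (abs_nonneg _) ((abs_nonneg _).trans ih)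
    push_cast
    linarith only [h1, h2]

lemma valx_xi_sub {c : ℕ → ℝ} (hc : ∀ p, 0 ≤ c p) (n : ℕ) {x y : ℝ} (hx : |x| ≤ 1)
    (hy : |y| ≤ 1) : |xi c n x - xi c n y| ≤ n * xi c n 1 * |x - y| := by
  unfold xi
  rw [← Finset.sum_sub_distrib, Finset.mul_sum, Finset.sum_mul]
  refine (Finset.abs_sum_le_sum_abs _ _).trans (Finset.sum_le_sum fun p hp => ?_)
  rw [← mul_sub, abs_mul, abs_of_nonneg (hc p), one_pow, mul_one]
  have h1 := valx_pow_sub hx hy p
  have h2 : (p : ℝ) ≤ n := by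
    rw [Finset.mem_range] at hp
    exact_mod_cast Nat.le_of_lt_succ hp
  have h3 : (p : ℝ) * |x - y| ≤ n * |x - y| := mul_le_mul_of_nonneg_right h2 (abs_nonneg _)
  calc c p * |x ^ p - y ^ p| ≤ c p * (n * |x - y|) :=
        mul_le_mul_of_nonneg_left (h1.trans h3) (hc p)
    _ = n * c p * |x - y| := by ring

lemma valx_xi_zero (n : ℕ) (x : ℝ) : xi 0 n x = 0 := by
  unfold xi
  simp

section

variable {C c₀ a : ℝ} {f f1 f2 f3 : ℝ → ℝ} (hf : Pot C c₀ a f f1 f2 f3) (hfm : Measurable f)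
  {α : ℝ} (hα : 0 < α)

include hα in
/-- The kernel of the new spin with the extra field. -/
theorem valx_kerClose {U : Ultrafilter ℕ} {N M P : ℕ → ℕ} {s : ℕ → ℝ} {u : ∀ j, Fin (P j) → ℝ}
    (hs : SeqOK f hfm C hf.cb3.b0 α U N M P s u) {k : ℕ} {b : Fin k → ℝ}
    {w : Fin (k + 1) → ℝ} {q : ℕ → ℝ} {ε : ℝ}
    (hm : Mesh U (fun j => pS f hfm C hf.cb3.b0 (N j) (M j) (P j) (s j) (u j)) b w q ε)
    {n : ℕ} {c : ℕ → ℝ} (hc : ∀ p, 0 ≤ c p)
    {ε' B : ℝ} (h1 : KerClose U
        (fun j => pS f hfm C hf.cb3.b0 (N j) (M j + 1) (P j) (s j) (u j)) b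
        (cut (incr (stop k (rr α (fun x => Real.exp (f x) / c₀) f1 k w q))) k)
        (α * ov (fun x => Real.exp (f x) / c₀) (fun y => f1 y ^ 2) k w q -
          rr α (fun x => Real.exp (f x) / c₀) f1 k w q k) ε' B
        (fun j t x => ker1 (1 / ((N j : ℝ) + 2)) f1 t x)) {ε₂ : ℝ}
    (hlt : ε' + n * xi c n 1 * ε < ε₂) : ∃ B,
      KerClose U (fun j => pS f hfm C hf.cb3.b0 (N j) (M j + 1) (P j) (s j) (u j)) b
        (cut (incr (stop k fun l => rr α (fun x => Real.exp (f x) / c₀) f1 k w q l +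
          xi c n (q l))) k)
        (α * ov (fun x => Real.exp (f x) / c₀) (fun y => f1 y ^ 2) k w q + xi c n 1 -
          (rr α (fun x => Real.exp (f x) / c₀) f1 k w q k + xi c n (q k))) ε₂ B
        (fun j t x => kerX (n := n) (1 / ((N j : ℝ) + 2)) f1 c t x) := by
  obtain ⟨g', g'', hg⟩ := hf.cf1
  obtain ⟨A, hA⟩ := hs.hb
  have hC0 : 0 ≤ C := (abs_nonneg _).trans (hf.cb3.b0 0)
  have hδ : ∀ j, (0 : ℝ) ≤ 1 / ((N j : ℝ) + 2) := fun j => by positivity
  have hbd : ∀ j t x, ∑ i, kerX (M := M j + 1) (N := N j) (n := n) (1 / ((N j : ℝ) + 2)) f1 c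
      t x i ^ 2 ≤ A * C ^ 2 + xi c n 1 := by
    intro j t x
    refine (valx_sum_kerX_sq (hδ j) hf.cb3.b1 hc t x).trans (add_le_add ?_ le_rfl)
    apply mul_le_mul_of_nonneg_right _ (sq_nonneg C)
    refine le_trans (le_of_eq ?_) (hA j)
    push_cast
    ring
  have hbd1 : ∀ j t x, ∑ i, ker1 (M := M j + 1) (N := N j) (1 / ((N j : ℝ) + 2)) f1 t x i ^ 2 ≤
      A * C ^ 2 := by
    intro j t x
    refine (sum_ker1_sq (hδ j) hf.cb3.b1 t x).trans ?_
    apply mul_le_mul_of_nonneg_right _ (sq_nonneg C)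
    refine le_trans (le_of_eq ?_) (hA j)
    push_cast
    ring
  have hgm1 : ∀ j x y, Measurable fun t : Fin (M j + 1) → Fin (N j + 1) → ℝ =>
      gram (ker1 (1 / ((N j : ℝ) + 2)) f1 t) (ker1 (1 / ((N j : ℝ) + 2)) f1 t) x y := by
    intro j x y
    simp only [gram_ker1 (hδ j)]
    exact addF_meas _ hg.cont.measurable _
  have hgm2 : ∀ j x y, Measurable fun t : Fin (M j + 1) → Fin (N j + 1) → ℝ =>
      gram (kerX (n := n) (1 / ((N j : ℝ) + 2)) f1 c t)
        (kerX (n := n) (1 / ((N j : ℝ) + 2)) f1 c t) x y := by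
    intro j x y
    simp only [valx_gram_kerX _ _ hc]
    exact (hgm1 j x y).add_const _
  have hrn := fun l : Fin (k + 1) => rr_nonneg (α := α) hf hα hm.lim.wpos q
    (l := l) (by omega)
  have hrl := fun l : Fin (k + 1) => rr_le (α := α) hf hα hm.lim.wpos q (l := l) (by omega)
  have hq0 : ∀ l : Fin (k + 1), |q l| ≤ 1 := by
    intro l
    have h1 := path_mono hm.path.2 0 l (Nat.zero_le _) (by omega)
    have h2 := path_mono hm.path.2 l k (by omega) le_rfl
    rw [abs_of_nonneg (hm.path.1.trans h1)]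
    exact h2.trans hm.le1
  have hx1 : 0 ≤ xi c n 1 := valx_xi_nonneg hc n zero_le_one
  set r := rr α (fun x => Real.exp (f x) / c₀) f1 k w q with hr
  set L := (n : ℝ) * xi c n 1 with hL
  have hL0 : 0 ≤ L := mul_nonneg (Nat.cast_nonneg n) hx1
  set ν := ε₂ - ε' - L * ε with hν
  have hν0 : 0 < ν := by linarith only [hlt]
  have hαC : 0 ≤ α * C ^ 2 := by (clear * - hα; positivity)
  refine ⟨A * C ^ 2 + xi c n 1, fun j x i => ?_, hbd, ?_, ?_⟩
  · exact valx_kerX_meas hf.cb3 _ _ _ n c x i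
  · filter_upwards [h1.off, off_succ hf hfm hs hm (ν / (L + 1)) (by (clear * - hν0 hx1; positivity))] with j h2 h3
    simp only [cumul_incr] at h2 ⊢
    have hρ : ∀ (t : Fin (M j + 1) → Fin (N j + 1) → ℝ) (x y : Fin (N j + 1) → Bool),
        |gram (ker1 (1 / ((N j : ℝ) + 2)) f1 t) (ker1 (1 / ((N j : ℝ) + 2)) f1 t) x y| ≤
          A * C ^ 2 := fun t x y => abs_gram_le (hbd1 j t) x y
    have hρ2 : ∀ (t : Fin (M j + 1) → Fin (N j + 1) → ℝ) (x y : Fin (N j + 1) → Bool),
        |gram (kerX (n := n) (1 / ((N j : ℝ) + 2)) f1 c t)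
          (kerX (n := n) (1 / ((N j : ℝ) + 2)) f1 c t) x y| ≤
          A * C ^ 2 + xi c n 1 := fun t x y => abs_gram_le (hbd j t) x y
    have hpt : ∀ (t : Fin (M j + 1) → Fin (N j + 1) → ℝ) (x : Fin 2 → Fin (N j + 1) → Bool),
        |gram (kerX (n := n) (1 / ((N j : ℝ) + 2)) f1 c t)
          (kerX (n := n) (1 / ((N j : ℝ) + 2)) f1 c t) (x 0) (x 1) -
          (r (lev b ((pS f hfm C hf.cb3.b0 (N j) (M j) (P j) (s j) (u j)).R (x 0) (x 1))) +
          xi c n (q (lev b ((pS f hfm C hf.cb3.b0 (N j) (M j) (P j) (s j) (u j)).R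
            (x 0) (x 1)))))| ≤
        |gram (ker1 (1 / ((N j : ℝ) + 2)) f1 t) (ker1 (1 / ((N j : ℝ) + 2)) f1 t) (x 0) (x 1) -
          r (lev b ((pS f hfm C hf.cb3.b0 (N j) (M j) (P j) (s j) (u j)).R (x 0) (x 1)))| +
        L * |(pS f hfm C hf.cb3.b0 (N j) (M j) (P j) (s j) (u j)).R (x 0) (x 1) -
          q (lev b ((pS f hfm C hf.cb3.b0 (N j) (M j) (P j) (s j) (u j)).R (x 0) (x 1)))| := by
      intro t x
      have e1 : (pS f hfm C hf.cb3.b0 (N j) (M j) (P j) (s j) (u j)).R (x 0) (x 1) =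
          cR (N j) (x 0) (x 1) :=
        pS_R hfm C hf.cb3.b0 (N j) (M j) (P j) (s j) (u j) (x 0) (x 1)
      rw [valx_gram_kerX _ _ hc, ← e1]
      set R := (pS f hfm C hf.cb3.b0 (N j) (M j) (P j) (s j) (u j)).R (x 0) (x 1) with hR
      set ρ := gram (ker1 (1 / ((N j : ℝ) + 2)) f1 t) (ker1 (1 / ((N j : ℝ) + 2)) f1 t) (x 0)
        (x 1) with hρd
      have e2 : ρ + xi c n R - (r (lev b R) + xi c n (q (lev b R))) =
          (ρ - r (lev b R)) + (xi c n R - xi c n (q (lev b R))) := by ring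
      rw [e2]
      refine (abs_add_le _ _).trans (add_le_add le_rfl ?_)
      exact valx_xi_sub hc n
        (pS_R_abs hfm C hf.cb3.b0 (N j) (M j) (P j) (s j) (u j) (x 0) (x 1)) (hq0 _)
    have b1 : Sys.Bdd (pS f hfm C hf.cb3.b0 (N j) (M j + 1) (P j) (s j) (u j)) (n := 2)
        (fun t x => |gram (kerX (n := n) (1 / ((N j : ℝ) + 2)) f1 c t)
          (kerX (n := n) (1 / ((N j : ℝ) + 2)) f1 c t) (x 0) (x 1) -
          (r (lev b ((pS f hfm C hf.cb3.b0 (N j) (M j) (P j) (s j) (u j)).R (x 0) (x 1))) +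
          xi c n (q (lev b ((pS f hfm C hf.cb3.b0 (N j) (M j) (P j) (s j) (u j)).R
            (x 0) (x 1)))))|)
        (A * C ^ 2 + xi c n 1 + (α * C ^ 2 + xi c n 1)) :=
      ⟨fun x => ((hgm2 j _ _).sub_const _).abs, fun t x => by
        rw [abs_abs]
        refine (abs_sub _ _).trans (add_le_add (hρ2 t _ _) ?_)
        refine (abs_add_le _ _).trans (add_le_add ?_ (valx_xi_abs_le hc n (hq0 _)))
        rw [abs_of_nonneg (hrn _)]
        exact hrl _⟩
    have b2 : Sys.Bdd (pS f hfm C hf.cb3.b0 (N j) (M j + 1) (P j) (s j) (u j)) (n := 2)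
        (fun t x => |gram (ker1 (1 / ((N j : ℝ) + 2)) f1 t) (ker1 (1 / ((N j : ℝ) + 2)) f1 t)
          (x 0) (x 1) -
          r (lev b ((pS f hfm C hf.cb3.b0 (N j) (M j) (P j) (s j) (u j)).R (x 0) (x 1)))|)
        (A * C ^ 2 + α * C ^ 2) :=
      ⟨fun x => ((hgm1 j _ _).sub_const _).abs, fun t x => by
        rw [abs_abs]
        refine (abs_sub _ _).trans (add_le_add (hρ t _ _) ?_)
        rw [abs_of_nonneg (hrn _)]
        exact hrl _⟩
    have b3 : Sys.Bdd (pS f hfm C hf.cb3.b0 (N j) (M j + 1) (P j) (s j) (u j)) (n := 2)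
        (fun _ x => L *
          |(pS f hfm C hf.cb3.b0 (N j) (M j) (P j) (s j) (u j)).R (x 0) (x 1) -
          q (lev b ((pS f hfm C hf.cb3.b0 (N j) (M j) (P j) (s j) (u j)).R (x 0) (x 1)))|)
        (L * 2) :=
      ⟨fun x => measurable_const, fun t x => by
        rw [abs_mul, abs_abs, abs_of_nonneg hL0]
        apply mul_le_mul_of_nonneg_left _ hL0
        have h2 := pS_R_abs hfm C hf.cb3.b0 (N j) (M j) (P j) (s j) (u j) (x 0) (x 1)
        have h3 := abs_sub ((pS f hfm C hf.cb3.b0 (N j) (M j) (P j) (s j) (u j)).R (x 0) (x 1))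
          (q (lev b ((pS f hfm C hf.cb3.b0 (N j) (M j) (P j) (s j) (u j)).R (x 0) (x 1))))
        have h4 := hq0 (lev b
          ((pS f hfm C hf.cb3.b0 (N j) (M j) (P j) (s j) (u j)).R (x 0) (x 1)))
        linarith only [h2, h3, h4]⟩
    have b4 : Sys.Bdd (pS f hfm C hf.cb3.b0 (N j) (M j + 1) (P j) (s j) (u j)) (n := 2)
        (fun t x => |gram (ker1 (1 / ((N j : ℝ) + 2)) f1 t) (ker1 (1 / ((N j : ℝ) + 2)) f1 t)
          (x 0) (x 1) -
          r (lev b ((pS f hfm C hf.cb3.b0 (N j) (M j) (P j) (s j) (u j)).R (x 0) (x 1)))| +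
          L *
          |(pS f hfm C hf.cb3.b0 (N j) (M j) (P j) (s j) (u j)).R (x 0) (x 1) -
          q (lev b ((pS f hfm C hf.cb3.b0 (N j) (M j) (P j) (s j) (u j)).R (x 0) (x 1)))|)
        (A * C ^ 2 + α * C ^ 2 + L * 2) :=
      ⟨fun x => (b2.meas x).add (b3.meas x), fun t x =>
        (abs_add_le _ _).trans (add_le_add (b2.bdd t x) (b3.bdd t x))⟩
    have h4 := Sys.tav_mono b1 b4 hpt
    have h5 := Sys.tav_add b2 b3
    have h6 := Sys.tav_smul (S := pS f hfm C hf.cb3.b0 (N j) (M j + 1) (P j) (s j) (u j))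
      (n := 2) L (fun _ x =>
          |(pS f hfm C hf.cb3.b0 (N j) (M j) (P j) (s j) (u j)).R (x 0) (x 1) -
          q (lev b ((pS f hfm C hf.cb3.b0 (N j) (M j) (P j) (s j) (u j)).R (x 0) (x 1)))|)
    have h7 : L * (ε + ν / (L + 1)) ≤ L * ε + ν := by
      have : L * (ν / (L + 1)) ≤ ν := by
        rw [← mul_div_assoc, div_le_iff₀ (by (clear * - hx1; positivity))]
        linarith only [hlt]
      linarith only [this]
    have h8 := mul_le_mul_of_nonneg_left h3 hL0
    exact (h4.trans (le_of_eq (h5.trans (congrArg₂ (· + ·) rfl h6)))).trans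
      ((add_le_add h2 h8).trans (by linarith only [h7]))
  · filter_upwards [h1.diag] with j h2
    have hν1 : 0 ≤ L * ε := mul_nonneg hL0 hm.eps
    refine le_trans (le_of_eq ?_) (h2.trans (by linarith only [hlt, hν1]))
    simp only [cumul_incr, Fin.val_last]
    refine Sys.tav_congr fun t x => ?_
    have e1 : gram (kerX (n := n) (1 / ((N j : ℝ) + 2)) f1 c t)
        (kerX (n := n) (1 / ((N j : ℝ) + 2)) f1 c t) (x 0) (x 0) =
        gram (ker1 (1 / ((N j : ℝ) + 2)) f1 t) (ker1 (1 / ((N j : ℝ) + 2)) f1 t) (x 0)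
        (x 0) + xi c n 1 := by
      refine (valx_gram_kerX _ f1 hc t (x 0) (x 0)).trans ?_
      exact congrArg₂ (· + ·) rfl (congrArg (xi c n) (valx_cR_self (N j) (x 0)))
    refine (congrArg (fun y => |y - (r k + xi c n (q k) +
      (α * ov (fun x => Real.exp (f x) / c₀) (fun y => f1 y ^ 2) k w q + xi c n 1 -
        (r k + xi c n (q k))))|) e1).trans ?_
    have e3 : ∀ G X Y Z W : ℝ, G + X - (Y + Z + (W + X - (Y + Z))) = G - (Y + (W - Y)) := by
      intro G X Y Z W
      ring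
    exact congrArg abs (e3 _ _ _ _ _)

end

section

variable {C c₀ a : ℝ} {f f1 f2 f3 : ℝ → ℝ} (hf : Pot C c₀ a f f1 f2 f3) (hfm : Measurable f)
  {α : ℝ} (hα : 0 < α) {U : Ultrafilter ℕ} {N M P : ℕ → ℕ} {s : ℕ → ℝ} {u : ∀ j, Fin (P j) → ℝ}
  (hs : SeqOK f hfm C hf.cb3.b0 α U N M P s u)

include hα hs

/-- The value of one cavity term. -/
theorem valx_one {n : ℕ} {c : ℕ → ℝ} (hc : ∀ p, 0 ≤ c p) (hc1 : xi c n 1 ≤ 1) :
    ∃ DA : ℝ, 0 ≤ DA ∧ ∀ tol > 0, ∃ e0 > 0, ∀ (k : ℕ) (b : Fin k → ℝ) (w : Fin (k + 1) → ℝ)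
      (q : ℕ → ℝ) (ε : ℝ),
      Mesh U (fun j => pS f hfm C hf.cb3.b0 (N j) (M j) (P j) (s j) (u j)) b w q ε → ε ≤ e0 →
      ∀ b₀ : ℝ, ∀ᶠ j in (U : Filter ℕ),
        |T1x f f1 f2 hfm C hf.cb3.b0 (N j) (M j + 1) (P j) (s j) (u j) n c - b₀ -
          (spinPart k (mOf w) (fun l =>
              rr α (fun x => Real.exp (f x) / c₀) f1 k w q l + xi c n (q l)) +
            (α * ov (fun x => Real.exp (f x) / c₀) (fun y => f1 y ^ 2) k w q +
              xi c n 1) / 2)| ≤
        DA * ((pS f hfm C hf.cb3.b0 (N j) (M j + 1) (P j) (s j) (u j)).tav (n := 1)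
            (fun t x =>
              |cavB (1 / ((N j : ℝ) + 2)) f1 f2 (fun a => cubeS (t a) (x 0)) - b₀|) +
          (pS f hfm C hf.cb3.b0 (N j) (M j + 1) (P j) (s j) (u j)).tav (n := 1) (fun t x =>
        |Real.exp (cavB (1 / ((N j : ℝ) + 2)) f1 f2 (fun a => cubeS (t a) (x 0)) - b₀) -
          1|)) + tol := by
  obtain ⟨A, hA⟩ := hs.hb
  have hC0 : 0 ≤ C := (abs_nonneg _).trans (hf.cb3.b0 0)
  obtain ⟨g', g'', hg⟩ := hf.cf1
  obtain ⟨p', p'', hp⟩ := hg.sq_fn
  obtain ⟨DA, hDA, hDA'⟩ := valx_trunc (A * C ^ 2 + 1)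
  refine ⟨DA, hDA, ?_⟩
  intro tol htol
  obtain ⟨T1, hT1⟩ := valx_val (α * C ^ 2 + 1) (tol / 4) (by (clear * - htol; positivity))
  obtain ⟨T3, hT3⟩ := spv_choose DA (ε := tol / 4) (by positivity)
  set T := max T1 (max T3 1) with hT
  have hTT1 : T1 ≤ T := le_max_left _ _
  have hTT3 : T3 ≤ T := (le_max_left _ _).trans (le_max_right _ _)
  have hT1' : 1 ≤ T := (le_max_right _ _).trans (le_max_right _ _)
  have hT0 : 0 < T := by linarith only [hT1']
  obtain ⟨Dc, hDc, hDc'⟩ := trn_lim spv_logcosh hT0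
  obtain ⟨Dk, hDk, hDk'⟩ := kerClose_ker1 hf hfm hα
  have hx1 : 0 ≤ xi c n 1 := valx_xi_nonneg hc n zero_le_one
  set L := (n : ℝ) * xi c n 1 with hL
  have hL0 : 0 ≤ L := mul_nonneg (Nat.cast_nonneg n) hx1
  set e1 := tol / (4 * (Dc + 1)) with he1
  have he1' : 0 < e1 := by (clear * - htol hDc; positivity)
  set e0 := min (e1 ^ 2 / (8 * (Dk + 1))) (e1 / (4 * (L + 1))) with he0
  have he0' : 0 < e0 := lt_min (by positivity) (by (clear * - htol hDc hx1; positivity))
  refine ⟨e0, he0', ?_⟩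
  intro k b w q ε hm hεe b₀
  set r := rr α (fun x => Real.exp (f x) / c₀) f1 k w q with hr
  set o := ov (fun x => Real.exp (f x) / c₀) (fun y => f1 y ^ 2) k w q with ho
  have hrpath : Path k r := rr_path hf hα hm.lim.wpos q
  have hro : r k ≤ α * o := rr_le_ov hf hα hm.lim.wpos q
  have hoC : α * o ≤ α * C ^ 2 := by
    apply mul_le_mul_of_nonneg_left _ hα.le
    exact le_of_abs_le (ov_abs_le hf.a0 hf.cb2W hf.Wa hf.W1 hm.lim.wpos q hp (fun y => by
      rw [abs_pow]
      exact pow_le_pow_left₀ (abs_nonneg _) (hf.cb3.b1 y) 2))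
  have hq0 : ∀ l ≤ k, 0 ≤ q l := fun l hl =>
    hm.path.1.trans (path_mono hm.path.2 0 l (Nat.zero_le _) hl)
  have hxpath : Path k (fun l => r l + xi c n (q l)) :=
    ⟨add_nonneg hrpath.1 (valx_xi_nonneg hc n hm.path.1), fun l hl =>
      add_le_add (hrpath.2 l hl) (valx_xi_mono hc n (hq0 l hl.le) (hm.path.2 l hl))⟩
  have hxk : xi c n (q k) ≤ xi c n 1 := valx_xi_mono hc n (hq0 k le_rfl) hm.le1
  have hmm : ∀ l, 1 ≤ l → l ≤ k → 0 < mOf w l ∧ mOf w l ≤ 1 := fun l hl _ =>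
    ⟨mOf_pos hm.lim.wpos hl, mOf_le_one hm.lim.wpos hm.lim.wsum l⟩
  have hDk1 : Dk * ε < (e1 / 2) ^ 2 := by
    have h0 : Dk * ε ≤ Dk * e0 := mul_le_mul_of_nonneg_left hεe hDk
    have h1 : Dk * e0 ≤ Dk * (e1 ^ 2 / (8 * (Dk + 1))) :=
      mul_le_mul_of_nonneg_left (min_le_left _ _) hDk
    have h2 : Dk * (e1 ^ 2 / (8 * (Dk + 1))) ≤ e1 ^ 2 / 8 := by
      rw [show Dk * (e1 ^ 2 / (8 * (Dk + 1))) = (Dk / (Dk + 1)) * (e1 ^ 2 / 8) by (clear * - hDk he1'; field_simp)]
      apply mul_le_of_le_one_left (by (clear * - htol hDc; positivity))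
      rw [div_le_one (by (clear * - hDk; positivity))]
      linarith only []
    have h3 : 0 < e1 ^ 2 := by (clear * - htol hDc; positivity)
    have h4 : (e1 / 2) ^ 2 = e1 ^ 2 / 4 := by ring
    rw [h4]
    linarith only [h0, h1, h2, h3]
  obtain ⟨B1, hk1⟩ := hDk' U N M P s u hs k b w q ε hm (e1 / 2) (by (clear * - htol hDc; positivity)) hDk1
  have hlt : e1 / 2 + L * ε < e1 := by
    have h0 : L * ε ≤ L * e0 := mul_le_mul_of_nonneg_left hεe hL0
    have h1 : L * e0 ≤ L * (e1 / (4 * (L + 1))) :=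
      mul_le_mul_of_nonneg_left (min_le_right _ _) hL0
    have h2 : L * (e1 / (4 * (L + 1))) ≤ e1 / 4 := by
      rw [show L * (e1 / (4 * (L + 1))) = (L / (L + 1)) * (e1 / 4) by (clear * - hL0 he1'; field_simp)]
      apply mul_le_of_le_one_left (by (clear * - htol hDc; positivity))
      rw [div_le_one (by (clear * - hx1; positivity))]
      linarith only []
    linarith only [he1', h0, h1, h2]
  obtain ⟨B2, hk2⟩ := valx_kerClose hf hfm hα hs hm hc hk1 hlt
  have hL1 := limData_succ hf hfm hs.hgg hs.hgg1 hm.lim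
  have hτ : 0 ≤ α * o + xi c n 1 - (r k + xi c n (q k)) := by linarith only [hro, hxk]
  have l1 := hDc' U _ k b w hL1 _ (incr_stop_nonneg hxpath) _ e1 B2 hτ he1'.le _ _ hk2
    (tol / 4) (by positivity)
  filter_upwards [l1] with j h1
  have v1 := hT1 T hTT1 k (mOf w) (stop k fun l => r l + xi c n (q l))
    (α * o + xi c n 1 - (r k + xi c n (q k))) hmm
    (by rw [stop_le (Nat.zero_le k)]; exact hxpath.1)
    (fun l hl => by
      rw [stop_le hl.le, stop_le (show l + 1 ≤ k from hl)]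
      exact hxpath.2 l hl) hτ
    (by rw [stop_le le_rfl]; linarith only [hc1, hoC])
  have e5 : ∫ z, cascade (mOf w) (stop k fun l => r l + xi c n (q l)) k
      (fun x => Real.log (Real.cosh x))
      (√(stop k (fun l => r l + xi c n (q l)) 0) * z) ∂(gaussianReal 0 1) =
      ∫ z, cascade (mOf w) (fun l => r l + xi c n (q l)) k (fun x => Real.log (Real.cosh x))
      (√(r 0 + xi c n (q 0)) * z) ∂(gaussianReal 0 1) := by
    rw [cascade_congr (mOf w) (q := stop k fun l => r l + xi c n (q l))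
      (q' := fun l => r l + xi c n (q l)) (fun l hl => stop_le hl),
      stop_le (Nat.zero_le k)]
  rw [e5] at v1
  have v3 := hDA' f f1 f2 f3 C hf.cb3 hfm (N j) (M j + 1) (P j) (s j) (u j) n c hc (by
    have := mul_le_mul_of_nonneg_right (hA j) (sq_nonneg C)
    refine add_le_add (le_trans (le_of_eq ?_) this) hc1
    push_cast
    ring) b₀ T hT1'
  have v4 : DA * (1 / T ^ 2) ≤ tol / 4 := by
    rw [mul_one_div]
    exact (hT3 T hTT3).2
  have v5 : Dc * e1 ≤ tol / 4 := by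
    rw [he1, show Dc * (tol / (4 * (Dc + 1))) = (Dc / (Dc + 1)) * (tol / 4) by (clear * - hDc htol; field_simp)]
    apply mul_le_of_le_one_left (by positivity)
    rw [div_le_one (by (clear * - hDc; positivity))]
    linarith only []
  unfold spinPart
  have key : ∀ {t I Y X tB tE iT V : ℝ}, |t - (b₀ + I)| ≤ DA * (tB + tE + iT) →
      |I - Y| ≤ Dc * e1 + tol / 4 → |Y - X| ≤ tol / 4 → DA * iT ≤ tol / 4 → V = X →
      |t - b₀ - V| ≤ DA * (tB + tE) + tol := by
    intro t I Y X tB tE iT V h1 h2 h3 h4 h5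
    subst h5
    have e : t - b₀ - V = (t - (b₀ + I)) + (I - Y) + (Y - V) := by ring
    rw [e]
    refine (abs_add_le _ _).trans ((add_le_add (abs_add_le _ _) le_rfl).trans ?_)
    linarith only [v5, h1, h2, h4, h3]
  exact key v3 h1 v1 v4 (by ring)

/-- The limit of the cavity term with the extra field. -/
theorem T1x_lim {n : ℕ} {c : ℕ → ℝ} (hc : ∀ p, 0 ≤ c p) (hc1 : xi c n 1 ≤ 1) :
    ∀ tol > 0, ∃ e0 > 0, ∀ (k : ℕ) (b : Fin k → ℝ) (w : Fin (k + 1) → ℝ) (q : ℕ → ℝ) (ε : ℝ),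
      Mesh U (fun j => pS f hfm C hf.cb3.b0 (N j) (M j) (P j) (s j) (u j)) b w q ε → ε ≤ e0 →
      ∀ᶠ j in (U : Filter ℕ),
        |(T1x f f1 f2 hfm C hf.cb3.b0 (N j) (M j + 1) (P j) (s j) (u j) n c -
          T1x f f1 f2 hfm C hf.cb3.b0 (N j) (M j + 1) (P j) (s j) (u j) n 0) -
          (spinPart k (mOf w) (fun l =>
              rr α (fun x => Real.exp (f x) / c₀) f1 k w q l + xi c n (q l)) -
            spinPart k (mOf w) (rr α (fun x => Real.exp (f x) / c₀) f1 k w q) +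
            xi c n 1 / 2)| ≤ tol := by
  intro tol htol
  obtain ⟨D1, hD1, h1⟩ := valx_one hf hfm hα hs hc hc1
  obtain ⟨D2, hD2, h2⟩ := valx_one hf hfm hα hs (n := n) (c := 0) (fun p => le_rfl)
    (by rw [valx_xi_zero]; exact zero_le_one)
  obtain ⟨e1, he1, h1'⟩ := h1 (tol / 4) (by (clear * - htol; positivity))
  obtain ⟨e2, he2, h2'⟩ := h2 (tol / 4) (by positivity)
  obtain ⟨b₀, hb₀⟩ := drift_const hf hfm hα hs (tol / (8 * (D1 + D2 + 1))) (by (clear * - htol hD1 hD2; positivity))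
  refine ⟨min e1 e2, lt_min he1 he2, ?_⟩
  intro k b w q ε hm hε
  filter_upwards [h1' k b w q ε hm (hε.trans (min_le_left _ _)) b₀,
    h2' k b w q ε hm (hε.trans (min_le_right _ _)) b₀, hb₀] with j a1 a2 a3
  simp only [valx_xi_zero, add_zero] at a2
  have key : ∀ {t1 t2 S1 S2 o x tB tE : ℝ}, |t1 - b₀ - (S1 + (o + x) / 2)| ≤
      D1 * (tB + tE) + tol / 4 → |t2 - b₀ - (S2 + o / 2)| ≤ D2 * (tB + tE) + tol / 4 →
      (tB ≤ tol / (8 * (D1 + D2 + 1)) ∧ tE ≤ tol / (8 * (D1 + D2 + 1))) →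
      |t1 - t2 - (S1 - S2 + x / 2)| ≤ tol := by
    intro t1 t2 S1 S2 o x tB tE h1 h2 h3
    have e : t1 - t2 - (S1 - S2 + x / 2) =
        (t1 - b₀ - (S1 + (o + x) / 2)) - (t2 - b₀ - (S2 + o / 2)) := by ring
    rw [e]
    refine (abs_sub _ _).trans ?_
    have h4 : (D1 + D2) * (tB + tE) ≤ tol / 4 := by
      have h5 : tB + tE ≤ tol / (4 * (D1 + D2 + 1)) := by
        have : tol / (4 * (D1 + D2 + 1)) =
          tol / (8 * (D1 + D2 + 1)) + tol / (8 * (D1 + D2 + 1)) := by field_simp; ring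
        rw [this]
        linarith only [h3.1, h3.2]
      have h6 := mul_le_mul_of_nonneg_left h5 (add_nonneg hD1 hD2)
      have h7 : (D1 + D2) * (tol / (4 * (D1 + D2 + 1))) ≤ tol / 4 := by
        rw [show (D1 + D2) * (tol / (4 * (D1 + D2 + 1))) =
          ((D1 + D2) / (D1 + D2 + 1)) * (tol / 4) by (clear * - hD1 hD2 htol; field_simp)]
        apply mul_le_of_le_one_left (by positivity)
        rw [div_le_one (by (clear * - hD1 hD2; positivity))]
        linarith only []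
      linarith only [h6, h7]
    linarith only [htol, h1, h2, h4]
  exact key a1 a2 a3

end

end Vale.Agent.P157.Par
end

section

open MeasureTheory ProbabilityTheory Filter Topology Finset

namespace Vale.Agent.P157.Par

set_option linter.unusedSectionVars false

open Vale.Agent.P367.GT (gM)
open Vale.Agent.P157.Par.Cube (ini las)

/-- The additional properties of the sequence of systems. -/
structure SeqX (f : ℝ → ℝ) (hfm : Measurable f) (C : ℝ) (hC : ∀ x, |f x| ≤ C)
    (U : Ultrafilter ℕ) (N M P : ℕ → ℕ) (s : ℕ → ℝ) (u : ∀ j, Fin (P j) → ℝ) : Prop where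
  s0 : ∀ j, 0 ≤ s j
  u0 : ∀ j q, 0 ≤ u j q ∧ u j q ≤ 2
  hs : Tendsto (fun j => s j ^ 2 / ((N j : ℝ) + 1)) U (𝓝 0)
  hR : ∀ p : ℕ, Tendsto (fun j =>
        (pS f hfm C hC (N j + 1) (M j + 1) (P j) (s j) (u j)).tav (n := 2)
          (fun _ x => cR (N j + 1) (x 0) (x 1) ^ (p + 1)) -
        (pS f hfm C hC (N j) (M j + 1) (P j) (s j) (u j)).tav (n := 2)
          (fun _ x => cR (N j) (x 0) (x 1) ^ (p + 1))) U (𝓝 0)

lemma abs_cR_le (N : ℕ) (x y : Fin (N + 1) → Bool) : |cR N x y| ≤ 1 := by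
  have h1 := Finset.sum_mul_sq_le_sq_mul_sq Finset.univ (fun i => cubeφ N x i)
    (fun i => cubeφ N y i)
  have h2 := Cube.sum_cubeφ_sq N x
  have h3 := Cube.sum_cubeφ_sq N y
  simp only at h1
  rw [h2, h3, mul_one] at h1
  have h4 : cR N x y ^ 2 ≤ 1 := h1
  rwa [sq_le_one_iff_abs_le_one] at h4

section

variable {f : ℝ → ℝ} (hfm : Measurable f) (C : ℝ) (hC : ∀ x, |f x| ≤ C)

/-- Averages of `R ξ(R)` as combinations of moments. -/
lemma tav_xi (N M P : ℕ) (s : ℝ) (u : Fin P → ℝ) (n : ℕ) (c : ℕ → ℝ) :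
    (pS f hfm C hC N M P s u).tav (n := 2) (fun _ x => cR N (x 0) (x 1) *
      xi c n (cR N (x 0) (x 1))) = ∑ p : Fin (n + 1), c p *
      (pS f hfm C hC N M P s u).tav (n := 2) (fun _ x => cR N (x 0) (x 1) ^ ((p : ℕ) + 1)) := by
  have h1 := ((pS f hfm C hC N M P s u).tav_sum_fin (n := 2) Finset.univ
    (fun (p : Fin (n + 1)) _ x => c p * cR N (x 0) (x 1) ^ ((p : ℕ) + 1))
    (C := fun p => |c p|) (fun p => ⟨fun x => measurable_const, fun t x => by
      rw [abs_mul, abs_pow]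
      exact mul_le_of_le_one_right (abs_nonneg _)
        (pow_le_one₀ (abs_nonneg _) (abs_cR_le N _ _))⟩)).2
  have h2 : (fun (_ : Fin M → Fin (N + 1) → ℝ) (x : Fin 2 → Fin (N + 1) → Bool) =>
      cR N (x 0) (x 1) * xi c n (cR N (x 0) (x 1))) =
      fun _ x => ∑ p : Fin (n + 1), c p * cR N (x 0) (x 1) ^ ((p : ℕ) + 1) := by
    funext t x
    unfold xi
    rw [Finset.mul_sum, Finset.sum_range]
    exact Finset.sum_congr rfl fun p _ => by ring
  refine (congrArg (Sys.tav (pS f hfm C hC N M P s u) (n := 2)) h2).trans (h1.trans ?_)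
  exact Finset.sum_congr rfl fun p _ => Sys.tav_smul _ _

end

lemma combine_x {E T S1 S0 S2 X x3 x4 x5 x6 K tol η1 : ℝ} (h1 : |T - (S1 - S0 + X / 2)| ≤ tol / 6)
    (h2 : |E - T| ≤ tol / 6) (h3 : |E - 1 / 2 * (X - x3)| ≤ K) (h4 : |x3 - x4| ≤ tol / 6)
    (h5 : |x4 - x5| ≤ tol / 6) (h6 : |x5 - x6| ≤ tol / 6) (h7 : |x6 - S2| ≤ η1 + tol / 6)
    (h8 : η1 ≤ tol / 6) : |S1 - S0 + 1 / 2 * S2| ≤ K + tol := by
  rw [abs_le] at *
  constructor
  · linarith only [h1, h2, h3, h4, h5, h6, h7, h8]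
  · linarith only [h1, h2, h3, h4, h5, h6, h7, h8]

section

variable {C c₀ a : ℝ} {f f1 f2 f3 : ℝ → ℝ} (hf : Pot C c₀ a f f1 f2 f3) (hfm : Measurable f)
  {α : ℝ} (hα : 0 < α) {U : Ultrafilter ℕ} {N M P : ℕ → ℕ} {s : ℕ → ℝ} {u : ∀ j, Fin (P j) → ℝ}
  (hs : SeqOK f hfm C hf.cb3.b0 α U N M P s u) (hx : SeqX f hfm C hf.cb3.b0 U N M P s u)

include hα hs hx

/-- The identity of the moments. -/
theorem moment_x : ∃ K : ℝ, 0 ≤ K ∧ ∀ (n : ℕ) (c : ℕ → ℝ), (∀ p, 0 ≤ c p) → xi c n 1 ≤ 1 →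
    ∀ tol > 0, ∃ e0 > 0, ∀ (k : ℕ) (b : Fin k → ℝ) (w : Fin (k + 1) → ℝ) (q : ℕ → ℝ) (e : ℝ),
      Mesh U (fun j => pS f hfm C hf.cb3.b0 (N j) (M j) (P j) (s j) (u j)) b w q e → e ≤ e0 →
      |spinPart k (mOf w) (fun l =>
            rr α (fun x => Real.exp (f x) / c₀) f1 k w q l + xi c n (q l)) -
          spinPart k (mOf w) (rr α (fun x => Real.exp (f x) / c₀) f1 k w q) +
          1 / 2 * ∑ l : Fin (k + 1), w l * (q l * xi c n (q l))| ≤
        K * (xi c n 1 * √(xi c n 1)) + tol := by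
  obtain ⟨K, hK, hK'⟩ := extra_deriv
  obtain ⟨D, hD, hD'⟩ := extra_cavity hf.cb3 hfm
  obtain ⟨A, hA⟩ := hs.hb
  refine ⟨K, hK, ?_⟩
  intro n c hc hc1 tol htol
  obtain ⟨e0, he0, h1⟩ := T1x_lim hf hfm hα hs hc hc1 (tol / 6) (by (clear * - htol; positivity))
  have hX := xi_one_nonneg hc n
  refine ⟨min e0 (tol / (6 * (n + 1))), lt_min he0 (by (clear * - htol; positivity)), ?_⟩
  intro k b w q e hm he
  have he1 : e ≤ e0 := he.trans (min_le_left _ _)
  have he2 : ((n : ℝ) + 1) * xi c n 1 * e ≤ tol / 6 := by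
    have h2 : e ≤ tol / (6 * (n + 1)) := he.trans (min_le_right _ _)
    calc ((n : ℝ) + 1) * xi c n 1 * e ≤ ((n : ℝ) + 1) * 1 * (tol / (6 * (n + 1))) :=
          mul_le_mul (mul_le_mul_of_nonneg_left hc1 (by (clear * -; positivity))) h2 hm.eps (by (clear * -; positivity))
      _ = tol / 6 := by (clear * - htol; field_simp)
  -- the limits
  have l1 := h1 k b w q e hm he1
  have hNr : Tendsto (fun j => (N j : ℝ)) U atTop := tendsto_natCast_atTop_atTop.comp hs.hN
  have hδ : Tendsto (fun j => 1 / ((N j : ℝ) + 2)) U (𝓝 0) := by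
    exact tendsto_const_nhds.div_atTop (tendsto_atTop_add_const_right _ (2 : ℝ) hNr)
  have hδ' : Tendsto (fun j => √(1 / ((N j : ℝ) + 2))) U (𝓝 0) := by
    have := (Real.continuous_sqrt.tendsto 0).comp hδ
    rw [Real.sqrt_zero] at this
    exact this
  have l2 : ∀ᶠ j in (U : Filter ℕ), D * (((M j + 1 : ℕ) : ℝ) * (1 / ((N j : ℝ) + 2) *
      √(1 / ((N j : ℝ) + 2))) + s j ^ 2 / ((N j : ℝ) + 1)) ≤ tol / 6 := by
    have h2 : Tendsto (fun j => D * (A * √(1 / ((N j : ℝ) + 2)) + s j ^ 2 / ((N j : ℝ) + 1))) U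
        (𝓝 (D * (A * 0 + 0))) := ((hδ'.const_mul A).add hx.hs).const_mul D
    rw [mul_zero, add_zero, mul_zero] at h2
    filter_upwards [(tendsto_order.1 h2).2 (tol / 6) (by positivity)] with j hj
    refine le_trans (mul_le_mul_of_nonneg_left ?_ hD) hj.le
    refine add_le_add ?_ le_rfl
    have h3 := mul_le_mul_of_nonneg_right (hA j) (Real.sqrt_nonneg (1 / ((N j : ℝ) + 2)))
    refine le_trans (le_of_eq ?_) h3
    push_cast
    ring
  have l4 : ∀ᶠ j in (U : Filter ℕ), 2 * (n : ℝ) * xi c n 1 / ((N j : ℝ) + 2) ≤ tol / 6 := by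
    have h2 := hδ.const_mul (2 * (n : ℝ) * xi c n 1)
    rw [mul_zero] at h2
    filter_upwards [(tendsto_order.1 h2).2 (tol / 6) (by positivity)] with j hj
    rw [mul_one_div] at hj
    exact hj.le
  have l5 : ∀ᶠ j in (U : Filter ℕ), |(∑ p : Fin (n + 1), c p *
        (pS f hfm C hf.cb3.b0 (N j + 1) (M j + 1) (P j) (s j) (u j)).tav (n := 2)
          (fun _ x => cR (N j + 1) (x 0) (x 1) ^ ((p : ℕ) + 1))) -
      ∑ p : Fin (n + 1), c p *
        (pS f hfm C hf.cb3.b0 (N j) (M j + 1) (P j) (s j) (u j)).tav (n := 2)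
          (fun _ x => cR (N j) (x 0) (x 1) ^ ((p : ℕ) + 1))| ≤ tol / 6 := by
    have h2 : Tendsto (fun j => ∑ p : Fin (n + 1), c p *
        ((pS f hfm C hf.cb3.b0 (N j + 1) (M j + 1) (P j) (s j) (u j)).tav (n := 2)
          (fun _ x => cR (N j + 1) (x 0) (x 1) ^ ((p : ℕ) + 1)) -
        (pS f hfm C hf.cb3.b0 (N j) (M j + 1) (P j) (s j) (u j)).tav (n := 2)
          (fun _ x => cR (N j) (x 0) (x 1) ^ ((p : ℕ) + 1)))) U
        (𝓝 (∑ p : Fin (n + 1), c p * 0)) :=
      tendsto_finsetSum _ fun p _ => (hx.hR p).const_mul (c p)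
    simp only [mul_zero, Finset.sum_const_zero] at h2
    filter_upwards [(Metric.tendsto_nhds.1 h2) (tol / 6) (by positivity)] with j hj
    rw [Real.dist_eq, sub_zero] at hj
    rw [← Finset.sum_sub_distrib]
    refine le_trans (le_of_eq ?_) hj.le
    congr 1
    exact Finset.sum_congr rfl fun p _ => by ring
  have l6 : ∀ᶠ j in (U : Filter ℕ),
      |(pS f hfm C hf.cb3.b0 (N j) (M j + 1) (P j) (s j) (u j)).tav (n := 2)
          (fun _ x => cR (N j) (x 0) (x 1) * xi c n (cR (N j) (x 0) (x 1))) -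
        (pS f hfm C hf.cb3.b0 (N j) (M j) (P j) (s j) (u j)).tav (n := 2)
          (fun _ x => cR (N j) (x 0) (x 1) * xi c n (cR (N j) (x 0) (x 1)))| ≤ tol / 6 := by
    refine same_two hf hfm hs.hgg (Φ := fun j _ x =>
      cR (N j) (x 0) (x 1) * xi c n (cR (N j) (x 0) (x 1))) (fun j x => measurable_const)
      (fun j t x => ?_) (tol / 6) (by (clear * - htol; positivity))
    rw [abs_mul]
    calc |cR (N j) (x 0) (x 1)| * |xi c n (cR (N j) (x 0) (x 1))| ≤ 1 * 1 :=
          mul_le_mul (abs_cR_le _ _ _) ((abs_xi_le hc n (abs_cR_le _ _ _)).trans hc1)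
            (abs_nonneg _) zero_le_one
      _ = 1 := one_mul 1
  have l7 := hm.fun_lim (G := fun x => x * xi c n x) (L := ((n : ℝ) + 1) * xi c n 1) (B := 1)
    (by (clear * - hX; positivity)) (fun x y hx hy => xmul_xi_sub_le hc n hx hy) (fun x hx => by
      rw [abs_mul]
      calc |x| * |xi c n x| ≤ 1 * 1 := mul_le_mul hx ((abs_xi_le hc n hx).trans hc1)
            (abs_nonneg _) zero_le_one
        _ = 1 := one_mul 1) (tol / 6) (by positivity)
  obtain ⟨j, l1, l2, l4, l5, l6, l7⟩ :=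
    (l1.and (l2.and (l4.and (l5.and (l6.and l7))))).exists
  have h2 := (hD' (N j) (M j + 1) (P j) (s j) (u j) n c (hx.s0 j) (hx.u0 j) hc).trans l2
  have h3 := hK' f hfm C hf.cb3.b0 (N j) (M j + 1) (P j) (s j) (u j) n c hc hc1
  have h4 := (site_exch hfm C hf.cb3.b0 (N j) (M j + 1) (P j) (s j) (u j) n hc).trans l4
  rw [← tav_xi, ← tav_xi] at l5
  have h7 : (pS f hfm C hf.cb3.b0 (N j) (M j) (P j) (s j) (u j)).tav (n := 2)
      (fun _ x => (pS f hfm C hf.cb3.b0 (N j) (M j) (P j) (s j) (u j)).R (x 0) (x 1) *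
        xi c n ((pS f hfm C hf.cb3.b0 (N j) (M j) (P j) (s j) (u j)).R (x 0) (x 1))) =
      (pS f hfm C hf.cb3.b0 (N j) (M j) (P j) (s j) (u j)).tav (n := 2)
          (fun _ x => cR (N j) (x 0) (x 1) * xi c n (cR (N j) (x 0) (x 1))) := by
    refine Sys.tav_congr fun t x => ?_
    exact congrArg (fun r => r * xi c n r)
      (pS_R hfm C hf.cb3.b0 (N j) (M j) (P j) (s j) (u j) (x 0) (x 1))
  rw [h7] at l7
  exact combine_x l1 h2 h3 h4 l5 l6 l7 he2

end

end Vale.Agent.P157.Par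
end

section

set_option maxSynthPendingDepth 3
set_option linter.unusedSectionVars false

open MeasureTheory ProbabilityTheory Filter Topology

namespace Vale.Agent.P157.Par

namespace ClsA

variable {ν : Measure ℝ}

end ClsA

end Vale.Agent.P157.Par
end

section

open MeasureTheory ProbabilityTheory Filter Topology Finset

namespace Vale.Agent.P157.Par

set_option linter.unusedSectionVars false

open Vale.Agent.P367.GT (gM)

lemma hyper_le : (hyperfilter ℕ : Filter ℕ) ≤ atTop := by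
  rw [← Nat.cofinite_eq_atTop]
  exact hyperfilter_le_cofinite

/-- The ratio of the sizes. -/
lemma ratio_tendsto {N M : ℕ → ℕ} {α : ℝ} (hN : Tendsto N atTop atTop)
    (hMN : Tendsto (fun j => (M j : ℝ) / (N j : ℝ)) atTop (𝓝 α)) :
    Tendsto (fun j => ((M j : ℝ) + 1) / (N j + 2)) atTop (𝓝 α) := by
  have hNr : Tendsto (fun j => (N j : ℝ)) atTop atTop := tendsto_natCast_atTop_atTop.comp hN
  have h0 : Tendsto (fun j => 1 / (N j : ℝ)) atTop (𝓝 0) := by
    simpa only [one_div, Function.comp_def] using (tendsto_inv_atTop_zero.comp hNr)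
  have h1 : Tendsto (fun j => ((M j : ℝ) / (N j : ℝ) + 1 / (N j : ℝ)) / (1 + 2 * (1 / (N j : ℝ))))
      atTop (𝓝 ((α + 0) / (1 + 2 * 0))) := by
    refine (hMN.add h0).div ((h0.const_mul 2).const_add 1) (by norm_num)
  simp only [add_zero, mul_zero, div_one] at h1
  refine h1.congr' ?_
  filter_upwards [hN.eventually (eventually_gt_atTop 0)] with j hj
  have : (0 : ℝ) < N j := by exact_mod_cast hj
  (clear * - hj; field_simp)

end Vale.Agent.P157.Par
end

section

/-!
Bounds for the overlaps of the spin chain: nonnegativity, monotonicity in the level, strict bound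
by one and the Lipschitz bound for the increments.
-/

open MeasureTheory ProbabilityTheory Filter Topology Set

namespace Vale.Agent.P157.Par

/-- Continuous bounded observables. -/
def Sp7Cb (g : ℝ → ℝ) : Prop := Continuous g ∧ ∃ K, ∀ x, |g x| ≤ K

theorem sp7_cb_const (c : ℝ) : Sp7Cb (fun _ => c) := ⟨continuous_const, |c|, fun _ => le_rfl⟩

theorem sp7_cb_tlt {F M D : ℝ → ℝ} (h : Ec F M D) {g : ℝ → ℝ} (hg : Sp7Cb g) (m v : ℝ) :
    Sp7Cb (tlt m v F g) := by
  obtain ⟨hc, K, hK⟩ := hg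
  exact ⟨h.sm.tlt_cont hc hK m v, K, fun x => h.sm.abs_tlt_le hc hK m v x⟩

theorem sp7_cb_M {F M D : ℝ → ℝ} (h : Ec F M D) : Sp7Cb M :=
  ⟨h.sm.cont1, 1, h.abs_M⟩

theorem sp7_cb_sq {g : ℝ → ℝ} (hg : Sp7Cb g) : Sp7Cb (fun x => g x ^ 2) := by
  obtain ⟨hc, K, hK⟩ := hg
  refine ⟨hc.pow 2, K ^ 2, fun x => ?_⟩
  rw [abs_pow]
  exact pow_le_pow_left₀ (abs_nonneg _) (hK x) 2

theorem sp7_cb_add {g g' : ℝ → ℝ} (hg : Sp7Cb g) (hg' : Sp7Cb g') :
    Sp7Cb (fun x => g x + g' x) := by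
  obtain ⟨hc, K, hK⟩ := hg
  obtain ⟨hc', K', hK'⟩ := hg'
  exact ⟨hc.add hc', K + K', fun x => (abs_add_le _ _).trans (add_le_add (hK x) (hK' x))⟩

theorem sp7_cb_neg {g : ℝ → ℝ} (hg : Sp7Cb g) : Sp7Cb (fun x => -g x) := by
  obtain ⟨hc, K, hK⟩ := hg
  exact ⟨hc.neg, K, fun x => by rw [abs_neg]; exact hK x⟩

theorem sp7_cb_int {g : ℝ → ℝ} (hg : Sp7Cb g) (a : ℝ) :
    Integrable (fun z => g (a * z)) (gaussianReal 0 1) := by
  obtain ⟨hc, K, hK⟩ := hg
  refine Integrable.of_bound (C := K) ?_ (ae_of_all _ fun z => ?_)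
  · exact (hc.comp (continuous_const.mul continuous_id)).aestronglyMeasurable
  · rw [Real.norm_eq_abs]; exact hK _

/-- The exponents used by the chain of height `l`. -/
def Sp7Exp (m : ℕ → ℝ) (l : ℕ) : Prop := ∀ i < l, 0 < m (i + 1) ∧ m (i + 1) ≤ 1

theorem sp7_exp_of {k : ℕ} {m : ℕ → ℝ} (hm : Exponents k m) : Sp7Exp m k := by
  obtain ⟨h0, h1, hlt⟩ := hm
  have hpos : ∀ i ≤ k, 0 < m (i + 1) := by
    intro i
    induction i with
    | zero => intro hi; rw [← h0]; exact hlt 0 hi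
    | succ i ih => intro hi; exact (ih (by omega)).trans (hlt (i + 1) hi)
  have hle : ∀ n ≤ k + 1, m (k + 1 - n) ≤ 1 := by
    intro n
    induction n with
    | zero => intro _; rw [Nat.sub_zero, h1]
    | succ n ih =>
      intro hn
      have h2 := hlt (k + 1 - (n + 1)) (by omega)
      have h3 : k + 1 - (n + 1) + 1 = k + 1 - n := by omega
      rw [h3] at h2
      exact h2.le.trans (ih (by omega))
  intro i hi
  refine ⟨hpos i hi.le, ?_⟩
  have h4 := hle (k - i) (by omega)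
  have h5 : k + 1 - (k - i) = i + 1 := by (clear * - hi; omega)
  rwa [h5] at h4

theorem sp7_exp_down {m : ℕ → ℝ} {l : ℕ} (h : Sp7Exp m (l + 1)) : Sp7Exp m l :=
  fun i hi => h i (by omega)

theorem sp7_chn_mono (m r : ℕ → ℝ) (l : ℕ) (hm : Sp7Exp m l) {F M D : ℝ → ℝ} (h : Ec F M D)
    {g g' : ℝ → ℝ} (hg : Sp7Cb g) (hg' : Sp7Cb g') (hle : ∀ x, g x ≤ g' x) :
    chn m r l F g ≤ chn m r l F g' := by
  induction l generalizing F M D g g' with
  | zero =>
    rw [chn_zero_def, chn_zero_def]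
    exact integral_mono (sp7_cb_int hg _) (sp7_cb_int hg' _) (fun z => hle _)
  | succ l ih =>
    rw [chn_succ_def, chn_succ_def]
    obtain ⟨hm0, hm1⟩ := hm l (Nat.lt_succ_self l)
    refine ih (sp7_exp_down hm) (h.step hm0 hm1 _) (sp7_cb_tlt h hg _ _) (sp7_cb_tlt h hg' _ _) ?_
    intro x
    obtain ⟨hc, K, hK⟩ := hg
    obtain ⟨hc', K', hK'⟩ := hg'
    exact h.sm.tlt_mono hc hK hc' hK' hle _ _ x

theorem sp7_chn_const (m r : ℕ → ℝ) (l : ℕ) (hm : Sp7Exp m l) {F M D : ℝ → ℝ} (h : Ec F M D)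
    (c : ℝ) : chn m r l F (fun _ => c) = c := by
  induction l generalizing F M D with
  | zero => rw [chn_zero_def]; simp
  | succ l ih =>
    rw [chn_succ_def]
    obtain ⟨hm0, hm1⟩ := hm l (Nat.lt_succ_self l)
    have h1 : tlt (m (l + 1)) (r (l + 1) - r l) F (fun _ => c) = fun _ => c := by
      funext x
      exact h.sm.tlt_const _ _ _ x
    rw [h1]
    exact ih (sp7_exp_down hm) (h.step hm0 hm1 _)

theorem sp7_chn_add (m r : ℕ → ℝ) (l : ℕ) (hm : Sp7Exp m l) {F M D : ℝ → ℝ} (h : Ec F M D)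
    {g g' : ℝ → ℝ} (hg : Sp7Cb g) (hg' : Sp7Cb g') :
    chn m r l F (fun x => g x + g' x) = chn m r l F g + chn m r l F g' := by
  induction l generalizing F M D g g' with
  | zero =>
    rw [chn_zero_def, chn_zero_def, chn_zero_def]
    exact integral_add (sp7_cb_int hg _) (sp7_cb_int hg' _)
  | succ l ih =>
    rw [chn_succ_def, chn_succ_def, chn_succ_def]
    obtain ⟨hm0, hm1⟩ := hm l (Nat.lt_succ_self l)
    have h1 : tlt (m (l + 1)) (r (l + 1) - r l) F (fun x => g x + g' x) =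
        fun x => tlt (m (l + 1)) (r (l + 1) - r l) F g x +
          tlt (m (l + 1)) (r (l + 1) - r l) F g' x := by
      funext x
      obtain ⟨hc, K, hK⟩ := hg
      obtain ⟨hc', K', hK'⟩ := hg'
      exact h.sm.tlt_add hc hK hc' hK' _ _ x
    rw [h1]
    exact ih (sp7_exp_down hm) (h.step hm0 hm1 _) (sp7_cb_tlt h hg _ _) (sp7_cb_tlt h hg' _ _)

/-- Strict positivity of one tilted average. -/
theorem sp7_tlt_pos {F M D : ℝ → ℝ} (h : Ec F M D) {g : ℝ → ℝ} (hg : Sp7Cb g)
    (hpos : ∀ x, 0 < g x) (m v x : ℝ) : 0 < tlt m v F g x := by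
  obtain ⟨hc, K, hK⟩ := hg
  have hden := h.sm.int_exp_pos m v x
  have hint := h.sm.integrable hc hK m v x
  unfold tlt
  refine div_pos ?_ hden
  rw [integral_pos_iff_support_of_nonneg (fun z => (mul_pos (hpos _) (Real.exp_pos _)).le) hint]
  have hs : Function.support (fun z => g (x + √v * z) * Real.exp (m * F (x + √v * z))) =
      Set.univ := by
    ext z
    simp only [Function.mem_support, Set.mem_univ, iff_true]
    exact (mul_pos (hpos _) (Real.exp_pos _)).ne'
  rw [hs]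
  simp only [measure_univ, zero_lt_one]

theorem sp7_chn_pos (m r : ℕ → ℝ) (l : ℕ) (hm : Sp7Exp m l) {F M D : ℝ → ℝ} (h : Ec F M D)
    {g : ℝ → ℝ} (hg : Sp7Cb g) (hpos : ∀ x, 0 < g x) : 0 < chn m r l F g := by
  induction l generalizing F M D g with
  | zero =>
    rw [chn_zero_def]
    rw [integral_pos_iff_support_of_nonneg (fun z => (hpos _).le) (sp7_cb_int hg _)]
    have hs : Function.support (fun z => g (√(r 0) * z)) = Set.univ := by
      ext z
      simp only [Function.mem_support, Set.mem_univ, iff_true]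
      exact (hpos _).ne'
    rw [hs]
    simp
  | succ l ih =>
    rw [chn_succ_def]
    obtain ⟨hm0, hm1⟩ := hm l (Nat.lt_succ_self l)
    exact ih (sp7_exp_down hm) (h.step hm0 hm1 _) (sp7_cb_tlt h hg _ _)
      (fun x => sp7_tlt_pos h hg hpos _ _ x)

theorem sp7_Rc_nonneg (m r : ℕ → ℝ) (l : ℕ) (hm : Sp7Exp m l) {F M D : ℝ → ℝ} (h : Ec F M D)
    {j : ℕ} (hj : j ≤ l) : 0 ≤ Rc m r l F M j := by
  induction l generalizing F M D with
  | zero =>
    have hj0 : j = 0 := by omega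
    subst hj0
    rw [Rc_self]
    have h1 := sp7_chn_mono m r 0 hm h (sp7_cb_const 0) (sp7_cb_sq (sp7_cb_M h))
      (fun x => sq_nonneg _)
    rwa [sp7_chn_const m r 0 hm h] at h1
  | succ l ih =>
    rcases Nat.lt_or_ge l j with hlj | hlj
    · have hj0 : j = l + 1 := by omega
      subst hj0
      rw [Rc_self]
      have h1 := sp7_chn_mono m r (l + 1) hm h (sp7_cb_const 0) (sp7_cb_sq (sp7_cb_M h))
        (fun x => sq_nonneg _)
      rwa [sp7_chn_const m r (l + 1) hm h] at h1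
    · rw [Rc_succ_le m r l F M hlj]
      obtain ⟨hm0, hm1⟩ := hm l (Nat.lt_succ_self l)
      exact ih (sp7_exp_down hm) (h.step hm0 hm1 _) hlj

/-- The increments of the overlaps are bounded by any bound of the one step variances. -/
theorem sp7_Rc_incr (m r : ℕ → ℝ) (l : ℕ) (hm : Sp7Exp m l) {C : ℝ}
    {F M D : ℝ → ℝ} (h : Ec F M D) {j : ℕ} (hj : j < l)
    (hC : ∀ F M D : ℝ → ℝ, Ec F M D → ∀ x,
      tlt (m (j + 1)) (r (j + 1) - r j) F (fun y => M y ^ 2) x ≤
        tlt (m (j + 1)) (r (j + 1) - r j) F M x ^ 2 + C) :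
    Rc m r l F M (j + 1) ≤ Rc m r l F M j + C := by
  induction l generalizing F M D with
  | zero => omega
  | succ l ih =>
    obtain ⟨hm0, hm1⟩ := hm l (Nat.lt_succ_self l)
    rcases Nat.lt_or_ge j l with hlj | hlj
    · rw [Rc_succ_le m r l F M (show j + 1 ≤ l from hlj), Rc_succ_le m r l F M hlj.le]
      exact ih (sp7_exp_down hm) (h.step hm0 hm1 _) hlj
    · have hj0 : j = l := by omega
      subst hj0
      have hs := h.step hm0 hm1 (r (j + 1) - r j)
      rw [Rc_self, Rc_succ_le m r j F M le_rfl, Rc_self, chn_succ_def]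
      have h2 := sp7_chn_mono m r j (sp7_exp_down hm) hs
        (sp7_cb_tlt h (sp7_cb_sq (sp7_cb_M h)) _ _)
        (sp7_cb_add (sp7_cb_sq (sp7_cb_tlt h (sp7_cb_M h) (m (j + 1)) (r (j + 1) - r j)))
          (sp7_cb_const C)) (hC F M D h)
      rw [sp7_chn_add m r j (sp7_exp_down hm) hs
        (sp7_cb_sq (sp7_cb_tlt h (sp7_cb_M h) (m (j + 1)) (r (j + 1) - r j))) (sp7_cb_const C),
        sp7_chn_const m r j (sp7_exp_down hm) hs] at h2
      exact h2

theorem sp7_Rc_mono (m r : ℕ → ℝ) (l : ℕ) (hm : Sp7Exp m l)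
    {F M D : ℝ → ℝ} (h : Ec F M D) {j : ℕ} (hj : j < l) :
    Rc m r l F M j ≤ Rc m r l F M (j + 1) := by
  induction l generalizing F M D with
  | zero => omega
  | succ l ih =>
    obtain ⟨hm0, hm1⟩ := hm l (Nat.lt_succ_self l)
    rcases Nat.lt_or_ge j l with hlj | hlj
    · rw [Rc_succ_le m r l F M (show j + 1 ≤ l from hlj), Rc_succ_le m r l F M hlj.le]
      exact ih (sp7_exp_down hm) (h.step hm0 hm1 _) hlj
    · have hj0 : j = l := by omega
      subst hj0
      have hs := h.step hm0 hm1 (r (j + 1) - r j)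
      rw [Rc_self m r (j + 1), Rc_succ_le m r j F M le_rfl, Rc_self, chn_succ_def]
      exact sp7_chn_mono m r j (sp7_exp_down hm) hs
        (sp7_cb_sq (sp7_cb_tlt h (sp7_cb_M h) (m (j + 1)) (r (j + 1) - r j)))
        (sp7_cb_tlt h (sp7_cb_sq (sp7_cb_M h)) _ _)
        (fun x => h.sm.tlt_sq_le h.sm.cont1 h.abs_M _ _ x)

theorem spR_nonneg {k : ℕ} {m r : ℕ → ℝ} (hm : Exponents k m) (hr : Path k r) {j : ℕ}
    (hj : j ≤ k) : 0 ≤ spR k m r j :=
  sp7_Rc_nonneg m r k (sp7_exp_of hm) ec_logcosh hj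

theorem spR_mono {k : ℕ} {m r : ℕ → ℝ} (hm : Exponents k m) (hr : Path k r) {j : ℕ}
    (hj : j < k) : spR k m r j ≤ spR k m r (j + 1) :=
  sp7_Rc_mono m r k (sp7_exp_of hm) ec_logcosh hj

theorem spR_lt_one {k : ℕ} {m r : ℕ → ℝ} (hm : Exponents k m) (hr : Path k r) {j : ℕ}
    (hj : j ≤ k) : spR k m r j < 1 := by
  have hE := sp7_exp_of hm
  have hk : spR k m r k < 1 := by
    unfold spR
    rw [Rc_self]
    have hpos : ∀ x : ℝ, 0 < 1 + -(Real.tanh x ^ 2) := by
      intro x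
      have h1 : Real.tanh x ^ 2 < 1 := by
        rw [Real.tanh_eq_sinh_div_cosh, div_pow, div_lt_one (pow_pos (Real.cosh_pos x) 2)]
        have := Real.cosh_sq x
        linarith only [this]
      linarith only [h1]
    have hcb : Sp7Cb (fun x => Real.tanh x ^ 2) := sp7_cb_sq (sp7_cb_M ec_logcosh)
    have hcb' : Sp7Cb (fun x : ℝ => 1 + -(Real.tanh x ^ 2)) :=
      sp7_cb_add (sp7_cb_const 1) (sp7_cb_neg hcb)
    have h2 := sp7_chn_pos m r k hE ec_logcosh hcb' hpos
    have h3 := sp7_chn_add m r k hE ec_logcosh hcb' hcb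
    have h4 : (fun x : ℝ => (1 + -(Real.tanh x ^ 2)) + Real.tanh x ^ 2) = fun _ => 1 := by
      funext x
      ring
    rw [h4, sp7_chn_const m r k hE ec_logcosh] at h3
    linarith only [h2, h3]
  have hle : ∀ n ≤ k, spR k m r (k - n) ≤ spR k m r k := by
    intro n
    induction n with
    | zero => intro _; simp
    | succ n ih =>
      intro hn
      have h1 := spR_mono hm hr (j := k - (n + 1)) (by omega)
      have h2 : k - (n + 1) + 1 = k - n := by omega
      rw [h2] at h1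
      exact h1.trans (ih (by omega))
  have h5 := hle (k - j) (by omega)
  have h6 : k - (k - j) = j := by omega
  rw [h6] at h5
  linarith only [hk, h5]

/-- Exponential moments of `|z|`. -/
theorem sp7_int_exp_abs (t : ℝ) :
    Integrable (fun z => Real.exp (t * |z|)) (gaussianReal 0 1) := by
  have h1 : Integrable (fun z => Real.exp (t * z)) (gaussianReal 0 1) :=
    integrable_exp_mul_gaussianReal t
  have h2 : Integrable (fun z => Real.exp (-t * z)) (gaussianReal 0 1) :=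
    integrable_exp_mul_gaussianReal (-t)
  exact integrable_exp_mul_abs h1 h2

theorem sp7_int_sq_exp_abs (t : ℝ) :
    Integrable (fun z => z ^ 2 * Real.exp (t * |z|)) (gaussianReal 0 1) := by
  refine ((sp7_int_exp_abs (t + 1)).const_mul 2).mono' (by (clear * -; fun_prop)) (ae_of_all _ fun z => ?_)
  rw [Real.norm_eq_abs, abs_of_nonneg (mul_nonneg (sq_nonneg _) (Real.exp_pos _).le)]
  have h1 := Real.quadratic_le_exp_of_nonneg (abs_nonneg z)
  have h2 : z ^ 2 ≤ 2 * Real.exp |z| := by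
    rw [sq_abs] at h1
    have := abs_nonneg z
    linarith
  calc z ^ 2 * Real.exp (t * |z|) ≤ 2 * Real.exp |z| * Real.exp (t * |z|) :=
        mul_le_mul_of_nonneg_right h2 (Real.exp_pos _).le
    _ = 2 * Real.exp ((t + 1) * |z|) := by
        rw [mul_assoc, ← Real.exp_add]; ring_nf

/-- The one step variance is of the order of the step. -/
theorem sp7_var {A : ℝ} {F M D : ℝ → ℝ} (h : Ec F M D) {m : ℝ} (hm : 0 < m) (hm1 : m ≤ 1)
    {v : ℝ} (hv : 0 ≤ v) (hvA : v ≤ A) (x : ℝ) :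
    tlt m v F (fun y => M y ^ 2) x ≤ tlt m v F M x ^ 2 +
      (∫ z, z ^ 2 * Real.exp (√A * |z|) ∂(gaussianReal 0 1)) /
        (∫ z, Real.exp (-√A * |z|) ∂(gaussianReal 0 1)) * v := by
  have hA : 0 ≤ A := hv.trans hvA
  set K1 := ∫ z, z ^ 2 * Real.exp (√A * |z|) ∂(gaussianReal 0 1) with hK1
  set K0 := ∫ z, Real.exp (-√A * |z|) ∂(gaussianReal 0 1) with hK0
  have hK0pos : 0 < K0 := integral_exp_pos (sp7_int_exp_abs _)
  have hK1nn : 0 ≤ K1 := integral_nonneg fun z => mul_nonneg (sq_nonneg _) (Real.exp_pos _).le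
  -- Lipschitz bounds
  have hlipF : ∀ a b : ℝ, |F a - F b| ≤ |a - b| := by
    intro a b
    have := Convex.norm_image_sub_le_of_norm_hasDerivWithin_le (C := 1) (f := F) (f' := M)
      (s := Set.univ) (x := b) (y := a) (fun y _ => (h.d1 y).hasDerivWithinAt)
      (fun y _ => by rw [Real.norm_eq_abs]; exact h.abs_M y) convex_univ (mem_univ _) (mem_univ _)
    simpa only [ge_iff_le, Real.norm_eq_abs, one_mul] using this
  have hlipM : ∀ a b : ℝ, |M a - M b| ≤ |a - b| := by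
    intro a b
    have := Convex.norm_image_sub_le_of_norm_hasDerivWithin_le (C := 1) (f := M) (f' := D)
      (s := Set.univ) (x := b) (y := a) (fun y _ => (h.d2 y).hasDerivWithinAt)
      (fun y _ => by
        rw [Real.norm_eq_abs, abs_of_nonneg (h.D0 y)]
        have := h.D1 y
        nlinarith only [this]) convex_univ (mem_univ _) (mem_univ _)
    simpa only [ge_iff_le, Real.norm_eq_abs, one_mul] using this
  have hsv : √v ≤ √A := Real.sqrt_le_sqrt hvA
  have hsv0 : 0 ≤ √v := Real.sqrt_nonneg v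
  have hexp : ∀ z : ℝ, |m * F (x + √v * z) - m * F x| ≤ √A * |z| := by
    intro z
    rw [← mul_sub, abs_mul, abs_of_pos hm]
    have h1 := hlipF (x + √v * z) x
    have h2 : |x + √v * z - x| = √v * |z| := by
      rw [add_sub_cancel_left, abs_mul, abs_of_nonneg hsv0]
    rw [h2] at h1
    calc m * |F (x + √v * z) - F x| ≤ 1 * (√v * |z|) :=
          mul_le_mul hm1 h1 (abs_nonneg _) zero_le_one
      _ ≤ √A * |z| := by
          rw [one_mul]; exact mul_le_mul_of_nonneg_right hsv (abs_nonneg z)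
  -- the centered square
  set c := M x with hc
  set g : ℝ → ℝ := fun y => (M y + -c) ^ 2 with hg
  have hgcb : Sp7Cb g := sp7_cb_sq (sp7_cb_add (sp7_cb_M h) (sp7_cb_const (-c)))
  have hden := h.sm.int_exp_pos m v x
  have hdenle : Real.exp (m * F x) * K0 ≤
      ∫ z, Real.exp (m * F (x + √v * z)) ∂(gaussianReal 0 1) := by
    rw [hK0, ← integral_const_mul]
    refine integral_mono ((sp7_int_exp_abs _).const_mul _) (h.sm.integrable_exp m v x) ?_
    intro z
    simp only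
    rw [← Real.exp_add]
    refine Real.exp_le_exp.2 ?_
    have := (abs_le.1 (hexp z)).1
    linarith only [this]
  have hnum : ∫ z, g (x + √v * z) * Real.exp (m * F (x + √v * z)) ∂(gaussianReal 0 1) ≤
      Real.exp (m * F x) * (v * K1) := by
    rw [hK1, ← integral_const_mul, ← integral_const_mul]
    refine integral_mono (h.sm.integrable hgcb.1 hgcb.2.choose_spec m v x)
      (((sp7_int_sq_exp_abs _).const_mul _).const_mul _) ?_
    intro z
    simp only [hg]
    have h1 : (M (x + √v * z) + -c) ^ 2 ≤ v * z ^ 2 := by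
      have h2 := hlipM (x + √v * z) x
      have h3 : |x + √v * z - x| = √v * |z| := by
        rw [add_sub_cancel_left, abs_mul, abs_of_nonneg hsv0]
      rw [h3] at h2
      have h4 := pow_le_pow_left₀ (abs_nonneg _) h2 2
      rw [sq_abs, mul_pow, Real.sq_sqrt hv, sq_abs] at h4
      simpa only [ge_iff_le, sub_eq_add_neg] using h4
    have h5 : Real.exp (m * F (x + √v * z)) ≤ Real.exp (m * F x) * Real.exp (√A * |z|) := by
      rw [← Real.exp_add]
      refine Real.exp_le_exp.2 ?_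
      have := (abs_le.1 (hexp z)).2
      linarith only [this]
    calc (M (x + √v * z) + -c) ^ 2 * Real.exp (m * F (x + √v * z))
        ≤ (v * z ^ 2) * (Real.exp (m * F x) * Real.exp (√A * |z|)) :=
          mul_le_mul h1 h5 (Real.exp_pos _).le (mul_nonneg hv (sq_nonneg z))
      _ = Real.exp (m * F x) * (v * (z ^ 2 * Real.exp (√A * |z|))) := by ring
  have hg1 : tlt m v F g x ≤ K1 / K0 * v := by
    have hE : 0 < Real.exp (m * F x) := Real.exp_pos _
    show _ / _ ≤ _
    rw [div_le_iff₀ hden]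
    calc _ ≤ Real.exp (m * F x) * (v * K1) := hnum
      _ = K1 / K0 * v * (Real.exp (m * F x) * K0) := by (clear * - hK0pos; field_simp)
      _ ≤ K1 / K0 * v * ∫ z, Real.exp (m * F (x + √v * z)) ∂(gaussianReal 0 1) :=
          mul_le_mul_of_nonneg_left hdenle (mul_nonneg (div_nonneg hK1nn hK0pos.le) hv)
  have hMcb := sp7_cb_M h
  have hM2cb := sp7_cb_sq hMcb
  -- expansion of the square
  have hg2 : tlt m v F g x = tlt m v F (fun y => M y ^ 2) x - 2 * c * tlt m v F M x + c ^ 2 := by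
    have e1 : g = fun y => (M y ^ 2 + (-2 * c) * M y) + c ^ 2 := by
      funext y
      simp only [hg]
      ring
    obtain ⟨a1, K', a2⟩ := hM2cb
    obtain ⟨b1, b2, b3⟩ : Sp7Cb (fun y => (-2 * c) * M y) :=
      ⟨continuous_const.mul h.sm.cont1, |(-2 * c)|, fun y => by
        rw [abs_mul]
        exact mul_le_of_le_one_right (abs_nonneg _) (h.abs_M y)⟩
    obtain ⟨d1, d2, d3⟩ := sp7_cb_add (⟨a1, K', a2⟩ : Sp7Cb (fun y => M y ^ 2))
      (⟨b1, b2, b3⟩ : Sp7Cb (fun y => (-2 * c) * M y))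
    have e2 := h.sm.tlt_add a1 a2 b1 b3 m v x
    have e3 := h.sm.tlt_add d1 d3 (continuous_const (y := c ^ 2)) (K' := |c ^ 2|)
      (fun _ => le_rfl) m v x
    have e4 := tlt_const_mul m v (-2 * c) F M x
    have e5 := h.sm.tlt_const m v (c ^ 2) x
    rw [e1, e3, e2, e4, e5]
    ring
  nlinarith only [hg1, hg2, sq_nonneg (tlt m v F M x - c)]

theorem spR_lip (A : ℝ) : ∃ C : ℝ, 0 ≤ C ∧ ∀ (k : ℕ) (m r : ℕ → ℝ), Exponents k m → Path k r →
    r k ≤ A → ∀ l < k, spR k m r (l + 1) - spR k m r l ≤ C * (r (l + 1) - r l) := by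
  refine ⟨(∫ z, z ^ 2 * Real.exp (√A * |z|) ∂(gaussianReal 0 1)) /
        (∫ z, Real.exp (-√A * |z|) ∂(gaussianReal 0 1)), ?_, ?_⟩
  · exact div_nonneg (integral_nonneg fun z => mul_nonneg (sq_nonneg _) (Real.exp_pos _).le)
      (integral_nonneg fun z => (Real.exp_pos _).le)
  · intro k m r hm hr hA l hl
    have hE := sp7_exp_of hm
    obtain ⟨hm0, hm1⟩ := hE l hl
    have hlow : ∀ i ≤ k, 0 ≤ r i := by
      intro i
      induction i with
      | zero => intro _; exact hr.1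
      | succ i ih => intro hi; exact (ih (by omega)).trans (hr.2 i hi)
    have hup : ∀ n ≤ k, r (k - n) ≤ A := by
      intro n
      induction n with
      | zero => intro _; simpa only [tsub_zero] using hA
      | succ n ih =>
        intro hn
        have h2 := hr.2 (k - (n + 1)) (by (clear * - hn; omega))
        have h3 : k - (n + 1) + 1 = k - n := by (clear * - hn; omega)
        rw [h3] at h2
        exact h2.trans (ih (by omega))
    have h4 := hup (k - (l + 1)) (by omega)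
    have h5 : k - (k - (l + 1)) = l + 1 := by omega
    rw [h5] at h4
    have h6 := hlow l hl.le
    have h7 := hr.2 l hl
    have h8 := sp7_Rc_incr m r k hE (C := (∫ z, z ^ 2 * Real.exp (√A * |z|) ∂(gaussianReal 0 1)) /
        (∫ z, Real.exp (-√A * |z|) ∂(gaussianReal 0 1)) * (r (l + 1) - r l)) ec_logcosh hl
      (fun F M D hF x => sp7_var hF hm0 hm1 (by linarith only [h7]) (by linarith only [h4, h6]) x)
    unfold spR
    linarith only [h8]

end Vale.Agent.P157.Par
end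

section

/-! The derivative of the spin part along a segment of paths. -/

open MeasureTheory ProbabilityTheory Filter Topology Set

namespace Vale.Agent.P157.Par

theorem sp4_exp_nonneg {k : ℕ} {m : ℕ → ℝ} (hm : Exponents k m) :
    ∀ l ≤ k + 1, 0 ≤ m l := by
  intro l
  induction l with
  | zero => intro _; rw [hm.1]
  | succ l ih =>
    intro hl
    exact (ih (by omega)).trans (hm.2.2 l (by omega)).le

theorem sp4_exp_pos {k : ℕ} {m : ℕ → ℝ} (hm : Exponents k m) {l : ℕ} (hl : l ≤ k) :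
    0 < m (l + 1) :=
  (sp4_exp_nonneg hm l (by omega)).trans_lt (hm.2.2 l hl)

section chn

theorem sp4_chn_const_mul (m r : ℕ → ℝ) (c : ℝ) : ∀ (l : ℕ) (F g : ℝ → ℝ),
    chn m r l F (fun y => c * g y) = c * chn m r l F g := by
  intro l
  induction l with
  | zero =>
    intro F g
    rw [chn_zero_def, chn_zero_def, integral_const_mul]
  | succ l ih =>
    intro F g
    rw [chn_succ_def, chn_succ_def, ← ih]
    congr 1
    funext x
    exact tlt_const_mul _ _ c F g x

theorem sp4_chn_zero (m r : ℕ → ℝ) (l : ℕ) (F : ℝ → ℝ) :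
    chn m r l F (fun _ => 0) = 0 := by
  have h := sp4_chn_const_mul m r 0 l F (fun _ => 0)
  simpa using h

theorem sp4_chn_add {m r : ℕ → ℝ} : ∀ (l : ℕ), (∀ j < l, 0 < m (j + 1)) →
    ∀ {L B : ℝ} {F M D : ℝ → ℝ}, Sm L B F M D → ∀ {g g' : ℝ → ℝ}, Continuous g → ∀ {K : ℝ},
    (∀ x, |g x| ≤ K) → Continuous g' → ∀ {K' : ℝ}, (∀ x, |g' x| ≤ K') →
    chn m r l F (fun y => g y + g' y) = chn m r l F g + chn m r l F g' := by
  intro l
  induction l with
  | zero =>
    intro _ L B F M D _ g g' hg K hK hg' K' hK'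
    rw [chn_zero_def, chn_zero_def, chn_zero_def, integral_add]
    · exact Integrable.of_bound (by fun_prop) K (Eventually.of_forall fun z => hK _)
    · exact Integrable.of_bound (by fun_prop) K' (Eventually.of_forall fun z => hK' _)
  | succ l ih =>
    intro hm L B F M D h g g' hg K hK hg' K' hK'
    rw [chn_succ_def, chn_succ_def, chn_succ_def]
    have h1 : tlt (m (l + 1)) (r (l + 1) - r l) F (fun y => g y + g' y) =
        fun x => tlt (m (l + 1)) (r (l + 1) - r l) F g x +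
          tlt (m (l + 1)) (r (l + 1) - r l) F g' x := by
      funext x
      exact h.tlt_add hg hK hg' hK' _ _ x
    rw [h1]
    exact ih (fun j hj => hm j (by omega)) (h.step (hm l (by omega)) _)
      (h.tlt_cont hg hK _ _) (fun x => h.abs_tlt_le hg hK _ _ x)
      (h.tlt_cont hg' hK' _ _) (fun x => h.abs_tlt_le hg' hK' _ _ x)

theorem sp4_chn_const {m r : ℕ → ℝ} (c : ℝ) : ∀ (l : ℕ), (∀ j < l, 0 < m (j + 1)) →
    ∀ {L B : ℝ} {F M D : ℝ → ℝ}, Sm L B F M D → chn m r l F (fun _ => c) = c := by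
  intro l
  induction l with
  | zero =>
    intro _ L B F M D _
    rw [chn_zero_def]
    simp
  | succ l ih =>
    intro hm L B F M D h
    rw [chn_succ_def]
    have h1 : tlt (m (l + 1)) (r (l + 1) - r l) F (fun _ => c) = fun _ => c := by
      funext x
      exact h.tlt_const _ _ c x
    rw [h1]
    exact ih (fun j hj => hm j (by omega)) (h.step (hm l (by omega)) _)

end chn

section fam

variable {a b : ℝ} {u u1 u2 us : ℝ → ℝ → ℝ}

theorem sp4_slice {S : Set ℝ} {g : ℝ → ℝ → ℝ}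
    (hg : ContinuousOn (fun p : ℝ × ℝ => g p.1 p.2) (S ×ˢ Set.univ)) {s : ℝ} (hs : s ∈ S) :
    Continuous (g s) := by
  rw [← continuousOn_univ]
  exact hg.comp (f := fun x : ℝ => ((s, x) : ℝ × ℝ)) (by fun_prop) fun x _ => ⟨hs, mem_univ x⟩

theorem sp4_sm (h : Fam a b u u1 u2 us) : ∃ L B : ℝ, ∀ s ∈ Set.Icc a b,
    Sm L B (u s) (u1 s) (u2 s) := by
  obtain ⟨L, hL⟩ := h.b1
  obtain ⟨B, hB⟩ := h.b2
  refine ⟨L, B, fun s hs => ⟨h.d1 s hs, h.d2 s hs, ?_, hL s hs, hB s hs⟩⟩
  exact sp4_slice h.c2 hs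

theorem sp4_tlt_bound (h : Fam a b u u1 u2 us) {g : ℝ → ℝ → ℝ}
    (hg : ContinuousOn (fun p : ℝ × ℝ => g p.1 p.2) (Set.Icc a b ×ˢ Set.univ)) {K : ℝ}
    (hK : ∀ s ∈ Set.Icc a b, ∀ x, |g s x| ≤ K) (m v₀ d : ℝ) :
    ∀ s ∈ Set.Icc a b, ∀ x, |tlt m (v₀ + s * d) (u s) (g s) x| ≤ K := by
  obtain ⟨L, B, hS⟩ := sp4_sm h
  intro s hs x
  exact (hS s hs).abs_tlt_le (sp4_slice hg hs) (hK s hs) _ _ x

end fam

section path

variable {m r η : ℕ → ℝ} {a : ℝ}

theorem sp4_incr (r η : ℕ → ℝ) (l : ℕ) (s : ℝ) :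
    (r (l + 1) + s * η (l + 1)) - (r l + s * η l) =
      (r (l + 1) - r l) + s * (η (l + 1) - η l) := by ring

theorem sp4_chn_cont : ∀ (l : ℕ), (∀ j < l, 0 < m (j + 1)) →
    (∀ j < l, ∀ s ∈ Set.Ioo 0 a, 0 < (r (j + 1) - r j) + s * (η (j + 1) - η j)) →
    ∀ {u u1 u2 us : ℝ → ℝ → ℝ}, Fam 0 a u u1 u2 us → ∀ {g : ℝ → ℝ → ℝ},
    ContinuousOn (fun p : ℝ × ℝ => g p.1 p.2) (Set.Icc 0 a ×ˢ Set.univ) → ∀ {K : ℝ},
    (∀ s ∈ Set.Icc 0 a, ∀ x, |g s x| ≤ K) →
    ContinuousOn (fun s => chn m (fun l => r l + s * η l) l (u s) (g s)) (Set.Icc 0 a) := by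
  intro l
  induction l with
  | zero =>
    intro _ _ u u1 u2 us h g hg K hK
    simp only [chn_zero_def]
    exact h.bottom_cont hg hK (r 0) (η 0)
  | succ l ih =>
    intro hm hv u u1 u2 us h g hg K hK
    simp only [chn_succ_def, sp4_incr]
    exact ih (fun j hj => hm j (by omega)) (fun j hj => hv j (by omega))
      (h.step (hm l (by omega)) (hv l (by omega)))
      (h.tlt_cont hg hK _ _ _) (sp4_tlt_bound h hg hK _ _ _)

theorem sp4_Rc_cont : ∀ (l : ℕ), (∀ j < l, 0 < m (j + 1)) →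
    (∀ j < l, ∀ s ∈ Set.Ioo 0 a, 0 < (r (j + 1) - r j) + s * (η (j + 1) - η j)) →
    ∀ {u u1 u2 us : ℝ → ℝ → ℝ}, Fam 0 a u u1 u2 us → ∀ {g : ℝ → ℝ → ℝ},
    ContinuousOn (fun p : ℝ × ℝ => g p.1 p.2) (Set.Icc 0 a ×ˢ Set.univ) → ∀ {K : ℝ},
    (∀ s ∈ Set.Icc 0 a, ∀ x, |g s x| ≤ K) → ∀ j ≤ l,
    ContinuousOn (fun s => Rc m (fun l => r l + s * η l) l (u s) (g s) j) (Set.Icc 0 a) := by
  intro l
  induction l with
  | zero =>
    intro hm hv u u1 u2 us h g hg K hK j hj
    obtain rfl : j = 0 := by omega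
    simp only [Rc_self]
    refine sp4_chn_cont 0 hm hv h (hg.pow 2) (K := K ^ 2) fun s hs x => ?_
    rw [abs_pow]
    exact pow_le_pow_left₀ (abs_nonneg _) (hK s hs x) 2
  | succ l ih =>
    intro hm hv u u1 u2 us h g hg K hK j hj
    rcases Nat.lt_or_ge l j with hlj | hlj
    · obtain rfl : j = l + 1 := by omega
      simp only [Rc_self]
      refine sp4_chn_cont (l + 1) hm hv h (hg.pow 2) (K := K ^ 2) fun s hs x => ?_
      rw [abs_pow]
      exact pow_le_pow_left₀ (abs_nonneg _) (hK s hs x) 2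
    · simp only [Rc_succ_le _ _ _ _ _ hlj, sp4_incr]
      exact ih (fun j hj => hm j (by omega)) (fun j hj => hv j (by omega))
        (h.step (hm l (by omega)) (hv l (by omega)))
        (h.tlt_cont hg hK _ _ _) (sp4_tlt_bound h hg hK _ _ _) j hlj

theorem sp4_casc_cont : ∀ (l : ℕ), (∀ j < l, 0 < m (j + 1)) →
    (∀ j < l, ∀ s ∈ Set.Ioo 0 a, 0 < (r (j + 1) - r j) + s * (η (j + 1) - η j)) →
    (∀ s ∈ Set.Ioo 0 a, 0 < r 0 + s * η 0) →
    ∀ {u u1 u2 us : ℝ → ℝ → ℝ}, Fam 0 a u u1 u2 us →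
    ContinuousOn (fun s => ∫ z, cascade m (fun l => r l + s * η l) l (u s)
      (√(r 0 + s * η 0) * z) ∂(gaussianReal 0 1)) (Set.Icc 0 a) := by
  intro l
  induction l with
  | zero =>
    intro _ _ h0 u u1 u2 us h
    exact (h.bottom h0).1
  | succ l ih =>
    intro hm hv h0 u u1 u2 us h
    simp only [cascade_succ_def, sp4_incr]
    exact ih (fun j hj => hm j (by omega)) (fun j hj => hv j (by omega)) h0
      (h.step (hm l (by omega)) (hv l (by omega)))

theorem sp4_casc_deriv (hm0 : m 0 = 0) : ∀ (l : ℕ), (∀ j < l, 0 < m (j + 1)) →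
    (∀ j < l, ∀ s ∈ Set.Ioo 0 a, 0 < (r (j + 1) - r j) + s * (η (j + 1) - η j)) →
    (∀ s ∈ Set.Ioo 0 a, 0 < r 0 + s * η 0) →
    ∀ {u u1 u2 us : ℝ → ℝ → ℝ}, Fam 0 a u u1 u2 us → ∀ s ∈ Set.Ioo 0 a,
    HasDerivAt (fun s => ∫ z, cascade m (fun l => r l + s * η l) l (u s)
      (√(r 0 + s * η 0) * z) ∂(gaussianReal 0 1))
      (chn m (fun l => r l + s * η l) l (u s) (us s) + 1 / 2 *
        (η l * chn m (fun l => r l + s * η l) l (u s) (fun y => u2 s y + m l * u1 s y ^ 2) -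
          ∑ j ∈ Finset.range l, (m (j + 1) - m j) * η j *
            Rc m (fun l => r l + s * η l) l (u s) (u1 s) j)) s := by
  intro l
  induction l with
  | zero =>
    intro _ _ h0 u u1 u2 us h s hs
    have hsI : s ∈ Set.Icc 0 a := Ioo_subset_Icc_self hs
    have h1 := (h.bottom h0).2 s hs
    obtain ⟨B2, hB2⟩ := h.b2
    obtain ⟨Bs, hBs⟩ := h.bs
    have hc2 : Continuous (u2 s) := sp4_slice h.c2 hsI
    have hcs : Continuous (us s) := sp4_slice h.cs hs
    have e1 : ∫ z, (us s (√(r 0 + s * η 0) * z) + η 0 / 2 * u2 s (√(r 0 + s * η 0) * z))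
          ∂(gaussianReal 0 1) =
        ∫ z, us s (√(r 0 + s * η 0) * z) ∂(gaussianReal 0 1) +
          η 0 / 2 * ∫ z, u2 s (√(r 0 + s * η 0) * z) ∂(gaussianReal 0 1) := by
      rw [integral_add, integral_const_mul]
      · exact Integrable.of_bound (by fun_prop) Bs (Eventually.of_forall fun z => hBs s hs _)
      · refine Integrable.const_mul ?_ _
        exact Integrable.of_bound (by fun_prop) B2 (Eventually.of_forall fun z => hB2 s hsI _)
    rw [e1] at h1
    refine h1.congr_deriv ?_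
    rw [chn_zero_def, chn_zero_def, Finset.range_zero, Finset.sum_empty, hm0]
    simp only [zero_mul, add_zero, sub_zero]
    ring
  | succ l ih =>
    intro hm hv h0 u u1 u2 us h s hs
    have hsI : s ∈ Set.Icc 0 a := Ioo_subset_Icc_self hs
    have hml : 0 < m (l + 1) := hm l (by omega)
    have hstep := h.step hml (hv l (by omega))
    have h1 := ih (fun j hj => hm j (by omega)) (fun j hj => hv j (by omega)) h0 hstep s hs
    obtain ⟨B1, hB1⟩ := h.b1
    obtain ⟨B2, hB2⟩ := h.b2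
    obtain ⟨Bs, hBs⟩ := h.bs
    obtain ⟨L, B, hS⟩ := sp4_sm h
    obtain ⟨L', B', hS'⟩ := sp4_sm hstep
    have hSs := hS s hsI
    have hSs' := hS' s hsI
    have hc1 : Continuous (u1 s) := sp4_slice h.c1 hsI
    have hc2 : Continuous (u2 s) := sp4_slice h.c2 hsI
    have hcs : Continuous (us s) := sp4_slice h.cs hs
    set ρ : ℕ → ℝ := fun l => r l + s * η l with hρ
    set v : ℝ := (r (l + 1) - r l) + s * (η (l + 1) - η l) with hv'
    have hinc : ρ (l + 1) - ρ l = v := sp4_incr r η l s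
    -- the observable at the level l + 1
    set G : ℝ → ℝ := fun y => u2 s y + m (l + 1) * u1 s y ^ 2 with hG
    have hGc : Continuous G := by fun_prop
    have hGb : ∀ x, |G x| ≤ B2 + m (l + 1) * B1 ^ 2 := by
      intro x
      refine (abs_add_le _ _).trans (add_le_add (hB2 s hsI x) ?_)
      rw [abs_mul, abs_of_pos hml, abs_pow]
      exact mul_le_mul_of_nonneg_left (pow_le_pow_left₀ (abs_nonneg _) (hB1 s hsI x) 2) hml.le
    have hm' : ∀ j < l + 1, 0 < m (j + 1) := hm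
    have hm'' : ∀ j < l, 0 < m (j + 1) := fun j hj => hm j (by omega)
    -- first term
    have t1 : chn m ρ l (gstep (m (l + 1)) v (u s)) (tlt (m (l + 1)) v (u s)
        (fun y => us s y + (η (l + 1) - η l) / 2 * (u2 s y + m (l + 1) * u1 s y ^ 2))) =
        chn m ρ (l + 1) (u s) (us s) + (η (l + 1) - η l) / 2 * chn m ρ (l + 1) (u s) G := by
      have hcG : Continuous (fun y => (η (l + 1) - η l) / 2 * G y) := continuous_const.mul hGc
      have hbG : ∀ x, |(fun y => (η (l + 1) - η l) / 2 * G y) x| ≤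
          |(η (l + 1) - η l) / 2| * (B2 + m (l + 1) * B1 ^ 2) := by
        intro x
        simp only [abs_mul]
        exact mul_le_mul_of_nonneg_left (hGb x) (abs_nonneg _)
      have e := sp4_chn_add (r := ρ) (l + 1) hm' hSs hcs (hBs s hs) hcG hbG
      rw [sp4_chn_const_mul, chn_succ_def, hinc] at e
      exact e
    -- second term
    have t2 : chn m ρ l (gstep (m (l + 1)) v (u s)) (fun y =>
        (tlt (m (l + 1)) v (u s) (fun y => u2 s y + m (l + 1) * u1 s y ^ 2) y -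
          m (l + 1) * tlt (m (l + 1)) v (u s) (u1 s) y ^ 2) +
        m l * tlt (m (l + 1)) v (u s) (u1 s) y ^ 2) =
        chn m ρ (l + 1) (u s) G - (m (l + 1) - m l) * Rc m ρ (l + 1) (u s) (u1 s) l := by
      have hT1c : Continuous (tlt (m (l + 1)) v (u s) (u1 s)) := hSs.tlt_cont hc1 (hB1 s hsI) _ _
      have hT1b : ∀ x, |tlt (m (l + 1)) v (u s) (u1 s) x| ≤ B1 := fun x =>
        hSs.abs_tlt_le hc1 (hB1 s hsI) _ _ x
      have hTGc : Continuous (tlt (m (l + 1)) v (u s) G) := hSs.tlt_cont hGc hGb _ _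
      have hTGb : ∀ x, |tlt (m (l + 1)) v (u s) G x| ≤ B2 + m (l + 1) * B1 ^ 2 := fun x =>
        hSs.abs_tlt_le hGc hGb _ _ x
      have e : (fun y =>
        (tlt (m (l + 1)) v (u s) (fun y => u2 s y + m (l + 1) * u1 s y ^ 2) y -
          m (l + 1) * tlt (m (l + 1)) v (u s) (u1 s) y ^ 2) +
        m l * tlt (m (l + 1)) v (u s) (u1 s) y ^ 2) = fun y => tlt (m (l + 1)) v (u s) G y +
          (-(m (l + 1) - m l)) * tlt (m (l + 1)) v (u s) (u1 s) y ^ 2 := by
        funext y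
        ring
      have hcT : Continuous (fun y => (-(m (l + 1) - m l)) *
          tlt (m (l + 1)) v (u s) (u1 s) y ^ 2) := continuous_const.mul (hT1c.pow 2)
      have hbT : ∀ x, |(fun y => (-(m (l + 1) - m l)) *
          tlt (m (l + 1)) v (u s) (u1 s) y ^ 2) x| ≤ |-(m (l + 1) - m l)| * B1 ^ 2 := by
        intro x
        simp only [abs_mul, abs_pow]
        exact mul_le_mul_of_nonneg_left
          (pow_le_pow_left₀ (abs_nonneg _) (hT1b x) 2) (abs_nonneg _)
      have e2 := sp4_chn_add (r := ρ) l hm'' hSs' hTGc hTGb hcT hbT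
      rw [sp4_chn_const_mul] at e2
      rw [e, e2, chn_succ_def, hinc, Rc_succ_le _ _ _ _ _ le_rfl, hinc, Rc_self]
      ring
    have t3 : ∀ j ∈ Finset.range l, (m (j + 1) - m j) * η j *
        Rc m ρ l (gstep (m (l + 1)) v (u s)) (tlt (m (l + 1)) v (u s) (u1 s)) j =
        (m (j + 1) - m j) * η j * Rc m ρ (l + 1) (u s) (u1 s) j := by
      intro j hj
      have hjl : j ≤ l := (Finset.mem_range.1 hj).le
      rw [Rc_succ_le _ _ _ _ _ hjl, hinc]
    have hfun : (fun s => ∫ z, cascade m (fun l => r l + s * η l) (l + 1) (u s)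
        (√(r 0 + s * η 0) * z) ∂(gaussianReal 0 1)) =
        fun s => ∫ z, cascade m (fun l => r l + s * η l) l
          (gstep (m (l + 1)) ((r (l + 1) - r l) + s * (η (l + 1) - η l)) (u s))
          (√(r 0 + s * η 0) * z) ∂(gaussianReal 0 1) := by
      funext s
      simp only [cascade_succ_def, sp4_incr]
    rw [hfun]
    refine h1.congr_deriv ?_
    rw [Finset.sum_range_succ]
    rw [t1, t2, Finset.sum_congr rfl t3]
    ring

theorem sp4_fam (a : ℝ) : Fam 0 a (fun _ x => Real.log (Real.cosh x)) (fun _ => Real.tanh)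
    (fun _ x => 1 - Real.tanh x ^ 2) (fun _ _ => 0) := by
  have hSm := ec_logcosh.sm
  have hc0 := hSm.cont
  have hc1 := hSm.cont1
  have hc2 := hSm.cD
  refine ⟨fun _ _ => hSm.d1, fun _ _ => hSm.d2, fun s _ x => hasDerivAt_const s _,
    (hc0.comp continuous_snd).continuousOn, (hc1.comp continuous_snd).continuousOn,
    (hc2.comp continuous_snd).continuousOn, continuousOn_const,
    ⟨1, fun _ _ => hSm.bM⟩, ⟨1, fun _ _ => hSm.bD⟩, ⟨0, fun _ _ _ => by simp⟩⟩

theorem spin_deriv {k : ℕ} {m r η : ℕ → ℝ} (hm : Exponents k m) {a : ℝ} (ha : 0 < a)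
    (hs : ∀ s ∈ Set.Ico 0 a, SPath k (fun l => r l + s * η l))
    (hp : Path k (fun l => r l + a * η l)) :
    ContinuousOn (fun s => spinPart k m (fun l => r l + s * η l)) (Set.Icc 0 a) ∧
    (∀ s ∈ Set.Ioo 0 a, HasDerivAt (fun s => spinPart k m (fun l => r l + s * η l))
      (-(1 / 2) * ∑ l ∈ Finset.range (k + 1), (m (l + 1) - m l) * η l *
        spR k m (fun l => r l + s * η l) l) s) ∧
    ∀ j ≤ k, ContinuousOn (fun s => spR k m (fun l => r l + s * η l) j) (Set.Icc 0 a) := by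
  have _ := ha
  have _ := hp
  have hpos : ∀ j < k, 0 < m (j + 1) := fun j hj => sp4_exp_pos hm hj.le
  have hv : ∀ j < k, ∀ s ∈ Set.Ioo 0 a, 0 < (r (j + 1) - r j) + s * (η (j + 1) - η j) := by
    intro j hj s hsI
    have h := (hs s (Ioo_subset_Ico_self hsI)).2 j hj
    rw [← sp4_incr]
    exact sub_pos.2 h
  have h0 : ∀ s ∈ Set.Ioo 0 a, 0 < r 0 + s * η 0 := fun s hsI =>
    (hs s (Ioo_subset_Ico_self hsI)).1
  have hF := sp4_fam a
  have hSm := ec_logcosh.sm
  have hT : Continuous Real.tanh := hSm.cont1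
  refine ⟨?_, ?_, ?_⟩
  · have h1 := sp4_casc_cont k hpos hv h0 hF
    have h2 : ContinuousOn (fun s => (r k + s * η k) / 2) (Set.Icc 0 a) := by (clear * -; fun_prop)
    exact h1.sub h2
  · intro s hsI
    have h1 := sp4_casc_deriv hm.1 k hpos hv h0 hF s hsI
    have h2 : HasDerivAt (fun s => (r k + s * η k) / 2) (η k / 2) s := by
      have h3 : HasDerivAt (fun s : ℝ => s) 1 s := hasDerivAt_id s
      have h4 := ((h3.mul_const (η k)).const_add (r k)).div_const 2
      simpa only [one_mul] using h4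
    have h3 := h1.sub h2
    refine h3.congr_deriv ?_
    set ρ : ℕ → ℝ := fun l => r l + s * η l with hρ
    have e1 : chn m ρ k (fun x => Real.log (Real.cosh x))
        (fun y => 1 - Real.tanh y ^ 2 + m k * Real.tanh y ^ 2) =
        1 - (1 - m k) * spR k m ρ k := by
      have hcT : Continuous (fun y => (-(1 - m k)) * Real.tanh y ^ 2) :=
        continuous_const.mul (hT.pow 2)
      have hbT : ∀ x, |(fun y => (-(1 - m k)) * Real.tanh y ^ 2) x| ≤ |-(1 - m k)| * 1 ^ 2 := by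
        intro x
        simp only [abs_mul, abs_pow]
        exact mul_le_mul_of_nonneg_left
          (pow_le_pow_left₀ (abs_nonneg _) (hSm.bM x) 2) (abs_nonneg _)
      have e2 := sp4_chn_add (r := ρ) k hpos hSm (g := fun _ => 1) continuous_const
        (K := 1) (fun _ => by simp) hcT hbT
      rw [sp4_chn_const_mul, sp4_chn_const 1 k hpos hSm] at e2
      have e3 : (fun y => 1 - Real.tanh y ^ 2 + m k * Real.tanh y ^ 2) =
          fun y => 1 + (-(1 - m k)) * Real.tanh y ^ 2 := by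
        funext y
        ring
      rw [e3, e2, spR, Rc_self]
      ring
    rw [Finset.sum_range_succ, hm.2.1]
    rw [e1, sp4_chn_zero]
    simp only [spR]
    ring
  · intro j hj
    have hg : ContinuousOn (fun p : ℝ × ℝ => (fun _ : ℝ => Real.tanh) p.1 p.2)
        (Set.Icc 0 a ×ˢ Set.univ) := (hT.comp continuous_snd).continuousOn
    exact sp4_Rc_cont k hpos hv hF hg (K := 1) (fun _ _ => hSm.bM) j hj

end path

end Vale.Agent.P157.Par
end

section

/-!
Monotonicity of the overlaps of the spin chain.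
-/

open MeasureTheory ProbabilityTheory Filter Topology Set

namespace Vale.Agent.P157.Par

/-! ### Elementary facts -/

theorem sp5_deriv_nonneg {w : ℝ → ℝ} {w' x : ℝ} (hw : HasDerivAt w w' x)
    (h : ∀ y, x ≤ y → w x ≤ w y) : 0 ≤ w' := by
  have h1 : Tendsto (slope w x) (𝓝[>] x) (𝓝 w') := by
    have h2 := hw.hasDerivWithinAt (s := Ioi x)
    rw [hasDerivWithinAt_iff_tendsto_slope'] at h2
    · exact h2
    · exact self_notMem_Ioi
  refine ge_of_tendsto h1 ?_
  filter_upwards [self_mem_nhdsWithin] with y hy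
  have hy' : x < y := hy
  rw [slope_def_field]
  exact div_nonneg (sub_nonneg.2 (h y hy'.le)) (sub_nonneg.2 hy'.le)

theorem sp5_sq_evm {F M D : ℝ → ℝ} (h : Ec F M D) : Evm (fun x => M x ^ 2) := by
  have h0 : M 0 = 0 := by
    have h1 := h.odd 0
    rw [neg_zero] at h1
    linarith
  refine ⟨fun x => ?_, fun x hx y hy hxy => ?_⟩
  · show M (-x) ^ 2 = M x ^ 2
    rw [h.odd]; ring
  · show M x ^ 2 ≤ M y ^ 2
    have h1 : 0 ≤ M x := by
      rw [← h0]; exact h.mono hx
    have h2 : M x ≤ M y := h.mono hxy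
    exact pow_le_pow_left₀ h1 h2 2

theorem sp5_sq_cont {F M D : ℝ → ℝ} (h : Ec F M D) : Continuous (fun x => M x ^ 2) :=
  h.sm.cont1.pow 2

theorem sp5_sq_bdd {F M D : ℝ → ℝ} (h : Ec F M D) (x : ℝ) : |M x ^ 2| ≤ 1 := by
  have h1 := h.abs_M x
  rw [abs_pow]
  exact pow_le_one₀ (abs_nonneg _) h1

theorem sp5_sq_le {F M D F' M' D' : ℝ → ℝ} (h : Ec F M D) (h' : Ec F' M' D')
    (hle : ∀ x, 0 ≤ x → M' x ≤ M x) (x : ℝ) : M' x ^ 2 ≤ M x ^ 2 := by
  have key : ∀ y, 0 ≤ y → M' y ^ 2 ≤ M y ^ 2 := by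
    intro y hy
    have h0 : M' 0 = 0 := by
      have h1 := h'.odd 0
      rw [neg_zero] at h1
      linarith
    have h1 : 0 ≤ M' y := by
      rw [← h0]; exact h'.mono hy
    exact pow_le_pow_left₀ h1 (hle y hy) 2
  rcases le_total 0 x with hx | hx
  · exact key x hx
  · have h1 := key (-x) (by linarith only [hx])
    rw [h.odd, h'.odd, neg_sq, neg_sq] at h1
    exact h1

/-! ### Two steps -/

theorem sp5_fam_const {F M D : ℝ → ℝ} (h : Ec F M D) (a b : ℝ) :
    Fam a b (fun _ => F) (fun _ => M) (fun _ => D) (fun _ _ => 0) where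
  d1 := fun _ _ x => h.d1 x
  d2 := fun _ _ x => h.d2 x
  ds := fun _ _ x => hasDerivAt_const _ _
  c0 := (h.sm.cont.comp continuous_snd).continuousOn
  c1 := (h.sm.cont1.comp continuous_snd).continuousOn
  c2 := (h.cD.comp continuous_snd).continuousOn
  cs := continuousOn_const
  b1 := ⟨1, fun _ _ x => h.abs_M x⟩
  b2 := ⟨1, fun _ _ x => h.sm.bD x⟩
  bs := ⟨0, fun _ _ x => by simp⟩

theorem two_step_cmp {F M D : ℝ → ℝ} (h : Ec F M D) {m m' : ℝ} (hm : 0 < m) (hmm : m ≤ m')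
    (hm' : m' ≤ 1) {v v' s : ℝ} (hv : 0 ≤ v) (hs : 0 ≤ s) (hv' : s ≤ v') {x : ℝ} (hx : 0 ≤ x) :
    tlt m (v + s) (gstep m' (v' - s) F) (tlt m' (v' - s) F M) x ≤
      tlt m v (gstep m' v' F) (tlt m' v' F M) x := by
  have hm'0 : 0 < m' := hm.trans_le hmm
  rcases hs.eq_or_lt with hs0 | hs0
  · rw [← hs0, add_zero, sub_zero]
  have f0 := sp5_fam_const h 0 s
  have f1 := f0.step (m := m') hm'0 (v₀ := v') (d := -1) (fun t ht => by
    have h1 := ht.2
    linarith only [hv', h1])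
  have f2 := f1.step (m := m) hm (v₀ := v) (d := 1) (fun t ht => by
    have h1 := ht.1
    linarith only [hv, h1])
  -- the derivative in the parameter
  have hus : ∀ t x, tlt m (v + t * 1) (gstep m' (v' + t * -1) F)
      (fun y => tlt m' (v' + t * -1) F (fun y => 0 + -1 / 2 * (D y + m' * M y ^ 2)) y + 1 / 2 *
        ((tlt m' (v' + t * -1) F (fun y => D y + m' * M y ^ 2) y -
        m' * tlt m' (v' + t * -1) F M y ^ 2) + m * tlt m' (v' + t * -1) F M y ^ 2)) x =
      -(1 / 2) * (m' - m) * tlt m (v + t * 1) (gstep m' (v' + t * -1) F)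
        (fun y => tlt m' (v' + t * -1) F M y ^ 2) x := by
    intro t x
    rw [← tlt_const_mul]
    congr 1
    funext y
    have h1 : tlt m' (v' + t * -1) F (fun y => 0 + -1 / 2 * (D y + m' * M y ^ 2)) y =
        -1 / 2 * tlt m' (v' + t * -1) F (fun y => D y + m' * M y ^ 2) y := by
      rw [← tlt_const_mul]
      congr 1
      funext y
      ring
    rw [h1]
    ring
  -- monotonicity of the increments
  have hinc : ∀ x y, 0 ≤ x → x ≤ y →
      gstep m (v + s * 1) (gstep m' (v' + s * -1) F) y -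
        gstep m (v + s * 1) (gstep m' (v' + s * -1) F) x ≤
      gstep m (v + 0 * 1) (gstep m' (v' + 0 * -1) F) y -
        gstep m (v + 0 * 1) (gstep m' (v' + 0 * -1) F) x := by
    intro x y hx hxy
    have hderiv : ∀ t ∈ Ioo 0 s, HasDerivAt
        (fun t => gstep m (v + t * 1) (gstep m' (v' + t * -1) F) y -
          gstep m (v + t * 1) (gstep m' (v' + t * -1) F) x)
        (-(1 / 2) * (m' - m) * tlt m (v + t * 1) (gstep m' (v' + t * -1) F)
          (fun y => tlt m' (v' + t * -1) F M y ^ 2) y -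
          -(1 / 2) * (m' - m) * tlt m (v + t * 1) (gstep m' (v' + t * -1) F)
          (fun y => tlt m' (v' + t * -1) F M y ^ 2) x) t := by
      intro t ht
      rw [← hus, ← hus]
      exact (f2.ds t ht y).sub (f2.ds t ht x)
    have hcont : ContinuousOn (fun t => gstep m (v + t * 1) (gstep m' (v' + t * -1) F) y -
          gstep m (v + t * 1) (gstep m' (v' + t * -1) F) x) (Icc 0 s) := by
      have hc : ∀ z : ℝ, ContinuousOn
          (fun t => gstep m (v + t * 1) (gstep m' (v' + t * -1) F) z) (Icc 0 s) := by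
        intro z
        exact f2.c0.comp (f := fun t : ℝ => (t, z)) (by fun_prop)
          (fun t ht => ⟨ht, mem_univ _⟩)
      exact (hc y).sub (hc x)
    have hanti : AntitoneOn (fun t => gstep m (v + t * 1) (gstep m' (v' + t * -1) F) y -
          gstep m (v + t * 1) (gstep m' (v' + t * -1) F) x) (Icc 0 s) := by
      refine antitoneOn_of_deriv_nonpos (convex_Icc 0 s) hcont ?_ ?_
      · rw [interior_Icc]
        exact fun t ht => (hderiv t ht).differentiableAt.differentiableWithinAt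
      · rw [interior_Icc]
        intro t ht
        rw [(hderiv t ht).deriv]
        have hE := h.step hm'0 hm' (v' + t * -1)
        have hev := hE.tlt_evm (sp5_sq_cont hE) (sp5_sq_bdd hE) (sp5_sq_evm hE) hm (v + t * 1)
        have h1 := hev.2 (mem_Ici.2 hx) (mem_Ici.2 (hx.trans hxy)) hxy
        have h2 : 0 ≤ m' - m := sub_nonneg.2 hmm
        nlinarith only [hmm, h1]
    exact hanti (left_mem_Icc.2 hs0.le) (right_mem_Icc.2 hs0.le) hs0.le
  have hd0 := f2.d1 0 (left_mem_Icc.2 hs0.le) x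
  have hds := f2.d1 s (right_mem_Icc.2 hs0.le) x
  have hfin := sp5_deriv_nonneg (hd0.sub hds) (fun y hy => by
    have h1 := hinc x y hx hy
    simp only [Pi.sub_apply]
    linarith only [h1])
  simp only [mul_one, add_zero, mul_neg, ← sub_eq_add_neg, sub_zero] at hfin
  linarith only [hfin]

/-! ### Comparison of two chains -/

theorem sp5_chn_cmp {m r r' : ℕ → ℝ} : ∀ (l : ℕ), (∀ i ≤ l, r' i = r i) →
    (∀ i, 1 ≤ i → i ≤ l → 0 < m i ∧ m i ≤ 1) → ∀ {F M D F' M' D' g g' : ℝ → ℝ} {K K' : ℝ},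
    Ec F M D → Ec F' M' D' → (∀ x, 0 ≤ x → M' x ≤ M x) → Continuous g → (∀ x, |g x| ≤ K) →
    Continuous g' → (∀ x, |g' x| ≤ K') → Evm g → Evm g' → (∀ x, g' x ≤ g x) →
    chn m r' l F' g' ≤ chn m r l F g := by
  intro l
  induction l with
  | zero =>
    intro hr hm F M D F' M' D' g g' K K' hE hE' hle hg hK hg' hK' hev hev' hgg
    rw [chn_zero_def, chn_zero_def, hr 0 le_rfl]
    refine integral_mono ?_ ?_ (fun z => hgg _)
    · exact Integrable.of_bound (hg'.comp (by fun_prop)).aestronglyMeasurable K'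
        (Eventually.of_forall fun z => hK' _)
    · exact Integrable.of_bound (hg.comp (by fun_prop)).aestronglyMeasurable K
        (Eventually.of_forall fun z => hK _)
  | succ l ih =>
    intro hr hm F M D F' M' D' g g' K K' hE hE' hle hg hK hg' hK' hev hev' hgg
    obtain ⟨hm0, hm1⟩ := hm (l + 1) (by omega) le_rfl
    rw [chn_succ_def, chn_succ_def, hr (l + 1) le_rfl, hr l (by omega)]
    exact ih (fun i hi => hr i (by (clear * - hi; omega))) (fun i h1 h2 => hm i h1 (by omega))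
      (hE.step hm0 hm1 _) (hE'.step hm0 hm1 _)
      (fun x hx => tlt_cmp_odd hE hE' hle hm0 _ hx)
      (hE.sm.tlt_cont hg hK _ _) (fun x => hE.sm.abs_tlt_le hg hK _ _ x)
      (hE'.sm.tlt_cont hg' hK' _ _) (fun x => hE'.sm.abs_tlt_le hg' hK' _ _ x)
      (hE.tlt_evm hg hK hev hm0 _) (hE'.tlt_evm hg' hK' hev' hm0 _)
      (fun x => tlt_cmp hE hE' hle hg hK hg' hK' hev.1 hev' hgg hm0 _ x)

theorem sp5_Rc_cmp {m r r' : ℕ → ℝ} {i : ℕ} : ∀ (l : ℕ), i ≤ l → (∀ i ≤ l, r' i = r i) →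
    (∀ i, 1 ≤ i → i ≤ l → 0 < m i ∧ m i ≤ 1) → ∀ {F M D F' M' D' : ℝ → ℝ},
    Ec F M D → Ec F' M' D' → (∀ x, 0 ≤ x → M' x ≤ M x) →
    Rc m r' l F' M' i ≤ Rc m r l F M i := by
  intro l
  induction l with
  | zero =>
    intro hi hr hm F M D F' M' D' hE hE' hle
    rw [Rc_zero_def, Rc_zero_def]
    exact sp5_chn_cmp 0 hr hm hE hE' hle (sp5_sq_cont hE) (sp5_sq_bdd hE) (sp5_sq_cont hE')
      (sp5_sq_bdd hE') (sp5_sq_evm hE) (sp5_sq_evm hE') (sp5_sq_le hE hE' hle)
  | succ l ih =>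
    intro hi hr hm F M D F' M' D' hE hE' hle
    obtain ⟨hm0, hm1⟩ := hm (l + 1) (by omega) le_rfl
    rcases Nat.lt_or_ge i (l + 1) with h | h
    · rw [Rc_succ_le m r l F M (by omega), Rc_succ_le m r' l F' M' (by omega),
        hr (l + 1) le_rfl, hr l (by omega)]
      exact ih (by omega) (fun i hi => hr i (by omega)) (fun i h1 h2 => hm i h1 (by omega))
        (hE.step hm0 hm1 _) (hE'.step hm0 hm1 _)
        (fun x hx => tlt_cmp_odd hE hE' hle hm0 _ hx)
    · obtain rfl : i = l + 1 := le_antisymm hi h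
      rw [Rc_succ_self, Rc_succ_self]
      exact sp5_chn_cmp (l + 1) hr hm hE hE' hle (sp5_sq_cont hE) (sp5_sq_bdd hE)
        (sp5_sq_cont hE') (sp5_sq_bdd hE') (sp5_sq_evm hE) (sp5_sq_evm hE')
        (sp5_sq_le hE hE' hle)

/-! ### The exponents -/

theorem sp5_exp_pos {k : ℕ} {m : ℕ → ℝ} (hm : Exponents k m) : ∀ i, 1 ≤ i → i ≤ k + 1 → 0 < m i := by
  intro i hi
  induction i, hi using Nat.le_induction with
  | base =>
    intro _
    have h1 := hm.2.2 0 (Nat.zero_le _)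
    rw [hm.1] at h1
    exact h1
  | succ n hn ih =>
    intro h
    exact (ih (by omega)).trans (hm.2.2 n (by omega))

theorem sp5_exp_le {k : ℕ} {m : ℕ → ℝ} (hm : Exponents k m) : ∀ i, i ≤ k + 1 → m i ≤ 1 := by
  intro i hi
  induction hi using Nat.decreasingInduction with
  | self => exact hm.2.1.le
  | of_succ n hn ih => exact (hm.2.2 n (by omega)).le.trans ih

/-! ### The overlaps decrease -/

theorem sp5_Rc_anti {m r : ℕ → ℝ} {i j : ℕ} (hij : i < j) {s : ℝ} (hs : 0 ≤ s) :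
    ∀ (l : ℕ), j < l → (∀ i < l, r i < r (i + 1)) →
    (∀ i < l, Function.update r j (r j + s) i < Function.update r j (r j + s) (i + 1)) →
    (∀ i, 1 ≤ i → i ≤ l → 0 < m i ∧ m i ≤ 1) → (m j ≤ m (j + 1)) →
    ∀ {F M D : ℝ → ℝ}, Ec F M D →
    Rc m (Function.update r j (r j + s)) l F M i ≤ Rc m r l F M i := by
  intro l
  induction l with
  | zero => intro h; omega
  | succ l ih =>
    intro hjl hr hr' hm hmj F M D hE
    obtain ⟨hm0, hm1⟩ := hm (l + 1) (by omega) le_rfl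
    rcases Nat.lt_or_ge j l with h | h
    · rw [Rc_succ_le m r l F M (by omega), Rc_succ_le m _ l F M (by omega),
        Function.update_of_ne (by omega), Function.update_of_ne (by omega)]
      exact ih h (fun i hi => hr i (by omega)) (fun i hi => hr' i (by omega))
        (fun i h1 h2 => hm i h1 (by omega)) hmj (hE.step hm0 hm1 _)
    · obtain rfl : j = l := by omega
      obtain ⟨j, rfl⟩ : ∃ j', j = j' + 1 := ⟨j - 1, by omega⟩
      rw [Rc_succ_le m r (j + 1) F M (by omega), Rc_succ_le m _ (j + 1) F M (by omega),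
        Rc_succ_le m r j _ _ (by omega), Rc_succ_le m _ j _ _ (by omega),
        Function.update_self, Function.update_of_ne (by omega), Function.update_of_ne (by omega)]
      obtain ⟨hn0, hn1⟩ := hm (j + 1) (by omega) (by omega)
      have hr1 := hr j (by omega)
      have hr2 := hr' (j + 1) (by omega)
      rw [Function.update_self, Function.update_of_ne (by omega)] at hr2
      have e1 : r (j + 1 + 1) - (r (j + 1) + s) = (r (j + 1 + 1) - r (j + 1)) - s := by ring
      have e2 : r (j + 1) + s - r j = (r (j + 1) - r j) + s := by ring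
      rw [e1, e2]
      refine sp5_Rc_cmp j (by omega) (fun i hi => Function.update_of_ne (by omega) _ _)
        (fun i h1 h2 => hm i h1 (by omega)) ((hE.step hm0 hm1 _).step hn0 hn1 _)
        ((hE.step hm0 hm1 _).step hn0 hn1 _) (fun x hx => ?_)
      exact two_step_cmp hE hn0 hmj hm1 (by linarith only [hr1]) hs (by linarith only [hr2]) hx

/-- Adding a constant to the log-weight does not change the tilted chain. -/
theorem sp5_tlt_add_const (m v c : ℝ) (F h : ℝ → ℝ) (x : ℝ) :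
    tlt m v (fun y => F y + c) h x = tlt m v F h x := by
  have h1 : ∀ y : ℝ, Real.exp (m * (F y + c)) = Real.exp (m * c) * Real.exp (m * F y) := by
    intro y
    rw [← Real.exp_add]
    ring_nf
  simp only [tlt]
  have h2 : (fun z => h (x + √v * z) * Real.exp (m * (F (x + √v * z) + c))) =
      fun z => Real.exp (m * c) * (h (x + √v * z) * Real.exp (m * F (x + √v * z))) := by
    funext z
    rw [h1]; ring
  have h3 : (fun z => Real.exp (m * (F (x + √v * z) + c))) =
      fun z => Real.exp (m * c) * Real.exp (m * F (x + √v * z)) := by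
    funext z
    rw [h1]
  rw [h2, h3, integral_const_mul, integral_const_mul,
    mul_div_mul_left _ _ (Real.exp_pos _).ne']

theorem sp5_tlt_one_logcosh {s : ℝ} (hs : 0 ≤ s) (x : ℝ) :
    tlt 1 s (fun x => Real.log (Real.cosh x)) Real.tanh x = Real.tanh x := by
  have h1 := (ec_logcosh.step one_pos le_rfl s).d1 x
  have h2 : gstep 1 s (fun x => Real.log (Real.cosh x)) =
      fun x => Real.log (Real.cosh x) + s / 2 := by
    funext x
    exact gstep_one_logcosh hs x
  rw [h2] at h1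
  exact h1.unique ((ec_logcosh.d1 x).add_const _)

theorem sp5_one_step_cmp {m : ℝ} (hm : 0 < m) (hm1 : m ≤ 1) {v s : ℝ} (hv : 0 ≤ v) (hs : 0 ≤ s)
    {x : ℝ} (hx : 0 ≤ x) :
    tlt m (v + s) (fun x => Real.log (Real.cosh x)) Real.tanh x ≤
      tlt m v (fun x => Real.log (Real.cosh x)) Real.tanh x := by
  have h1 := two_step_cmp ec_logcosh hm hm1 le_rfl hv hs (le_refl s) hx
  have e1 : ∀ t, 0 ≤ t → gstep 1 t (fun x => Real.log (Real.cosh x)) =
      fun x => Real.log (Real.cosh x) + t / 2 := by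
    intro t ht
    funext x
    exact gstep_one_logcosh ht x
  have e2 : ∀ t, 0 ≤ t → tlt 1 t (fun x => Real.log (Real.cosh x)) Real.tanh = Real.tanh := by
    intro t ht
    funext x
    exact sp5_tlt_one_logcosh ht x
  rw [sub_self, e1 0 le_rfl, e1 s hs, e2 0 le_rfl, e2 s hs, sp5_tlt_add_const,
    sp5_tlt_add_const] at h1
  exact h1

theorem spR_anti {k : ℕ} {m r : ℕ → ℝ} (hm : Exponents k m) (hr : SPath k r) {i j : ℕ}
    (hij : i < j) (hj : j ≤ k) {s : ℝ} (hs : 0 ≤ s)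
    (hr' : SPath k (Function.update r j (r j + s))) :
    spR k m (Function.update r j (r j + s)) i ≤ spR k m r i := by
  have hmm : ∀ i, 1 ≤ i → i ≤ k → 0 < m i ∧ m i ≤ 1 := fun i h1 h2 =>
    ⟨sp5_exp_pos hm i h1 (by omega), sp5_exp_le hm i (by omega)⟩
  unfold spR
  rcases hj.lt_or_eq with h | h
  · exact sp5_Rc_anti hij hs k h hr.2 hr'.2 hmm (hm.2.2 j hj).le ec_logcosh
  · subst h
    obtain ⟨j, rfl⟩ : ∃ j', j = j' + 1 := ⟨j - 1, by omega⟩
    obtain ⟨hm0, hm1⟩ := hmm (j + 1) (by omega) le_rfl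
    have hr1 := hr.2 j (by omega)
    rw [Rc_succ_le m r j _ _ (by omega), Rc_succ_le m _ j _ _ (by omega),
      Function.update_self, Function.update_of_ne (by omega)]
    have e2 : r (j + 1) + s - r j = (r (j + 1) - r j) + s := by ring
    rw [e2]
    exact sp5_Rc_cmp j (by omega) (fun i hi => Function.update_of_ne (by omega) _ _)
      (fun i h1 h2 => hmm i h1 (by omega)) (ec_logcosh.step hm0 hm1 _)
      (ec_logcosh.step hm0 hm1 _)
      (fun x hx => sp5_one_step_cmp hm0 hm1 (by linarith only [hr1]) hs hx)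

/-! ### The overlaps increase along the diagonal -/

theorem sp5_chn_diag {m r : ℕ → ℝ} {c : ℝ} (hc : 0 ≤ c) : ∀ (l : ℕ),
    (∀ i, 1 ≤ i → i ≤ l → 0 < m i ∧ m i ≤ 1) → ∀ {F M D g : ℝ → ℝ} {K : ℝ},
    Ec F M D → Continuous g → (∀ x, |g x| ≤ K) → Evm g →
    chn m r l F g ≤ chn m (fun l => r l + c) l F g := by
  intro l
  induction l with
  | zero =>
    intro hm F M D g K hE hg hK hev
    rw [chn_zero_def, chn_zero_def]
    exact evm_gauss_mono hg hK hev (by linarith)
  | succ l ih =>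
    intro hm F M D g K hE hg hK hev
    obtain ⟨hm0, hm1⟩ := hm (l + 1) (by omega) le_rfl
    rw [chn_succ_def, chn_succ_def]
    have e : r (l + 1) + c - (r l + c) = r (l + 1) - r l := by ring
    simp only [e]
    exact ih (fun i h1 h2 => hm i h1 (by omega)) (hE.step hm0 hm1 _)
      (hE.sm.tlt_cont hg hK _ _) (fun x => hE.sm.abs_tlt_le hg hK _ _ x)
      (hE.tlt_evm hg hK hev hm0 _)

theorem sp5_Rc_diag {m r : ℕ → ℝ} {c : ℝ} (hc : 0 ≤ c) {j : ℕ} : ∀ (l : ℕ), j ≤ l →
    (∀ i, 1 ≤ i → i ≤ l → 0 < m i ∧ m i ≤ 1) → ∀ {F M D : ℝ → ℝ}, Ec F M D →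
    Rc m r l F M j ≤ Rc m (fun l => r l + c) l F M j := by
  intro l
  induction l with
  | zero =>
    intro hj hm F M D hE
    rw [Rc_zero_def, Rc_zero_def]
    exact sp5_chn_diag hc 0 hm hE (sp5_sq_cont hE) (sp5_sq_bdd hE) (sp5_sq_evm hE)
  | succ l ih =>
    intro hj hm F M D hE
    obtain ⟨hm0, hm1⟩ := hm (l + 1) (by omega) le_rfl
    rcases Nat.lt_or_ge j (l + 1) with h | h
    · rw [Rc_succ_le m r l F M (by omega), Rc_succ_le m _ l F M (by omega)]
      have e : r (l + 1) + c - (r l + c) = r (l + 1) - r l := by ring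
      simp only [e]
      exact ih (by omega) (fun i h1 h2 => hm i h1 (by omega)) (hE.step hm0 hm1 _)
    · obtain rfl : j = l + 1 := le_antisymm hj h
      rw [Rc_succ_self, Rc_succ_self]
      exact sp5_chn_diag hc (l + 1) hm hE (sp5_sq_cont hE) (sp5_sq_bdd hE) (sp5_sq_evm hE)

theorem spR_diag {k : ℕ} {m r : ℕ → ℝ} (hm : Exponents k m) (hr : SPath k r) {c : ℝ}
    (hc : 0 ≤ c) {j : ℕ} (hj : j ≤ k) :
    spR k m r j ≤ spR k m (fun l => r l + c) j := by
  unfold spR
  exact sp5_Rc_diag hc k hj (fun i h1 h2 =>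
    ⟨sp5_exp_pos hm i h1 (by omega), sp5_exp_le hm i (by omega)⟩) ec_logcosh

end Vale.Agent.P157.Par
end

section

/-! The tangent inequality for the spin part. -/

open MeasureTheory ProbabilityTheory Filter Topology Set

namespace Vale.Agent.P157.Par

theorem spin_tangent {k : ℕ} {m r r' : ℕ → ℝ} (hm : Exponents k m) (hr : SPath k r)
    (hr' : Path k r') :
    spinPart k m r' ≤ spinPart k m r -
      1 / 2 * ∑ l ∈ Finset.range (k + 1), (m (l + 1) - m l) * spR k m r l * (r' l - r l) := by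
  refine lnat_tangent (w := fun l => m (l + 1) - m l)
    (fun l hl => sub_pos.2 (hm.2.2 l hl)) (fun r => spinPart k m r) (fun r j => spR k m r j)
    (fun r η a ha hs hp => spin_deriv hm ha hs hp)
    (fun r i j s hr hij hj hs hr' => spR_anti hm hr hij hj hs hr')
    (fun r c j hr hc hj => spR_diag hm hr hc hj) hr hr'

end Vale.Agent.P157.Par
end

section

/-!
The pattern part is Lipschitz in the path, and nonincreasing in each coordinate.
-/

open MeasureTheory ProbabilityTheory Filter Topology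

namespace Vale.Agent.P157.Par

attribute [local irreducible] gstep tlt

/-! ### Two steps -/

lemma psil_fam_const {L B : ℝ} {F M D : ℝ → ℝ} (h : Sm L B F M D) (a b : ℝ) :
    Fam a b (fun _ => F) (fun _ => M) (fun _ => D) (fun _ _ => 0) where
  d1 := fun _ _ x => h.d1 x
  d2 := fun _ _ x => h.d2 x
  ds := fun s _ x => hasDerivAt_const s (F x)
  c0 := by
    have h1 : Continuous F := continuous_iff_continuousAt.2 fun x => (h.d1 x).continuousAt
    exact (h1.comp continuous_snd).continuousOn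
  c1 := by
    have h1 : Continuous M := continuous_iff_continuousAt.2 fun x => (h.d2 x).continuousAt
    exact (h1.comp continuous_snd).continuousOn
  c2 := (h.cD.comp continuous_snd).continuousOn
  cs := continuousOn_const
  b1 := ⟨L, fun _ _ x => h.bM x⟩
  b2 := ⟨B, fun _ _ x => h.bD x⟩
  bs := ⟨0, fun _ _ _ => by simp⟩

lemma psil_cont {L B : ℝ} {F M D : ℝ → ℝ} (h : Sm L B F M D) : Continuous F :=
  continuous_iff_continuousAt.2 fun x => (h.d1 x).continuousAt

lemma psil_cont1 {L B : ℝ} {F M D : ℝ → ℝ} (h : Sm L B F M D) : Continuous M :=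
  continuous_iff_continuousAt.2 fun x => (h.d2 x).continuousAt

lemma psil_mvt {φ φ' : ℝ → ℝ} {s K : ℝ} (hs : 0 ≤ s) (hc : ContinuousOn φ (Set.Icc 0 s))
    (hd : ∀ t ∈ Set.Ioo 0 s, HasDerivAt φ (φ' t) t)
    (hb : ∀ t ∈ Set.Ioo 0 s, -K ≤ φ' t ∧ φ' t ≤ 0) :
    φ 0 - K * s ≤ φ s ∧ φ s ≤ φ 0 := by
  rcases hs.eq_or_lt with h0 | h0
  · rw [← h0]; simp
  · obtain ⟨t, ht, he⟩ := exists_hasDerivAt_eq_slope φ φ' h0 hc hd
    have h1 := hb t ht
    rw [sub_zero, eq_div_iff h0.ne'] at he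
    constructor
    · nlinarith only [he, hs, h1.1]
    · nlinarith only [he, hs, h1.2]

/-- The square of the tilted average of the derivative. -/
lemma psil_sq {L B : ℝ} {F M D : ℝ → ℝ} (h : Sm L B F M D) {m : ℝ} (hm : 0 < m) (v x : ℝ) :
    0 ≤ tlt m v F M x ^ 2 ∧ tlt m v F M x ^ 2 ≤ L ^ 2 := by
  have h1 := (h.step hm v).bM x
  refine ⟨sq_nonneg _, ?_⟩
  rw [← sq_abs]
  exact pow_le_pow_left₀ (abs_nonneg _) h1 2

lemma psil_us {F M D : ℝ → ℝ} (m v : ℝ) (y : ℝ) :
    tlt m v F (fun y => (0 : ℝ) + -1 / 2 * (D y + m * M y ^ 2)) y =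
      -1 / 2 * tlt m v F (fun y => D y + m * M y ^ 2) y := by
  have h1 : (fun y => (0 : ℝ) + -1 / 2 * (D y + m * M y ^ 2)) =
      fun y => -1 / 2 * (D y + m * M y ^ 2) := by
    funext y; rw [zero_add]
  rw [h1]
  exact tlt_const_mul m v (-1 / 2) F (fun y => D y + m * M y ^ 2) y

lemma psil_two_step {L B : ℝ} {F M D : ℝ → ℝ} (h : Sm L B F M D) {m m' : ℝ} (hm : 0 < m)
    (hmm : m ≤ m') {v v' s : ℝ} (hv : 0 ≤ v) (hs : 0 ≤ s) (hv' : s ≤ v') (x : ℝ) :
    gstep m v (gstep m' v' F) x - L ^ 2 / 2 * (m' - m) * s ≤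
      gstep m (v + s) (gstep m' (v' - s) F) x ∧
    gstep m (v + s) (gstep m' (v' - s) F) x ≤ gstep m v (gstep m' v' F) x := by
  have hm' : 0 < m' := lt_of_lt_of_le hm hmm
  have fam1 := (psil_fam_const h 0 s).step hm' (v₀ := v') (d := -1)
    (fun t ht => by linarith only [hv', ht.2])
  have fam2 := fam1.step hm (v₀ := v) (d := 1) (fun t ht => by linarith only [hv, ht.1])
  have key := psil_mvt (φ := fun t => gstep m (v + t * 1) (gstep m' (v' + t * -1) F) x)
    (K := L ^ 2 / 2 * (m' - m)) hs ?_ (fun t ht => fam2.ds t ht x) ?_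
  · have e1 : v + s * 1 = v + s := by ring
    have e2 : v' + s * -1 = v' - s := by ring
    simp only [e1, e2, zero_mul, add_zero] at key
    exact key
  · have h1 := fam2.c0
    have h2 : ContinuousOn (fun t : ℝ => ((t, x) : ℝ × ℝ)) (Set.Icc 0 s) := by fun_prop
    exact h1.comp h2 fun t ht => ⟨ht, Set.mem_univ _⟩
  · intro t ht
    have hsm := h.step hm' (v' + t * -1)
    have e : (fun y => tlt m' (v' + t * -1) F
        (fun y => (0 : ℝ) + -1 / 2 * (D y + m' * M y ^ 2)) y +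
        1 / 2 * ((tlt m' (v' + t * -1) F (fun y => D y + m' * M y ^ 2) y -
          m' * tlt m' (v' + t * -1) F M y ^ 2) + m * tlt m' (v' + t * -1) F M y ^ 2)) =
        fun y => -(1 / 2 * (m' - m)) * tlt m' (v' + t * -1) F M y ^ 2 := by
      funext y
      rw [psil_us]
      ring
    rw [e]
    have hc : Continuous (fun y => -(1 / 2 * (m' - m)) * tlt m' (v' + t * -1) F M y ^ 2) :=
      ((psil_cont1 hsm).pow 2).const_mul _
    have hb : ∀ y, -(L ^ 2 / 2 * (m' - m)) ≤
        -(1 / 2 * (m' - m)) * tlt m' (v' + t * -1) F M y ^ 2 ∧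
        -(1 / 2 * (m' - m)) * tlt m' (v' + t * -1) F M y ^ 2 ≤ 0 := by
      intro y
      have h3 := psil_sq h hm' (v' + t * -1) y
      have h4 : 0 ≤ 1 / 2 * (m' - m) := by linarith only [hmm]
      constructor
      · linarith only [mul_le_mul_of_nonneg_left h3.2 h4]
      · linarith only [mul_nonneg h4 h3.1]
    have hb' : ∀ y, |-(1 / 2 * (m' - m)) * tlt m' (v' + t * -1) F M y ^ 2| ≤
        L ^ 2 / 2 * (m' - m) := by
      intro y
      have h3 := hb y
      rw [abs_le]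
      exact ⟨h3.1, h3.2.trans (by have := sq_nonneg L; linarith only [h3])⟩
    constructor
    · have h5 := hsm.tlt_mono (g := fun _ => -(L ^ 2 / 2 * (m' - m))) continuous_const
        (K := |-(L ^ 2 / 2 * (m' - m))|) (fun _ => le_rfl) hc hb' (fun y => (hb y).1) m
        (v + t * 1) x
      rw [hsm.tlt_const] at h5
      exact h5
    · have h5 := hsm.tlt_mono hc hb' (g' := fun _ => 0) continuous_const (K' := 0)
        (fun _ => by simp) (fun y => (hb y).2) m (v + t * 1) x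
      rw [hsm.tlt_const] at h5
      exact h5

lemma psil_integrable {L B : ℝ} {F M D : ℝ → ℝ} (h : Sm L B F M D) (v : ℝ) :
    Integrable (fun z => F (√v * z)) (gaussianReal 0 1) := by
  have h1 := h.integrable_exp 1 v 0
  have h2 := h.integrable_exp (-1) v 0
  refine (h1.add h2).mono' ?_ (Eventually.of_forall fun z => ?_)
  · exact ((psil_cont h).comp (continuous_const.mul continuous_id)).aestronglyMeasurable
  · simp only [Pi.add_apply, zero_add, one_mul]
    rw [Real.norm_eq_abs, abs_le]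
    have h3 := Real.add_one_le_exp (F (√v * z))
    have h4 := Real.add_one_le_exp (-1 * F (√v * z))
    have h5 := Real.exp_pos (F (√v * z))
    have h6 := Real.exp_pos (-1 * F (√v * z))
    constructor <;> linarith

lemma psil_bottom {L B : ℝ} {F M D : ℝ → ℝ} (h : Sm L B F M D) {m' : ℝ} (hm' : 0 < m')
    {v v' s : ℝ} (hv : 0 ≤ v) (hs : 0 ≤ s) (hv' : s ≤ v') :
    ∫ z, gstep m' v' F (√v * z) ∂(gaussianReal 0 1) - L ^ 2 / 2 * m' * s ≤
      ∫ z, gstep m' (v' - s) F (√(v + s) * z) ∂(gaussianReal 0 1) ∧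
    ∫ z, gstep m' (v' - s) F (√(v + s) * z) ∂(gaussianReal 0 1) ≤
      ∫ z, gstep m' v' F (√v * z) ∂(gaussianReal 0 1) := by
  have fam1 := (psil_fam_const h 0 s).step hm' (v₀ := v') (d := -1)
    (fun t ht => by linarith [ht.2])
  obtain ⟨hc, hd⟩ := fam1.bottom (v₀ := v) (d := 1) (fun t ht => by linarith only [hv, ht.1])
  have key := psil_mvt (φ := fun t => ∫ z, gstep m' (v' + t * -1) F (√(v + t * 1) * z)
      ∂(gaussianReal 0 1))
    (K := L ^ 2 / 2 * m') hs hc hd ?_
  · have e1 : v + s * 1 = v + s := by ring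
    have e2 : v' + s * -1 = v' - s := by ring
    simp only [e1, e2, zero_mul, add_zero] at key
    exact key
  · intro t ht
    have hsm := h.step hm' (v' + t * -1)
    have e : ∀ y, tlt m' (v' + t * -1) F
        (fun y => (0 : ℝ) + -1 / 2 * (D y + m' * M y ^ 2)) y +
        1 / 2 * (tlt m' (v' + t * -1) F (fun y => D y + m' * M y ^ 2) y -
          m' * tlt m' (v' + t * -1) F M y ^ 2) =
        -(1 / 2 * m') * tlt m' (v' + t * -1) F M y ^ 2 := by
      intro y
      rw [psil_us]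
      ring
    have hb : ∀ y, -(L ^ 2 / 2 * m') ≤
        -(1 / 2 * m') * tlt m' (v' + t * -1) F M y ^ 2 ∧
        -(1 / 2 * m') * tlt m' (v' + t * -1) F M y ^ 2 ≤ 0 := by
      intro y
      have h3 := psil_sq h hm' (v' + t * -1) y
      have h4 : 0 ≤ 1 / 2 * m' := by linarith only [hm']
      constructor
      · linarith only [mul_le_mul_of_nonneg_left h3.2 h4]
      · linarith only [mul_nonneg h4 h3.1]
    have hint : Integrable (fun z => -(1 / 2 * m') *
        tlt m' (v' + t * -1) F M (√(v + t * 1) * z) ^ 2) (gaussianReal 0 1) := by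
      refine (integrable_const (L ^ 2 / 2 * m')).mono' ?_ (Eventually.of_forall fun z => ?_)
      · exact ((((psil_cont1 hsm).comp (continuous_const.mul continuous_id)).pow 2).const_mul
          _).aestronglyMeasurable
      · have h3 := hb (√(v + t * 1) * z)
        rw [Real.norm_eq_abs, abs_le]
        exact ⟨h3.1, h3.2.trans (by (clear * - hm'; positivity))⟩
    simp only [e]
    constructor
    · calc -(L ^ 2 / 2 * m') = ∫ _z, -(L ^ 2 / 2 * m') ∂(gaussianReal 0 1) := by simp only [integral_const, probReal_univ, smul_eq_mul, mul_neg, one_mul]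
        _ ≤ _ := integral_mono (integrable_const _) hint fun z => (hb _).1
    · exact integral_nonpos fun z => (hb _).2

/-! ### The cascade -/

/-- The bottom average of the cascade. -/
noncomputable def psil_Phi (m q : ℕ → ℝ) (l : ℕ) (F : ℝ → ℝ) : ℝ :=
  ∫ z, cascade m q l F (√(q 0) * z) ∂(gaussianReal 0 1)

lemma psil_Phi_succ (m q : ℕ → ℝ) (l : ℕ) (F : ℝ → ℝ) :
    psil_Phi m q (l + 1) F = psil_Phi m q l (gstep (m (l + 1)) (q (l + 1) - q l) F) := by
  unfold psil_Phi
  rw [cascade_succ_def]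

lemma psil_Phi_zero (m q : ℕ → ℝ) (F : ℝ → ℝ) :
    psil_Phi m q 0 F = ∫ z, F (√(q 0) * z) ∂(gaussianReal 0 1) := rfl

lemma psil_Phi_congr (m : ℕ → ℝ) {q q' : ℕ → ℝ} (l : ℕ) (F : ℝ → ℝ)
    (h : ∀ i ≤ l, q i = q' i) : psil_Phi m q l F = psil_Phi m q' l F := by
  induction l generalizing F with
  | zero => rw [psil_Phi_zero, psil_Phi_zero, h 0 le_rfl]
  | succ l ih =>
    rw [psil_Phi_succ, psil_Phi_succ, h (l + 1) le_rfl, h l (Nat.le_succ l)]
    exact ih _ fun i hi => h i (hi.trans (Nat.le_succ l))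

lemma psil_gstep_sub {L L' B B' : ℝ} {F M D F' M' D' : ℝ → ℝ} (h : Sm L B F M D)
    (h' : Sm L' B' F' M' D') {c : ℝ} (hle : ∀ x, F x - c ≤ F' x) {m : ℝ} (hm : 0 < m) (v x : ℝ) :
    gstep m v F x - c ≤ gstep m v F' x := by
  have h1 : Real.exp (-(m * c)) * ∫ z, Real.exp (m * F (x + √v * z)) ∂(gaussianReal 0 1) ≤
      ∫ z, Real.exp (m * F' (x + √v * z)) ∂(gaussianReal 0 1) := by
    rw [← integral_const_mul]
    refine integral_mono ((h.integrable_exp m v x).const_mul _) (h'.integrable_exp m v x)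
      fun z => ?_
    simp only
    rw [← Real.exp_add]
    apply Real.exp_le_exp.2
    have := mul_le_mul_of_nonneg_left (hle (x + √v * z)) hm.le
    linarith only [this]
  have h2 := h.int_exp_pos m v x
  have h3 := Real.log_le_log (mul_pos (Real.exp_pos _) h2) h1
  rw [Real.log_mul (Real.exp_pos _).ne' h2.ne', Real.log_exp] at h3
  have h4 := mul_le_mul_of_nonneg_left h3 (show 0 ≤ 1 / m by positivity)
  have h5 : 1 / m * (-(m * c) + Real.log (∫ z, Real.exp (m * F (x + √v * z))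
      ∂(gaussianReal 0 1))) = gstep m v F x - c := by
    unfold gstep
    field_simp
    ring
  rw [h5] at h4
  have h6 : gstep m v F' x = 1 / m * Real.log (∫ z, Real.exp (m * F' (x + √v * z))
      ∂(gaussianReal 0 1)) := by
    unfold gstep
    rfl
  rw [h6]
  exact h4

lemma psil_Phi_sub {m q : ℕ → ℝ} {l : ℕ} (hm : ∀ i < l, 0 < m (i + 1)) {L L' B B' : ℝ}
    {F M D F' M' D' : ℝ → ℝ} (h : Sm L B F M D) (h' : Sm L' B' F' M' D') {c : ℝ}
    (hle : ∀ x, F x - c ≤ F' x) : psil_Phi m q l F - c ≤ psil_Phi m q l F' := by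
  induction l generalizing F M D F' M' D' B B' with
  | zero =>
    rw [psil_Phi_zero, psil_Phi_zero]
    have h1 : ∫ z, (F (√(q 0) * z) - c) ∂(gaussianReal 0 1) =
        ∫ z, F (√(q 0) * z) ∂(gaussianReal 0 1) - c := by
      rw [integral_sub (psil_integrable h _) (integrable_const _)]
      simp
    rw [← h1]
    exact integral_mono ((psil_integrable h _).sub (integrable_const _)) (psil_integrable h' _)
      fun z => hle _
  | succ l ih =>
    rw [psil_Phi_succ, psil_Phi_succ]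
    have hm' := hm l (Nat.lt_succ_self l)
    exact ih (fun i hi => hm i (Nat.lt_succ_of_lt hi)) (h.step hm' _) (h'.step hm' _)
      fun x => psil_gstep_sub h h' hle hm' _ x

/-- Raising one coordinate. -/
lemma psil_raise {L : ℝ} {m : ℕ → ℝ} (hm0 : m 0 = 0) (l : ℕ) :
    ∀ {q : ℕ → ℝ} {F M D : ℝ → ℝ} {B : ℝ}, Sm L B F M D → (∀ i < l, m i < m (i + 1)) →
    (∀ i < l, 0 < m (i + 1)) → 0 ≤ q 0 → (∀ i < l, q i ≤ q (i + 1)) → ∀ j < l, ∀ s, 0 ≤ s →
    q j + s ≤ q (j + 1) →
    psil_Phi m q l F - L ^ 2 / 2 * (m (j + 1) - m j) * s ≤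
      psil_Phi m (Function.update q j (q j + s)) l F ∧
    psil_Phi m (Function.update q j (q j + s)) l F ≤ psil_Phi m q l F := by
  induction l with
  | zero => intro q F M D B _ _ _ _ _ j hj; exact absurd hj (Nat.not_lt_zero j)
  | succ l ih =>
    intro q F M D B h hmm hm hq0 hq j hj s hs hjs
    have hml := hm l (Nat.lt_succ_self l)
    rcases Nat.lt_or_ge j l with hjl | hjl
    · rw [psil_Phi_succ, psil_Phi_succ, Function.update_of_ne (by omega),
        Function.update_of_ne (by omega)]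
      exact ih (h.step hml _) (fun i hi => hmm i (by omega)) (fun i hi => hm i (by omega)) hq0
        (fun i hi => hq i (by omega)) j hjl s hs hjs
    · have hjl' : j = l := by omega
      subst hjl'
      rcases j with _ | j
      · have h1 := psil_bottom h hml (v := q 0) (v' := q 1 - q 0) hq0 hs (by linarith only [hjs])
        rw [psil_Phi_succ, psil_Phi_succ, psil_Phi_zero, psil_Phi_zero, Function.update_self,
          Function.update_of_ne (by omega), hm0, sub_zero]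
        have e : q (0 + 1) - (q 0 + s) = q 1 - q 0 - s := by
          rw [zero_add]; ring
        rw [e]
        exact h1
      · have hmj := hm j (by omega)
        have h1 := fun x => psil_two_step h hmj (hmm (j + 1) (by omega)).le
          (v := q (j + 1) - q j) (v' := q (j + 1 + 1) - q (j + 1)) (s := s)
          (by linarith only [hq j (by omega)]) hs (by linarith only [hjs]) x
        have hsm1 := (h.step hml (q (j + 1 + 1) - q (j + 1))).step hmj (q (j + 1) - q j)
        have hsm2 := (h.step hml (q (j + 1 + 1) - q (j + 1) - s)).step hmj (q (j + 1) - q j + s)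
        have hmi : ∀ i < j, 0 < m (i + 1) := fun i hi => hm i (by omega)
        have h2 := psil_Phi_sub (q := q) hmi hsm1 hsm2 (fun x => (h1 x).1)
        have h3 := psil_Phi_sub (q := q) hmi hsm2 hsm1 (c := 0)
          (fun x => by rw [sub_zero]; exact (h1 x).2)
        rw [sub_zero] at h3
        have e1 : psil_Phi m q (j + 1 + 1) F = psil_Phi m q j (gstep (m (j + 1))
            (q (j + 1) - q j) (gstep (m (j + 1 + 1)) (q (j + 1 + 1) - q (j + 1)) F)) := by
          rw [psil_Phi_succ, psil_Phi_succ]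
        have e2 : psil_Phi m (Function.update q (j + 1) (q (j + 1) + s)) (j + 1 + 1) F =
            psil_Phi m q j (gstep (m (j + 1)) (q (j + 1) - q j + s)
              (gstep (m (j + 1 + 1)) (q (j + 1 + 1) - q (j + 1) - s) F)) := by
          rw [psil_Phi_succ, psil_Phi_succ, Function.update_self,
            Function.update_of_ne (by omega), Function.update_of_ne (by omega)]
          have e3 : q (j + 1) + s - q j = q (j + 1) - q j + s := by ring
          have e4 : q (j + 1 + 1) - (q (j + 1) + s) = q (j + 1 + 1) - q (j + 1) - s := by ring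
          rw [e3, e4]
          apply psil_Phi_congr
          intro i hi
          rw [Function.update_of_ne (by omega)]
        rw [e1, e2]
        exact ⟨h2, h3⟩

/-- Comparison of two ordered paths. -/
lemma psil_ordered {L B : ℝ} {m : ℕ → ℝ} (hm0 : m 0 = 0) {l : ℕ}
    (hmm : ∀ i < l, m i < m (i + 1)) (hm : ∀ i < l, 0 < m (i + 1)) {F M D : ℝ → ℝ}
    (h : Sm L B F M D) {q q' : ℕ → ℝ} (hq0 : 0 ≤ q 0) (hq : ∀ i < l, q i ≤ q (i + 1))
    (hq' : ∀ i < l, q' i ≤ q' (i + 1)) (hle : ∀ i ≤ l, q i ≤ q' i) (htop : q l = q' l) :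
    psil_Phi m q l F - L ^ 2 / 2 * ∑ i ∈ Finset.range l, (m (i + 1) - m i) * (q' i - q i) ≤
      psil_Phi m q' l F ∧ psil_Phi m q' l F ≤ psil_Phi m q l F := by
  have key : ∀ n ≤ l, psil_Phi m (fun i => if i < n then q i else q' i) l F -
      L ^ 2 / 2 * ∑ i ∈ Finset.range n, (m (i + 1) - m i) * (q' i - q i) ≤ psil_Phi m q' l F ∧
      psil_Phi m q' l F ≤ psil_Phi m (fun i => if i < n then q i else q' i) l F := by
    intro n
    induction n with
    | zero =>
      intro _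
      simp
    | succ n ih =>
      intro hn
      obtain ⟨h1, h2⟩ := ih (by omega)
      have h3 := psil_raise hm0 l (q := fun i => if i < n + 1 then q i else q' i) h hmm hm
        (by simpa only [lt_add_iff_pos_left, Order.lt_add_one_iff, zero_le, ↓reduceIte] using hq0) (by
          intro i hi
          split_ifs with h4 h5 h5
          · exact hq i hi
          · exact (hq i hi).trans (hle (i + 1) (by omega))
          · omega
          · exact hq' i hi) n (by omega) (q' n - q n) (by linarith only [hle n (by omega)]) (by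
          rw [if_pos (Nat.lt_succ_self n), if_neg (by omega)]
          linarith only [hq' n (by omega)])
      have e : Function.update (fun i => if i < n + 1 then q i else q' i) n
          ((fun i => if i < n + 1 then q i else q' i) n + (q' n - q n)) =
          fun i => if i < n then q i else q' i := by
        funext i
        by_cases hi : i = n
        · subst hi
          simp only [Order.lt_add_one_iff, lt_add_iff_pos_right, Order.lt_one_iff, ↓reduceIte, add_sub_cancel, Function.update_self, lt_self_iff_false]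
        · rw [Function.update_of_ne hi]
          by_cases hi' : i < n
          · rw [if_pos hi', if_pos (by omega)]
          · rw [if_neg hi', if_neg (by omega)]
      rw [e] at h3
      rw [Finset.sum_range_succ]
      constructor
      · linarith only [h1, h3.1]
      · linarith only [h2, h3.2]
  have h1 := key l le_rfl
  have e : psil_Phi m (fun i => if i < l then q i else q' i) l F = psil_Phi m q l F := by
    apply psil_Phi_congr
    intro i hi
    rcases Nat.lt_or_ge i l with h2 | h2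
    · simp only [if_pos h2]
    · have : i = l := by omega
      subst this
      simp [htop]
  rw [e] at h1
  exact h1

/-! ### The pattern part -/

lemma psil_patternPart {f : ℝ → ℝ} {k : ℕ} {m : ℕ → ℝ} (hm : m (k + 1) = 1) (q : ℕ → ℝ) :
    patternPart f k m q = psil_Phi m (Function.update q (k + 1) 1) (k + 1) f := by
  rw [psil_Phi_succ, hm, Function.update_self, Function.update_of_ne (by omega)]
  have h1 : gstep 1 (1 - q k) f = fun x => Real.log (∫ y, Real.exp (f (x + √(1 - q k) * y))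
      ∂(gaussianReal 0 1)) := by
    funext x
    unfold gstep
    simp
  rw [h1, psil_Phi_congr m (q' := q) k _ (fun i hi => Function.update_of_ne (by omega) _ _)]
  rfl

lemma psil_sm {C c₀ a : ℝ} {f f1 f2 f3 : ℝ → ℝ} (hf : Pot C c₀ a f f1 f2 f3) :
    Sm C C f f1 f2 where
  d1 := hf.cb3.d1
  d2 := hf.cb3.d2
  cD := continuous_iff_continuousAt.2 fun x => (hf.cb3.d3 x).continuousAt
  bM := hf.cb3.b1
  bD := hf.cb3.b2

/-- The pattern part along two ordered paths. -/
theorem psil_patternPart_ordered {C c₀ a : ℝ} {f f1 f2 f3 : ℝ → ℝ}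
    (hf : Pot C c₀ a f f1 f2 f3) {k : ℕ} {m q q' : ℕ → ℝ} (hm : Exponents k m) (hq : Path k q)
    (hq' : Path k q') (hq1' : q' k ≤ 1) (hle : ∀ l ≤ k, q l ≤ q' l) :
    patternPart f k m q - C ^ 2 / 2 * ∑ l ∈ Finset.range (k + 1),
      (m (l + 1) - m l) * (q' l - q l) ≤ patternPart f k m q' ∧
    patternPart f k m q' ≤ patternPart f k m q := by
  obtain ⟨hm0, hm1, hmm⟩ := hm
  have hmm' : ∀ i < k + 1, m i < m (i + 1) := fun i hi => hmm i (by omega)
  have hmnn : ∀ i ≤ k + 1, 0 ≤ m i := by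
    intro i
    induction i with
    | zero => intro _; rw [hm0]
    | succ i ih => intro hi; exact (ih (by omega)).trans (hmm' i (by omega)).le
  have hmpos : ∀ i < k + 1, 0 < m (i + 1) := fun i hi =>
    lt_of_le_of_lt (hmnn i (by omega)) (hmm' i hi)
  have ext : ∀ {p : ℕ → ℝ}, Path k p → p k ≤ 1 → 0 ≤ Function.update p (k + 1) 1 0 ∧
      ∀ i < k + 1, Function.update p (k + 1) 1 i ≤ Function.update p (k + 1) 1 (i + 1) := by
    intro p hp hp1
    constructor
    · rw [Function.update_of_ne (by omega)]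
      exact hp.1
    · intro i hi
      rw [Function.update_of_ne (by omega)]
      rcases Nat.lt_or_ge i k with h | h
      · rw [Function.update_of_ne (by omega)]
        exact hp.2 i h
      · have : i = k := by omega
        subst this
        rw [Function.update_self]
        exact hp1
  have h1 := psil_ordered hm0 hmm' hmpos (psil_sm hf) (q := Function.update q (k + 1) 1)
    (q' := Function.update q' (k + 1) 1) (ext hq ((hle k le_rfl).trans hq1')).1
    (ext hq ((hle k le_rfl).trans hq1')).2 (ext hq' hq1').2 (by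
      intro i hi
      rcases Nat.lt_or_ge i (k + 1) with h | h
      · rw [Function.update_of_ne (by omega), Function.update_of_ne (by omega)]
        exact hle i (by omega)
      · have : i = k + 1 := by omega
        subst this
        rw [Function.update_self, Function.update_self]) (by
      rw [Function.update_self, Function.update_self])
  rw [← psil_patternPart hm1, ← psil_patternPart hm1] at h1
  have e : ∑ i ∈ Finset.range (k + 1), (m (i + 1) - m i) *
      (Function.update q' (k + 1) 1 i - Function.update q (k + 1) 1 i) =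
      ∑ l ∈ Finset.range (k + 1), (m (l + 1) - m l) * (q' l - q l) := by
    refine Finset.sum_congr rfl fun i hi => ?_
    have := Finset.mem_range.1 hi
    rw [Function.update_of_ne (by omega), Function.update_of_ne (by omega)]
  rw [e] at h1
  exact h1

/-- The pattern part is Lipschitz in the path. -/
theorem patternPart_path_lip {C c₀ a : ℝ} {f f1 f2 f3 : ℝ → ℝ} (hf : Pot C c₀ a f f1 f2 f3)
    {k : ℕ} {m q q' : ℕ → ℝ} (hm : Exponents k m) (hq : Path k q) (hq' : Path k q')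
    (hq1 : q k ≤ 1) (hq1' : q' k ≤ 1) :
    |patternPart f k m q' - patternPart f k m q| ≤
      C ^ 2 / 2 * ∑ l ∈ Finset.range (k + 1), (m (l + 1) - m l) * |q' l - q l| := by
  have hp : Path k (fun l => max (q l) (q' l)) :=
    ⟨hq.1.trans (le_max_left _ _), fun l hl => max_le_max (hq.2 l hl) (hq'.2 l hl)⟩
  have hp1 : max (q k) (q' k) ≤ 1 := max_le hq1 hq1'
  have h1 := psil_patternPart_ordered hf hm hq hp hp1 (fun l _ => le_max_left _ _)
  have h2 := psil_patternPart_ordered hf hm hq' hp hp1 (fun l _ => le_max_right _ _)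
  have h3 : ∑ l ∈ Finset.range (k + 1), (m (l + 1) - m l) * |q' l - q l| =
      ∑ l ∈ Finset.range (k + 1), (m (l + 1) - m l) * (max (q l) (q' l) - q l) +
      ∑ l ∈ Finset.range (k + 1), (m (l + 1) - m l) * (max (q l) (q' l) - q' l) := by
    rw [← Finset.sum_add_distrib]
    refine Finset.sum_congr rfl fun l _ => ?_
    rw [← mul_add]
    congr 1
    rcases le_total (q l) (q' l) with h | h
    · rw [max_eq_right h, abs_of_nonneg (by linarith only [h])]
      ring
    · rw [max_eq_left h, abs_of_nonpos (by linarith only [h])]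
      ring
  have h4 : 0 ≤ ∑ l ∈ Finset.range (k + 1), (m (l + 1) - m l) * (max (q l) (q' l) - q l) :=
    Finset.sum_nonneg fun l hl => mul_nonneg
      (by linarith only [hm.2.2 l (by have := Finset.mem_range.1 hl; omega)])
      (by linarith only [le_max_left (q l) (q' l)])
  have h5 : 0 ≤ ∑ l ∈ Finset.range (k + 1), (m (l + 1) - m l) * (max (q l) (q' l) - q' l) :=
    Finset.sum_nonneg fun l hl => mul_nonneg
      (by linarith only [hm.2.2 l (by have := Finset.mem_range.1 hl; omega)])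
      (by linarith only [le_max_right (q l) (q' l)])
  have hC : 0 ≤ C ^ 2 / 2 := by (clear * -; positivity)
  have h6 := mul_nonneg hC h4
  have h7 := mul_nonneg hC h5
  rw [h3, mul_add, abs_le]
  constructor
  · linarith only [h2, h1.1]
  · linarith only [h1, h2, h2.1, h1.2]

end Vale.Agent.P157.Par
end

section

open MeasureTheory ProbabilityTheory Filter Topology Finset

namespace Vale.Agent.P157.Par

set_option linter.unusedSectionVars false

open Vale.Agent.P367.GT (gM)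

lemma exists_pos_le_range (n : ℕ) (g : ℕ → ℝ) (hg : ∀ p, 0 < g p) :
    ∃ e > 0, ∀ p ≤ n, e ≤ g p := by
  induction n with
  | zero => exact ⟨g 0, hg 0, fun p hp => by rw [Nat.le_zero.1 hp]⟩
  | succ n ih =>
    obtain ⟨e, he, h⟩ := ih
    refine ⟨min e (g (n + 1)), lt_min he (hg _), fun p hp => ?_⟩
    rcases Nat.lt_or_ge p (n + 1) with h1 | h1
    · exact (min_le_left _ _).trans (h p (by omega))
    · have : p = n + 1 := by omega
      rw [this]
      exact min_le_right _ _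

/-- The coefficients of the constant polynomial family. -/
lemma xi_const (d : ℝ) (n : ℕ) : xi (fun _ => d) n 1 = ((n : ℝ) + 1) * d := by
  rw [xi_one, Finset.sum_const, Finset.card_range, nsmul_eq_mul]
  push_cast
  ring

lemma xi_bump (d e : ℝ) {n p : ℕ} (hp : p ≤ n) (x : ℝ) :
    xi (fun l => d + if l = p then e else 0) n x = xi (fun _ => d) n x + e * x ^ p := by
  unfold xi
  have h : ∀ l ∈ Finset.range (n + 1), (d + if l = p then e else 0) * x ^ l =
      d * x ^ l + if l = p then e * x ^ l else 0 := by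
    intro l _
    split_ifs <;> ring
  rw [Finset.sum_congr rfl h, Finset.sum_add_distrib, Finset.sum_ite_eq' (Finset.range (n + 1)) p,
    if_pos (Finset.mem_range.2 (by omega))]

lemma xi_lip {c : ℕ → ℝ} (hc : ∀ p, 0 ≤ c p) (n : ℕ) {x y : ℝ} (hx : |x| ≤ 1) (hy : |y| ≤ 1) :
    |xi c n x - xi c n y| ≤ n * xi c n 1 * |x - y| := by
  have e : xi c n x - xi c n y = ∑ p ∈ Finset.range (n + 1), c p * (x ^ p - y ^ p) := by
    unfold xi
    rw [← Finset.sum_sub_distrib]
    exact Finset.sum_congr rfl fun p _ => by ring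
  rw [e, xi_one, mul_assoc, Finset.sum_mul, Finset.mul_sum]
  refine (Finset.abs_sum_le_sum_abs _ _).trans (Finset.sum_le_sum fun p hp => ?_)
  rw [abs_mul, abs_of_nonneg (hc p)]
  have h1 := pow_sub_le hx hy p
  have h2 : (p : ℝ) ≤ (n : ℝ) := by
    have : p < n + 1 := Finset.mem_range.1 hp
    exact_mod_cast (by omega : p ≤ n)
  have h3 : |x ^ p - y ^ p| ≤ (n : ℝ) * |x - y| :=
    h1.trans (mul_le_mul_of_nonneg_right h2 (abs_nonneg _))
  have h4 := mul_le_mul_of_nonneg_left h3 (hc p)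
  linarith only [h4]

lemma xi_mono {c : ℕ → ℝ} (hc : ∀ p, 0 ≤ c p) (n : ℕ) {x y : ℝ} (hx : 0 ≤ x) (hxy : x ≤ y) :
    xi c n x ≤ xi c n y :=
  Finset.sum_le_sum fun p _ => mul_le_mul_of_nonneg_left (pow_le_pow_left₀ hx hxy p) (hc p)

lemma xi_strict {d : ℝ} (hd : 0 < d) (n : ℕ) {x y : ℝ} (hx : 0 ≤ x) (hxy : x < y) :
    xi (fun _ => d) (n + 1) x < xi (fun _ => d) (n + 1) y := by
  refine Finset.sum_lt_sum (fun p _ => mul_le_mul_of_nonneg_left
    (pow_le_pow_left₀ hx hxy.le p) hd.le) ⟨1, Finset.mem_range.2 (by omega), ?_⟩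
  rw [pow_one, pow_one]
  exact mul_lt_mul_of_pos_left hxy hd

lemma xi_pos {d : ℝ} (hd : 0 < d) (n : ℕ) {x : ℝ} (hx : 0 ≤ x) :
    0 < xi (fun _ => d) n x := by
  refine Finset.sum_pos' (fun p _ => by positivity) ⟨0, Finset.mem_range.2 (by omega), ?_⟩
  rw [pow_zero, mul_one]
  exact hd

/-- The difference of the moments of `R` and `q` from the values of the spin part. -/
lemma moment_of_bounds {G0 Gt Gp Gm Qt e X Y Eb : ℝ} (he : 0 < e)
    (h0 : |Gt - G0 + 1 / 2 * Qt| ≤ Eb) (hp : |Gp - G0 + 1 / 2 * (Qt + e * Y)| ≤ Eb)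
    (hm : |Gm - G0 + 1 / 2 * (Qt + -e * Y)| ≤ Eb) (tp : Gp ≤ Gt - 1 / 2 * (e * X))
    (tm : Gm ≤ Gt - 1 / 2 * (-e * X)) : |X - Y| ≤ 4 * Eb / e := by
  rw [abs_le] at *
  rw [← neg_div, div_le_iff₀ he, le_div_iff₀ he]
  constructor <;> nlinarith only [tm, h0.2, hm.1, tp, hp.1]

/-- The lower bound for smooth bounded potentials. -/
theorem parisi_lower_smooth {C c₀ a : ℝ} {f f1 f2 f3 : ℝ → ℝ} (hf : Pot C c₀ a f f1 f2 f3)
    {α p : ℝ} (hα : 0 < α)
    (hp : ∀ ε > 0, ∃ᶠ N in atTop, meanPressure cube α f N < p + ε) :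
    ∀ ε > 0, ∃ (k : ℕ) (m q : ℕ → ℝ), Exponents k m ∧ Path k q ∧ q k < 1 ∧
      ∀ r, Path k r → parisi α f k m q r ≤ p + ε := by
  have hfm : Measurable f :=
    (continuous_iff_continuousAt.2 fun x => (hf.cb3.d1 x).continuousAt).measurable
  have hC0 : 0 ≤ C := (abs_nonneg _).trans (hf.cb3.b0 0)
  obtain ⟨N, M, P, s, u, hN, hMN, hgg, hgg1, hfin, hs0, hu0, hss, hR⟩ :=
    exists_selection_x hf.cb3 hfm hα hp
  have hr := ratio_tendsto hN hMN
  have hs : SeqOK f hfm C hf.cb3.b0 α (hyperfilter ℕ) N M P s u := by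
    refine ⟨hr.mono_left hyper_le, hN.mono_left hyper_le, ?_, hgg, hgg1⟩
    obtain ⟨A, hA⟩ := hr.bddAbove_range
    exact ⟨A, fun j => hA ⟨j, rfl⟩⟩
  have hx : SeqX f hfm C hf.cb3.b0 (hyperfilter ℕ) N M P s u :=
    ⟨hs0, hu0, hss.mono_left hyper_le, fun p => (hR p).mono_left hyper_le⟩
  intro ε hε
  -- the constants
  obtain ⟨K, hK, hmom⟩ := moment_x hf hfm hα hs hx
  obtain ⟨Dp, hDp, hDp'⟩ := pv_lip hf
  obtain ⟨Cs, hCs, hCs'⟩ := spR_lip (α * C ^ 2 + 1)
  set Ct := Cs * (α * Dp + 1) with hCt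
  have hCt0 : 0 ≤ Ct := by (clear * - hCs hα hDp; positivity)
  set η₀ := ε / (4 * (α * C ^ 2 + 1)) with hη₀
  have hη₀' : 0 < η₀ := by (clear * - hε hα; positivity)
  obtain ⟨n, εW, hεW, hW⟩ := weier hCt0 hη₀'
  set n1 := n + 1 with hn1
  set ν : ℝ := (n1 : ℝ) + 1 with hν
  have hν0 : 0 < ν := by (clear * -; positivity)
  have hν1 : 1 ≤ ν := by
    have : (0 : ℝ) ≤ n1 := Nat.cast_nonneg _
    linarith
  -- the size of the extra field
  obtain ⟨t, ht0, ht1, ht2, ht3, ht4⟩ : ∃ t : ℝ, 0 < t ∧ t * ν ≤ 1 / 2 ∧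
      8 * ν * K * √(2 * t) ≤ εW / 2 ∧ K * (2 * t * √(2 * t)) ≤ ε / 16 ∧ t ≤ ε / 8 := by
    have hc1 : Tendsto (fun t : ℝ => t * ν) (𝓝[>] 0) (𝓝 (0 * ν)) :=
      (tendsto_nhdsWithin_of_tendsto_nhds tendsto_id).mul_const ν
    have hc2 : Tendsto (fun t : ℝ => 8 * ν * K * √(2 * t)) (𝓝[>] 0)
        (𝓝 (8 * ν * K * √(2 * 0))) :=
      tendsto_nhdsWithin_of_tendsto_nhds (by
        have : Continuous fun t : ℝ => 8 * ν * K * √(2 * t) := by fun_prop
        exact this.tendsto 0)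
    have hc3 : Tendsto (fun t : ℝ => K * (2 * t * √(2 * t))) (𝓝[>] 0)
        (𝓝 (K * (2 * 0 * √(2 * 0)))) :=
      tendsto_nhdsWithin_of_tendsto_nhds (by
        have : Continuous fun t : ℝ => K * (2 * t * √(2 * t)) := by fun_prop
        exact this.tendsto 0)
    have hc4 : Tendsto (fun t : ℝ => t) (𝓝[>] 0) (𝓝 0) :=
      tendsto_nhdsWithin_of_tendsto_nhds tendsto_id
    simp only [zero_mul, mul_zero, Real.sqrt_zero] at hc1 hc2 hc3
    obtain ⟨t, h1, h2, h3, h4, h5⟩ := (((tendsto_order.1 hc1).2 (1 / 2) (by norm_num)).and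
      (((tendsto_order.1 hc2).2 (εW / 2) (by (clear * - hεW; positivity))).and
      (((tendsto_order.1 hc3).2 (ε / 16) (by positivity)).and
      (((tendsto_order.1 hc4).2 (ε / 8) (by positivity)).and
      (self_mem_nhdsWithin : Set.Ioi (0 : ℝ) ∈ 𝓝[>] 0))))).exists
    exact ⟨t, h5, h1.le, h2.le, h3.le, h4.le⟩
  have ht5 : t ≤ 1 / 2 := by nlinarith
  set d := t / ν with hd
  have hd0 : 0 < d := by (clear * - ht0; positivity)
  have hdν : ν * d = t := by rw [hd]; (clear * - hν0 ht0; field_simp)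
  set tol := min (ε / 16) (εW / 2 * d / 4) with htol
  have htol0 : 0 < tol := lt_min (by (clear * - hε; positivity)) (by (clear * - hεW ht0; positivity))
  -- the polynomials
  have hc0 : ∀ l : ℕ, 0 ≤ (fun _ : ℕ => d) l := fun _ => hd0.le
  have hcp : ∀ pp l : ℕ, 0 ≤ (fun l => d + if l = pp then d else 0) l := fun pp l => by
    simp only
    split_ifs <;> linarith only [hd0]
  have hcm : ∀ pp l : ℕ, 0 ≤ (fun l => d + if l = pp then -d else 0) l := fun pp l => by
    simp only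
    split_ifs <;> linarith only [hd0]
  have hx0 : xi (fun _ => d) n1 1 = t := by rw [xi_const, ← hν, hdν]
  have hdt : d ≤ t := by
    rw [← hdν]
    exact le_mul_of_one_le_left hd0.le hν1
  have hxp : ∀ pp ≤ n, xi (fun l => d + if l = pp then d else 0) n1 1 = t + d := fun pp h => by
    rw [xi_bump d d (by (clear * - h; omega)), hx0, one_pow, mul_one]
  have hxm : ∀ pp ≤ n, xi (fun l => d + if l = pp then -d else 0) n1 1 = t - d := fun pp h => by
    rw [xi_bump d (-d) (by omega), hx0, one_pow, mul_one]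
    ring
  have hbd : ∀ X : ℝ, 0 ≤ X → X ≤ 2 * t → K * (X * √X) ≤ K * (2 * t * √(2 * t)) :=
    fun X h0 h1 => mul_le_mul_of_nonneg_left (mul_le_mul h1 (Real.sqrt_le_sqrt h1)
      (Real.sqrt_nonneg _) (by (clear * - ht0; positivity))) hK
  obtain ⟨e1, he1, hm1⟩ := hmom n1 (fun _ => d) hc0 (by rw [hx0]; linarith only [ht5]) tol htol0
  have hmp : ∀ pp : ℕ, ∃ e0 > 0, pp ≤ n → ∀ (k : ℕ) (b : Fin k → ℝ) (w : Fin (k + 1) → ℝ)
      (q : ℕ → ℝ) (e : ℝ),
      Mesh (hyperfilter ℕ) (fun j => pS f hfm C hf.cb3.b0 (N j) (M j) (P j) (s j) (u j)) b w q e →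
      e ≤ e0 →
      |spinPart k (mOf w) (fun l => rr α (fun x => Real.exp (f x) / c₀) f1 k w q l +
            xi (fun l => d + if l = pp then d else 0) n1 (q l)) -
          spinPart k (mOf w) (rr α (fun x => Real.exp (f x) / c₀) f1 k w q) +
          1 / 2 * ∑ l : Fin (k + 1), w l * (q l *
            xi (fun l => d + if l = pp then d else 0) n1 (q l))| ≤
        K * (2 * t * √(2 * t)) + tol := by
    intro pp
    by_cases h : pp ≤ n
    · obtain ⟨e0, he0, h2⟩ := hmom n1 (fun l => d + if l = pp then d else 0) (hcp pp)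
        (by rw [hxp pp h]; linarith only [ht5, hdt]) tol htol0
      refine ⟨e0, he0, fun _ k b w q e hm he => (h2 k b w q e hm he).trans ?_⟩
      rw [hxp pp h]
      exact add_le_add (hbd _ (by linarith only [ht0, hd0]) (by linarith only [hdt])) le_rfl
    · exact ⟨1, one_pos, fun h' => absurd h' h⟩
  have hmm : ∀ pp : ℕ, ∃ e0 > 0, pp ≤ n → ∀ (k : ℕ) (b : Fin k → ℝ) (w : Fin (k + 1) → ℝ)
      (q : ℕ → ℝ) (e : ℝ),
      Mesh (hyperfilter ℕ) (fun j => pS f hfm C hf.cb3.b0 (N j) (M j) (P j) (s j) (u j)) b w q e →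
      e ≤ e0 →
      |spinPart k (mOf w) (fun l => rr α (fun x => Real.exp (f x) / c₀) f1 k w q l +
            xi (fun l => d + if l = pp then -d else 0) n1 (q l)) -
          spinPart k (mOf w) (rr α (fun x => Real.exp (f x) / c₀) f1 k w q) +
          1 / 2 * ∑ l : Fin (k + 1), w l * (q l *
            xi (fun l => d + if l = pp then -d else 0) n1 (q l))| ≤
        K * (2 * t * √(2 * t)) + tol := by
    intro pp
    by_cases h : pp ≤ n
    · obtain ⟨e0, he0, h2⟩ := hmom n1 (fun l => d + if l = pp then -d else 0) (hcm pp)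
        (by rw [hxm pp h]; linarith only [ht5, hd0]) tol htol0
      refine ⟨e0, he0, fun _ k b w q e hm he => (h2 k b w q e hm he).trans ?_⟩
      rw [hxm pp h]
      exact add_le_add (hbd _ (by linarith only [hdt]) (by linarith only [ht0, hd0])) le_rfl
    · exact ⟨1, one_pos, fun h' => absurd h' h⟩
  choose ep hep0 hep using hmp
  choose em hem0 hem using hmm
  obtain ⟨e2, he2, hle2⟩ := exists_pos_le_range n ep hep0
  obtain ⟨e3, he3, hle3⟩ := exists_pos_le_range n em hem0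
  obtain ⟨e4, he4, hlow⟩ := lower_ineq_x hf hfm hα hs (p := p)
    (fun ε hε => (hfin ε hε).filter_mono hyper_le) (ε / 4) (by (clear * - hε; positivity))
  set e := min (min e1 e2) (min e3 e4) with he
  have he0 : 0 < e := lt_min (lt_min he1 he2) (lt_min he3 he4)
  have hee1 : e ≤ e1 := (min_le_left _ _).trans (min_le_left _ _)
  have hee2 : e ≤ e2 := (min_le_left _ _).trans (min_le_right _ _)
  have hee3 : e ≤ e3 := (min_le_right _ _).trans (min_le_left _ _)
  have hee4 : e ≤ e4 := (min_le_right _ _).trans (min_le_right _ _)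
  obtain ⟨k, b, w, q, hm, hq0, hqs, hq1⟩ := exists_mesh_strict hs.hgg he0
  set m := mOf w with hmdef
  set r := rr α (fun x => Real.exp (f x) / c₀) f1 k w q with hrdef
  have hexp : Exponents k m := exponents_mOf hm.lim.wpos hm.lim.wsum
  have hrpath : Path k r := rr_path hf hα hm.lim.wpos q
  have hr0 : ∀ l ≤ k, 0 ≤ r l := fun l hl => rr_nonneg hf hα hm.lim.wpos q hl
  have hrC : ∀ l ≤ k, r l ≤ α * C ^ 2 := fun l hl => rr_le hf hα hm.lim.wpos q hl
  have hqnn : ∀ l ≤ k, 0 ≤ q l := fun l hl =>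
    hm.path.1.trans (path_mono hm.path.2 0 l (Nat.zero_le _) hl)
  have hqle : ∀ l ≤ k, q l ≤ 1 := fun l hl =>
    (path_mono hm.path.2 l k hl le_rfl).trans hm.le1
  have hqabs : ∀ l ≤ k, |q l| ≤ 1 := fun l hl => by
    rw [abs_of_nonneg (hqnn l hl)]; exact hqle l hl
  have hxiPath : ∀ c : ℕ → ℝ, (∀ l, 0 ≤ c l) → Path k (fun l => r l + xi c n1 (q l)) :=
    fun c hc => ⟨add_nonneg hrpath.1 (xi_nonneg hc n1 (hqnn 0 (Nat.zero_le _))), fun l hl =>
      add_le_add (hrpath.2 l hl) (xi_mono hc n1 (hqnn l hl.le) (hm.path.2 l hl))⟩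
  set rt : ℕ → ℝ := fun l => r l + xi (fun _ => d) n1 (q l) with hrt
  have hrtp : Path k rt := hxiPath _ hc0
  have hrts : SPath k rt := by
    refine ⟨?_, fun l hl => ?_⟩
    · have := xi_pos hd0 n1 (hqnn 0 (Nat.zero_le _))
      have h2 := hrpath.1
      simp only [hrt]
      linarith only [this, h2]
    · have := xi_strict hd0 n (hqnn l hl.le) (hqs l hl)
      have h2 := hrpath.2 l hl
      simp only [hrt, hn1]
      linarith only [this, h2]
  have hxit : ∀ l ≤ k, xi (fun _ => d) n1 (q l) ≤ t := fun l hl => by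
    have h1 := abs_xi_le hc0 n1 (hqabs l hl)
    rw [hx0] at h1
    exact (le_abs_self _).trans h1
  have hrtk : rt k ≤ α * C ^ 2 + 1 := by
    have h1 := hrC k le_rfl
    have h2 := hxit k le_rfl
    simp only [hrt]
    linarith only [ht0, ht5, h1, h2]
  set R : ℕ → ℝ := fun l => spR k m rt l with hRdef
  have hR0 : ∀ l ≤ k, 0 ≤ R l := fun l hl => spR_nonneg hexp hrtp hl
  have hR1 : ∀ l ≤ k, R l < 1 := fun l hl => spR_lt_one hexp hrtp hl
  -- the weights
  set W : ℕ → ℝ := fun l => m (l + 1) - m l with hWdef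
  have hW0 : ∀ l ≤ k, 0 < W l := fun l hl => sub_pos.2 (hexp.2.2 l hl)
  have hW1 : ∑ l ∈ Finset.range (k + 1), W l = 1 := by
    simp only [hWdef]
    rw [Finset.sum_range_sub, hexp.1, hexp.2.1, sub_zero]
  have hWw : ∀ g : ℕ → ℝ, ∑ l : Fin (k + 1), w l * g l = ∑ l ∈ Finset.range (k + 1), W l * g l := by
    intro g
    rw [Finset.sum_range]
    refine Finset.sum_congr rfl fun l _ => ?_
    rw [hWdef]
    simp only
    rw [hmdef, mOf_succ l.2]
  -- the moments
  set Eb := K * (2 * t * √(2 * t)) + tol with hEb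
  have hMt : |spinPart k m rt - spinPart k m r + 1 / 2 * ∑ l ∈ Finset.range (k + 1),
      W l * (q l * xi (fun _ => d) n1 (q l))| ≤ Eb := by
    have h1 := hm1 k b w q e hm hee1
    rw [hx0, hWw (fun l => q l * xi (fun _ => d) n1 (q l))] at h1
    exact h1.trans (add_le_add (hbd _ ht0.le (by linarith only [ht0])) le_rfl)
  have hmoments : ∀ pp ≤ n, |∑ l ∈ Finset.range (k + 1), W l * (R l - q l) * q l ^ pp| ≤ εW := by
    intro pp hpp
    have h1 := hep pp hpp k b w q e hm (hee2.trans (hle2 pp hpp))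
    have h2 := hem pp hpp k b w q e hm (hee3.trans (hle3 pp hpp))
    rw [hWw (fun l => q l * xi (fun l => d + if l = pp then d else 0) n1 (q l))] at h1
    rw [hWw (fun l => q l * xi (fun l => d + if l = pp then -d else 0) n1 (q l))] at h2
    have h3 := spin_tangent hexp hrts (hxiPath _ (hcp pp))
    have h4 := spin_tangent hexp hrts (hxiPath _ (hcm pp))
    have e1 : ∑ l ∈ Finset.range (k + 1), W l * (q l *
        xi (fun l => d + if l = pp then d else 0) n1 (q l)) =
        (∑ l ∈ Finset.range (k + 1), W l * (q l * xi (fun _ => d) n1 (q l))) +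
        d * ∑ l ∈ Finset.range (k + 1), W l * q l * q l ^ pp := by
      rw [Finset.mul_sum, ← Finset.sum_add_distrib]
      refine Finset.sum_congr rfl fun l _ => ?_
      rw [xi_bump d d (by omega)]
      ring
    have e2 : ∑ l ∈ Finset.range (k + 1), W l * (q l *
        xi (fun l => d + if l = pp then -d else 0) n1 (q l)) =
        (∑ l ∈ Finset.range (k + 1), W l * (q l * xi (fun _ => d) n1 (q l))) +
        -d * ∑ l ∈ Finset.range (k + 1), W l * q l * q l ^ pp := by
      rw [Finset.mul_sum, ← Finset.sum_add_distrib]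
      refine Finset.sum_congr rfl fun l _ => ?_
      rw [xi_bump d (-d) (by omega)]
      ring
    have e3 : ∑ l ∈ Finset.range (k + 1), (m (l + 1) - m l) * spR k m rt l *
        ((fun l => r l + xi (fun l => d + if l = pp then d else 0) n1 (q l)) l - rt l) =
        d * ∑ l ∈ Finset.range (k + 1), W l * R l * q l ^ pp := by
      rw [Finset.mul_sum]
      refine Finset.sum_congr rfl fun l _ => ?_
      simp only [hrt, hWdef, hRdef]
      rw [xi_bump d d (by omega)]
      ring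
    have e4 : ∑ l ∈ Finset.range (k + 1), (m (l + 1) - m l) * spR k m rt l *
        ((fun l => r l + xi (fun l => d + if l = pp then -d else 0) n1 (q l)) l - rt l) =
        -d * ∑ l ∈ Finset.range (k + 1), W l * R l * q l ^ pp := by
      rw [Finset.mul_sum]
      refine Finset.sum_congr rfl fun l _ => ?_
      simp only [hrt, hWdef, hRdef]
      rw [xi_bump d (-d) (by omega)]
      ring
    rw [e1] at h1
    rw [e2] at h2
    rw [e3] at h3
    rw [e4] at h4
    have h5 := moment_of_bounds hd0 hMt h1 h2 h3 h4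
    have e5 : ∑ l ∈ Finset.range (k + 1), W l * (R l - q l) * q l ^ pp =
        (∑ l ∈ Finset.range (k + 1), W l * R l * q l ^ pp) -
        ∑ l ∈ Finset.range (k + 1), W l * q l * q l ^ pp := by
      rw [← Finset.sum_sub_distrib]
      exact Finset.sum_congr rfl fun l _ => by ring
    rw [e5]
    refine h5.trans ?_
    rw [div_le_iff₀ hd0]
    have h6 : 4 * tol ≤ εW / 2 * d := by
      have := min_le_right (ε / 16) (εW / 2 * d / 4)
      rw [← htol] at this
      linarith only [this]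
    have h7 : 4 * (K * (2 * t * √(2 * t))) ≤ εW / 2 * d := by
      have e6 : 4 * (K * (2 * t * √(2 * t))) = 8 * ν * K * √(2 * t) * d := by
        have : t = ν * d := hdν.symm
        calc 4 * (K * (2 * t * √(2 * t))) = 8 * t * K * √(2 * t) := by ring
          _ = 8 * (ν * d) * K * √(2 * t) := by rw [← this]
          _ = _ := by ring
      rw [e6]
      exact mul_le_mul_of_nonneg_right ht2 hd0.le
    rw [hEb]
    linarith only [h6, h7]
  -- the distance between `R` and `q`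
  have hL1 : ∑ l ∈ Finset.range (k + 1), W l * |R l - q l| ≤ η₀ := by
    refine hW k W q R (fun l hl => (hW0 l hl).le) hW1 (fun l hl => ⟨hqnn l hl, hqle l hl⟩)
      hm.path.2 (fun l hl => ⟨hR0 l hl, (hR1 l hl).le⟩) (fun l hl => ⟨?_, ?_⟩) hmoments
    · have := spR_mono hexp hrtp hl
      simp only [hRdef]
      linarith only [this]
    · have h1 := hCs' k m rt hexp hrtp hrtk l hl
      refine h1.trans ?_
      rw [hCt, mul_assoc]
      refine mul_le_mul_of_nonneg_left ?_ hCs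
      have h2 := hDp' k w hm.lim.wpos hm.lim.wsum q hm.path hm.le1 l hl
      have h3 := xi_lip hc0 n1 (hqabs (l + 1) hl) (hqabs l hl.le)
      rw [hx0] at h3
      have h4 := (le_abs_self _).trans h3
      have h5 : 0 ≤ q (l + 1) - q l := sub_nonneg.2 (hm.path.2 l hl)
      rw [abs_of_nonneg h5] at h4
      have h6 : (n1 : ℝ) * t ≤ 1 := by
        have : (n1 : ℝ) * t ≤ ν * t := mul_le_mul_of_nonneg_right (by linarith only []) ht0.le
        linarith only [ht0, ht1]
      have h7 := mul_le_mul_of_nonneg_right h6 h5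
      have h8 := mul_le_mul_of_nonneg_left h2 hα.le
      simp only [hrt, hrdef, rr]
      linarith only [h4, h7, h8]
  -- the conclusion
  refine ⟨k, m, R, hexp, ⟨hR0 0 (Nat.zero_le _), fun l hl => spR_mono hexp hrtp hl⟩,
    hR1 k le_rfl, fun r' hr' => ?_⟩
  have h1 := spin_tangent hexp hrts hr'
  have h2 := hlow k b w q e hm hee4
  have h3 := patternPart_path_lip hf hexp hm.path
    (q' := R) ⟨hR0 0 (Nat.zero_le _), fun l hl => spR_mono hexp hrtp hl⟩ hm.le1 (hR1 k le_rfl).le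
  have h4 := mul_le_mul_of_nonneg_left hL1 (show 0 ≤ C ^ 2 / 2 by (clear * -; positivity))
  have h5 : patternPart f k m R ≤ patternPart f k m q + C ^ 2 / 2 * η₀ := by
    have := (abs_le.1 h3).2
    linarith only [h4, this]
  have h6 := mul_le_mul_of_nonneg_left h5 hα.le
  have h7 : spinPart k m rt ≤ spinPart k m r + Eb := by
    have h8 := (abs_le.1 hMt).2
    have h9 : 0 ≤ ∑ l ∈ Finset.range (k + 1), W l * (q l * xi (fun _ => d) n1 (q l)) :=
      Finset.sum_nonneg fun l hl => by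
        have hl' : l ≤ k := by
          have := Finset.mem_range.1 hl
          omega
        exact mul_nonneg (hW0 l hl').le (mul_nonneg (hqnn l hl') (xi_nonneg hc0 n1 (hqnn l hl')))
    linarith only [h8, h9]
  have e1 : ∑ l ∈ Finset.range (k + 1), (m (l + 1) - m l) * spR k m rt l * (r' l - rt l) =
      (∑ l ∈ Finset.range (k + 1), (m (l + 1) - m l) * r' l * R l) -
      ∑ l ∈ Finset.range (k + 1), W l * R l * rt l := by
    rw [← Finset.sum_sub_distrib]
    refine Finset.sum_congr rfl fun l _ => ?_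
    simp only [hWdef, hRdef]
    ring
  have h8 : ∑ l ∈ Finset.range (k + 1), W l * R l * rt l ≤
      (∑ l ∈ Finset.range (k + 1), (m (l + 1) - m l) * r l * q l) + α * C ^ 2 * η₀ + t := by
    have h9 : ∀ l ∈ Finset.range (k + 1), W l * R l * rt l ≤
        (m (l + 1) - m l) * r l * q l + α * C ^ 2 * (W l * |R l - q l|) + t * W l := by
      intro l hl
      have hl' : l ≤ k := by
        have := Finset.mem_range.1 hl
        omega
      have a1 := hW0 l hl'
      have a2 : (R l - q l) * r l ≤ |R l - q l| * (α * C ^ 2) :=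
        (mul_le_mul_of_nonneg_right (le_abs_self _) (hr0 l hl')).trans
          (mul_le_mul_of_nonneg_left (hrC l hl') (abs_nonneg _))
      have a3 : R l * xi (fun _ => d) n1 (q l) ≤ 1 * t :=
        mul_le_mul (hR1 l hl').le (hxit l hl') (xi_nonneg hc0 n1 (hqnn l hl')) zero_le_one
      have a4 := mul_le_mul_of_nonneg_left a2 a1.le
      have a5 := mul_le_mul_of_nonneg_left a3 a1.le
      have a6 : W l * R l * rt l = W l * r l * q l + W l * ((R l - q l) * r l) +
          W l * (R l * xi (fun _ => d) n1 (q l)) := by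
        simp only [hrt]
        ring
      rw [a6]
      have a7 : (m (l + 1) - m l) * r l * q l = W l * r l * q l := rfl
      rw [a7]
      linarith only [a4, a5]
    refine (Finset.sum_le_sum h9).trans ?_
    rw [Finset.sum_add_distrib, Finset.sum_add_distrib, ← Finset.mul_sum, ← Finset.mul_sum, hW1,
      mul_one]
    have h10 := mul_le_mul_of_nonneg_left hL1 (show 0 ≤ α * C ^ 2 by (clear * - hα; positivity))
    linarith only [h10]
  have h11 : α * C ^ 2 * η₀ ≤ ε / 4 := by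
    rw [hη₀, show α * C ^ 2 * (ε / (4 * (α * C ^ 2 + 1))) =
      (α * C ^ 2 / (α * C ^ 2 + 1)) * (ε / 4) by (clear * - hα hε; field_simp)]
    apply mul_le_of_le_one_left (by positivity)
    rw [div_le_one (by (clear * - hα; positivity))]
    linarith only []
  have h12 : Eb ≤ ε / 8 := by
    have := min_le_left (ε / 16) (εW / 2 * d / 4)
    rw [← htol] at this
    rw [hEb]
    linarith only [ht3, this]
  rw [e1] at h1
  unfold parisi at h2 ⊢
  have h13 : α * (C ^ 2 / 2 * η₀) ≤ ε / 8 := by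
    have : α * (C ^ 2 / 2 * η₀) = α * C ^ 2 * η₀ / 2 := by ring
    linarith only [h11]
  linarith only [hε, ht4, h1, h2, h6, h7, h8, h11, h12]

end Vale.Agent.P157.Par
end

section

/-!
The Parisi formula on the cube for every bounded measurable potential and every density.
-/

open MeasureTheory ProbabilityTheory Filter Topology

namespace Vale.Agent.P157.Par

theorem cube_ae_norm (N : ℕ) : ∀ᵐ x ∂(cube N), ∑ i, x i ^ 2 = (N : ℝ) := by
  have h1 : ∀ᵐ y ∂((1 / 2 : ENNReal) • (Measure.dirac (1 : ℝ) + Measure.dirac (-1 : ℝ))),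
      y ^ 2 = 1 := by
    refine Measure.ae_smul_measure ?_ _
    rw [ae_add_measure_iff]
    have hm : MeasurableSet {y : ℝ | y ^ 2 = 1} :=
      measurableSet_eq_fun (by fun_prop) measurable_const
    constructor
    · rw [ae_dirac_iff hm]; norm_num
    · rw [ae_dirac_iff hm]; norm_num
  have h2 : ∀ i : Fin N, ∀ᵐ x ∂(cube N), x i ^ 2 = 1 := fun i =>
    (Measure.tendsto_eval_ae_ae (μ := fun _ : Fin N =>
      (1 / 2 : ENNReal) • (Measure.dirac (1 : ℝ) + Measure.dirac (-1 : ℝ))) (i := i)).eventually h1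
  filter_upwards [ae_all_iff.2 h2] with x hx
  simp only [hx, Finset.sum_const, Finset.card_univ, Fintype.card_fin, nsmul_eq_mul, mul_one]

/-- **The Parisi formula on the cube.** -/
theorem parisi_formula_all {f : ℝ → ℝ} (hf : Measurable f) {B : ℝ} (hB : ∀ x, |f x| ≤ B) {α : ℝ}
    (hα : 0 < α) :
    ∃ L, Tendsto (meanPressure cube α f) atTop (𝓝 L) ∧
      IsGLB {y | ∃ (k : ℕ) (m q : ℕ → ℝ), Exponents k m ∧ Path k q ∧ q k < 1 ∧
        IsLUB {y | ∃ r, Path k r ∧ y = parisi α f k m q r} y} L := by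
  have hprob : ∀ N, IsProbabilityMeasure (cube N) := fun N => by unfold cube; infer_instance
  refine formula_of_bounds (K := α * B)
    (Eventually.of_forall fun N => abs_meanPressure_le cube hf hB hα.le) ?_ ?_
  · intro k m q hm hq hq1 C hC ε hε
    exact Lv.upper_borel hf hB hα.le hm hq hq1.le hC hε
  · intro p hp
    refine lower_borel_of hα (fun f g hf hg hfB hgB N hN => ?_)
      (fun f g hf hg hfB hgB k m q hm hq hq1 => Lv.patternPart_lipL hm hq hq1 hf hg hfB hgB)
      (fun g C c₀ a f1 f2 f3 hpot p hp => parisi_lower_smooth hpot hα hp) hf hB hp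
    exact Lv.meanPressure_lipL cube hN (cube_ae_norm N) hf hg hfB hgB hα.le

end Vale.Agent.P157.Par
end
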